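import Crest.Agent.R213.TS1

/-!
# Row 213: compactness for time-smooth functions (proof of `aa_ts`)
-/

set_option autoImplicit false

noncomputable section

namespace Crest.Agent.R213.AAA

open Set Filter Topology

/-- Pointwise limits of eventually equi-Lipschitz functions are Lipschitz. -/
theorem lip_lim {X : Type} [PseudoMetricSpace X] {l : Filter ℕ} [l.NeBot] {K : Set X}
    {f : ℕ → X → ℝ} {w : X → ℝ} {C : ℝ}
    (hL : ∀ᶠ k in l, ∀ p ∈ K, ∀ q ∈ K, |f k p - f k q| ≤ C * dist p q)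
    (hw : ∀ p ∈ K, Tendsto (fun k => f k p) l (𝓝 (w p))) :
    ∀ p ∈ K, ∀ q ∈ K, |w p - w q| ≤ C * dist p q := fun p hp q hq =>
  le_of_tendsto ((hw p hp).sub (hw q hq)).abs (hL.mono fun _ h => h p hp q hq)

/-- ... and the convergence is uniform on compact sets. -/
theorem unif_lim {X : Type} [PseudoMetricSpace X] {l : Filter ℕ} [l.NeBot] {K : Set X}
    (hK : IsCompact K) {f : ℕ → X → ℝ} {w : X → ℝ} {C : ℝ} (hC : 0 ≤ C)
    (hL : ∀ᶠ k in l, ∀ p ∈ K, ∀ q ∈ K, |f k p - f k q| ≤ C * dist p q)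
    (hw : ∀ p ∈ K, Tendsto (fun k => f k p) l (𝓝 (w p))) {η : ℝ} (hη : 0 < η) :
    ∀ᶠ k in l, ∀ p ∈ K, |f k p - w p| ≤ η := by
  have hδ : 0 < η / (3 * (C + 1)) := by positivity
  obtain ⟨N, hNK, hN, hcov⟩ := Metric.finite_approx_of_totallyBounded hK.totallyBounded _ hδ
  have h1 : ∀ᶠ k in l, ∀ q ∈ N, |f k q - w q| ≤ η / 3 := by
    refine (Filter.eventually_all_finite hN).2 fun q hq => ?_
    have := (Metric.tendsto_nhds.1 (hw q (hNK hq))) (η / 3) (by positivity)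
    exact this.mono fun k hk => by rw [← Real.dist_eq]; exact hk.le
  filter_upwards [hL, h1] with k hk hk' p hp
  obtain ⟨q, hq, hpq⟩ := mem_iUnion₂.1 (hcov hp)
  have h2 : C * dist p q ≤ η / 3 := by
    have h3 : dist p q * (3 * (C + 1)) ≤ η :=
      (le_div_iff₀ (by positivity)).1 (Metric.mem_ball.1 hpq).le
    have h4 : 0 ≤ dist p q := dist_nonneg
    nlinarith
  have h5 := hk p hp q (hNK hq)
  have h6 := lip_lim hL hw p hp q (hNK hq)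
  have h7 := hk' q hq
  rw [abs_le] at h5 h6 h7 ⊢
  constructor <;> linarith [h5.1, h5.2, h6.1, h6.2, h7.1, h7.2]

/-- The compact rectangles. -/
def rect (κ ta tb R : ℝ) : Set (ℝ × ℝ) := Icc ta tb ×ˢ (dom κ ∩ Iic R)

theorem isCompact_rect (κ ta tb R : ℝ) : IsCompact (rect κ ta tb R) := by
  refine isCompact_Icc.prod ((isCompact_Icc (a := 0) (b := R)).of_isClosed_subset ?_ ?_)
  · refine IsClosed.inter ?_ isClosed_Iic
    exact (isClosed_le continuous_const continuous_id).inter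
      (isClosed_le (continuous_const.mul continuous_id) continuous_const)
  · exact fun x hx => ⟨hx.1.1, hx.2⟩

variable {T κ : ℝ} {u : ℕ → Fn}

theorem equilip (hts : ∀ tb < T, ∀ R, ∀ᶠ k in atTop, TS (Iio tb) (dom κ ∩ Iic R) (u k))
    (hbd : ∀ (j : ℕ) (ta : ℝ), ∀ tb < T, ∀ R, ∃ C, ∀ᶠ k in atTop, ∀ t ∈ Icc ta tb,
      ∀ x ∈ dom κ ∩ Iic R, |DT j (u k) t x| ≤ C ∧
        ∀ y ∈ dom κ ∩ Iic R, |DT j (u k) t x - DT j (u k) t y| ≤ C * |x - y|)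
    (j : ℕ) (ta : ℝ) {tb : ℝ} (htb : tb < T) (R : ℝ) :
    ∃ C, 0 ≤ C ∧ ∀ᶠ k in atTop, ∀ p ∈ rect κ ta tb R, ∀ q ∈ rect κ ta tb R,
      |DT j (u k) p.1 p.2 - DT j (u k) q.1 q.2| ≤ C * dist p q := by
  obtain ⟨C₀, h₀⟩ := hbd j ta tb htb R
  obtain ⟨C₁, h₁⟩ := hbd (j + 1) ta tb htb R
  refine ⟨|C₁| + |C₀|, by positivity, ?_⟩
  filter_upwards [h₀, h₁, hts ((tb + T) / 2) (by linarith) R] with k k₀ k₁ k₂ p hp q hq
  have a1 : ‖DT j (u k) p.1 p.2 - DT j (u k) q.1 p.2‖ ≤ C₁ * ‖p.1 - q.1‖ :=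
    (convex_Icc ta tb).norm_image_sub_le_of_norm_hasDerivWithin_le
      (f := fun s => DT j (u k) s p.2) (f' := fun s => DT (j + 1) (u k) s p.2)
      (fun s hs => ((k₂ j).2 s (show s < (tb + T) / 2 by linarith [hs.2]) p.2
        hp.2).hasDerivWithinAt) (fun s hs => (k₁ s hs p.2 hp.2).1) hq.1 hp.1
  have a2 := (k₀ q.1 hq.1 p.2 hp.2).2 q.2 hq.2
  have b1 : |p.1 - q.1| ≤ dist p q := by
    rw [← Real.dist_eq, Prod.dist_eq]; exact le_max_left _ _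
  have b2 : |p.2 - q.2| ≤ dist p q := by
    rw [← Real.dist_eq, Prod.dist_eq]; exact le_max_right _ _
  rw [Real.norm_eq_abs, Real.norm_eq_abs] at a1
  have c1 : C₁ * |p.1 - q.1| ≤ |C₁| * dist p q :=
    mul_le_mul (le_abs_self _) b1 (abs_nonneg _) (abs_nonneg _)
  have c2 : C₀ * |p.2 - q.2| ≤ |C₀| * dist p q :=
    mul_le_mul (le_abs_self _) b2 (abs_nonneg _) (abs_nonneg _)
  have := abs_sub_le (DT j (u k) p.1 p.2) (DT j (u k) q.1 p.2) (DT j (u k) q.1 q.2)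
  rw [add_mul]
  linarith

theorem aa_ts (hts : ∀ tb < T, ∀ R, ∀ᶠ k in atTop, TS (Iio tb) (dom κ ∩ Iic R) (u k))
    (hbd : ∀ (j : ℕ) (ta : ℝ), ∀ tb < T, ∀ R, ∃ C, ∀ᶠ k in atTop, ∀ t ∈ Icc ta tb,
      ∀ x ∈ dom κ ∩ Iic R, |DT j (u k) t x| ≤ C ∧
        ∀ y ∈ dom κ ∩ Iic R, |DT j (u k) t x - DT j (u k) t y| ≤ C * |x - y|) :
    ∃ φ : ℕ → ℕ, StrictMono φ ∧ ∃ v : Fn, TS (Iio T) (dom κ) v ∧
      ∀ (j : ℕ) (ta : ℝ), ∀ tb < T, ∀ R η, 0 < η → ∀ᶠ k in atTop, ∀ t ∈ Icc ta tb,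
        ∀ x ∈ dom κ ∩ Iic R, |DT j (u (φ k)) t x - DT j v t x| ≤ η := by
  set 𝒰 : Ultrafilter ℕ := Ultrafilter.of atTop
  have hU : (𝒰 : Filter ℕ) ≤ atTop := Ultrafilter.of_le _
  have hlim : ∀ (j : ℕ) (t x : ℝ), ∃ a : ℝ, t < T → x ∈ dom κ →
      Tendsto (fun k => DT j (u k) t x) 𝒰 (𝓝 a) := by
    intro j t x
    by_cases h : t < T ∧ x ∈ dom κ
    · obtain ⟨C, hC⟩ := hbd j t t h.1 x
      have h1 : ∀ᶠ k in (𝒰 : Filter ℕ), DT j (u k) t x ∈ Icc (-C) C :=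
        (hC.filter_mono hU).mono fun k hk =>
          abs_le.1 (hk t ⟨le_rfl, le_rfl⟩ x ⟨h.2, self_mem_Iic⟩).1
      obtain ⟨a, -, ha⟩ := (isCompact_Icc (a := -C) (b := C)).ultrafilter_le_nhds
        (𝒰.map fun k => DT j (u k) t x) (le_principal_iff.2 h1)
      exact ⟨a, fun _ _ => ha⟩
    · exact ⟨0, fun h1 h2 => absurd ⟨h1, h2⟩ h⟩
  choose w hw using hlim
  have hw' : ∀ (j : ℕ) (ta : ℝ) {tb : ℝ}, tb < T → ∀ R, ∀ p ∈ rect κ ta tb R,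
      Tendsto (fun k => DT j (u k) p.1 p.2) 𝒰 (𝓝 (w j p.1 p.2)) :=
    fun j ta tb htb R p hp => hw j p.1 p.2 (hp.1.2.trans_lt htb) hp.2.1
  have hunif : ∀ (j : ℕ) (ta : ℝ) {tb : ℝ}, tb < T → ∀ R η, 0 < η → ∀ᶠ k in (𝒰 : Filter ℕ),
      ∀ p ∈ rect κ ta tb R, |DT j (u k) p.1 p.2 - w j p.1 p.2| ≤ η := by
    intro j ta tb htb R η hη
    obtain ⟨C, hC, h⟩ := equilip hts hbd j ta htb R
    exact unif_lim (f := fun k p => DT j (u k) p.1 p.2) (w := fun p => w j p.1 p.2)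
      (isCompact_rect κ ta tb R) hC (h.filter_mono hU) (hw' j ta htb R) hη
  have hc : ∀ j, ContinuousOn (fun p : ℝ × ℝ => w j p.1 p.2) (Iio T ×ˢ dom κ) := by
    intro j p hp
    have hp1 : p.1 < T := hp.1
    have htb : (p.1 + T) / 2 < T := by linarith
    obtain ⟨C, hC, h⟩ := equilip hts hbd j (p.1 - 1) htb (p.2 + 1)
    have h1 := lip_lim (f := fun k (p : ℝ × ℝ) => DT j (u k) p.1 p.2)
      (w := fun p : ℝ × ℝ => w j p.1 p.2) (h.filter_mono hU) (hw' j (p.1 - 1) htb (p.2 + 1))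
    have h2 : LipschitzOnWith ⟨C, hC⟩ (fun p : ℝ × ℝ => w j p.1 p.2)
        (rect κ (p.1 - 1) ((p.1 + T) / 2) (p.2 + 1)) :=
      LipschitzOnWith.of_dist_le_mul fun a ha b hb => h1 a ha b hb
    have h3 : p ∈ rect κ (p.1 - 1) ((p.1 + T) / 2) (p.2 + 1) :=
      ⟨⟨by linarith, by linarith⟩, hp.2, show p.2 ≤ p.2 + 1 by linarith⟩
    refine (h2.continuousOn p h3).mono_of_mem_nhdsWithin (mem_nhdsWithin.2
      ⟨Ioo (p.1 - 1) ((p.1 + T) / 2) ×ˢ Iio (p.2 + 1), isOpen_Ioo.prod isOpen_Iio,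
        ⟨⟨by linarith, by linarith⟩, show p.2 < p.2 + 1 by linarith⟩, fun q hq => ?_⟩)
    exact ⟨Ioo_subset_Icc_self hq.1.1, hq.2.2, Iio_subset_Iic_self hq.1.2⟩
  have hd : ∀ j, ∀ t ∈ Iio T, ∀ x ∈ dom κ, HasDerivAt (fun s => w j s x) (w (j + 1) t x) t := by
    intro j t ht x hx
    have ht1 : t < T := ht
    have htb : (t + T) / 2 < T := by linarith
    refine hasDerivAt_of_tendstoUniformlyOn (l := (𝒰 : Filter ℕ))
      (f := fun k s => DT j (u k) s x) (f' := fun k s => DT (j + 1) (u k) s x)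
      (g' := fun s => w (j + 1) s x) (isOpen_Ioo (a := t - 1) (b := (t + T) / 2)) ?_ ?_
      (fun s hs => hw j s x (hs.2.trans htb) hx) ⟨by linarith, by linarith⟩
    · refine Metric.tendstoUniformlyOn_iff.2 fun η hη => ?_
      refine (hunif (j + 1) (t - 1) htb x (η / 2) (by positivity)).mono fun k hk s hs => ?_
      have := hk (s, x) ⟨Ioo_subset_Icc_self hs, hx, self_mem_Iic⟩
      rw [dist_comm, Real.dist_eq]
      linarith
    · exact ((hts _ htb x).filter_mono hU).mono fun k hk s hs =>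
        (hk j).2 s hs.2 x ⟨hx, self_mem_Iic⟩
  obtain ⟨hv, hv'⟩ := TS.of_tower isOpen_Iio w hc hd
  have hP : ∀ n : ℕ, ∃ᶠ k in atTop, ∀ j ∈ Finset.range (n + 1),
      ∀ p ∈ rect κ (-(n : ℝ)) (T - 1 / ((n : ℝ) + 1)) n,
        |DT j (u k) p.1 p.2 - w j p.1 p.2| ≤ 1 / ((n : ℝ) + 1) := by
    intro n
    have h0 : 0 < 1 / ((n : ℝ) + 1) := by positivity
    exact (((Filter.eventually_all_finset _).2 fun j _ =>
      hunif j (-(n : ℝ)) (sub_lt_self T h0) n _ h0).frequently).filter_mono hU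
  obtain ⟨φ, hφ, hφ'⟩ := extraction_forall_of_frequently hP
  refine ⟨φ, hφ, w 0, hv, fun j ta tb htb R η hη => ?_⟩
  have e1 : ∀ a : ℝ, ∀ᶠ n : ℕ in atTop, a ≤ n := fun a =>
    tendsto_natCast_atTop_atTop.eventually_ge_atTop a
  have e2 : ∀ a : ℝ, 0 < a → ∀ᶠ n : ℕ in atTop, 1 / ((n : ℝ) + 1) ≤ a := fun a ha =>
    (tendsto_one_div_add_atTop_nhds_zero_nat.eventually (ge_mem_nhds ha))
  filter_upwards [eventually_ge_atTop j, e1 (-ta), e1 R, e2 η hη, e2 (T - tb) (by linarith)]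
    with n n1 n2 n3 n4 n5 t ht x hx
  rw [hv' j t (ht.2.trans_lt htb) x hx.1]
  refine (hφ' n j (Finset.mem_range.2 (by omega)) (t, x)
    ⟨⟨?_, ?_⟩, hx.1, le_trans hx.2 n3⟩).trans n4
  · linarith [ht.1]
  · linarith [ht.2]

end Crest.Agent.R213.AAA
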