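import Crest.Agent.R213.TS1
import Crest.Agent.R213.AAA

/-!
# Row 213: compactness for time-smooth functions
-/

set_option autoImplicit false

noncomputable section

namespace Crest.Agent.R213

open Set Filter Topology
open scoped ContDiff

set_option linter.unusedVariables false in
/-- Arzelà–Ascoli for sequences of time-smooth functions. -/
theorem aa_ts (T κ : ℝ) (hκ : 0 ≤ κ) (u : ℕ → Fn)
    (hts : ∀ tb < T, ∀ R, ∀ᶠ k in atTop, TS (Iio tb) (dom κ ∩ Iic R) (u k))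
    (hbd : ∀ (j : ℕ) (ta : ℝ), ∀ tb < T, ∀ R, ∃ C, ∀ᶠ k in atTop, ∀ t ∈ Icc ta tb,
      ∀ x ∈ dom κ ∩ Iic R, |DT j (u k) t x| ≤ C ∧
        ∀ y ∈ dom κ ∩ Iic R, |DT j (u k) t x - DT j (u k) t y| ≤ C * |x - y|) :
    ∃ φ : ℕ → ℕ, StrictMono φ ∧ ∃ v : Fn, TS (Iio T) (dom κ) v ∧
      ∀ (j : ℕ) (ta : ℝ), ∀ tb < T, ∀ R η, 0 < η → ∀ᶠ k in atTop, ∀ t ∈ Icc ta tb,
        ∀ x ∈ dom κ ∩ Iic R, |DT j (u (φ k)) t x - DT j v t x| ≤ η :=
  AAA.aa_ts hts hbd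

end Crest.Agent.R213
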