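import Mathlib

/-!
# Row 213: finite dimension by a volume argument, coordinates (helper77)
-/

set_option autoImplicit false

noncomputable section

namespace Crest.Agent.R213.AbsA

open Set Filter Topology MeasureTheory
open scoped Pointwise ENNReal

theorem coords {X ι : Type} [AddCommGroup X] [Module ℝ X] [FiniteDimensional ℝ X]
    (ℓ : ι → X →ₗ[ℝ] ℝ) (hdef : ∀ G, (∀ i, ℓ i G = 0) → G = 0) :
    ∃ (d : ℕ) (p : Fin d → ι) (e : X ≃ₗ[ℝ] (Fin d → ℝ)), ∀ G l, e G l = ℓ (p l) G := by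
  have hsp : Submodule.span ℝ (range ℓ) = ⊤ := by
    refine Submodule.span_eq_top_of_ne_zero fun z hz => ?_
    by_contra hc
    push Not at hc
    exact hz (hdef z fun i => hc _ ⟨i, rfl⟩)
  obtain ⟨κ, a, -, h1, h2⟩ := exists_linearIndependent' ℝ ℓ
  rw [hsp] at h1
  have : Finite κ := h2.finite
  have := Fintype.ofFinite κ
  let b : Module.Basis κ ℝ (X →ₗ[ℝ] ℝ) := Module.Basis.mk h2 h1.ge
  have hcard : Module.finrank ℝ X = Fintype.card κ := by
    rw [← Module.finrank_eq_card_basis b]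
    exact Subspace.dual_finrank_eq.symm
  let p : Fin (Fintype.card κ) → ι := fun l => a ((Fintype.equivFin κ).symm l)
  let f : X →ₗ[ℝ] (Fin (Fintype.card κ) → ℝ) := LinearMap.pi fun l => ℓ (p l)
  have hf : Function.Injective f := by
    rw [injective_iff_map_eq_zero]
    intro G hG
    have h0 : ∀ k, ℓ (a k) G = 0 := fun k => by
      have := congrFun hG (Fintype.equivFin κ k)
      simpa [f, p] using this
    refine hdef G fun i => ?_
    have hm : ℓ i ∈ Submodule.span ℝ (range (ℓ ∘ a)) := h1 ▸ Submodule.mem_top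
    refine Submodule.span_induction (p := fun φ _ => φ G = 0) ?_ rfl ?_ ?_ hm
    · rintro _ ⟨k, rfl⟩
      exact h0 k
    · intro φ ψ _ _ hφ hψ
      rw [LinearMap.add_apply, hφ, hψ, add_zero]
    · intro c φ _ hφ
      rw [LinearMap.smul_apply, hφ, smul_zero]
  exact ⟨_, p, f.linearEquivOfInjective hf (by rw [hcard]; simp), fun G l => rfl⟩

/-- A finite net. -/
theorem net {X ι ι' : Type} [AddCommGroup X] [Module ℝ X]
    (ℓ : ι → X →ₗ[ℝ] ℝ) (m : ι' → X →ₗ[ℝ] ℝ) (U : X →ₗ[ℝ] X)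
    (hcpt : ∀ G : ℕ → X, (∀ k i, |ℓ i (U (G k))| ≤ 1) →
      ∃ k k', k ≠ k' ∧ ∀ j, |m j (G k - G k')| ≤ 1 / 4) :
    ∃ S : Finset X, ∀ G, (∀ i, |ℓ i (U G)| ≤ 1) → ∃ G' ∈ S, ∀ j, |m j (G' - G)| ≤ 1 / 4 := by
  by_contra hc
  push Not at hc
  obtain ⟨f, hf, hf'⟩ := exists_seq_of_forall_finset_exists (fun G => ∀ i, |ℓ i (U G)| ≤ 1)
    (fun G' G => ∃ j, 1 / 4 < |m j (G' - G)|) fun s _ => hc s
  obtain ⟨k, k', hk, h⟩ := hcpt f hf
  rcases lt_or_gt_of_ne hk with hlt | hlt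
  · obtain ⟨j, hj⟩ := hf' k k' hlt
    exact absurd (h j) (not_le.2 hj)
  · obtain ⟨j, hj⟩ := hf' k' k hlt
    rw [← neg_sub, map_neg, abs_neg] at hj
    exact absurd (h j) (not_le.2 hj)

/-- One step of the volume estimate. -/
theorem vol_step {d : ℕ} {σ : Type} (S : Finset σ) {B B' : Set (Fin d → ℝ)}
    (c : σ → (Fin d → ℝ) → Prop) (h1 : ∀ v ∈ B', ∃ r ∈ S, c r v)
    (h2 : ∀ r, ∀ v ∈ B', ∀ w ∈ B', c r v → c r w → (2 : ℝ) • (v - w) ∈ B) :
    volume B' ≤ S.card * ENNReal.ofReal ((1 / 2) ^ d) * volume B := by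
  have hsub : B' ⊆ ⋃ r ∈ S, {v | v ∈ B' ∧ c r v} := fun v hv => by
    obtain ⟨r, hr, h⟩ := h1 v hv
    exact mem_biUnion hr ⟨hv, h⟩
  refine (measure_mono hsub).trans ((measure_biUnion_finset_le _ _).trans ?_)
  rw [mul_assoc, ← nsmul_eq_mul]
  refine Finset.sum_le_card_nsmul _ _ _ fun r _ => ?_
  rcases eq_empty_or_nonempty {v | v ∈ B' ∧ c r v} with h0 | ⟨w, hw⟩
  · rw [h0, measure_empty]
    exact zero_le
  have hs : {v | v ∈ B' ∧ c r v} ⊆ (fun v => v + -w) ⁻¹' ((1 / 2 : ℝ) • B) := fun v hv =>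
    ⟨_, h2 r v hv.1 w hw.1 hv.2 hw.2, by simp [smul_smul, sub_eq_add_neg]⟩
  refine (measure_mono hs).trans (le_of_eq ?_)
  rw [measure_preimage_add_right, Measure.addHaar_smul, abs_of_nonneg (by positivity)]
  simp

/-- The dimension bound. -/
theorem dim_le {d : ℕ} {M : ℕ} (B : ℕ → Set (Fin d → ℝ)) (h0 : volume (B 0) ≠ ⊤)
    (hs : ∀ k, volume (B (k + 1)) ≤ M * ENNReal.ofReal ((1 / 2) ^ d) * volume (B k))
    {ε : ℝ} (hε : 0 < ε) (hb : ∀ k, Metric.ball 0 ε ⊆ B k) : d ≤ M := by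
  by_contra hlt
  set q : ℝ≥0∞ := M * ENNReal.ofReal ((1 / 2) ^ d) with hq
  have hq1 : q < 1 := by
    rw [hq, ← ENNReal.ofReal_natCast, ← ENNReal.ofReal_mul (Nat.cast_nonneg _),
      ENNReal.ofReal_lt_one, one_div, inv_pow, ← div_eq_mul_inv, div_lt_one (by positivity)]
    have : M < 2 ^ d := (not_le.1 hlt).trans Nat.lt_two_pow_self
    exact_mod_cast this
  have hk : ∀ k, volume (B k) ≤ q ^ k * volume (B 0) := fun k => by
    induction k with
    | zero => simp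
    | succ k ih =>
      refine (hs k).trans ?_
      rw [pow_succ', mul_assoc q]
      exact mul_le_mul_right ih _
  have ht : Tendsto (fun k => q ^ k * volume (B 0)) atTop (𝓝 0) := by
    have := ENNReal.Tendsto.mul_const (ENNReal.tendsto_pow_atTop_nhds_zero_of_lt_one hq1)
      (Or.inr h0)
    rwa [zero_mul] at this
  have hle : volume (Metric.ball (0 : Fin d → ℝ) ε) ≤ 0 :=
    ge_of_tendsto' ht fun k => (measure_mono (hb k)).trans (hk k)
  exact absurd hle (not_le.2 (Metric.measure_ball_pos _ _ hε))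

theorem cover {X ι ι' : Type} [AddCommGroup X] [Module ℝ X]
    (ℓ : ι → X →ₗ[ℝ] ℝ) (m : ι' → X →ₗ[ℝ] ℝ) (U : X →ₗ[ℝ] X) (Y : Submodule ℝ X)
    (hdef : ∀ G, (∀ i, ℓ i G = 0) → G = 0)
    (hcon : ∀ G (M : ℝ), (∀ i, |ℓ i (U G)| ≤ 4 * M) → (∀ j, |m j G| ≤ M) → ∀ i, |ℓ i G| ≤ M)
    (hcpt : ∀ G : ℕ → X, (∀ k i, |ℓ i (U (G k))| ≤ 1) →
      ∃ k k', k ≠ k' ∧ ∀ j, |m j (G k - G k')| ≤ 1 / 4)
    (hY : ∀ G ∈ Y, ∃ M, ∀ (k : ℕ) i, |ℓ i ((U ^ k) G)| ≤ M) : FiniteDimensional ℝ Y := by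
  obtain ⟨S, hS⟩ := net ℓ m U hcpt
  by_contra hinf
  have hr : ((S.card + 1 : ℕ) : Cardinal) ≤ Module.rank ℝ Y := by
    refine Cardinal.natCast_le_aleph0.trans (not_lt.1 fun h => hinf ?_)
    exact Module.rank_lt_aleph0_iff.1 h
  obtain ⟨b, hb⟩ := exists_linearIndependent_of_le_rank hr
  generalize hd : S.card + 1 = d at b hb
  have hb' : LinearIndependent ℝ fun l => (b l : X) := hb.map' Y.subtype Y.ker_subtype
  let e : (Fin d → ℝ) →ₗ[ℝ] X := Fintype.linearCombination ℝ fun l => (b l : X)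
  have he : Function.Injective e := linearIndependent_iff_injective_fintypeLinearCombination.1 hb'
  choose M hM using fun l => hY _ (b l).2
  have key := dim_le (d := d) (M := S.card) (fun k => {v | ∀ i, |ℓ i ((U ^ k) (e v))| ≤ 1}) ?_ ?_
    (ε := 1 / (∑ l, |M l| + 1)) (by positivity) ?_
  · omega
  · obtain ⟨d', p, e', he'⟩ := coords (fun i => (ℓ i).comp e) fun v hv =>
      he (by rw [map_zero]; exact hdef _ hv)
    have hc : IsCompact (e'.toContinuousLinearEquiv.toHomeomorph ⁻¹' Metric.closedBall 0 1) :=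
      (Homeomorph.isCompact_preimage _).2 (isCompact_closedBall _ _)
    refine ne_top_of_le_ne_top hc.measure_lt_top.ne (measure_mono fun v hv => ?_)
    change e' v ∈ Metric.closedBall 0 1
    rw [mem_closedBall_zero_iff, pi_norm_le_iff_of_nonneg zero_le_one]
    intro l
    rw [he']
    exact hv (p l)
  · intro k
    refine vol_step S (fun G' v => ∀ j, |m j (G' - (U ^ k) (e v))| ≤ 1 / 4) (fun v hv => hS _ ?_) ?_
    · intro i
      have := hv i
      rwa [pow_succ', Module.End.mul_apply] at this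
    · intro G' v hv w hw cv cw i
      have h := hcon ((U ^ k) (e v) - (U ^ k) (e w)) (1 / 2) (fun i => ?_) (fun j => ?_) i
      · rw [map_smul, map_smul, map_smul, map_sub, map_sub, smul_eq_mul, abs_mul, abs_two]
        linarith
      · have h1 := hv i
        have h2 := hw i
        rw [pow_succ', Module.End.mul_apply] at h1 h2
        rw [map_sub, map_sub]
        have := abs_sub (ℓ i (U ((U ^ k) (e v)))) (ℓ i (U ((U ^ k) (e w))))
        linarith
      · have h1 := cv j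
        have h2 := cw j
        rw [show (U ^ k) (e v) - (U ^ k) (e w) = (G' - (U ^ k) (e w)) - (G' - (U ^ k) (e v)) by
          abel, map_sub]
        have := abs_sub (m j (G' - (U ^ k) (e w))) (m j (G' - (U ^ k) (e v)))
        linarith
  · intro k v hv i
    rw [mem_ball_zero_iff] at hv
    have hp : 0 < ∑ l, |M l| + 1 := by positivity
    have e1 : ℓ i ((U ^ k) (e v)) = ∑ l, v l * ℓ i ((U ^ k) (b l)) := by
      simp [e, Fintype.linearCombination_apply, map_sum]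
    rw [e1]
    calc _ ≤ ∑ l, |v l * ℓ i ((U ^ k) (b l))| := Finset.abs_sum_le_sum_abs _ _
      _ ≤ ∑ l, 1 / (∑ l, |M l| + 1) * |M l| := by
        refine Finset.sum_le_sum fun l _ => ?_
        rw [abs_mul]
        exact mul_le_mul ((norm_le_pi_norm v l).trans hv.le) ((hM l k i).trans (le_abs_self _))
          (abs_nonneg _) (by positivity)
      _ ≤ 1 := by
        rw [← Finset.mul_sum, one_div, inv_mul_le_iff₀ hp]
        linarith

end Crest.Agent.R213.AbsA
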