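import Mathlib
import Crest.Agent.R332.Brouwer

/-!
# Row 213: discrete shooting
-/

set_option autoImplicit false

noncomputable section

namespace Crest.Agent.R213.AbsB

open Set Filter Topology

/-- the cut-off -/
def psi (t : ℝ) : ℝ := min 1 (max 0 (2 * (t - 1)))

theorem psi_cont : Continuous psi := by
  unfold psi
  fun_prop

theorem psi_zero {t : ℝ} (h : t ≤ 1) : psi t = 0 := by
  rw [psi, max_eq_left (by linarith), min_eq_right zero_le_one]

theorem psi_one {t : ℝ} (h : 3 / 2 ≤ t) : psi t = 1 :=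
  min_eq_left (le_max_of_le_right (by linarith))

theorem psi_abs (t : ℝ) : |1 - psi t| ≤ 1 :=
  abs_le.2 ⟨by have : psi t ≤ 1 := min_le_left _ _; linarith,
    sub_le_self _ (le_min zero_le_one (le_max_left _ _))⟩

variable {E : Type} [NormedAddCommGroup E] [NormedSpace ℝ E]

/-- the modified orbit and its running maximum -/
def st (A : E ≃L[ℝ] E) (g : ℕ → E → E) : ℕ → E → E × ℝ
  | 0, v => (g 0 v, ‖g 0 v‖)
  | k + 1, v => ((1 - psi (st A g k v).2) • g (k + 1) v + psi (st A g k v).2 • A (st A g k v).1,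
      max (st A g k v).2
        ‖(1 - psi (st A g k v).2) • g (k + 1) v + psi (st A g k v).2 • A (st A g k v).1‖)

variable {A : E ≃L[ℝ] E} {g : ℕ → E → E}

theorem st_succ (k : ℕ) (v : E) : (st A g (k + 1) v).1 =
    (1 - psi (st A g k v).2) • g (k + 1) v + psi (st A g k v).2 • A (st A g k v).1 := rfl

theorem st_le_iff (k : ℕ) (v : E) (c : ℝ) :
    (st A g k v).2 ≤ c ↔ ∀ i ≤ k, ‖(st A g i v).1‖ ≤ c := by
  induction k with
  | zero => exact ⟨fun h i hi => by rw [Nat.le_zero.1 hi]; exact h, fun h => h 0 le_rfl⟩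
  | succ k ih =>
    change max (st A g k v).2 ‖(st A g (k + 1) v).1‖ ≤ c ↔ _
    rw [max_le_iff, ih]
    exact ⟨fun h i hi => (Nat.of_le_succ hi).elim (h.1 i) fun e => e ▸ h.2,
      fun h => ⟨fun i hi => h i (Nat.le_succ_of_le hi), h _ le_rfl⟩⟩

section
variable (hA : ∀ v, ‖A.symm v‖ ≤ ‖v‖ / 4)
  (h1' : ∀ k v, ‖v‖ ≤ 3 → (∀ i ≤ k, ‖g i v‖ ≤ 2) → ‖g (k + 1) v - A (g k v)‖ ≤ 1 / 10)
  {v : E} (hv : ‖v‖ ≤ 3)

include h1' hv in
theorem step_of {k : ℕ} (h : (st A g k v).2 ≤ 2 → ∀ i ≤ k, (st A g i v).1 = g i v) :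
    ‖(st A g (k + 1) v).1 - A (st A g k v).1‖ ≤ 1 / 10 := by
  have e : (st A g (k + 1) v).1 - A (st A g k v).1 =
      (1 - psi (st A g k v).2) • (g (k + 1) v - A (st A g k v).1) := by
    rw [st_succ]
    module
  rw [e]
  rcases le_total (st A g k v).2 2 with h2 | h2
  · rw [norm_smul, h h2 k le_rfl]
    refine (mul_le_of_le_one_left (norm_nonneg _) (psi_abs _)).trans (h1' k v hv fun i hi => ?_)
    rw [← h h2 i hi]
    exact (st_le_iff k v 2).1 h2 i hi
  · rw [psi_one (by linarith), sub_self, zero_smul, norm_zero]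
    norm_num

include hA in
theorem back {x y : E} (h : ‖y - A x‖ ≤ 1 / 10) (hy : ‖y‖ ≤ 2) : ‖x‖ ≤ 1 := by
  have h1 := hA (A x)
  rw [A.symm_apply_apply] at h1
  have h2 := norm_sub_norm_le (A x) y
  rw [norm_sub_rev] at h2
  linarith

include hA h1' hv in
theorem st_eq (k : ℕ) : (st A g k v).2 ≤ 2 → ∀ i ≤ k, (st A g i v).1 = g i v := by
  induction k using Nat.strong_induction_on with
  | _ k ih =>
    cases k with
    | zero => exact fun _ i hi => by rw [Nat.le_zero.1 hi]; rfl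
    | succ k =>
      intro h i hi
      rw [st_le_iff] at h
      have h2 : (st A g k v).2 ≤ 1 := (st_le_iff k v 1).2 fun j hj =>
        back hA (step_of h1' hv (ih j (Nat.lt_succ_of_le hj))) (h _ (Nat.succ_le_succ hj))
      rcases Nat.of_le_succ hi with hi | rfl
      · exact ih k (Nat.lt_succ_self k) (h2.trans one_le_two) i hi
      · rw [st_succ, psi_zero h2, sub_zero, one_smul, zero_smul, add_zero]

include hA h1' hv in
theorem step (k : ℕ) : ‖(st A g (k + 1) v).1 - A (st A g k v).1‖ ≤ 1 / 10 :=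
  step_of h1' hv (st_eq hA h1' hv k)

include hA h1' hv in
theorem le_of_zero {k : ℕ} (h : (st A g k v).1 = 0) : (st A g k v).2 ≤ 2 := by
  refine (st_le_iff k v 2).2 fun i hi => ?_
  induction hi using Nat.decreasingInduction with
  | self => rw [h, norm_zero]; norm_num
  | of_succ i _ ih => exact (back hA (step hA h1' hv i) ih).trans one_le_two

include hA in
theorem pow_le (k : ℕ) (w : E) : ‖((A.symm : E →L[ℝ] E) ^ k) w‖ ≤ (1 / 4) ^ k * ‖w‖ := by
  induction k generalizing w with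
  | zero => simp
  | succ k ih =>
    rw [pow_succ, mul_apply_eq_comp, pow_succ, mul_assoc]
    exact (ih _).trans (mul_le_mul_of_nonneg_left ((hA w).trans_eq (by ring)) (by positivity))

theorem pow_inj (k : ℕ) (w : E) (h : ((A.symm : E →L[ℝ] E) ^ k) w = 0) : w = 0 := by
  induction k generalizing w with
  | zero => simpa using h
  | succ k ih =>
    rw [pow_succ, mul_apply_eq_comp] at h
    exact (map_eq_zero_iff A.symm A.symm.injective).1 (ih _ h)

include hA h1' hv in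
theorem close (h0 : ‖g 0 v - v‖ ≤ 1 / 10) (k : ℕ) :
    ‖((A.symm : E →L[ℝ] E) ^ k) (st A g k v).1 - v‖ ≤ 1 / 5 - (1 / 4) ^ k / 10 := by
  induction k with
  | zero => exact h0.trans_eq (by norm_num)
  | succ k ih =>
    have h1 := (pow_le hA (k + 1) _).trans
      (mul_le_mul_of_nonneg_left (step hA h1' hv k) (by positivity))
    have e : ((A.symm : E →L[ℝ] E) ^ (k + 1)) (A (st A g k v).1) =
        ((A.symm : E →L[ℝ] E) ^ k) (st A g k v).1 := by
      rw [pow_succ, mul_apply_eq_comp, ContinuousLinearEquiv.coe_coe,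
        A.symm_apply_apply]
    rw [map_sub, e] at h1
    refine (norm_sub_le_norm_sub_add_norm_sub _ _ _).trans ((add_le_add h1 ih).trans ?_)
    have : (0 : ℝ) ≤ (1 / 4) ^ k := by positivity
    rw [pow_succ]
    linarith

include hA h1' in
theorem cont (h0 : ContinuousOn (g 0) {v | ‖v‖ ≤ 3})
    (h1 : ∀ k, ContinuousOn (g (k + 1)) {v | ‖v‖ ≤ 3 ∧ ∀ i ≤ k, ‖g i v‖ ≤ 2}) (k : ℕ) :
    ContinuousOn (st A g k) {v | ‖v‖ ≤ 3} := by
  induction k with
  | zero => exact h0.prodMk h0.norm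
  | succ k ih =>
    have hp : ContinuousOn (fun v => psi (st A g k v).2) {v | ‖v‖ ≤ 3} :=
      psi_cont.comp_continuousOn ih.snd
    have h2 : ContinuousOn (fun v => (1 - psi (st A g k v).2) • g (k + 1) v) {v | ‖v‖ ≤ 3} := by
      intro v hv
      rcases lt_or_ge (st A g k v).2 2 with h | h
      · have key : ∀ w, ‖w‖ ≤ 3 → (st A g k w).2 < 2 → ‖w‖ ≤ 3 ∧ ∀ i ≤ k, ‖g i w‖ ≤ 2 :=
          fun w hw h => ⟨hw, fun i hi => by
            rw [← st_eq hA h1' hw k h.le i hi]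
            exact (st_le_iff k w 2).1 h.le i hi⟩
        refine (continuousWithinAt_const.sub (hp v hv)).smul
          ((h1 k v (key v hv h)).mono_of_mem_nhdsWithin ?_)
        filter_upwards [self_mem_nhdsWithin, (ih.snd v hv).eventually_lt_const h] with w hw h'
        exact key w hw h'
      · refine (continuousWithinAt_const (b := (0 : E))).congr_of_eventuallyEq ?_ ?_
        · filter_upwards [(ih.snd v hv).eventually_const_lt (show 3 / 2 < (st A g k v).2 by linarith)]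
            with w hw
          rw [psi_one hw.le, sub_self, zero_smul]
        · rw [psi_one (by linarith), sub_self, zero_smul]
    have h3 := h2.add (hp.smul (A.continuous.comp_continuousOn ih.fst))
    exact h3.prodMk (ih.snd.sup h3.norm)

end

theorem shoot [FiniteDimensional ℝ E] (A : E ≃L[ℝ] E) (hA : ∀ v, ‖A.symm v‖ ≤ ‖v‖ / 4)
    (g : ℕ → E → E)
    (h0 : ContinuousOn (g 0) {v | ‖v‖ ≤ 3}) (h0' : ∀ v, ‖v‖ ≤ 3 → ‖g 0 v - v‖ ≤ 1 / 10)
    (h1 : ∀ k, ContinuousOn (g (k + 1)) {v | ‖v‖ ≤ 3 ∧ ∀ i ≤ k, ‖g i v‖ ≤ 2})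
    (h1' : ∀ k v, ‖v‖ ≤ 3 → (∀ i ≤ k, ‖g i v‖ ≤ 2) → ‖g (k + 1) v - A (g k v)‖ ≤ 1 / 10) :
    ∃ v, ‖v‖ ≤ 3 ∧ ∀ k, ‖g k v‖ ≤ 2 := by
  have hc := cont hA h1' h0 h1
  have hm : ∀ v : E, 0 < max 3 ‖v‖ := fun v => lt_max_of_lt_left (by norm_num)
  set P : E → E := fun v => (3 / max 3 ‖v‖) • v with hP
  have hPc : Continuous P :=
    (continuous_const.div (by fun_prop) fun v => (hm v).ne').smul continuous_id
  have hP3 : ∀ v, ‖P v‖ ≤ 3 := fun v => by
    rw [hP, norm_smul, Real.norm_of_nonneg (div_nonneg (by norm_num) (hm v).le), div_mul_eq_mul_div,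
      div_le_iff₀ (hm v)]
    exact mul_le_mul_of_nonneg_left (le_max_right _ _) (by norm_num)
  have hne : ∀ k, ({v | ‖v‖ ≤ 3} ∩ (fun v => (st A g k v).2) ⁻¹' Iic 2 : Set E).Nonempty := by
    intro k
    have hb : ∀ v, ‖P v - ((A.symm : E →L[ℝ] E) ^ k) (st A g k (P v)).1‖ ≤ 1 / 5 := fun v => by
      rw [norm_sub_rev]
      exact (close hA h1' (hP3 v) (h0' _ (hP3 v)) k).trans (sub_le_self _ (by positivity))
    obtain ⟨v, hv⟩ := R332.exists_fixed_of_bounded _ (hPc.sub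
      (((A.symm : E →L[ℝ] E) ^ k).continuous.comp ((hc k).fst.comp_continuous hPc hP3))) _ hb
    have h2 : ‖v‖ ≤ 3 := by
      rw [← hv]
      exact (hb v).trans (by norm_num)
    have h3 : P v = v := by
      rw [hP]
      simp only [max_eq_left h2]
      rw [div_self (by norm_num), one_smul]
    change P v - ((A.symm : E →L[ℝ] E) ^ k) (st A g k (P v)).1 = v at hv
    rw [h3, sub_eq_self] at hv
    exact ⟨v, h2, le_of_zero hA h1' h2 (pow_inj k _ hv)⟩
  have hB : IsClosed {v : E | ‖v‖ ≤ 3} := isClosed_le continuous_norm continuous_const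
  have hcl : ∀ k, IsClosed ({v | ‖v‖ ≤ 3} ∩ (fun v => (st A g k v).2) ⁻¹' Iic 2 : Set E) :=
    fun k => (hc k).snd.preimage_isClosed_of_isClosed hB isClosed_Iic
  have := FiniteDimensional.proper_real E
  obtain ⟨v, hv⟩ := IsCompact.nonempty_iInter_of_sequence_nonempty_isCompact_isClosed
    (fun k => ({v | ‖v‖ ≤ 3} ∩ (fun v => (st A g k v).2) ⁻¹' Iic 2 : Set E))
    (fun k v hv => ⟨hv.1, (st_le_iff k v 2).2 fun i hi =>
      (st_le_iff (k + 1) v 2).1 hv.2 i (Nat.le_succ_of_le hi)⟩) hne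
    ((isCompact_closedBall (0 : E) 3).of_isClosed_subset (hcl 0)
      fun v hv => mem_closedBall_zero_iff.2 hv.1) hcl
  rw [mem_iInter] at hv
  refine ⟨v, (hv 0).1, fun k => ?_⟩
  rw [← st_eq hA h1' (hv 0).1 k (hv k).2 k le_rfl]
  exact (st_le_iff k v 2).1 (hv k).2 k le_rfl

end Crest.Agent.R213.AbsB
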