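import Mathlib
import Crest.Agent.R332.Brouwer

/-!
# Row 213: Wazewski's principle in the plane
-/

set_option autoImplicit false

noncomputable section

namespace Crest.Agent.R213.AbsC

open Set Filter Topology

/-- the exit time depends continuously on the parameter -/
theorem exit_time {K : Type} [TopologicalSpace K] (F : K → ℝ → ℝ)
    (hF : Continuous fun p : K × ℝ => F p.1 p.2) (X : ℝ) (hex : ∀ q, ∃ x, X ≤ x ∧ 1 ≤ F q x)
    (ht : ∀ q x, X ≤ x → (∀ y ∈ Icc X x, F q y ≤ 1) → F q x = 1 → ∀ᶠ y in 𝓝[>] x, 1 < F q y) :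
    ∃ τ : K → ℝ, Continuous τ ∧ ∀ q, X ≤ τ q ∧ 1 ≤ F q (τ q) ∧ (1 ≤ F q X → τ q = X) := by
  have hc : ∀ q, Continuous (F q) := fun q => hF.comp (continuous_const.prodMk continuous_id)
  have hb : ∀ q, BddBelow {x | X ≤ x ∧ 1 ≤ F q x} := fun q => ⟨X, fun _ h => h.1⟩
  obtain ⟨τ, h1, h2⟩ : ∃ τ : K → ℝ, (∀ q, X ≤ τ q ∧ 1 ≤ F q (τ q)) ∧
      ∀ q x, X ≤ x → 1 ≤ F q x → τ q ≤ x :=
    ⟨fun q => sInf {x | X ≤ x ∧ 1 ≤ F q x}, fun q =>
      (isClosed_Ici.inter (isClosed_le continuous_const (hc q))).csInf_mem (hex q) (hb q),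
      fun q x hx hx' => csInf_le (hb q) ⟨hx, hx'⟩⟩
  have h3 : ∀ q y, X ≤ y → y < τ q → F q y < 1 := fun q y hy hy' =>
    not_le.1 fun h => hy'.not_ge (h2 q y hy h)
  refine ⟨τ, continuous_iff_continuousAt.2 fun q => tendsto_order.2 ⟨fun a ha => ?_, fun a ha => ?_⟩,
    fun q => ⟨(h1 q).1, (h1 q).2, fun h => le_antisymm (h2 q X le_rfl h) (h1 q).1⟩⟩
  · have h4 : ∀ᶠ q' in 𝓝 q, ∀ y ∈ Icc X a, F q' y < 1 :=
      isCompact_Icc.eventually_forall_of_forall_eventually fun y hy =>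
        hF.continuousAt.eventually_lt continuousAt_const (h3 q y hy.1 (hy.2.trans_lt ha))
    exact h4.mono fun q' h => not_le.1 fun h' => (h _ ⟨(h1 q').1, h'⟩).not_ge (h1 q').2
  · have h4 : ∀ᶠ y in 𝓝[>] τ q, 1 < F q y := by
      rcases (h1 q).2.eq_or_lt with h | h
      · refine ht q _ (h1 q).1 (fun y hy => ?_) h.symm
        rcases hy.2.eq_or_lt with rfl | h'
        · exact h.ge
        · exact (h3 q y hy.1 h').le
      · exact (continuousAt_const.eventually_lt (hc q).continuousAt h).filter_mono nhdsWithin_le_nhds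
    obtain ⟨y, hy, hy'⟩ := (h4.and (Ioo_mem_nhdsGT ha)).exists
    have h5 : ∀ᶠ q' in 𝓝 q, 1 < F q' y := continuousAt_const.eventually_lt
      (hF.comp (continuous_id.prodMk continuous_const)).continuousAt hy
    exact h5.mono fun q' h => (h2 q' y ((h1 q).1.trans hy'.1.le) h.le).trans_lt hy'.2

theorem wazewski (u : ℝ × ℝ → ℝ → ℝ × ℝ) (W : ℝ × ℝ → ℝ) (X r : ℝ) (hr : 0 < r)
    (hu : ContinuousOn (fun p : (ℝ × ℝ) × ℝ => u p.1 p.2) ({q | ‖q‖ ≤ 1} ×ˢ Ici X))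
    (hW : Continuous W) (hW0 : W 0 < 1)
    (hb : ∀ q, ‖q‖ = 1 → ‖u q X - r • q‖ < r ∧ 1 < W (u q X))
    (ht : ∀ q, ‖q‖ ≤ 1 → ∀ x, X ≤ x → (∀ y ∈ Icc X x, W (u q y) ≤ 1) → W (u q x) = 1 →
      ∀ᶠ y in 𝓝[>] x, 1 < W (u q y)) :
    ∃ q, ‖q‖ ≤ 1 ∧ ∀ x, X ≤ x → W (u q x) ≤ 1 := by
  by_contra! h
  have hU : Continuous fun p : Metric.closedBall (0 : ℝ × ℝ) 1 × ℝ => u p.1 (max X p.2) :=
    hu.comp_continuous (f := fun p : Metric.closedBall (0 : ℝ × ℝ) 1 × ℝ => ((p.1 : ℝ × ℝ), max X p.2))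
      (by fun_prop) fun p => ⟨mem_closedBall_zero_iff.1 p.1.2, mem_Ici.2 (le_max_left _ _)⟩
  obtain ⟨τ, hτ, h1⟩ := exit_time (fun (q : Metric.closedBall (0 : ℝ × ℝ) 1) x => W (u q (max X x)))
    (hW.comp hU) X
    (fun q => by
      obtain ⟨x, hx, hx'⟩ := h q (mem_closedBall_zero_iff.1 q.2)
      exact ⟨x, hx, by rw [max_eq_right hx]; exact hx'.le⟩)
    (fun q x hx h1 h2 => by
      rw [max_eq_right hx] at h2
      filter_upwards [ht q (mem_closedBall_zero_iff.1 q.2) x hx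
        (fun y hy => by simpa only [max_eq_right hy.1] using h1 y hy) h2, self_mem_nhdsWithin]
        with y hy hy'
      rwa [max_eq_right (hx.trans (le_of_lt hy'))])
  have hm : ∀ z : ℝ × ℝ, 0 < max 1 ‖z‖ := fun z => zero_lt_one.trans_le (le_max_left _ _)
  have hn : ∀ z : ℝ × ℝ, ‖(max 1 ‖z‖)⁻¹ • z‖ = ‖z‖ / max 1 ‖z‖ := fun z => by
    rw [norm_smul, norm_inv, Real.norm_of_nonneg (hm z).le, inv_mul_eq_div]
  obtain ⟨P, hP, hP'⟩ : ∃ P : ℝ × ℝ → Metric.closedBall (0 : ℝ × ℝ) 1, Continuous P ∧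
      ∀ z, (P z : ℝ × ℝ) = (max 1 ‖z‖)⁻¹ • z :=
    ⟨fun z => ⟨(max 1 ‖z‖)⁻¹ • z, mem_closedBall_zero_iff.2 (by
      rw [hn]; exact (div_le_one (hm z)).2 (le_max_right _ _))⟩,
      (((continuous_const.max continuous_norm).inv₀ fun z => (hm z).ne').smul
        continuous_id).subtype_mk _, fun _ => rfl⟩
  have hg : Continuous fun q : Metric.closedBall (0 : ℝ × ℝ) 1 =>
      (q : ℝ × ℝ) - r⁻¹ • u q (max X (τ q)) :=
    continuous_subtype_val.sub ((hU.comp (continuous_id.prodMk hτ)).const_smul r⁻¹)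
  have := isCompact_iff_compactSpace.1 (isCompact_closedBall (0 : ℝ × ℝ) 1)
  obtain ⟨R, hR⟩ := isCompact_univ.exists_bound_of_continuousOn hg.continuousOn
  obtain ⟨z, hz⟩ := R332.exists_fixed_of_bounded _ (hg.comp hP) R fun z => hR _ trivial
  simp only [Function.comp_apply] at hz
  rcases le_or_gt ‖z‖ 1 with h2 | h2
  · have h3 := (h1 (P z)).2.1
    have h4 := hP' z
    rw [max_eq_left h2, inv_one, one_smul] at h4
    rw [sub_eq_iff_eq_add, h4, left_eq_add, smul_eq_zero_iff_right (inv_ne_zero hr.ne')] at hz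
    rw [h4, hz] at h3
    exact h3.not_gt hW0
  · have h3 : ‖(P z : ℝ × ℝ)‖ = 1 := by
      rw [hP', hn, max_eq_right h2.le, div_self (zero_lt_one.trans h2).ne']
    obtain ⟨h4, h5⟩ := hb _ h3
    rw [(h1 (P z)).2.2 (by rw [max_self]; exact h5.le), max_self] at hz
    have h6 : u (P z) X - r • (P z : ℝ × ℝ) = -(r • z) := by
      conv_rhs => rw [← hz]
      rw [smul_sub, smul_inv_smul₀ hr.ne', neg_sub]
    rw [h6, norm_neg, norm_smul, Real.norm_of_nonneg hr.le] at h4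
    nlinarith

end Crest.Agent.R213.AbsC
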