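import Mathlib
import Crest.Agent.R332.Brouwer
import Crest.Agent.R213.AbsB
import Crest.Agent.R213.AbsC
import Crest.Agent.R213.AbsA

/-!
# Row 213: abstract lemmas: finite dimension, shooting, Wazewski
-/

set_option autoImplicit false

noncomputable section

namespace Crest.Agent.R213

open Set Filter Topology
open scoped ContDiff

/-- Finite dimensionality by a volume argument.  The norm is `sup |ℓ i ·|`, the compact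
seminorm is `sup |m j ·|`. -/
theorem finiteDimensional_of_cover {X ι ι' : Type} [AddCommGroup X] [Module ℝ X]
    (ℓ : ι → X →ₗ[ℝ] ℝ) (m : ι' → X →ₗ[ℝ] ℝ) (U : X →ₗ[ℝ] X) (Y : Submodule ℝ X)
    (hdef : ∀ G, (∀ i, ℓ i G = 0) → G = 0)
    (hcon : ∀ G (M : ℝ), (∀ i, |ℓ i (U G)| ≤ 4 * M) → (∀ j, |m j G| ≤ M) → ∀ i, |ℓ i G| ≤ M)
    (hcpt : ∀ G : ℕ → X, (∀ k i, |ℓ i (U (G k))| ≤ 1) →
      ∃ k k', k ≠ k' ∧ ∀ j, |m j (G k - G k')| ≤ 1 / 4)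
    (hY : ∀ G ∈ Y, ∃ M, ∀ (k : ℕ) i, |ℓ i ((U ^ k) G)| ≤ M) : FiniteDimensional ℝ Y :=
  AbsA.cover ℓ m U Y hdef hcon hcpt hY

/-- A finite-dimensional space of functions has coordinates among a separating family of
functionals. -/
theorem exists_coords {X ι : Type} [AddCommGroup X] [Module ℝ X] [FiniteDimensional ℝ X]
    (ℓ : ι → X →ₗ[ℝ] ℝ) (hdef : ∀ G, (∀ i, ℓ i G = 0) → G = 0) :
    ∃ (d : ℕ) (p : Fin d → ι) (e : X ≃ₗ[ℝ] (Fin d → ℝ)), ∀ G l, e G l = ℓ (p l) G :=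
  AbsA.coords ℓ hdef

/-- Discrete shooting. -/
theorem shoot {d : ℕ} (A : (Fin d → ℝ) ≃L[ℝ] (Fin d → ℝ)) (hA : ∀ v, ‖A.symm v‖ ≤ ‖v‖ / 4)
    (g : ℕ → (Fin d → ℝ) → (Fin d → ℝ))
    (h0 : ContinuousOn (g 0) {v | ‖v‖ ≤ 3}) (h0' : ∀ v, ‖v‖ ≤ 3 → ‖g 0 v - v‖ ≤ 1 / 10)
    (h1 : ∀ k, ContinuousOn (g (k + 1)) {v | ‖v‖ ≤ 3 ∧ ∀ i ≤ k, ‖g i v‖ ≤ 2})
    (h1' : ∀ k v, ‖v‖ ≤ 3 → (∀ i ≤ k, ‖g i v‖ ≤ 2) → ‖g (k + 1) v - A (g k v)‖ ≤ 1 / 10) :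
    ∃ v, ‖v‖ ≤ 3 ∧ ∀ k, ‖g k v‖ ≤ 2 := by
  exact AbsB.shoot A hA g h0 h0' h1 h1'

/-- Wazewski's principle in the plane (sup norm on `ℝ × ℝ`). -/
theorem wazewski (u : ℝ × ℝ → ℝ → ℝ × ℝ) (W : ℝ × ℝ → ℝ) (X r : ℝ) (hr : 0 < r)
    (hu : ContinuousOn (fun p : (ℝ × ℝ) × ℝ => u p.1 p.2) ({q | ‖q‖ ≤ 1} ×ˢ Ici X))
    (hW : Continuous W) (hW0 : W 0 < 1)
    (hb : ∀ q, ‖q‖ = 1 → ‖u q X - r • q‖ < r ∧ 1 < W (u q X))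
    (ht : ∀ q, ‖q‖ ≤ 1 → ∀ x, X ≤ x → (∀ y ∈ Icc X x, W (u q y) ≤ 1) → W (u q x) = 1 →
      ∀ᶠ y in 𝓝[>] x, 1 < W (u q y)) :
    ∃ q, ‖q‖ ≤ 1 ∧ ∀ x, X ≤ x → W (u q x) ≤ 1 := by
  exact AbsC.wazewski u W X r hr hu hW hW0 hb ht

end Crest.Agent.R213
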