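import Crest.Agent.R213.Defs

/-!
# Row 213: proof of the algebraic lemma
-/

set_option autoImplicit false

noncomputable section

namespace Crest.Agent.R213.AlgA

open Finset

theorem om_zero (q : Bool) (T ρ : ℝ) : om q T ρ 0 = 1 := by simp [om]

theorem om_succ_eq (q : Bool) (T ρ : ℝ) (j : ℕ) :
    om q T ρ (j + 1) = (if q = true then ρ else T) * T ^ j := by
  cases q <;> simp [om, pow_succ']

theorem r_mem (q : Bool) {T ρ : ℝ} (h : T ≤ ρ) :
    T ≤ (if q = true then ρ else T) ∧ (if q = true then ρ else T) ≤ ρ := by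
  cases q <;> simp [h]

theorem om_pos (q : Bool) {T ρ : ℝ} (hT : 0 < T) (h : T ≤ ρ) (j : ℕ) : 0 < om q T ρ j := by
  rcases j with _ | j
  · simp [om]
  · rw [om_succ_eq]
    exact mul_pos (hT.trans_le (r_mem q h).1) (pow_pos hT _)

theorem om_add_eq (q : Bool) (T ρ : ℝ) (i : ℕ) {j : ℕ} (hj : j ≠ 0 ∨ i = 0) :
    om q T ρ (i + j) = T ^ i * om q T ρ j := by
  rcases j with _ | j
  · obtain rfl : i = 0 := by simpa using hj
    simp
  · rw [← add_assoc, om_succ_eq, om_succ_eq]
    ring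

theorem om_false (T ρ : ℝ) (j : ℕ) : om false T ρ j = T ^ j := by
  rcases j with _ | j <;> simp [om]

theorem om_false_le (q : Bool) {T ρ : ℝ} (hT : 0 < T) (h : T ≤ ρ) (j : ℕ) :
    T ^ j ≤ om q T ρ j ∧ om q T ρ j ≤ om true T ρ j := by
  rcases j with _ | j
  · simp [om]
  · rw [om_succ_eq, om_succ_eq, pow_succ', if_pos rfl]
    exact ⟨mul_le_mul_of_nonneg_right (r_mem q h).1 (by positivity),
      mul_le_mul_of_nonneg_right (r_mem q h).2 (by positivity)⟩

theorem om_add_le (q : Bool) {T ρ : ℝ} (hT : 0 < T) (h : T ≤ ρ) (i j : ℕ) :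
    om q T ρ (i + j) ≤ om q T ρ i * om q T ρ j := by
  rcases eq_or_ne j 0 with rfl | hj
  · simp [om_zero]
  · rw [om_add_eq q T ρ i (.inl hj)]
    exact mul_le_mul_of_nonneg_right (om_false_le q hT h i).1 (om_pos q hT h j).le

theorem om_succ (q : Bool) {T ρ : ℝ} (hT : 0 < T) (h : T ≤ ρ) (j : ℕ) :
    T * om q T ρ j ≤ om q T ρ (j + 1) ∧ om q T ρ (j + 1) ≤ ρ * om q T ρ j := by
  rcases eq_or_ne j 0 with rfl | hj
  · simpa [om_succ_eq, om_zero] using r_mem q h
  · rw [add_comm, om_add_eq q T ρ 1 (.inl hj), pow_one]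
    exact ⟨le_rfl, mul_le_mul_of_nonneg_right h (om_pos q hT h j).le⟩

/-- The hypotheses at the level `j`. -/
structure H (B : ℝ) (j : ℕ) (q : Bool) (T ρ x : ℝ) (g z y : ℕ → ℝ) : Prop where
  hT : 0 < T
  hρ : T ≤ ρ
  leib : ∀ l ≤ j, Leib x g z y l
  g1 : 1 / B ≤ g 0
  g2 : g 0 ≤ B
  G1 : 1 / B ≤ g 0 + x * z 0
  gc : ∀ c, 1 ≤ c → c ≤ j → om q T ρ c * |g c| ≤ B
  za : ∀ a, 2 * a ≤ j → T ^ a * |x * z a| ≤ B

/-- The conclusions at the level `j`. -/
def P (B : ℝ) (j : ℕ) (C : ℝ) : Prop :=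
  ∀ (q : Bool) (T ρ x : ℝ) (g z y : ℕ → ℝ), H B j q T ρ x g z y →
    om q T ρ j * |z j + (g 0 + x * z 0) * (if j = 0 then g 0 else g 0 + x * z 0) * y j| ≤
        C * ∑ i ∈ range j, om q T ρ i * |y i| ∧
      om q T ρ j * |y j| ≤ C * ∑ i ∈ range (j + 1), om q T ρ i * |z i| ∧
      om q T ρ j * |z j| ≤ C * ∑ i ∈ range (j + 1), om q T ρ i * |y i|

variable {B : ℝ} {j : ℕ} {q : Bool} {T ρ x : ℝ} {g z y : ℕ → ℝ}

theorem H.mono (h : H B j q T ρ x g z y) {i : ℕ} (hi : i ≤ j) : H B i q T ρ x g z y :=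
  ⟨h.hT, h.hρ, fun l hl => h.leib l (hl.trans hi), h.g1, h.g2, h.G1,
    fun c h1 h2 => h.gc c h1 (h2.trans hi), fun a ha => h.za a (ha.trans hi)⟩

theorem H.weak (h : H B j q T ρ x g z y) : H B j false T ρ x g z y :=
  ⟨h.hT, h.hρ, h.leib, h.g1, h.g2, h.G1, fun c h1 h2 => le_trans (by
    rw [om_false]
    exact mul_le_mul_of_nonneg_right (om_false_le q h.hT h.hρ c).1 (abs_nonneg _)) (h.gc c h1 h2),
    h.za⟩

theorem H.sum_nonneg (h : H B j q T ρ x g z y) (s : Finset ℕ) (u : ℕ → ℝ) :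
    0 ≤ ∑ i ∈ s, om q T ρ i * |u i| :=
  Finset.sum_nonneg fun i _ => mul_nonneg (om_pos q h.hT h.hρ i).le (abs_nonneg _)

theorem H.sum_mono (h : H B j q T ρ x g z y) {a b : ℕ} (hab : a ≤ b) (u : ℕ → ℝ) :
    ∑ i ∈ range a, om q T ρ i * |u i| ≤ ∑ i ∈ range b, om q T ρ i * |u i| :=
  sum_le_sum_of_subset_of_nonneg (range_mono hab)
    fun i _ _ => mul_nonneg (om_pos q h.hT h.hρ i).le (abs_nonneg _)

theorem H.single (h : H B j q T ρ x g z y) {a b : ℕ} (hab : a < b) (u : ℕ → ℝ) :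
    om q T ρ a * |u a| ≤ ∑ i ∈ range b, om q T ρ i * |u i| :=
  single_le_sum (f := fun i => om q T ρ i * |u i|)
    (fun i _ => mul_nonneg (om_pos q h.hT h.hρ i).le (abs_nonneg _)) (mem_range.2 hab)

theorem P.mono {C C' : ℝ} (h : P B j C) (hC : C ≤ C') : P B j C' := fun q T ρ x g z y hH => by
  obtain ⟨h1, h2, h3⟩ := h q T ρ x g z y hH
  exact ⟨h1.trans (mul_le_mul_of_nonneg_right hC (hH.sum_nonneg _ _)),
    h2.trans (mul_le_mul_of_nonneg_right hC (hH.sum_nonneg _ _)),
    h3.trans (mul_le_mul_of_nonneg_right hC (hH.sum_nonneg _ _))⟩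

theorem H.g_le (h : H B j q T ρ x g z y) (hB : 1 ≤ B) {c : ℕ} (hc : c ≤ j) :
    om q T ρ c * |g c| ≤ B := by
  rcases Nat.eq_zero_or_pos c with rfl | h0
  · rw [om_zero, one_mul, abs_of_nonneg (le_trans (by positivity) h.g1)]
    exact h.g2
  · exact h.gc c h0 hc

theorem H.G2 (h : H B j q T ρ x g z y) : g 0 + x * z 0 ≤ 2 * B := by
  have := h.za 0 (by simp)
  rw [pow_zero, one_mul] at this
  linarith [h.g2, le_abs_self (x * z 0)]

theorem H.leib0 (h : H B j q T ρ x g z y) : z 0 = -((g 0 + x * z 0) * g 0 * y 0) := by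
  simpa [Leib] using h.leib 0 (Nat.zero_le _)

/-- The mixed terms. -/
theorem H.mixed (h : H B j q T ρ x g z y) (hB : 1 ≤ B) {C : ℝ} (hC : 1 ≤ C)
    (ih : ∀ i < j, P B i C) {a i : ℕ} (ha : a < j) (hi : i < j) (hai : a + i ≤ j) :
    om q T ρ (a + i) * (|x * z a| * |y i|) ≤
      (B + C ^ 2 * j * B) * ∑ l ∈ range j, om q T ρ l * |y l| := by
  have hS := h.sum_nonneg (range j) y
  have hT := h.hT
  rcases le_or_gt a i with hle | hlt
  · rw [om_add_eq q T ρ a (by omega)]
    calc _ = T ^ a * |x * z a| * (om q T ρ i * |y i|) := by ring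
      _ ≤ B * ∑ l ∈ range j, om q T ρ l * |y l| :=
          mul_le_mul (h.za a (by omega)) (h.single hi y)
            (mul_nonneg (om_pos q h.hT h.hρ i).le (abs_nonneg _)) (by linarith)
      _ ≤ _ := mul_le_mul_of_nonneg_right (le_add_of_nonneg_right (by positivity)) hS
  · have h1 := (ih i hi false T ρ x g z y (h.weak.mono hi.le)).2.1
    have h2 := (ih a ha q T ρ x g z y (h.mono ha.le)).2.2
    simp only [om_false] at h1
    have h3 : |x| * (T ^ i * |y i|) ≤ C * (j * B) := by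
      refine (mul_le_mul_of_nonneg_left h1 (abs_nonneg x)).trans ?_
      rw [mul_left_comm, mul_sum]
      refine mul_le_mul_of_nonneg_left ((sum_le_card_nsmul _ _ B fun l hl => ?_).trans ?_)
        (by linarith)
      · have := h.za l (by have := mem_range.1 hl; omega)
        rwa [abs_mul, mul_left_comm] at this
      · rw [card_range, nsmul_eq_mul]
        exact mul_le_mul_of_nonneg_right (by exact_mod_cast hi) (by linarith)
    rw [add_comm a, om_add_eq q T ρ i (by omega)]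
    calc _ = |x| * (T ^ i * |y i|) * (om q T ρ a * |z a|) := by rw [abs_mul]; ring
      _ ≤ C * (j * B) * (C * ∑ l ∈ range j, om q T ρ l * |y l|) :=
          mul_le_mul h3 (h2.trans (mul_le_mul_of_nonneg_left (h.sum_mono ha y) (by linarith)))
            (mul_nonneg (om_pos q h.hT h.hρ a).le (abs_nonneg _)) (by positivity)
      _ = C ^ 2 * j * B * ∑ l ∈ range j, om q T ρ l * |y l| := by ring
      _ ≤ _ := mul_le_mul_of_nonneg_right (by linarith) hS

/-- One term of the remainder. -/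
theorem H.term (h : H B j q T ρ x g z y) (hB : 1 ≤ B) {C : ℝ} (hC : 1 ≤ C)
    (ih : ∀ i < j, P B i C) {a c i : ℕ} (hi : i < j) (hj : a + i + c = j) :
    om q T ρ j * |(g a + if a = j then 0 else x * z a) * g c * y i| ≤
      B * (B + (B + C ^ 2 * j * B)) * ∑ l ∈ range j, om q T ρ l * |y l| := by
  have hS := h.sum_nonneg (range j) y
  have hw := fun l => (om_pos q h.hT h.hρ l).le
  have h1 : om q T ρ (a + i) * (|g a| * |y i|) ≤ B * ∑ l ∈ range j, om q T ρ l * |y l| :=
    calc _ ≤ om q T ρ a * om q T ρ i * (|g a| * |y i|) :=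
          mul_le_mul_of_nonneg_right (om_add_le q h.hT h.hρ a i) (by positivity)
      _ = om q T ρ a * |g a| * (om q T ρ i * |y i|) := by ring
      _ ≤ _ := mul_le_mul (h.g_le hB (by omega)) (h.single hi y)
          (mul_nonneg (hw i) (abs_nonneg _)) (by linarith)
  have h2 : om q T ρ (a + i) * (|if a = j then 0 else x * z a| * |y i|) ≤
      (B + C ^ 2 * j * B) * ∑ l ∈ range j, om q T ρ l * |y l| := by
    split_ifs with ha
    · rw [abs_zero, zero_mul, mul_zero]
      positivity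
    · exact h.mixed hB hC ih (by omega) hi (by omega)
  have h3 : om q T ρ j ≤ om q T ρ (a + i) * om q T ρ c := hj ▸ om_add_le q h.hT h.hρ _ _
  have := hw (a + i)
  have := hw c
  rw [abs_mul, abs_mul]
  calc _ ≤ om q T ρ (a + i) * om q T ρ c *
        ((|g a| + |if a = j then 0 else x * z a|) * |g c| * |y i|) := by
        gcongr
        exact abs_add_le _ _
    _ = om q T ρ c * |g c| * (om q T ρ (a + i) * (|g a| * |y i|) +
        om q T ρ (a + i) * (|if a = j then 0 else x * z a| * |y i|)) := by ring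
    _ ≤ B * (B * ∑ l ∈ range j, om q T ρ l * |y l| +
        (B + C ^ 2 * j * B) * ∑ l ∈ range j, om q T ρ l * |y l|) :=
        mul_le_mul (h.g_le hB (by omega)) (add_le_add h1 h2) (by positivity) (by linarith)
    _ = _ := by ring

/-- The two main terms of the relation. -/
theorem leib_split {n : ℕ} (h : Leib x g z y (n + 1)) :
    z (n + 1) = -(∑ i ∈ range (n + 1), ∑ a ∈ range (n + 1 - i + 1),
        ((n + 1).choose i * (n + 1 - i).choose a : ℝ) *
          ((g a + if a = n + 1 then 0 else x * z a) * g (n + 1 - i - a) * y i) +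
      x * z (n + 1) * g 0 * y 0 + (g 0 + x * z 0) * g 0 * y (n + 1)) := by
  refine h.trans (congrArg Neg.neg ?_)
  rw [sum_range_succ]
  congr 1
  · rw [sum_range_succ', sum_range_succ' _ n, add_assoc]
    congr 1
    · refine sum_congr rfl fun i _ => ?_
      rw [mul_sum, sum_mul]
      refine sum_congr rfl fun a ha => ?_
      rw [if_neg (by have := mem_range.1 ha; omega)]
      ring
    · rw [Nat.sub_zero, sum_range_succ, sum_range_succ _ (n + 1), if_pos rfl, mul_add, add_mul,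
        mul_sum, sum_mul, add_assoc]
      congr 1
      · refine sum_congr rfl fun a ha => ?_
        rw [if_neg (mem_range.1 ha).ne]
        ring
      · simp
        ring
  · simp

theorem first (hB : 1 ≤ B) {C : ℝ} (hC : 1 ≤ C) (ih : ∀ i < j, P B i C) : ∃ K : ℝ, 0 ≤ K ∧
    ∀ (q : Bool) (T ρ x : ℝ) (g z y : ℕ → ℝ), H B j q T ρ x g z y →
      om q T ρ j * |z j + (g 0 + x * z 0) * (if j = 0 then g 0 else g 0 + x * z 0) * y j| ≤
        K * ∑ i ∈ range j, om q T ρ i * |y i| := by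
  rcases j with _ | n
  · refine ⟨0, le_rfl, fun q T ρ x g z y h => ?_⟩
    rw [if_pos rfl, eq_neg_iff_add_eq_zero.1 h.leib0]
    simp
  refine ⟨2 * B * B * ∑ i ∈ range (n + 1), ∑ a ∈ range (n + 1 - i + 1),
    ((n + 1).choose i * (n + 1 - i).choose a : ℝ) * (B * (B + (B + C ^ 2 * (n + 1 : ℕ) * B))),
    by positivity, fun q T ρ x g z y h => ?_⟩
  have e := leib_split (h.leib _ le_rfl)
  have hw := (om_pos q h.hT h.hρ (n + 1)).le
  have hR : om q T ρ (n + 1) * |∑ i ∈ range (n + 1), ∑ a ∈ range (n + 1 - i + 1),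
      ((n + 1).choose i * (n + 1 - i).choose a : ℝ) *
        ((g a + if a = n + 1 then 0 else x * z a) * g (n + 1 - i - a) * y i)| ≤
      (∑ i ∈ range (n + 1), ∑ a ∈ range (n + 1 - i + 1),
        ((n + 1).choose i * (n + 1 - i).choose a : ℝ) *
          (B * (B + (B + C ^ 2 * (n + 1 : ℕ) * B)))) * ∑ l ∈ range (n + 1), om q T ρ l * |y l| := by
    refine (mul_le_mul_of_nonneg_left (abs_sum_le_sum_abs _ _) hw).trans ?_
    rw [mul_sum, sum_mul]
    refine sum_le_sum fun i hi => ?_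
    refine (mul_le_mul_of_nonneg_left (abs_sum_le_sum_abs _ _) hw).trans ?_
    rw [mul_sum, sum_mul]
    refine sum_le_sum fun a ha => ?_
    rw [abs_mul, abs_of_nonneg (by positivity), mul_left_comm, mul_assoc (_ * _)]
    refine mul_le_mul_of_nonneg_left (h.term hB hC ih (mem_range.1 hi) ?_) (by positivity)
    have := mem_range.1 hi
    have := mem_range.1 ha
    omega
  generalize (∑ i ∈ range (n + 1), ∑ a ∈ range (n + 1 - i + 1),
      ((n + 1).choose i * (n + 1 - i).choose a : ℝ) *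
        ((g a + if a = n + 1 then 0 else x * z a) * g (n + 1 - i - a) * y i)) = R at e hR
  have hg : 0 < g 0 := lt_of_lt_of_le (by positivity) h.g1
  have hG : 0 < g 0 + x * z 0 := lt_of_lt_of_le (by positivity) h.G1
  have h1 : 1 ≤ B * g 0 := by
    have := h.g1
    rwa [div_le_iff₀' (by linarith)] at this
  have h2 : g 0 * (z (n + 1) + (g 0 + x * z 0) * (g 0 + x * z 0) * y (n + 1)) =
      -((g 0 + x * z 0) * R) := by
    linear_combination (g 0 + x * z 0) * e - x * z (n + 1) * h.leib0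
  have h3 : |z (n + 1) + (g 0 + x * z 0) * (g 0 + x * z 0) * y (n + 1)| ≤ 2 * B * B * |R| := by
    have h4 := congrArg abs h2
    rw [abs_mul, abs_neg, abs_mul, abs_of_pos hg, abs_of_pos hG] at h4
    calc _ ≤ B * g 0 * |z (n + 1) + (g 0 + x * z 0) * (g 0 + x * z 0) * y (n + 1)| :=
          le_mul_of_one_le_left (abs_nonneg _) h1
      _ = B * ((g 0 + x * z 0) * |R|) := by rw [mul_assoc, h4]
      _ ≤ B * (2 * B * |R|) := by gcongr; exact h.G2
      _ = _ := by ring
  rw [if_neg n.succ_ne_zero, mul_assoc (2 * B * B)]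
  calc _ ≤ om q T ρ (n + 1) * (2 * B * B * |R|) := mul_le_mul_of_nonneg_left h3 hw
    _ = 2 * B * B * (om q T ρ (n + 1) * |R|) := by ring
    _ ≤ _ := mul_le_mul_of_nonneg_left hR (by positivity)

theorem step (hB : 1 ≤ B) {C : ℝ} (hC : 1 ≤ C) (ih : ∀ i < j, P B i C) : ∃ K : ℝ, P B j K := by
  obtain ⟨K, hK, h1⟩ := first hB hC ih
  refine ⟨K + 4 * B ^ 2 + B ^ 2 * (K * (j * C) + 1), fun q T ρ x g z y h => ?_⟩
  have h1 := h1 q T ρ x g z y h
  have hw := (om_pos q h.hT h.hρ j).le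
  have hB0 : 0 < B := by linarith
  have a1 : 1 / B ≤ (if j = 0 then g 0 else g 0 + x * z 0) ∧
      (if j = 0 then g 0 else g 0 + x * z 0) ≤ 2 * B := by
    split_ifs
    · exact ⟨h.g1, by linarith [h.g2]⟩
    · exact ⟨h.G1, h.G2⟩
  have a2 : 1 / B * (1 / B) ≤ (g 0 + x * z 0) * (if j = 0 then g 0 else g 0 + x * z 0) :=
    mul_le_mul h.G1 a1.1 (by positivity) (le_trans (by positivity) h.G1)
  have a3 : (g 0 + x * z 0) * (if j = 0 then g 0 else g 0 + x * z 0) ≤ 2 * B * (2 * B) :=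
    mul_le_mul h.G2 a1.2 (le_trans (by positivity) a1.1) (by positivity)
  generalize (g 0 + x * z 0) * (if j = 0 then g 0 else g 0 + x * z 0) = A at h1 a2 a3 ⊢
  have hA : 0 < A := lt_of_lt_of_le (by positivity) a2
  have a4 : 1 ≤ B ^ 2 * A := by
    rwa [div_mul_div_comm, one_mul, div_le_iff₀' (by positivity), ← sq] at a2
  have hy := h.sum_nonneg (range j) y
  have hz := h.sum_nonneg (range (j + 1)) z
  have hK' : 0 ≤ B ^ 2 * (K * (j * C) + 1) := by positivity
  refine ⟨h1.trans (mul_le_mul_of_nonneg_right (by nlinarith) hy), ?_, ?_⟩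
  · have b1 : ∑ i ∈ range j, om q T ρ i * |y i| ≤
        j * C * ∑ i ∈ range (j + 1), om q T ρ i * |z i| := by
      refine (sum_le_card_nsmul _ _ (C * ∑ i ∈ range (j + 1), om q T ρ i * |z i|)
        fun i hi => ?_).trans_eq (by rw [card_range, nsmul_eq_mul, mul_assoc])
      have hi := mem_range.1 hi
      exact (ih i hi q T ρ x g z y (h.mono hi.le)).2.1.trans
        (mul_le_mul_of_nonneg_left (h.sum_mono (by omega) z) (by linarith))
    have b2 : A * |y j| ≤ |z j + A * y j| + |z j| := by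
      have := abs_sub (z j + A * y j) (z j)
      rwa [add_sub_cancel_left, abs_mul, abs_of_pos hA] at this
    calc _ ≤ B ^ 2 * A * (om q T ρ j * |y j|) := le_mul_of_one_le_left (by positivity) a4
      _ = B ^ 2 * (om q T ρ j * (A * |y j|)) := by ring
      _ ≤ B ^ 2 * (om q T ρ j * (|z j + A * y j| + |z j|)) := by gcongr
      _ ≤ B ^ 2 * (K * (j * C * ∑ i ∈ range (j + 1), om q T ρ i * |z i|) +
          ∑ i ∈ range (j + 1), om q T ρ i * |z i|) := by
          rw [mul_add (om q T ρ j)]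
          exact mul_le_mul_of_nonneg_left (add_le_add
            (h1.trans (mul_le_mul_of_nonneg_left b1 hK)) (h.single j.lt_succ_self z)) (by positivity)
      _ = B ^ 2 * (K * (j * C) + 1) * ∑ i ∈ range (j + 1), om q T ρ i * |z i| := by ring
      _ ≤ _ := mul_le_mul_of_nonneg_right (by nlinarith) hz
  · have b2 : |z j| ≤ |z j + A * y j| + A * |y j| := by
      have := abs_sub (z j + A * y j) (A * y j)
      rwa [add_sub_cancel_right, abs_mul, abs_of_pos hA] at this
    have b3 := h.sum_nonneg (range (j + 1)) y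
    calc _ ≤ om q T ρ j * (|z j + A * y j| + 2 * B * (2 * B) * |y j|) := by
          refine mul_le_mul_of_nonneg_left (b2.trans ?_) hw
          gcongr
      _ = om q T ρ j * |z j + A * y j| + 4 * B ^ 2 * (om q T ρ j * |y j|) := by ring
      _ ≤ K * ∑ i ∈ range (j + 1), om q T ρ i * |y i| +
          4 * B ^ 2 * ∑ i ∈ range (j + 1), om q T ρ i * |y i| :=
          add_le_add (h1.trans (mul_le_mul_of_nonneg_left (h.sum_mono j.le_succ y) hK))
            (mul_le_mul_of_nonneg_left (h.single j.lt_succ_self y) (by positivity))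
      _ = (K + 4 * B ^ 2) * ∑ i ∈ range (j + 1), om q T ρ i * |y i| := by ring
      _ ≤ _ := mul_le_mul_of_nonneg_right (by linarith) b3

theorem all (hB : 1 ≤ B) (j : ℕ) : ∃ C : ℝ, 1 ≤ C ∧ ∀ i < j, P B i C := by
  induction j with
  | zero => exact ⟨1, le_rfl, fun i hi => absurd hi (Nat.not_lt_zero i)⟩
  | succ j ih =>
    obtain ⟨C, hC, h⟩ := ih
    obtain ⟨K, hK⟩ := step hB hC h
    refine ⟨max C K, hC.trans (le_max_left _ _), fun i hi => ?_⟩
    rcases (Nat.lt_succ_iff.1 hi).lt_or_eq with h1 | rfl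
    · exact (h i h1).mono (le_max_left _ _)
    · exact hK.mono (le_max_right _ _)

end Crest.Agent.R213.AlgA
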