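import Crest.Agent.R213.Defs

/-!
# Row 213: scalar differential inequalities
-/

set_option autoImplicit false

noncomputable section

namespace Crest.Agent.R213.AlgB

open Set Filter Topology

theorem le_of_deriv {F F' : ℝ → ℝ} {a b : ℝ} (hab : a ≤ b)
    (hd : ∀ t ∈ Icc a b, HasDerivAt F (F' t) t) (h : ∀ t ∈ Icc a b, F' t ≤ 0) : F b ≤ F a := by
  refine antitoneOn_of_deriv_nonpos (convex_Icc a b)
    (fun t ht => (hd t ht).continuousAt.continuousWithinAt)
    (fun t ht => (hd t (interior_subset ht)).differentiableAt.differentiableWithinAt)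
    (fun t ht => ?_) (left_mem_Icc.2 hab) (right_mem_Icc.2 hab) hab
  rw [(hd t (interior_subset ht)).deriv]
  exact h t (interior_subset ht)

theorem ode_le {u u' : ℝ → ℝ} {a b α σ M : ℝ} (hab : a ≤ b) (hb : b < 0) (hασ : α ≠ σ)
    (hd : ∀ t ∈ Icc a b, HasDerivAt u (u' t) t)
    (h : ∀ t ∈ Icc a b, -t * u' t ≤ -α * u t + M * (-t) ^ σ) :
    u b - M / (α - σ) * (-b) ^ σ ≤ (-b / -a) ^ α * (u a - M / (α - σ) * (-a) ^ σ) := by
  have hne : α - σ ≠ 0 := sub_ne_zero.2 hασ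
  have key := le_of_deriv (F := fun t => (u t - M / (α - σ) * (-t) ^ σ) * (-t) ^ (-α))
    (F' := fun t => (-t) ^ (-α - 1) * (-t * u' t - (-α * u t + M * (-t) ^ σ))) hab
    (fun t ht => ?_) (fun t ht => mul_nonpos_of_nonneg_of_nonpos
      (Real.rpow_nonneg (by linarith [ht.2]) _) (sub_nonpos.2 (h t ht)))
  · have hb' : 0 < -b := by linarith
    have ha' : 0 < -a := by linarith
    have h1 : 0 < (-b) ^ α := Real.rpow_pos_of_pos hb' _
    have h2 : 0 < (-a) ^ α := Real.rpow_pos_of_pos ha' _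
    simp only [Real.rpow_neg hb'.le, Real.rpow_neg ha'.le] at key
    rw [Real.div_rpow hb'.le ha'.le]
    rw [← div_eq_mul_inv, div_le_iff₀ h1] at key
    refine key.trans_eq ?_
    field_simp
  · have ht' : 0 < -t := by linarith [ht.2]
    have h1 : HasDerivAt (fun s : ℝ => -s) (-1) t := (hasDerivAt_id t).neg
    have h2 := h1.rpow_const (p := σ) (Or.inl ht'.ne')
    have h3 := h1.rpow_const (p := -α) (Or.inl ht'.ne')
    refine (((hd t ht).sub (h2.const_mul (M / (α - σ)))).mul h3).congr_deriv ?_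
    have e1 : (-t) ^ (-α) = (-t) ^ (-α - 1) * (-t) := by
      rw [Real.rpow_sub_one ht'.ne', div_mul_cancel₀ _ ht'.ne']
    have e2 : (-t) ^ σ = (-t) ^ (σ - 1) * (-t) := by
      rw [Real.rpow_sub_one ht'.ne', div_mul_cancel₀ _ ht'.ne']
    simp only [Pi.sub_apply]
    rw [e1, e2]
    field_simp
    ring

theorem gron_le {u u' : ℝ → ℝ} {a b K M : ℝ} (hab : a ≤ b) (hK : 0 < K) (hM : 0 ≤ M)
    (hd : ∀ t ∈ Icc a b, HasDerivAt u (u' t) t) (h : ∀ t ∈ Icc a b, u' t ≤ K * u t + M) :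
    u b ≤ (u a + M / K) * Real.exp (K * (b - a)) := by
  have key := le_of_deriv (F := fun t => (u t + M / K) * Real.exp (K * (b - t)))
    (F' := fun t => (u' t - (K * u t + M)) * Real.exp (K * (b - t))) hab
    (fun t ht => ?_) (fun t ht => mul_nonpos_of_nonpos_of_nonneg (sub_nonpos.2 (h t ht))
      (Real.exp_pos _).le)
  · simp only [sub_self, mul_zero, Real.exp_zero, mul_one] at key
    have : 0 ≤ M / K := div_nonneg hM hK.le
    linarith
  · have h1 : HasDerivAt (fun s : ℝ => K * (b - s)) (K * (-1)) t :=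
      ((hasDerivAt_id t).const_sub b).const_mul K
    refine (((hd t ht).add_const (M / K)).mul h1.exp).congr_deriv ?_
    field_simp
    ring

theorem damp_one {u u' c r : ℝ → ℝ} {a b ϵ c0 M : ℝ} (hϵ : 0 ≤ ϵ) (hc0 : 0 < c0) (hM : 0 ≤ M)
    (hd : ∀ t ∈ Ico a b, HasDerivAt u (u' t) t) (h0 : u a = 0)
    (h : ∀ t ∈ Ico a b, ϵ * u' t + c t * u t = r t ∧ c0 ≤ c t ∧ r t ≤ M) :
    ∀ t ∈ Ico a b, u t ≤ M / c0 := by
  intro t ht
  have hsub : Icc a t ⊆ Ico a b := Icc_subset_Ico_right ht.2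
  have hq : 0 ≤ M / c0 := div_nonneg hM hc0.le
  refine le_of_forall_pos_le_add fun δ hδ => ?_
  refine image_le_of_deriv_right_lt_deriv_boundary (f' := u') (B := fun _ => M / c0 + δ)
    (B' := fun _ => 0) (fun s hs => (hd s (hsub hs)).continuousAt.continuousWithinAt)
    (fun s hs => (hd s (hsub (Ico_subset_Icc_self hs))).hasDerivWithinAt)
    (by rw [h0]; linarith) (fun s => hasDerivAt_const _ _) (fun s hs e => ?_)
    (right_mem_Icc.2 ht.1)
  obtain ⟨h1, h2, h3⟩ := h s (hsub (Ico_subset_Icc_self hs))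
  by_contra hn
  have h4 := mul_nonneg hϵ (not_lt.1 hn)
  have h5 : c0 * u s ≤ c s * u s := mul_le_mul_of_nonneg_right h2 (by rw [e]; linarith)
  have h6 : c0 * u s = M + c0 * δ := by
    rw [e]
    field_simp
  have h7 := mul_pos hc0 hδ
  linarith

theorem damp_le {u u' c r : ℝ → ℝ} {a b ϵ c0 M : ℝ} (hϵ : 0 ≤ ϵ) (hc0 : 0 < c0) (hM : 0 ≤ M)
    (hd : ∀ t ∈ Ico a b, HasDerivAt u (u' t) t) (h0 : u a = 0)
    (h : ∀ t ∈ Ico a b, ϵ * u' t + c t * u t = r t ∧ c0 ≤ c t ∧ |r t| ≤ M) :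
    ∀ t ∈ Ico a b, |u t| ≤ M / c0 := by
  intro t ht
  have h1 := damp_one hϵ hc0 hM hd h0
    (fun s hs => ⟨(h s hs).1, (h s hs).2.1, (abs_le.1 (h s hs).2.2).2⟩) t ht
  have h2 := damp_one (u := fun s => -u s) (u' := fun s => -u' s) (c := c) (r := fun s => -r s)
    hϵ hc0 hM (fun s hs => (hd s hs).neg) (by simp only [h0, neg_zero])
    (fun s hs => ⟨by linarith [(h s hs).1], (h s hs).2.1,
      by linarith [(abs_le.1 (h s hs).2.2).1]⟩) t ht
  exact abs_le.2 ⟨by linarith, h1⟩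

theorem hier (J : ℕ) {c C : ℝ} (hc : 0 < c) (hC : 0 ≤ C) : ∃ δ, 0 < δ ∧ δ ≤ 1 ∧
    ∀ (E' D R : ℕ → ℝ), (∀ j ≤ J, 0 ≤ D j) →
      (∀ j ≤ J, E' j ≤ -c * D j + C * ∑ i ∈ Finset.range j, D i + R j) →
      ∑ j ∈ Finset.range (J + 1), δ ^ j * E' j ≤ ∑ j ∈ Finset.range (J + 1), δ ^ j * R j := by
  obtain ⟨δ, h0, h1, h2⟩ : ∃ δ : ℝ, 0 < δ ∧ δ ≤ 1 / 2 ∧ 2 * C * δ ≤ c := by
    refine ⟨min (1 / 2) (c / (2 * C + 1)), lt_min (by norm_num) (by positivity), min_le_left _ _,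
      (mul_le_mul_of_nonneg_left (min_le_right _ _) (by positivity)).trans ?_⟩
    rw [← mul_div_assoc, div_le_iff₀ (by positivity)]
    nlinarith
  refine ⟨δ, h0, by linarith, fun E' D R hD hE => ?_⟩
  have hS : ∀ n ≤ J + 1, 0 ≤ ∑ i ∈ Finset.range n, D i := fun n hn =>
    Finset.sum_nonneg fun i hi => hD i (by have := Finset.mem_range.1 hi; omega)
  have key : ∀ n ≤ J + 1, ∑ j ∈ Finset.range n, δ ^ j * E' j +
      2 * C * δ ^ n * ∑ i ∈ Finset.range n, D i ≤ ∑ j ∈ Finset.range n, δ ^ j * R j := by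
    intro n
    induction n with
    | zero => simp
    | succ n ih =>
      intro hn
      have h3 := ih (by omega)
      have h4 := mul_le_mul_of_nonneg_left (hE n (by omega)) (pow_pos h0 n).le
      have h5 := mul_nonneg (mul_nonneg (pow_pos h0 n).le (hD n (by omega))) (sub_nonneg.2 h2)
      have h6 := mul_nonneg (mul_nonneg (mul_nonneg (pow_pos h0 n).le hC) (hS n (by omega)))
        (sub_nonneg.2 h1)
      simp only [Finset.sum_range_succ, pow_succ]
      nlinarith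
  have h3 := key _ le_rfl
  have h4 := mul_nonneg (mul_nonneg (mul_nonneg zero_le_two hC) (pow_pos h0 (J + 1)).le)
    (hS _ le_rfl)
  linarith

end Crest.Agent.R213.AlgB
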