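import Crest.Agent.R213.Defs
import Crest.Agent.R213.AlgA
import Crest.Agent.R213.AlgB

/-!
# Row 213: the algebraic lemma and scalar differential inequalities
-/

set_option autoImplicit false

noncomputable section

namespace Crest.Agent.R213

open Set Filter Topology
open scoped ContDiff

theorem om_pos (q : Bool) {T ρ : ℝ} (hT : 0 < T) (h : T ≤ ρ) (j : ℕ) : 0 < om q T ρ j :=
  AlgA.om_pos q hT h j

theorem om_add_le (q : Bool) {T ρ : ℝ} (hT : 0 < T) (h : T ≤ ρ) (i j : ℕ) :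
    om q T ρ (i + j) ≤ om q T ρ i * om q T ρ j :=
  AlgA.om_add_le q hT h i j

theorem om_false (T ρ : ℝ) (j : ℕ) : om false T ρ j = T ^ j :=
  AlgA.om_false T ρ j

theorem om_false_le (q : Bool) {T ρ : ℝ} (hT : 0 < T) (h : T ≤ ρ) (j : ℕ) :
    T ^ j ≤ om q T ρ j ∧ om q T ρ j ≤ om true T ρ j :=
  AlgA.om_false_le q hT h j

theorem om_succ (q : Bool) {T ρ : ℝ} (hT : 0 < T) (h : T ≤ ρ) (j : ℕ) :
    T * om q T ρ j ≤ om q T ρ (j + 1) ∧ om q T ρ (j + 1) ≤ ρ * om q T ρ j :=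
  AlgA.om_succ q hT h j

/-- The differentiated nonlinear relation: `z j = -Γ ^ 2 y j +` lower order terms
(for `j = 0` the coefficient is `Γ * g 0`). -/
theorem alg (j : ℕ) (B : ℝ) (hB : 1 ≤ B) : ∃ C, 1 ≤ C ∧
    ∀ (q : Bool) (T ρ x : ℝ) (g z y : ℕ → ℝ), 0 < T → T ≤ ρ → (∀ l ≤ j, Leib x g z y l) →
      1 / B ≤ g 0 → g 0 ≤ B → 1 / B ≤ g 0 + x * z 0 →
      (∀ c, 1 ≤ c → c ≤ j → om q T ρ c * |g c| ≤ B) → (∀ a, 2 * a ≤ j → T ^ a * |x * z a| ≤ B) →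
      om q T ρ j * |z j + (g 0 + x * z 0) * (if j = 0 then g 0 else g 0 + x * z 0) * y j| ≤
          C * ∑ i ∈ Finset.range j, om q T ρ i * |y i| ∧
        om q T ρ j * |y j| ≤ C * ∑ i ∈ Finset.range (j + 1), om q T ρ i * |z i| ∧
        om q T ρ j * |z j| ≤ C * ∑ i ∈ Finset.range (j + 1), om q T ρ i * |y i| := by
  obtain ⟨C, hC, h⟩ := AlgA.all hB (j + 1)
  exact ⟨C, hC, fun q T ρ x g z y h1 h2 h3 h4 h5 h6 h7 h8 =>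
    h j j.lt_succ_self q T ρ x g z y ⟨h1, h2, h3, h4, h5, h6, h7, h8⟩⟩

/-- Comparison for `(-t) u' ≤ -α u + M (-t) ^ σ`. -/
theorem ode_le {u u' : ℝ → ℝ} {a b α σ M : ℝ} (hab : a ≤ b) (hb : b < 0) (hασ : α ≠ σ)
    (hd : ∀ t ∈ Icc a b, HasDerivAt u (u' t) t)
    (h : ∀ t ∈ Icc a b, -t * u' t ≤ -α * u t + M * (-t) ^ σ) :
    u b - M / (α - σ) * (-b) ^ σ ≤ (-b / -a) ^ α * (u a - M / (α - σ) * (-a) ^ σ) :=
  AlgB.ode_le hab hb hασ hd h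

/-- Gronwall: `u' ≤ K u + M`. -/
theorem gron_le {u u' : ℝ → ℝ} {a b K M : ℝ} (hab : a ≤ b) (hK : 0 < K) (hM : 0 ≤ M)
    (hd : ∀ t ∈ Icc a b, HasDerivAt u (u' t) t) (h : ∀ t ∈ Icc a b, u' t ≤ K * u t + M) :
    u b ≤ (u a + M / K) * Real.exp (K * (b - a)) :=
  AlgB.gron_le hab hK hM hd h

/-- Damping: `ϵ u' + c u = r` with `c ≥ c0 > 0`. -/
theorem damp_le {u u' c r : ℝ → ℝ} {a b ϵ c0 M : ℝ} (hϵ : 0 ≤ ϵ) (hc0 : 0 < c0) (hM : 0 ≤ M)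
    (hd : ∀ t ∈ Ico a b, HasDerivAt u (u' t) t) (h0 : u a = 0)
    (h : ∀ t ∈ Ico a b, ϵ * u' t + c t * u t = r t ∧ c0 ≤ c t ∧ |r t| ≤ M) :
    ∀ t ∈ Ico a b, |u t| ≤ M / c0 :=
  AlgB.damp_le hϵ hc0 hM hd h0 h

/-- Summation of a triangular hierarchy: a choice of small weights removes the dissipation terms. -/
theorem hier (J : ℕ) {c C : ℝ} (hc : 0 < c) (hC : 0 ≤ C) : ∃ δ, 0 < δ ∧ δ ≤ 1 ∧
    ∀ (E' D R : ℕ → ℝ), (∀ j ≤ J, 0 ≤ D j) →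
      (∀ j ≤ J, E' j ≤ -c * D j + C * ∑ i ∈ Finset.range j, D i + R j) →
      ∑ j ∈ Finset.range (J + 1), δ ^ j * E' j ≤ ∑ j ∈ Finset.range (J + 1), δ ^ j * R j :=
  AlgB.hier J hc hC

end Crest.Agent.R213
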