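import Crest.Agent.R213.Defs

/-!
# Row 213: the linear estimate at infinity, auxiliary lemmas
-/

set_option autoImplicit false

noncomputable section

namespace Crest.Agent.R213

open Set Filter Topology

theorem TLA_mono {F F' : ℝ → ℝ} {Y : ℝ} (h : ∀ y, Y ≤ y → HasDerivAt F (F' y) y)
    (h' : ∀ y, Y ≤ y → 0 ≤ F' y) : MonotoneOn F (Ici Y) :=
  monotoneOn_of_deriv_nonneg (convex_Ici Y) (fun y hy => (h y hy).continuousAt.continuousWithinAt)
    (fun y hy => (h y (interior_subset hy)).differentiableAt.differentiableWithinAt)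
    fun y hy => (h y (interior_subset hy)).deriv ▸ h' y (interior_subset hy)

theorem TLA_exp (c y : ℝ) :
    HasDerivAt (fun y : ℝ => Real.exp (c * y ^ 2)) (Real.exp (c * y ^ 2) * (c * (2 * y))) y := by
  simpa using ((hasDerivAt_pow 2 y).const_mul c).exp

/-- The abstract dichotomy estimate. -/
theorem TLA_abs {A B C e₁ e₂ e₃ : ℝ → ℝ} {Y M K : ℝ} {N : ℕ} (hY : 1 ≤ Y)
    (hA : ∀ y, Y ≤ y → HasDerivAt A (3 * y * (B y + e₁ y)) y)
    (hB : ∀ y, Y ≤ y → HasDerivAt B (3 * y * (-C y + e₂ y)) y)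
    (hC : ∀ y, Y ≤ y → HasDerivAt C (3 * y * (A y + e₃ y)) y)
    (he : ∀ y, Y ≤ y → e₁ y ^ 2 + e₂ y ^ 2 + e₃ y ^ 2 ≤
      (A y ^ 2 + B y ^ 2 + C y ^ 2) / 170 + M)
    (hp : ∀ y, Y ≤ y → A y ^ 2 + B y ^ 2 + C y ^ 2 ≤ K * y ^ N) (hM : 0 ≤ M) :
    ∃ K', ∀ y, Y ≤ y → A y ^ 2 + B y ^ 2 + C y ^ 2 ≤ K' := by
  have hs : ∀ y, Y ≤ y → HasDerivAt (fun y => (A y - B y - C y) ^ 2)
      (2 * (A y - B y - C y) * (3 * y * (-(A y - B y - C y) + (e₁ y - e₂ y - e₃ y)))) y :=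
    fun y hy => by
      have := (((hA y hy).fun_sub (hB y hy)).fun_sub (hC y hy)).fun_pow 2
      refine this.congr_deriv ?_
      simp only [Nat.cast_ofNat, Nat.add_one_sub_one, pow_one]
      ring
  have hV : ∀ y, Y ≤ y →
      A y ^ 2 + B y ^ 2 + C y ^ 2 - 2 / 3 * (A y - B y - C y) ^ 2 - 78 * M ≤ 0 := by
    have hm := TLA_mono (Y := Y) (F := fun y => (A y ^ 2 + B y ^ 2 + C y ^ 2 -
        2 / 3 * (A y - B y - C y) ^ 2 - 78 * M) * Real.exp (-(3 / 4) * y ^ 2))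
      (fun y hy => (((((((hA y hy).fun_pow 2).fun_add ((hB y hy).fun_pow 2)).fun_add
        ((hC y hy).fun_pow 2)).fun_sub ((hs y hy).const_mul (2 / 3))).sub_const (78 * M)).fun_mul
          (TLA_exp (-(3 / 4)) y))) fun y hy => by
      have h1 := he y hy
      simp only [Nat.cast_ofNat, Nat.add_one_sub_one, pow_one]
      generalize A y = a, B y = b, C y = c, e₁ y = u, e₂ y = v, e₃ y = w at h1 ⊢
      have h2 : 0 ≤ 2 * a * (b + u) + 2 * b * (-c + v) + 2 * c * (a + w) -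
          2 / 3 * (2 * (a - b - c) * (-(a - b - c) + (u - v - w))) -
          1 / 2 * (a ^ 2 + b ^ 2 + c ^ 2 - 2 / 3 * (a - b - c) ^ 2 - 78 * M) := by
        nlinarith [sq_nonneg (a + 13 * u), sq_nonneg (b + 13 * v), sq_nonneg (c + 13 * w),
          sq_nonneg (a - b - c - 13 * (u - v - w)), sq_nonneg (u + v), sq_nonneg (u + w),
          sq_nonneg (v - w), sq_nonneg (a - b - c), sq_nonneg a, sq_nonneg b, sq_nonneg c]
      have h3 : 0 ≤ 3 * y * Real.exp (-(3 / 4) * y ^ 2) :=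
        mul_nonneg (by linarith) (Real.exp_pos _).le
      exact (mul_nonneg h3 h2).trans_eq (by ring)
    intro y hy
    have ht : Tendsto (fun z : ℝ => K * (z ^ N * Real.exp (-z))) atTop (𝓝 0) := by
      simpa using (Real.tendsto_pow_mul_exp_neg_atTop_nhds_zero N).const_mul K
    have hK : 0 ≤ K := by
      have h1 : 0 ≤ K * Y ^ N := le_trans (by positivity) (hp Y le_rfl)
      exact nonneg_of_mul_nonneg_left h1 (by positivity)
    have h0 := ge_of_tendsto ht (b := (A y ^ 2 + B y ^ 2 + C y ^ 2 -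
        2 / 3 * (A y - B y - C y) ^ 2 - 78 * M) * Real.exp (-(3 / 4) * y ^ 2)) (by
      filter_upwards [eventually_ge_atTop y, eventually_ge_atTop 2] with z hz hz2
      refine (hm hy (hy.trans hz) hz).trans ?_
      have h1 := hp z (hy.trans hz)
      have h2 : Real.exp (-(3 / 4) * z ^ 2) ≤ Real.exp (-z) := Real.exp_le_exp.2 (by nlinarith)
      calc _ ≤ K * z ^ N * Real.exp (-(3 / 4) * z ^ 2) :=
            mul_le_mul_of_nonneg_right (by nlinarith [sq_nonneg (A z - B z - C z)])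
              (Real.exp_pos _).le
        _ ≤ K * z ^ N * Real.exp (-z) := mul_le_mul_of_nonneg_left h2 (by positivity)
        _ = _ := by ring)
    exact nonpos_of_mul_nonpos_left h0 (Real.exp_pos _)
  have hm := TLA_mono (Y := Y)
    (F := fun y => (10 * M - (A y - B y - C y) ^ 2) * Real.exp (3 / 4 * y ^ 2))
    (fun y hy => ((hs y hy).const_sub (10 * M)).fun_mul (TLA_exp (3 / 4) y)) fun y hy => by
      have h1 := he y hy
      have h4 := hV y hy
      generalize A y = a, B y = b, C y = c, e₁ y = u, e₂ y = v, e₃ y = w at h1 h4 ⊢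
      have h2 : 0 ≤ -(2 * (a - b - c) * (-(a - b - c) + (u - v - w))) +
          1 / 2 * (10 * M - (a - b - c) ^ 2) := by
        nlinarith [sq_nonneg (a - b - c - (u - v - w)), sq_nonneg (u + v), sq_nonneg (u + w),
          sq_nonneg (v - w), sq_nonneg (a - b - c)]
      have h3 : 0 ≤ 3 * y * Real.exp (3 / 4 * y ^ 2) :=
        mul_nonneg (by linarith) (Real.exp_pos _).le
      exact (mul_nonneg h3 h2).trans_eq (by ring)
  refine ⟨2 / 3 * (10 * M + (A Y - B Y - C Y) ^ 2) + 78 * M, fun y hy => ?_⟩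
  have h1 : (10 * M - (A Y - B Y - C Y) ^ 2) * Real.exp (3 / 4 * Y ^ 2) ≤
      (10 * M - (A y - B y - C y) ^ 2) * Real.exp (3 / 4 * y ^ 2) := hm self_mem_Ici hy hy
  have h2 : Real.exp (3 / 4 * Y ^ 2) ≤ Real.exp (3 / 4 * y ^ 2) :=
    Real.exp_le_exp.2 (by nlinarith)
  have h3 : -(A Y - B Y - C Y) ^ 2 ≤ 10 * M - (A y - B y - C y) ^ 2 := by
    refine le_of_mul_le_mul_right (le_trans ?_ h1) (Real.exp_pos _)
    nlinarith [mul_le_mul_of_nonneg_left h2 (sq_nonneg (A Y - B Y - C Y)),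
      mul_nonneg hM (Real.exp_pos (3 / 4 * Y ^ 2)).le]
  linarith [hV y hy]

theorem TLA_err {a b c h α β γ κ η M : ℝ} (hα : |α| ≤ 1 / 100) (hβ : |β| ≤ 1 / 100)
    (hγ : |γ| ≤ 1 / 100) (hη : |η| ≤ 1 / 100) (hκ : |κ| ≤ 1 / 20) (hh : |h| ≤ M) :
    (α * a) ^ 2 + (β * b - γ * a) ^ 2 + (κ * a + h + η * c) ^ 2 ≤
      (a ^ 2 + b ^ 2 + c ^ 2) / 170 + 2 * M ^ 2 := by
  have key : ∀ {s t x : ℝ}, |s| ≤ t → (s * x) ^ 2 ≤ t ^ 2 * x ^ 2 := fun {s t x} hs => by
    rw [mul_pow]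
    exact mul_le_mul_of_nonneg_right (sq_le_sq' (abs_le.1 hs).1 (abs_le.1 hs).2) (sq_nonneg _)
  have h1 := key (x := a) hα
  have h2 := key (x := b) hβ
  have h3 := key (x := a) hγ
  have h4 := key (x := c) hη
  have h5 := key (x := a) hκ
  have h6 : h ^ 2 ≤ M ^ 2 := sq_le_sq' (abs_le.1 hh).1 (abs_le.1 hh).2
  generalize α * a = x₁, β * b = x₂, γ * a = x₃, η * c = x₄, κ * a = x₅ at *
  nlinarith [sq_nonneg (x₂ + x₃), sq_nonneg (x₅ + x₄ - h), sq_nonneg (x₅ - 10 * x₄), sq_nonneg a,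
    sq_nonneg b, sq_nonneg c]

end Crest.Agent.R213
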