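import Crest.Agent.R213.Defs
import Crest.Agent.R213.TLA

/-!
# Row 213: the linear estimate at infinity
-/

set_option autoImplicit false

noncomputable section

namespace Crest.Agent.R213

open Set Filter Topology
open scoped ContDiff

/-- Polynomially bounded solutions decay like the forcing. -/
theorem tail_decay {G q R k f : ℝ → ℝ} {X M : ℝ} {m p : ℕ} (hX : 1 ≤ X)
    (hG : ∀ x, X ≤ x → HasDerivAt G (q x / x) x)
    (hq : ∀ x, X ≤ x → HasDerivAt q ((-19 * q x - 90 * G x - R x) / x) x)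
    (hR : ∀ x, X ≤ x → HasDerivAt R ((R x + x ^ 2 * (k x * G x + f x)) / x) x)
    (hk : ∀ x, X ≤ x → |k x - 1| ≤ 1 / 20) (hf : ∀ x, X ≤ x → x ^ m * |f x| ≤ M)
    (hp : ∀ x, X ≤ x → |G x| ≤ M * x ^ p ∧ |q x| ≤ M * x ^ p ∧ |R x| ≤ M * x ^ p) :
    ∃ C, ∀ x, X ≤ x → x ^ m * |G x| ≤ C * x ^ 2 ∧ x ^ m * |q x| ≤ C * x ^ 2 ∧
      x ^ m * |R x| ≤ C * x ^ 2 := by
  obtain ⟨Y, hY1, hY2⟩ : ∃ Y : ℝ, X ≤ Y ∧ 100 * ((m : ℝ) + 90) ≤ Y :=
    ⟨_, le_max_left _ _, le_max_right _ _⟩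
  have hY : 1 ≤ Y := hX.trans hY1
  have hM : 0 ≤ M := le_trans (by positivity) (hf X le_rfl)
  have h3 : ∀ y, Y ≤ y → X ≤ y ^ 3 := fun y hy =>
    hY1.trans (hy.trans (le_self_pow₀ (hY.trans hy) (by norm_num)))
  have hc : ∀ y : ℝ, HasDerivAt (fun y : ℝ => y ^ 3) (3 * y ^ 2) y := fun y => by
    simpa using hasDerivAt_pow 3 y
  have hcomp : ∀ {F : ℝ → ℝ} {F' : ℝ} (y : ℝ), HasDerivAt F F' (y ^ 3) →
      HasDerivAt (fun y => F (y ^ 3)) (F' * (3 * y ^ 2)) y := fun y h =>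
    HasDerivAt.comp (h := fun y : ℝ => y ^ 3) y h (hc y)
  have hm : ∀ y, Y ≤ y → HasDerivAt (fun y : ℝ => (y ^ 3) ^ m) (3 * m * (y ^ 3) ^ m / y) y :=
    fun y hy => by
      have hy0 : y ≠ 0 := by linarith
      refine ((hc y).fun_pow m).congr_deriv ?_
      rcases m with _ | m
      · simp
      · rw [Nat.add_sub_cancel, pow_succ (y ^ 3) m]; field_simp
  obtain ⟨K, hK⟩ := TLA_abs (A := fun y => (y ^ 3) ^ m * G (y ^ 3))
    (B := fun y => (y ^ 3) ^ m * q (y ^ 3) / y ^ 2) (C := fun y => (y ^ 3) ^ m * R (y ^ 3) / y ^ 4)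
    (e₁ := fun y => m / y ^ 2 * ((y ^ 3) ^ m * G (y ^ 3)))
    (e₂ := fun y => (m - 59 / 3) / y ^ 2 * ((y ^ 3) ^ m * q (y ^ 3) / y ^ 2) -
      90 / y ^ 4 * ((y ^ 3) ^ m * G (y ^ 3)))
    (e₃ := fun y => (k (y ^ 3) - 1) * ((y ^ 3) ^ m * G (y ^ 3)) + (y ^ 3) ^ m * f (y ^ 3) +
      (m - 1 / 3) / y ^ 2 * ((y ^ 3) ^ m * R (y ^ 3) / y ^ 4))
    (Y := Y) (M := 2 * M ^ 2) (K := 3 * M ^ 2) (N := 6 * (m + p)) hY
    (fun y hy => by
      have hy0 : y ≠ 0 := by linarith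
      refine ((hm y hy).fun_mul (hcomp y (hG _ (h3 y hy)))).congr_deriv ?_
      field_simp
      ring)
    (fun y hy => by
      have hy0 : y ≠ 0 := by linarith
      refine (((hm y hy).fun_mul (hcomp y (hq _ (h3 y hy)))).fun_div (hasDerivAt_pow 2 y)
        (pow_ne_zero 2 hy0)).congr_deriv ?_
      simp only [Nat.cast_ofNat, Nat.add_one_sub_one]
      field_simp
      ring)
    (fun y hy => by
      have hy0 : y ≠ 0 := by linarith
      refine (((hm y hy).fun_mul (hcomp y (hR _ (h3 y hy)))).fun_div (hasDerivAt_pow 4 y)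
        (pow_ne_zero 4 hy0)).congr_deriv ?_
      simp only [Nat.cast_ofNat, Nat.add_one_sub_one]
      field_simp
      ring)
    (fun y hy => by
      have hy1 : 1 ≤ y := hY.trans hy
      have hm0 : (0 : ℝ) ≤ m := Nat.cast_nonneg m
      have key : ∀ (a : ℝ) (n : ℕ), n ≠ 0 → |a| ≤ m + 90 → |a / y ^ n| ≤ 1 / 100 :=
        fun a n hn ha => by
          rw [abs_div, abs_of_pos (show 0 < y ^ n by positivity), div_le_iff₀ (by positivity)]
          linarith [le_self_pow₀ hy1 hn]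
      refine TLA_err (key _ 2 two_ne_zero (abs_le.2 ⟨by linarith, by linarith⟩))
        (key _ 2 two_ne_zero (abs_le.2 ⟨by linarith, by linarith⟩))
        (key _ 4 four_ne_zero (abs_le.2 ⟨by linarith, by linarith⟩))
        (key _ 2 two_ne_zero (abs_le.2 ⟨by linarith, by linarith⟩)) (hk _ (h3 y hy)) ?_
      rw [abs_mul, abs_of_pos (show 0 < (y ^ 3) ^ m by positivity)]
      exact hf _ (h3 y hy))
    (fun y hy => by
      have hy1 : 1 ≤ y := hY.trans hy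
      have key : ∀ (a : ℝ) (n : ℕ), |a| ≤ M * (y ^ 3) ^ p →
          ((y ^ 3) ^ m * a / y ^ n) ^ 2 ≤ M ^ 2 * y ^ (6 * (m + p)) := fun a n ha => by
        have h1 : |(y ^ 3) ^ m * a / y ^ n| ≤ (y ^ 3) ^ m * (M * (y ^ 3) ^ p) := by
          rw [abs_div, abs_mul, abs_of_pos (show 0 < y ^ n by positivity),
            abs_of_pos (show 0 < (y ^ 3) ^ m by positivity)]
          exact (div_le_self (by positivity) (one_le_pow₀ hy1)).trans
            (mul_le_mul_of_nonneg_left ha (by positivity))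
        exact (sq_le_sq' (abs_le.1 h1).1 (abs_le.1 h1).2).trans_eq (by ring)
      have h1 := key _ 0 (hp _ (h3 y hy)).1
      rw [pow_zero, div_one] at h1
      linarith [key _ 2 (hp _ (h3 y hy)).2.1, key _ 4 (hp _ (h3 y hy)).2.2])
    (by positivity)
  have hK0 : 0 ≤ K := le_trans (by positivity) (hK Y le_rfl)
  have hY0 : 0 ≤ M * (Y ^ 3) ^ (m + p) := by positivity
  refine ⟨K + 1 + M * (Y ^ 3) ^ (m + p), fun x hx => ?_⟩
  have hx1 : 1 ≤ x := hX.trans hx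
  rcases le_total x (Y ^ 3) with hxY | hxY
  · have key : ∀ a : ℝ, |a| ≤ M * x ^ p →
        x ^ m * |a| ≤ (K + 1 + M * (Y ^ 3) ^ (m + p)) * x ^ 2 := fun a ha =>
      calc x ^ m * |a| ≤ x ^ m * (M * x ^ p) := by gcongr
        _ = M * x ^ (m + p) := by ring
        _ ≤ M * (Y ^ 3) ^ (m + p) := by gcongr
        _ ≤ K + 1 + M * (Y ^ 3) ^ (m + p) := by linarith
        _ ≤ _ := le_mul_of_one_le_right (by linarith) (one_le_pow₀ hx1)
    exact ⟨key _ (hp x hx).1, key _ (hp x hx).2.1, key _ (hp x hx).2.2⟩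
  · obtain ⟨y, hy0, rfl⟩ : ∃ y : ℝ, 0 ≤ y ∧ y ^ 3 = x :=
      ⟨x ^ ((3 : ℕ)⁻¹ : ℝ), by positivity, Real.rpow_inv_natCast_pow (by linarith) (by norm_num)⟩
    have hy : Y ≤ y := le_of_pow_le_pow_left₀ (by norm_num) hy0 hxY
    have hy1 : 1 ≤ y := hY.trans hy
    have key : ∀ (a : ℝ) (n : ℕ), n ≤ 6 → ((y ^ 3) ^ m * a / y ^ n) ^ 2 ≤ K →
        (y ^ 3) ^ m * |a| ≤ (K + 1 + M * (Y ^ 3) ^ (m + p)) * (y ^ 3) ^ 2 := fun a n hn ha => by
      have h1 : |(y ^ 3) ^ m * a / y ^ n| ≤ K + 1 := by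
        rw [← sq_abs] at ha
        nlinarith [sq_nonneg (|(y ^ 3) ^ m * a / y ^ n| - 1)]
      rw [abs_div, abs_mul, abs_of_pos (show 0 < y ^ n by positivity),
        abs_of_pos (show 0 < (y ^ 3) ^ m by positivity), div_le_iff₀ (by positivity)] at h1
      refine h1.trans (mul_le_mul (by linarith) ?_ (by positivity) (by linarith))
      rw [← pow_mul]
      exact pow_le_pow_right₀ hy1 hn
    have h1 := hK y hy
    have s1 := sq_nonneg ((y ^ 3) ^ m * G (y ^ 3))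
    have s2 := sq_nonneg ((y ^ 3) ^ m * q (y ^ 3) / y ^ 2)
    have s3 := sq_nonneg ((y ^ 3) ^ m * R (y ^ 3) / y ^ 4)
    exact ⟨key _ 0 (by norm_num) (by rw [pow_zero, div_one]; linarith),
      key _ 2 (by norm_num) (by linarith), key _ 4 (by norm_num) (by linarith)⟩

end Crest.Agent.R213
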