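import Crest.Agent.R213.B1
import Crest.Agent.R213.TL

/-!
# Row 213: formal solution at infinity and symbol estimates
-/

set_option autoImplicit false

noncomputable section

namespace Crest.Agent.R213.AsymA

open Set Filter Topology Polynomial Asymptotics
open scoped ContDiff

/-- The Euler operator in the variable `v = x ^ (-2)`. -/
def th (p : ℝ[X]) : ℝ[X] := -2 * X * derivative p

theorem th_add (p q : ℝ[X]) : th (p + q) = th p + th q := by simp [th]; ring

theorem dvd_th {n : ℕ} {p : ℝ[X]} (h : X ^ n ∣ p) : X ^ n ∣ th p := by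
  obtain ⟨q, rfl⟩ := h
  cases n with
  | zero => simp
  | succ n =>
    refine ⟨-2 * (((n + 1 : ℕ) : ℝ[X]) * q + X * derivative q), ?_⟩
    simp only [th, derivative_mul, derivative_X_pow, Nat.add_sub_cancel, map_natCast]
    ring

def rr (g : ℝ[X]) : ℝ[X] := 90 - (th (th g) + 19 * th g + 90 * g)

def EE (c : ℝ) (g : ℝ[X]) : ℝ[X] := X * (th (rr g) - rr g) * g - (C c * g - C (1 / 2))

theorem formal {c : ℝ} (hc : c ≠ 0) (K : ℕ) :
    ∃ g : ℝ[X], g.coeff 0 = 1 / (2 * c) ∧ X ^ (K + 1) ∣ EE c g := by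
  induction K with
  | zero =>
    refine ⟨C (1 / (2 * c)), by simp, ?_⟩
    rw [EE, ← C_mul, show c * (1 / (2 * c)) = 1 / 2 by field_simp, sub_self, sub_zero, zero_add,
      pow_one, mul_assoc]
    exact dvd_mul_right _ _
  | succ K ih =>
    obtain ⟨g, h0, W, hW⟩ := ih
    set δ : ℝ[X] := X ^ (K + 1) * C (W.coeff 0 / c) with hδ
    have d0 : X ^ (K + 1) ∣ δ := dvd_mul_right _ _
    have d1 : X ^ (K + 1) ∣ -(th (th δ) + 19 * th δ + 90 * δ) :=
      (((dvd_th (dvd_th d0)).add ((dvd_th d0).mul_left _)).add (d0.mul_left _)).neg_right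
    have e1 : rr (g + δ) = rr g + -(th (th δ) + 19 * th δ + 90 * δ) := by
      simp only [rr, th_add]; ring
    generalize -(th (th δ) + 19 * th δ + 90 * δ) = ρ at d1 e1
    refine ⟨g + δ, by simp [hδ, h0], ?_⟩
    have e2 : EE c (g + δ) = X ^ (K + 1) * (W - C (W.coeff 0)) +
        X * ((th ρ - ρ) * (g + δ) + (th (rr g) - rr g) * δ) := by
      have : C c * δ = X ^ (K + 1) * C (W.coeff 0) := by
        rw [hδ, mul_left_comm, ← C_mul, mul_div_cancel₀ _ hc]
      rw [mul_sub, ← hW, ← this, EE, EE, e1, th_add]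
      ring
    rw [e2]
    refine dvd_add ?_ ?_
    · rw [pow_succ]
      exact mul_dvd_mul_left _ X_dvd_sub_C
    · rw [pow_succ']
      exact mul_dvd_mul_left _ ((((dvd_th d1).sub d1).mul_right _).add (d0.mul_left _))

/-! ## Symbol classes -/

def Sig : ℕ → ℤ → (ℝ → ℝ) → Prop
  | 0, e, u => u =O[atTop] fun x : ℝ => x ^ e
  | n + 1, e, u => (u =O[atTop] fun x : ℝ => x ^ e) ∧
      ∃ v : ℝ → ℝ, (∀ᶠ x in atTop, HasDerivAt u (v x / x) x) ∧ Sig n e v

variable {n : ℕ} {e e' : ℤ} {u v : ℝ → ℝ}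

theorem Sig.bd (h : Sig n e u) : u =O[atTop] fun x : ℝ => x ^ e := by
  cases n with
  | zero => exact h
  | succ n => exact h.1

theorem Sig.pred (h : Sig (n + 1) e u) : Sig n e u := by
  induction n generalizing u with
  | zero => exact h.1
  | succ n ih =>
    obtain ⟨h1, v, h2, h3⟩ := h
    exact ⟨h1, v, h2, ih h3⟩

theorem zpow_O (h : e ≤ e') : (fun x : ℝ => x ^ e) =O[atTop] fun x : ℝ => x ^ e' := by
  refine IsBigO.of_bound' ?_
  filter_upwards [eventually_ge_atTop 1] with x hx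
  rw [Real.norm_of_nonneg (by positivity), Real.norm_of_nonneg (by positivity)]
  exact zpow_le_zpow_right₀ hx h

theorem Sig.mono (h : Sig n e u) (he : e ≤ e') : Sig n e' u := by
  induction n generalizing u with
  | zero => exact IsBigO.trans h (zpow_O he)
  | succ n ih =>
    obtain ⟨h1, v, h2, h3⟩ := h
    exact ⟨h1.trans (zpow_O he), v, h2, ih h3⟩

theorem ev_nhds {p : ℝ → Prop} (h : ∀ᶠ x in atTop, p x) : ∀ᶠ x in atTop, ∀ᶠ y in 𝓝 x, p y := by
  obtain ⟨a, ha⟩ := eventually_atTop.1 h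
  filter_upwards [eventually_gt_atTop a] with x hx
  filter_upwards [Ioi_mem_nhds hx] with y hy using ha y (le_of_lt hy)

theorem Sig.congr (h : Sig n e u) (huv : u =ᶠ[atTop] v) : Sig n e v := by
  cases n with
  | zero => exact IsBigO.congr' h huv EventuallyEq.rfl
  | succ n =>
    obtain ⟨h1, w, h2, h3⟩ := h
    refine ⟨h1.congr' huv EventuallyEq.rfl, w, ?_, h3⟩
    filter_upwards [h2, ev_nhds huv] with x a b using
      a.congr_of_eventuallyEq (EventuallyEq.symm b)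

theorem Sig.add (h : Sig n e u) (k : Sig n e v) : Sig n e fun x => u x + v x := by
  induction n generalizing u v with
  | zero => exact IsBigO.add h k
  | succ n ih =>
    obtain ⟨h1, u', h2, h3⟩ := h
    obtain ⟨k1, v', k2, k3⟩ := k
    refine ⟨h1.add k1, _, ?_, ih h3 k3⟩
    filter_upwards [h2, k2] with x a b using (a.add b).congr_deriv (add_div _ _ _).symm

theorem Sig.cmul (c : ℝ) (h : Sig n e u) : Sig n e fun x => c * u x := by
  induction n generalizing u with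
  | zero => exact IsBigO.const_mul_left h c
  | succ n ih =>
    obtain ⟨h1, u', h2, h3⟩ := h
    refine ⟨h1.const_mul_left c, _, ?_, ih h3⟩
    filter_upwards [h2] with x a using (a.const_mul c).congr_deriv (mul_div_assoc _ _ _).symm

theorem mul_O (h : u =O[atTop] fun x : ℝ => x ^ e) (k : v =O[atTop] fun x : ℝ => x ^ e') :
    (fun x => u x * v x) =O[atTop] fun x : ℝ => x ^ (e + e') := by
  refine (h.mul k).congr' EventuallyEq.rfl ?_
  filter_upwards [eventually_gt_atTop 0] with x hx using (zpow_add₀ hx.ne' _ _).symm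

theorem Sig.mul (h : Sig n e u) (k : Sig n e' v) : Sig n (e + e') fun x => u x * v x := by
  induction n generalizing u v with
  | zero => exact mul_O h k
  | succ n ih =>
    obtain ⟨h1, u', h2, h3⟩ := id h
    obtain ⟨k1, v', k2, k3⟩ := id k
    refine ⟨mul_O h1 k1, _, ?_, (ih h3 k.pred).add (ih h.pred k3)⟩
    filter_upwards [h2, k2] with x a b using (a.mul b).congr_deriv (by ring)

theorem Sig.inv {c : ℝ} (hc : 0 < c) (hl : ∀ᶠ x in atTop, c ≤ u x) (h : Sig n 0 u) :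
    Sig n 0 fun x => (u x)⁻¹ := by
  have h0 : (fun x => (u x)⁻¹) =O[atTop] fun x : ℝ => x ^ (0 : ℤ) := by
    refine IsBigO.of_bound c⁻¹ ?_
    filter_upwards [hl] with x hx
    rw [zpow_zero, norm_one, mul_one, Real.norm_of_nonneg (inv_nonneg.2 (hc.le.trans hx))]
    exact inv_anti₀ hc hx
  induction n with
  | zero => exact h0
  | succ n ih =>
    obtain ⟨-, u', h2, h3⟩ := id h
    have h4 := ih h.pred
    refine ⟨h0, _, ?_, ((h3.mul h4).mul h4).cmul (-1)⟩
    filter_upwards [h2, hl] with x a b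
    have : u x ≠ 0 := (hc.trans_le b).ne'
    exact (a.fun_inv this).congr_deriv (by field_simp)

theorem sig_sq (n : ℕ) : Sig n 2 fun x : ℝ => x ^ 2 := by
  have h0 : (fun x : ℝ => x ^ 2) =O[atTop] fun x : ℝ => x ^ (2 : ℤ) := isBigO_refl _ _
  induction n with
  | zero => exact h0
  | succ n ih =>
    refine ⟨h0, _, ?_, ih.cmul 2⟩
    filter_upwards [eventually_gt_atTop 0] with x hx
    exact (hasDerivAt_pow 2 x).congr_deriv (by have := hx.ne'; field_simp; simp)

/-- Polynomials in `x ^ (-2)`. -/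
def pv (p : ℝ[X]) (x : ℝ) : ℝ := p.eval (x ^ 2)⁻¹

theorem hasDerivAt_pv (p : ℝ[X]) {x : ℝ} (hx : x ≠ 0) : HasDerivAt (pv p) (pv (th p) x / x) x := by
  refine ((p.hasDerivAt _).comp x
    ((hasDerivAt_pow 2 x).fun_inv (pow_ne_zero 2 hx))).congr_deriv ?_
  simp only [pv, th, eval_mul, eval_neg, eval_X, eval_ofNat]
  field_simp
  simp only [Nat.cast_ofNat, Nat.add_one_sub_one, pow_one]
  ring

theorem tendsto_pv (p : ℝ[X]) : Tendsto (pv p) atTop (𝓝 (p.coeff 0)) := by
  rw [coeff_zero_eq_eval_zero]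
  exact (p.continuous.tendsto 0).comp (tendsto_inv_atTop_zero.comp (tendsto_pow_atTop two_ne_zero))

theorem sig_pv (n : ℕ) {m : ℕ} {p : ℝ[X]} (h : X ^ m ∣ p) : Sig n (-(2 * m)) (pv p) := by
  have h0 : ∀ p : ℝ[X], X ^ m ∣ p → pv p =O[atTop] fun x : ℝ => x ^ (-(2 * m) : ℤ) := by
    rintro _ ⟨q, rfl⟩
    refine ((isBigO_refl (fun x : ℝ => x ^ (-(2 * m) : ℤ)) atTop).mul
      ((tendsto_pv q).isBigO_one ℝ)).congr (fun x => ?_) fun x => mul_one _
    simp only [pv, eval_mul, eval_pow, eval_X]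
    rw [inv_pow, ← pow_mul, zpow_neg]
    norm_cast
  induction n generalizing p with
  | zero => exact h0 p h
  | succ n ih =>
    refine ⟨h0 p h, _, ?_, ih (dvd_th h)⟩
    filter_upwards [eventually_gt_atTop 0] with x hx using hasDerivAt_pv p hx.ne'

theorem Th_succ' (k : ℕ) (u : ℝ → ℝ) : Th (k + 1) u = Th k (Th 1 u) := by
  induction k with
  | zero => rfl
  | succ k ih => funext x; change x * deriv (Th (k + 1) u) x = _; rw [ih]; rfl

theorem Th_congr (h : u =ᶠ[atTop] v) (k : ℕ) : Th k u =ᶠ[atTop] Th k v := by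
  induction k with
  | zero => exact h
  | succ k ih =>
    filter_upwards [ev_nhds ih] with x hx
    change x * deriv (Th k u) x = x * deriv (Th k v) x
    rw [EventuallyEq.deriv_eq hx]

theorem Th_one (h : ∀ᶠ x in atTop, HasDerivAt u (v x / x) x) : Th 1 u =ᶠ[atTop] v := by
  filter_upwards [h, eventually_gt_atTop 0] with x a hx
  change x * deriv u x = _
  rw [a.deriv, mul_div_cancel₀ _ hx.ne']

theorem Sig.th (h : Sig n e u) : Th n u =O[atTop] fun x : ℝ => x ^ e := by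
  induction n generalizing u with
  | zero => exact h
  | succ n ih =>
    obtain ⟨-, v, h2, h3⟩ := h
    rw [Th_succ']
    exact (ih h3).congr' (Th_congr (Th_one h2) n).symm EventuallyEq.rfl

theorem contDiffOn_Th' {G : ℝ → ℝ} {a : ℝ} (h : ContDiffOn ℝ ∞ G (Ioi a)) (k : ℕ) :
    ContDiffOn ℝ ∞ (Th k G) (Ioi a) := by
  induction k with
  | zero => exact h
  | succ k ih => exact contDiffOn_id.mul ((contDiffOn_infty_iff_deriv_of_isOpen isOpen_Ioi).1 ih).2

/-! ## The soliton -/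

section sol

variable {p : ℝ × ℝ} {S : ℝ → ℝ}

theorem ev_bd {f : ℝ → ℝ} {e : ℤ} (h : f =O[atTop] fun x : ℝ => x ^ e) :
    ∃ M, 0 ≤ M ∧ ∀ᶠ x in atTop, |f x| ≤ M * x ^ e := by
  obtain ⟨M, h0, hM⟩ := h.exists_nonneg
  refine ⟨M, h0, ?_⟩
  filter_upwards [hM.bound, eventually_gt_atTop 0] with x a hx
  rwa [Real.norm_of_nonneg (zpow_pos hx e).le] at a

theorem der_sys (h : IsSol p S) (g : ℝ[X]) {x : ℝ} (hx : x ≠ 0) (h1 : 1 / 10 < gof S x)
    (h2 : pv g x ≠ 0) :
    HasDerivAt (fun x => gof S x - pv g x) ((thof S x - pv (th g) x) / x) x ∧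
    HasDerivAt (fun x => thof S x - pv (th g) x) ((-19 * (thof S x - pv (th g) x) -
      90 * (gof S x - pv g x) - (x * S x - pv (rr g) x)) / x) x ∧
    HasDerivAt (fun x => x * S x - pv (rr g) x) (((x * S x - pv (rr g) x) + x ^ 2 *
      (1 / 2 * ((gof S x)⁻¹ * (pv g x)⁻¹) * (gof S x - pv g x) +
        -1 * (pv (EE p.2 g) x * (pv g x)⁻¹))) / x) x := by
  refine ⟨((hasDerivAt_gof h.continuous hx).sub (hasDerivAt_pv g hx)).congr_deriv (by ring),
    ((hasDerivAt_thof h.continuous hx).sub (hasDerivAt_pv _ hx)).congr_deriv ?_,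
    (((hasDerivAt_id x).mul (h.2 x)).sub (hasDerivAt_pv _ hx)).congr_deriv ?_⟩
  · simp only [pv, rr, eval_sub, eval_add, eval_mul, eval_ofNat]
    ring
  · have h3 : gof S x ≠ 0 := by linarith
    rw [max_eq_left h1.le]
    simp only [pv, EE, eval_sub, eval_mul, eval_X, eval_C, id] at h2 ⊢
    generalize eval (x ^ 2)⁻¹ g = a at *
    generalize eval (x ^ 2)⁻¹ (rr g) = b
    generalize eval (x ^ 2)⁻¹ (th (rr g)) = c
    field_simp
    ring

theorem sigs (h : IsSol p S) (hC : p.2 ∈ Icc (7 / 10 : ℝ) (701 / 1000))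
    (ht : ∀ x, 512 ≤ x → gof S x ∈ Icc (7 / 10 : ℝ) (73 / 100) ∧ |thof S x| ≤ x ^ 2 ∧
      |x * S x| ≤ x ^ 2) (n : ℕ) :
    Sig n 0 (gof S) ∧ ∀ (K : ℕ) (g : ℝ[X]), g.coeff 0 = 1 / (2 * p.2) → X ^ (K + 1) ∣ EE p.2 g →
      Sig n (2 * n - 2 * K) (fun x => gof S x - pv g x) ∧
      Sig n (2 * n - 2 * K) (fun x => thof S x - pv (th g) x) ∧
      Sig n (2 * n - 2 * K) (fun x => x * S x - pv (rr g) x) := by
  have hC0 : 0 < p.2 := by linarith [hC.1]
  have hg : ∀ g : ℝ[X], g.coeff 0 = 1 / (2 * p.2) →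
      ∀ᶠ x in atTop, pv g x ∈ Icc (69 / 100 : ℝ) (72 / 100) := fun g h0 => by
    refine (tendsto_pv g).eventually (Icc_mem_nhds ?_ ?_)
    · rw [h0, lt_div_iff₀ (by positivity)]; linarith [hC.2]
    · rw [h0, div_lt_iff₀ (by positivity)]; linarith [hC.1]
  have hT := eventually_atTop.2 ⟨512, ht⟩
  have hD : ∀ g : ℝ[X], g.coeff 0 = 1 / (2 * p.2) → ∀ᶠ x in atTop, _ := fun g h0 =>
    ((hg g h0).and (hT.and (eventually_gt_atTop 0))).mono fun x hx =>
      der_sys h g hx.2.2.ne' (by linarith [hx.2.1.1.1]) (by linarith [hx.1.1])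
  have s0 : ∀ (n : ℕ) (g : ℝ[X]), Sig n 0 (pv g) := fun n g => by
    simpa using sig_pv n (m := 0) (p := g) (by simp)
  have si : ∀ (n : ℕ) (g : ℝ[X]), g.coeff 0 = 1 / (2 * p.2) → Sig n 0 fun x => (pv g x)⁻¹ :=
    fun n g h0 => (s0 n g).inv (c := 69 / 100) (by norm_num) ((hg g h0).mono fun _ hx => hx.1)
  have sf : ∀ (n K : ℕ) (g : ℝ[X]), g.coeff 0 = 1 / (2 * p.2) → X ^ (K + 1) ∣ EE p.2 g →
      Sig n (-(2 * (K + 1 : ℕ)) + 0) fun x => -1 * (pv (EE p.2 g) x * (pv g x)⁻¹) :=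
    fun n K g h0 h1 => ((sig_pv n h1).mul (si n g h0)).cmul (-1)
  have g0 : gof S =O[atTop] fun x : ℝ => x ^ (0 : ℤ) := by
    refine IsBigO.of_bound' (hT.mono fun x hx => ?_)
    rw [zpow_zero, norm_one, Real.norm_eq_abs, abs_le]
    constructor <;> linarith [hx.1.1, hx.1.2]
  induction n with
  | zero =>
    refine ⟨g0, fun K g h0 h1 => ?_⟩
    have o2 : ∀ q : ℝ[X], pv q =O[atTop] fun x : ℝ => x ^ (2 : ℤ) := fun q =>
      (s0 0 q).bd.trans (zpow_O (by norm_num))
    have b2 : ∀ f : ℝ → ℝ, (∀ᶠ x in atTop, |f x| ≤ x ^ 2) → f =O[atTop] fun x : ℝ => x ^ (2 : ℤ) :=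
      fun f hf => IsBigO.of_bound' (hf.mono fun x hx => by
        rw [Real.norm_of_nonneg (r := x ^ (2 : ℤ)) (by positivity)]; exact hx)
    obtain ⟨M1, p1, q1⟩ := ev_bd ((g0.trans (zpow_O (by norm_num))).sub (o2 g))
    obtain ⟨M2, p2, q2⟩ := ev_bd ((b2 _ (hT.mono fun _ hx => hx.2.1)).sub (o2 (th g)))
    obtain ⟨M3, p3, q3⟩ := ev_bd ((b2 _ (hT.mono fun _ hx => hx.2.2)).sub (o2 (rr g)))
    obtain ⟨M4, p4, q4⟩ := ev_bd (sf 0 K g h0 h1).bd
    obtain ⟨X0, hX⟩ := eventually_atTop.1 (((hD g h0).and ((hg g h0).and hT)).and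
      (q1.and (q2.and (q3.and q4))))
    have hX' := fun x (hx : max X0 1 ≤ x) => hX x ((le_max_left _ _).trans hx)
    obtain ⟨C, hB⟩ := tail_decay (X := max X0 1) (M := M1 + M2 + M3 + M4) (m := 2 * (K + 1))
      (p := 2) (le_max_right _ _) (fun x hx => (hX' x hx).1.1.1) (fun x hx => (hX' x hx).1.1.2.1)
      (fun x hx => (hX' x hx).1.1.2.2) (fun x hx => by
        obtain ⟨⟨a1, a2⟩, ⟨a3, a4⟩, -⟩ := (hX' x hx).1.2
        have a5 : 0 < gof S x * pv g x := by positivity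
        have a6 := mul_le_mul a3 a1 (by norm_num) (by linarith)
        have a7 := mul_le_mul a4 a2 (by linarith) (by norm_num)
        rw [← mul_inv, abs_le, ← div_eq_mul_inv, le_sub_iff_add_le, sub_le_iff_le_add,
          le_div_iff₀ a5, div_le_iff₀ a5]
        constructor <;> linarith)
      (fun x hx => by
        have hx0 : 0 < x := one_pos.trans_le ((le_max_right _ _).trans hx)
        have a := (hX' x hx).2.2.2.2
        rw [add_zero, zpow_neg, ← div_eq_mul_inv M4, le_div_iff₀ (by positivity)] at a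
        rw [show (2 * (K + 1 : ℕ) : ℤ) = (2 * (K + 1) : ℕ) by push_cast; ring, zpow_natCast] at a
        rw [mul_comm]
        linarith)
      (fun x hx => by
        obtain ⟨a1, a2, a3, -⟩ := (hX' x hx).2
        have a4 : 0 ≤ x ^ 2 := by positivity
        norm_cast at a1 a2 a3
        refine ⟨a1.trans ?_, a2.trans ?_, a3.trans ?_⟩ <;>
          exact mul_le_mul_of_nonneg_right (by linarith) a4)
    have fin : ∀ f : ℝ → ℝ, (∀ x, max X0 1 ≤ x → x ^ (2 * (K + 1)) * |f x| ≤ C * x ^ 2) →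
        Sig 0 (2 * (0 : ℕ) - 2 * K) f := fun f hf => by
      refine IsBigO.of_bound C ?_
      filter_upwards [eventually_ge_atTop (max X0 1)] with x hx
      have hx0 : 0 < x := one_pos.trans_le ((le_max_right _ _).trans hx)
      rw [Real.norm_of_nonneg (zpow_pos hx0 _).le, Nat.cast_zero, mul_zero, zero_sub, zpow_neg,
        ← div_eq_mul_inv, le_div_iff₀ (by positivity)]
      norm_cast
      refine le_of_mul_le_mul_right (le_of_eq_of_le ?_ (hf x hx)) (pow_pos hx0 2)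
      rw [Real.norm_eq_abs]
      ring
    exact ⟨fin _ fun x hx => (hB x hx).1, fin _ fun x hx => (hB x hx).2.1,
      fin _ fun x hx => (hB x hx).2.2⟩
  | succ n ih =>
    have key : ∀ (K : ℕ) (g : ℝ[X]), g.coeff 0 = 1 / (2 * p.2) → X ^ (K + 1) ∣ EE p.2 g →
        Sig (n + 1) (2 * (n + 1 : ℕ) - 2 * K) (fun x => gof S x - pv g x) ∧
        Sig (n + 1) (2 * (n + 1 : ℕ) - 2 * K) (fun x => thof S x - pv (th g) x) ∧
        Sig (n + 1) (2 * (n + 1 : ℕ) - 2 * K) (fun x => x * S x - pv (rr g) x) := by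
      intro K g h0 h1
      obtain ⟨a1, a2, a3⟩ := ih.2 K g h0 h1
      have le : (2 * n - 2 * K : ℤ) ≤ 2 * (n + 1 : ℕ) - 2 * K := by push_cast; linarith
      have k := ((ih.1.inv (c := 7 / 10) (by norm_num) (hT.mono fun _ hx => hx.1.1)).mul
        (si n g h0)).cmul (1 / 2)
      refine ⟨⟨(a1.mono le).bd, _, (hD g h0).mono fun _ hx => hx.1, a2.mono le⟩,
        ⟨(a2.mono le).bd, _, (hD g h0).mono fun _ hx => hx.2.1,
          ((((a2.cmul (-19)).add (a1.cmul (-90))).add (a3.cmul (-1))).mono le).congr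
            (Eventually.of_forall fun x => by ring)⟩,
        ⟨(a3.mono le).bd, _, (hD g h0).mono fun _ hx => hx.2.2, (a3.mono le).add
          (((sig_sq n).mul ((k.mul a1).add ((sf n K g h0 h1).mono ?_))).mono ?_)⟩⟩
      · push_cast; linarith [Int.natCast_nonneg n]
      · push_cast; linarith
    refine ⟨?_, key⟩
    obtain ⟨g, h0, h1⟩ := formal hC0.ne' (n + 1)
    exact ((s0 (n + 1) g).add ((key _ g h0 h1).1.mono (by simp))).congr
      (Eventually.of_forall fun x => by ring)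

theorem symbol_bounds (h : IsSol p S)
    (hC : p.2 ∈ Icc (7 / 10 : ℝ) (701 / 1000)) (hg : ∀ x, 0 ≤ x → 1 / 10 < gof S x)
    (ht : ∀ x, 512 ≤ x → gof S x ∈ Icc (7 / 10 : ℝ) (73 / 100) ∧ |thof S x| ≤ x ^ 2 ∧
      |x * S x| ≤ x ^ 2) (k : ℕ) (hk : 1 ≤ k) :
    ∃ B, ∀ x, 1 ≤ x → x ^ 2 * |Th k (gof S) x| ≤ B := by
  obtain ⟨j, rfl⟩ := Nat.exists_eq_add_of_le' hk
  obtain ⟨g, h0, h1⟩ := formal (show p.2 ≠ 0 by linarith [hC.1]) (j + 1)
  have a := ((sigs h hC ht j).2 _ g h0 h1).2.1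
  have b := sig_pv j (m := 1) (p := th g) ⟨-2 * derivative g, by rw [th]; ring⟩
  have c : Sig j (-2) (thof S) := ((a.mono (by push_cast; linarith)).add
    (b.mono (by norm_num))).congr (Eventually.of_forall fun x => by ring)
  have d : Th (j + 1) (gof S) =O[atTop] fun x : ℝ => x ^ (-2 : ℤ) := by
    rw [Th_succ']
    refine c.th.congr' (Th_congr (Th_one ?_) j).symm EventuallyEq.rfl
    filter_upwards [eventually_gt_atTop 0] with x hx using hasDerivAt_gof h.continuous hx.ne'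
  obtain ⟨M, -, hM⟩ := ev_bd d
  obtain ⟨X0, hX⟩ := eventually_atTop.1 hM
  obtain ⟨x0, hx0, -, -, hK⟩ := h.smooth hg
  have e : ContDiffOn ℝ ∞ (gof S) (Ioi (-x0)) := contDiffOn_const.sub (contDiffOn_id.mul hK)
  have f : ContinuousOn (fun x => x ^ 2 * |Th (j + 1) (gof S) x|) (Icc 1 X0) :=
    (continuousOn_pow 2).mul ((contDiffOn_Th' e _).continuousOn.mono fun x hx =>
      show -x0 < x by linarith [hx.1]).abs
  obtain ⟨B, hB⟩ := isCompact_Icc.bddAbove_image f
  refine ⟨max B M, fun x hx => ?_⟩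
  rcases le_total x X0 with h2 | h2
  · exact (hB ⟨x, ⟨hx, h2⟩, rfl⟩).trans (le_max_left _ _)
  · have h3 := hX x h2
    rw [zpow_neg, ← div_eq_mul_inv, le_div_iff₀ (by positivity)] at h3
    norm_cast at h3
    rw [mul_comm]
    exact h3.trans (le_max_right _ _)

end sol

end Crest.Agent.R213.AsymA
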