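import Crest.Agent.R213.B1
import Crest.Agent.R213.TL
import Crest.Agent.R213.AsymA

/-!
# Row 213: asymptotics of the soliton
-/

set_option autoImplicit false

noncomputable section

namespace Crest.Agent.R213

open Set Filter Topology
open scoped ContDiff

open Polynomial in
/-- Truncations of the formal solution in the variable `v = x ^ (-2)`; the Euler operator acts as
`-2 v d/dv`. -/
theorem exists_formal {C : ℝ} (hC : C ≠ 0) (K : ℕ) : ∃ g : ℝ[X], g.coeff 0 = 1 / (2 * C) ∧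
    ∀ (θ : ℝ[X] → ℝ[X]), (∀ p, θ p = -2 * X * derivative p) →
      ∀ r, r = 90 - (θ (θ g) + 19 * θ g + 90 * g) →
        X ^ (K + 1) ∣ X * (θ r - r) * g - (Polynomial.C C * g - Polynomial.C (1 / 2)) := by
  obtain ⟨g, h0, h1⟩ := AsymA.formal hC K
  refine ⟨g, h0, fun θ hθ r hr => ?_⟩
  obtain rfl : θ = AsymA.th := funext hθ
  subst hr
  exact h1

/-- Symbol estimates. -/
theorem symbol_bounds {p : ℝ × ℝ} {S : ℝ → ℝ} (h : IsSol p S)
    (hC : p.2 ∈ Icc (7 / 10 : ℝ) (701 / 1000)) (hg : ∀ x, 0 ≤ x → 1 / 10 < gof S x)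
    (ht : ∀ x, 512 ≤ x → gof S x ∈ Icc (7 / 10 : ℝ) (73 / 100) ∧ |thof S x| ≤ x ^ 2 ∧
      |x * S x| ≤ x ^ 2) (k : ℕ) (hk : 1 ≤ k) :
    ∃ B, ∀ x, 1 ≤ x → x ^ 2 * |Th k (gof S) x| ≤ B :=
  AsymA.symbol_bounds h hC hg ht k hk

end Crest.Agent.R213
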