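import Crest.Agent.R213.TS2

/-!
# Row 213: global solutions of the truncated soliton equation
-/

set_option autoImplicit false

noncomputable section

namespace Crest.Agent.R213.B1A

open Set Filter Topology
open scoped ContDiff BoundedContinuousFunction

theorem continuous_gof {P : Type} [TopologicalSpace P] {S : P → ℝ → ℝ}
    (h : Continuous fun p : P × ℝ => S p.1 p.2) :
    Continuous (fun p : P × ℝ => gof (S p.1) p.2) ∧
      Continuous fun p : P × ℝ => Qof (S p.1) p.2 := by
  constructor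
  · have h1 : Continuous fun q : (P × ℝ) × ℝ => S q.1.1 (q.2 * q.1.2) :=
      h.comp (f := fun q : (P × ℝ) × ℝ => (q.1.1, q.2 * q.1.2)) (by fun_prop)
    have h2 : Continuous fun p : P × ℝ => K1 (S p.1) p.2 :=
      intervalIntegral.continuous_parametric_intervalIntegral_of_continuous'
        (f := fun (p : P × ℝ) (θ : ℝ) => (1 - θ) * θ ^ 9 * S p.1 (θ * p.2))
        (Continuous.mul (by fun_prop) h1) 0 1
    exact continuous_const.sub (continuous_snd.mul h2)
  · have h2 : Continuous fun p : P × ℝ => ∫ y in (0 : ℝ)..p.2, y ^ 9 * S p.1 y :=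
      intervalIntegral.continuous_parametric_primitive_of_continuous
        (f := fun (p : P) (y : ℝ) => y ^ 9 * S p y) (Continuous.mul (by fun_prop) h)
    exact Continuous.sub (by fun_prop) h2

/-- The nonlinearity. -/
def NN (S : ℝ → ℝ) (y : ℝ) : ℝ := 1 / (2 * max (gof S y) (1 / 10))

theorem cont_NN {S : ℝ → ℝ} (h : Continuous S) : Continuous (NN S) := by
  have h1 : Continuous (gof S) :=
    (continuous_gof (P := Unit) (S := fun _ => S) (h.comp continuous_snd)).1.comp
      (f := fun x : ℝ => ((), x)) (by fun_prop)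
  refine continuous_const.div (continuous_const.mul (h1.max continuous_const)) fun y => ?_
  have := le_max_right (gof S y) (1 / 10)
  linarith

theorem abs_NN (S : ℝ → ℝ) (y : ℝ) : |NN S y| ≤ 5 := by
  have h := le_max_right (gof S y) (1 / 10)
  unfold NN
  rw [abs_of_pos (by positivity), div_le_iff₀ (by linarith)]
  linarith

theorem NN_lip (S S' : ℝ → ℝ) (y : ℝ) : |NN S y - NN S' y| ≤ 50 * |gof S y - gof S' y| := by
  have h1 := le_max_right (gof S y) (1 / 10)
  have h2 := le_max_right (gof S' y) (1 / 10)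
  have h3 := abs_max_sub_max_le_abs (gof S y) (gof S' y) (1 / 10)
  unfold NN
  generalize max (gof S y) (1 / 10) = a at *
  generalize max (gof S' y) (1 / 10) = b at *
  have ha : 0 < a := by linarith
  have hb : 0 < b := by linarith
  have e : 1 / (2 * a) - 1 / (2 * b) = (b - a) / (2 * a * b) := by field_simp
  have h4 : 1 / 100 ≤ a * b := by nlinarith
  rw [e, abs_div, abs_of_pos (show 0 < 2 * a * b by positivity), div_le_iff₀ (by positivity),
    abs_sub_comm]
  nlinarith [abs_nonneg (gof S y - gof S' y)]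

theorem K1_le {k : ℝ → ℝ} {x M : ℝ} (h : ∀ y, |y| ≤ |x| → |k y| ≤ M) : |K1 k x| ≤ M / 110 := by
  rcases le_total 0 x with hx | hx
  · exact abs_K1_le hx fun y hy => h y (abs_le_abs hy.2 (by linarith [hy.1]))
  · have e : K1 k x = K1 (fun y => k (-y)) (-x) := by simp [K1]
    rw [e]
    refine abs_K1_le (by linarith) fun y hy => h _ ?_
    rw [abs_neg, abs_of_nonneg hy.1, abs_of_nonpos hx]
    exact hy.2

theorem gof_lip {S S' : ℝ → ℝ} (h : Continuous S) (h' : Continuous S') {d : ℝ} (hd : 0 ≤ d)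
    (hS : ∀ y, |S y - S' y| ≤ d * Real.exp (y ^ 2)) (x : ℝ) :
    |gof S x - gof S' x| ≤ d / 110 * (|x| * Real.exp (x ^ 2)) := by
  have e : K1 S' x - K1 S x = K1 (fun y => S' y - S y) x := by
    unfold K1
    rw [← intervalIntegral.integral_sub (Continuous.intervalIntegrable (by fun_prop) _ _)
      (Continuous.intervalIntegrable (by fun_prop) _ _)]
    exact intervalIntegral.integral_congr fun θ _ => by ring
  have e2 : gof S x - gof S' x = x * (K1 S' x - K1 S x) := by unfold gof; ring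
  have h1 : |K1 (fun y => S' y - S y) x| ≤ d * Real.exp (x ^ 2) / 110 := K1_le fun y hy => by
    rw [abs_sub_comm]
    exact (hS y).trans (mul_le_mul_of_nonneg_left (Real.exp_le_exp.2 (sq_le_sq.2 hy)) hd)
  rw [e2, e, abs_mul]
  refine (mul_le_mul_of_nonneg_left h1 (abs_nonneg x)).trans (le_of_eq ?_)
  ring

theorem int_w (x : ℝ) : |∫ y in (0 : ℝ)..x, |y| * Real.exp (y ^ 2)| ≤ Real.exp (x ^ 2) / 2 := by
  have h1 : ∫ y in (0 : ℝ)..x, y * Real.exp (y ^ 2)
      = Real.exp (x ^ 2) / 2 - Real.exp ((0 : ℝ) ^ 2) / 2 :=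
    intervalIntegral.integral_eq_sub_of_hasDerivAt (f := fun y => Real.exp (y ^ 2) / 2)
      (fun y _ => (((hasDerivAt_pow 2 y).exp).div_const 2).congr_deriv (by push_cast; ring))
      (Continuous.intervalIntegrable (by fun_prop) _ _)
  have h2 : |∫ y in (0 : ℝ)..x, y * Real.exp (y ^ 2)| ≤ Real.exp (x ^ 2) / 2 := by
    have h3 : Real.exp ((0 : ℝ) ^ 2) ≤ Real.exp (x ^ 2) := Real.exp_le_exp.2 (by nlinarith)
    have h4 := Real.exp_pos ((0 : ℝ) ^ 2)
    have h5 := Real.exp_pos (x ^ 2)
    rw [h1]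
    generalize Real.exp ((0 : ℝ) ^ 2) = u at h3 h4 ⊢
    generalize Real.exp (x ^ 2) = v at h3 h5 ⊢
    rw [abs_le]
    constructor <;> linarith
  rcases le_total 0 x with hx | hx
  · rwa [intervalIntegral.integral_congr (g := fun y => y * Real.exp (y ^ 2)) fun y hy => ?_]
    rw [uIcc_of_le hx] at hy
    simp only [abs_of_nonneg hy.1]
  · rwa [intervalIntegral.integral_congr (g := fun y => -(y * Real.exp (y ^ 2))) fun y hy => ?_,
      intervalIntegral.integral_neg, abs_neg]
    rw [uIcc_of_ge hx] at hy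
    simp only [abs_of_nonpos hy.2, neg_mul]

theorem int_lip {S S' : ℝ → ℝ} (h : Continuous S) (h' : Continuous S') {d : ℝ} (hd : 0 ≤ d)
    (hS : ∀ y, |S y - S' y| ≤ d * Real.exp (y ^ 2)) (x : ℝ) :
    |(∫ y in (0 : ℝ)..x, NN S y) - ∫ y in (0 : ℝ)..x, NN S' y| ≤ d / 2 * Real.exp (x ^ 2) := by
  rw [← intervalIntegral.integral_sub ((cont_NN h).intervalIntegrable _ _)
    ((cont_NN h').intervalIntegrable _ _)]
  have h1 := intervalIntegral.norm_integral_le_abs_of_norm_le (μ := MeasureTheory.volume) (a := 0)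
    (b := x) (f := fun y => NN S y - NN S' y) (g := fun y => d * (|y| * Real.exp (y ^ 2)))
    (.of_forall fun y => by
      have h2 := NN_lip S S' y
      have h3 := gof_lip h h' hd hS y
      have h4 : 0 ≤ d * (|y| * Real.exp (y ^ 2)) := by positivity
      rw [Real.norm_eq_abs]
      linarith)
    (Continuous.intervalIntegrable (by fun_prop) _ _)
  rw [intervalIntegral.integral_const_mul, abs_mul, abs_of_nonneg hd, Real.norm_eq_abs] at h1
  have h2 := mul_le_mul_of_nonneg_left (int_w x) hd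
  linarith

theorem lin_le {a b : ℝ} (ha : 0 ≤ a) (hb : 0 ≤ b) (x : ℝ) :
    a + b * |x| ≤ (a + b) * Real.exp (x ^ 2) := by
  have h1 := Real.add_one_le_exp (x ^ 2)
  have h2 : |x| ≤ x ^ 2 + 1 := by nlinarith [sq_abs x, sq_nonneg (|x| - 1), abs_nonneg x]
  have h3 : a * 1 ≤ a * Real.exp (x ^ 2) :=
    mul_le_mul_of_nonneg_left (by nlinarith [sq_nonneg x]) ha
  have h4 : b * |x| ≤ b * Real.exp (x ^ 2) := mul_le_mul_of_nonneg_left (h2.trans h1) hb
  linarith

/-- The unweighted function. -/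
def up (u : ℝ →ᵇ ℝ) (y : ℝ) : ℝ := Real.exp (y ^ 2) * u y

theorem cont_up (u : ℝ →ᵇ ℝ) : Continuous (up u) := by
  unfold up
  fun_prop

theorem div_le {z c x : ℝ} (h : |z| ≤ c * Real.exp (x ^ 2)) : |z / Real.exp (x ^ 2)| ≤ c := by
  rwa [abs_div, abs_of_pos (Real.exp_pos _), div_le_iff₀ (Real.exp_pos _)]

/-- The Picard map. -/
def TT (p : ℝ × ℝ) (u : ℝ →ᵇ ℝ) : ℝ →ᵇ ℝ :=
  BoundedContinuousFunction.ofNormedAddCommGroup
    (fun x => (p.1 + p.2 * x - ∫ y in (0 : ℝ)..x, NN (up u) y) / Real.exp (x ^ 2))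
    (Continuous.div (Continuous.sub (by fun_prop) (continuous_iff_continuousAt.2 fun x =>
      ((cont_NN (cont_up u)).integral_hasStrictDerivAt 0 x).hasDerivAt.continuousAt))
      (by fun_prop) fun x => (Real.exp_pos _).ne')
    (|p.1| + (|p.2| + 5)) fun x => div_le (by
      refine le_trans ?_ (lin_le (abs_nonneg _) (by positivity) x)
      have h1 := intervalIntegral.norm_integral_le_of_norm_le_const (a := 0) (b := x) (C := 5)
        (f := NN (up u)) fun y _ => abs_NN _ y
      rw [Real.norm_eq_abs, sub_zero] at h1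
      have h2 := abs_sub (p.1 + p.2 * x) (∫ y in (0 : ℝ)..x, NN (up u) y)
      have h3 := abs_add_le p.1 (p.2 * x)
      rw [abs_mul] at h3
      linarith)

theorem TT_apply (p : ℝ × ℝ) (u : ℝ →ᵇ ℝ) (x : ℝ) :
    TT p u x = (p.1 + p.2 * x - ∫ y in (0 : ℝ)..x, NN (up u) y) / Real.exp (x ^ 2) := rfl

theorem contr (p : ℝ × ℝ) : ContractingWith (1 / 2) (TT p) := by
  refine ⟨by norm_num, LipschitzWith.of_dist_le_mul fun u v => ?_⟩
  refine (BoundedContinuousFunction.dist_le (by positivity)).2 fun x => ?_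
  rw [Real.dist_eq, TT_apply, TT_apply, ← sub_div, sub_sub_sub_cancel_left]
  refine div_le ((int_lip (cont_up v) (cont_up u) (dist_nonneg (x := u) (y := v))
    (fun y => ?_) x).trans (le_of_eq ?_))
  · unfold up
    rw [← mul_sub, abs_mul, abs_of_pos (Real.exp_pos _), mul_comm, abs_sub_comm]
    exact mul_le_mul_of_nonneg_right (BoundedContinuousFunction.dist_coe_le_dist (f := u) (g := v) y)
      (Real.exp_pos _).le
  · push_cast
    ring

theorem TT_lip (p q : ℝ × ℝ) (u : ℝ →ᵇ ℝ) : dist (TT p u) (TT q u) ≤ 2 * dist p q := by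
  refine (BoundedContinuousFunction.dist_le (by positivity)).2 fun x => ?_
  rw [Real.dist_eq, TT_apply, TT_apply, ← sub_div, sub_sub_sub_cancel_right]
  refine div_le (le_trans ?_ ((lin_le (dist_nonneg (x := p) (y := q))
    (dist_nonneg (x := p) (y := q)) x).trans (le_of_eq (by ring))))
  have h1 : |p.1 - q.1| ≤ dist p q := le_max_left (dist p.1 q.1) (dist p.2 q.2)
  have h2 : |p.2 - q.2| ≤ dist p q := le_max_right (dist p.1 q.1) (dist p.2 q.2)
  have h3 := abs_add_le (p.1 - q.1) ((p.2 - q.2) * x)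
  rw [abs_mul] at h3
  have h4 := mul_le_mul_of_nonneg_right h2 (abs_nonneg x)
  rw [show p.1 + p.2 * x - (q.1 + q.2 * x) = p.1 - q.1 + (p.2 - q.2) * x by ring]
  linarith

theorem exists_family : ∃ S : ℝ × ℝ → ℝ → ℝ, Continuous (fun p : (ℝ × ℝ) × ℝ => S p.1 p.2) ∧
    ∀ p, IsSol p (S p) := by
  have hU : Continuous fun p => ContractingWith.fixedPoint (TT p) (contr p) := by
    refine (LipschitzWith.of_dist_le_mul (K := 4) fun p q => ?_).continuous
    refine ((contr p).fixedPoint_lipschitz_in_map (contr q) (TT_lip p q)).trans (le_of_eq ?_)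
    push_cast
    ring
  refine ⟨fun p => up (ContractingWith.fixedPoint (TT p) (contr p)), ?_, fun p => ?_⟩
  · exact Continuous.mul (by fun_prop) ((hU.comp continuous_fst).eval continuous_snd)
  · have h1 : TT p _ = _ := (contr p).fixedPoint_isFixedPt
    show IsSol p (up (ContractingWith.fixedPoint (TT p) (contr p)))
    generalize ContractingWith.fixedPoint (TT p) (contr p) = u at h1
    have h2 : up u = fun x => p.1 + p.2 * x - ∫ y in (0 : ℝ)..x, NN (up u) y := by
      funext x
      conv_lhs => rw [up, ← h1, TT_apply]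
      exact mul_div_cancel₀ _ (Real.exp_pos _).ne'
    refine ⟨by rw [h2]; simp, fun x => ?_⟩
    have h3 := (((hasDerivAt_id' x).const_mul p.2).const_add p.1).sub
      ((cont_NN (cont_up u)).integral_hasStrictDerivAt 0 x).hasDerivAt
    rw [mul_one] at h3
    exact h3.congr_of_eventuallyEq (.of_forall fun y => congrFun h2 y)

end Crest.Agent.R213.B1A
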