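import Crest.Agent.R213.TS2

/-!
# Row 213: calculus of the soliton profile (proofs for `B1.lean`)
-/

set_option autoImplicit false

noncomputable section

namespace Crest.Agent.R213.B1B

open Set Filter Topology
open scoped ContDiff

theorem P_eq (S : ℝ → ℝ) (y : ℝ) : y ^ 10 * gof S y = y ^ 10 - Vol S y := by
  rw [vol_eq_K1, gof]; ring

theorem hasDerivAt_P {S : ℝ → ℝ} (h : Continuous S) (x : ℝ) :
    HasDerivAt (fun y => y ^ 10 * gof S y) (Qof S x) x := by
  simp only [P_eq]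
  have := (hasDerivAt_pow 10 x).sub (TB.deriv_vol h x)
  refine this.congr_deriv ?_
  simp [Qof]

theorem hasDerivAt_Q {S : ℝ → ℝ} (h : Continuous S) (x : ℝ) :
    HasDerivAt (Qof S) (90 * x ^ 8 - x ^ 9 * S x) x := by
  have := ((hasDerivAt_pow 9 x).const_mul 10).sub (TB.deriv_mom h 9 x)
  refine this.congr_deriv ?_
  norm_num; ring

theorem hasDerivAt_gof {S : ℝ → ℝ} (h : Continuous S) {x : ℝ} (hx : x ≠ 0) :
    HasDerivAt (gof S) (thof S x / x) x := by
  have h1 := (hasDerivAt_P h x).div (hasDerivAt_pow 10 x) (pow_ne_zero _ hx)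
  have h2 : gof S =ᶠ[𝓝 x] ((fun y => y ^ 10 * gof S y) / fun y => y ^ 10) := by
    filter_upwards [isOpen_ne.mem_nhds hx] with y hy
    simp only [Pi.div_apply]
    field_simp
  refine (h1.congr_of_eventuallyEq h2).congr_deriv ?_
  simp only [thof]
  norm_num
  field_simp

theorem hasDerivAt_thof {S : ℝ → ℝ} (h : Continuous S) {x : ℝ} (hx : x ≠ 0) :
    HasDerivAt (thof S) ((90 - x * S x - 19 * thof S x - 90 * gof S x) / x) x := by
  have h1 := ((hasDerivAt_Q h x).div (hasDerivAt_pow 9 x) (pow_ne_zero _ hx)).sub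
    ((hasDerivAt_gof h hx).const_mul 10)
  refine h1.congr_deriv ?_
  simp only [thof]
  norm_num
  field_simp
  ring

theorem isSol_continuous {p : ℝ × ℝ} {S : ℝ → ℝ} (h : IsSol p S) : Continuous S :=
  continuous_iff_continuousAt.2 fun x => (h.2 x).continuousAt

theorem mul_mem {x0 : ℝ} (hx0 : 0 < x0) {x θ : ℝ} (hx : x ∈ Ioi (-x0)) (hθ : θ ∈ uIcc (0 : ℝ) 1) :
    θ * x ∈ Ioi (-x0) := by
  rw [uIcc_of_le zero_le_one] at hθ
  rw [mem_Ioi] at hx ⊢
  rcases le_total 0 x with h | h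
  · have := mul_nonneg hθ.1 h
    linarith
  · nlinarith [hθ.1, hθ.2]

theorem contOn_w {x0 : ℝ} (hx0 : 0 < x0) {c S : ℝ → ℝ} (hc : Continuous c)
    (h : ContinuousOn S (Ioi (-x0))) :
    ContinuousOn (fun p : ℝ × ℝ => c p.2 * S (p.2 * p.1)) (Ioi (-x0) ×ˢ uIcc 0 1) :=
  (hc.comp continuous_snd).continuousOn.mul
    (h.comp (continuous_snd.mul continuous_fst).continuousOn fun _ hp => mul_mem hx0 hp.1 hp.2)

theorem contDiffOn_w {x0 : ℝ} (hx0 : 0 < x0) (n : ℕ) : ∀ {c S : ℝ → ℝ}, Continuous c →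
    ContDiffOn ℝ n S (Ioi (-x0)) →
    ContDiffOn ℝ n (fun x => ∫ θ in (0 : ℝ)..1, c θ * S (θ * x)) (Ioi (-x0)) := by
  induction n with
  | zero =>
    intro c S hc h
    simp only [Nat.cast_zero, contDiffOn_zero] at h ⊢
    exact TS2A.contOn_int (f := fun x θ => c θ * S (θ * x)) (contOn_w hx0 hc h)
  | succ n ih =>
    intro c S hc h
    rw [Nat.cast_succ, contDiffOn_succ_iff_deriv_of_isOpen isOpen_Ioi] at h ⊢
    obtain ⟨hd, -, h2⟩ := h
    have hc' : Continuous fun θ => c θ * θ := hc.mul continuous_id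
    have key : ∀ x ∈ Ioi (-x0), HasDerivAt (fun x => ∫ θ in (0 : ℝ)..1, c θ * S (θ * x))
        (∫ θ in (0 : ℝ)..1, c θ * θ * deriv S (θ * x)) x := fun x hx =>
      hasDerivAt_int (w := fun x θ => c θ * S (θ * x))
        (w' := fun x θ => c θ * θ * deriv S (θ * x)) isOpen_Ioi
        (contOn_w hx0 hc hd.continuousOn) (contOn_w hx0 hc' h2.continuousOn)
        (fun t ht θ hθ => by
          have a1 : HasDerivAt S (deriv S (θ * t)) (θ * t) :=
            (hd.differentiableAt (isOpen_Ioi.mem_nhds (mul_mem hx0 ht hθ))).hasDerivAt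
          have a2 := (a1.comp t ((hasDerivAt_id t).const_mul θ)).const_mul (c θ)
          refine a2.congr_deriv ?_
          ring) hx
    refine ⟨fun x hx => (key x hx).differentiableAt.differentiableWithinAt, by simp, ?_⟩
    exact (ih hc' h2).congr fun x hx => (key x hx).deriv

theorem contDiffOn_K1 {S : ℝ → ℝ} {x0 : ℝ} (hx0 : 0 < x0) (n : ℕ)
    (h : ContDiffOn ℝ n S (Ioi (-x0))) : ContDiffOn ℝ n (K1 S) (Ioi (-x0)) :=
  contDiffOn_w hx0 n (c := fun θ => (1 - θ) * θ ^ 9) (by fun_prop) h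

theorem smooth {p : ℝ × ℝ} {S : ℝ → ℝ} (h : IsSol p S)
    (hg : ∀ x, 0 ≤ x → 1 / 10 < gof S x) : ∃ x0, 0 < x0 ∧ (∀ x ∈ Ioi (-x0), 1 / 10 < gof S x) ∧
      ContDiffOn ℝ ∞ S (Ioi (-x0)) ∧ ContDiffOn ℝ ∞ (K1 S) (Ioi (-x0)) := by
  have hS := isSol_continuous h
  have hK : ContinuousOn (K1 S) (Ioi (-1)) := by
    have := contDiffOn_K1 (S := S) one_pos 0 (by simpa using hS.continuousOn)
    simpa using this
  have hg0 : ContinuousAt (gof S) 0 :=
    continuousAt_const.sub (continuousAt_id.mul (hK.continuousAt (Ioi_mem_nhds (by norm_num))))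
  obtain ⟨x0, hx0, hb⟩ := Metric.eventually_nhds_iff.1
    (hg0.eventually (lt_mem_nhds (hg 0 le_rfl)))
  have hlo : ∀ x ∈ Ioi (-x0), 1 / 10 < gof S x := fun x hx => by
    rcases le_total 0 x with h1 | h1
    · exact hg x h1
    · refine hb ?_
      rw [Real.dist_eq, sub_zero, abs_of_nonpos h1]
      linarith [mem_Ioi.1 hx]
  have key : ∀ n : ℕ, ContDiffOn ℝ n S (Ioi (-x0)) := by
    intro n
    induction n with
    | zero => simpa using hS.continuousOn
    | succ n ih =>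
      rw [Nat.cast_succ, contDiffOn_succ_iff_deriv_of_isOpen isOpen_Ioi]
      refine ⟨fun x _ => (h.2 x).differentiableAt.differentiableWithinAt, by simp, ?_⟩
      have a1 : ContDiffOn ℝ n (gof S) (Ioi (-x0)) :=
        contDiffOn_const.sub (contDiffOn_id.mul (contDiffOn_K1 hx0 n ih))
      have a2 : ContDiffOn ℝ n (fun x => p.2 - 1 / (2 * gof S x)) (Ioi (-x0)) :=
        contDiffOn_const.sub (contDiffOn_const.div (contDiffOn_const.mul a1) fun x hx => by
          have := hlo x hx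
          positivity)
      refine a2.congr fun x hx => ?_
      rw [(h.2 x).deriv, max_eq_left (hlo x hx).le]
  exact ⟨x0, hx0, hlo, contDiffOn_infty.2 key,
    contDiffOn_infty.2 fun n => contDiffOn_K1 hx0 n (key n)⟩

end Crest.Agent.R213.B1B
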