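import Crest.Agent.R213.TS2
import Crest.Agent.R213.B1A
import Crest.Agent.R213.B1B

/-!
# Row 213: the truncated soliton equation
-/

set_option autoImplicit false

noncomputable section

namespace Crest.Agent.R213

open Set Filter Topology
open scoped ContDiff

/-- A continuous family of global solutions. -/
theorem exists_family : ∃ S : ℝ × ℝ → ℝ → ℝ, Continuous (fun p : (ℝ × ℝ) × ℝ => S p.1 p.2) ∧
    ∀ p, IsSol p (S p) :=
  B1A.exists_family

theorem continuous_gof {P : Type} [TopologicalSpace P] {S : P → ℝ → ℝ}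
    (h : Continuous fun p : P × ℝ => S p.1 p.2) :
    Continuous (fun p : P × ℝ => gof (S p.1) p.2) ∧
      Continuous fun p : P × ℝ => Qof (S p.1) p.2 :=
  B1A.continuous_gof h

theorem hasDerivAt_P {S : ℝ → ℝ} (h : Continuous S) (x : ℝ) :
    HasDerivAt (fun y => y ^ 10 * gof S y) (Qof S x) x :=
  B1B.hasDerivAt_P h x

theorem hasDerivAt_Q {S : ℝ → ℝ} (h : Continuous S) (x : ℝ) :
    HasDerivAt (Qof S) (90 * x ^ 8 - x ^ 9 * S x) x :=
  B1B.hasDerivAt_Q h x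

theorem hasDerivAt_gof {S : ℝ → ℝ} (h : Continuous S) {x : ℝ} (hx : x ≠ 0) :
    HasDerivAt (gof S) (thof S x / x) x :=
  B1B.hasDerivAt_gof h hx

theorem hasDerivAt_thof {S : ℝ → ℝ} (h : Continuous S) {x : ℝ} (hx : x ≠ 0) :
    HasDerivAt (thof S) ((90 - x * S x - 19 * thof S x - 90 * gof S x) / x) x :=
  B1B.hasDerivAt_thof h hx

theorem IsSol.continuous {p : ℝ × ℝ} {S : ℝ → ℝ} (h : IsSol p S) : Continuous S :=
  B1B.isSol_continuous h

theorem contDiffOn_K1 {S : ℝ → ℝ} {x0 : ℝ} (hx0 : 0 < x0) (n : ℕ)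
    (h : ContDiffOn ℝ n S (Ioi (-x0))) : ContDiffOn ℝ n (K1 S) (Ioi (-x0)) :=
  B1B.contDiffOn_K1 hx0 n h

/-- A solution on which the truncation is inactive is smooth. -/
theorem IsSol.smooth {p : ℝ × ℝ} {S : ℝ → ℝ} (h : IsSol p S)
    (hg : ∀ x, 0 ≤ x → 1 / 10 < gof S x) : ∃ x0, 0 < x0 ∧ (∀ x ∈ Ioi (-x0), 1 / 10 < gof S x) ∧
      ContDiffOn ℝ ∞ S (Ioi (-x0)) ∧ ContDiffOn ℝ ∞ (K1 S) (Ioi (-x0)) :=
  B1B.smooth h hg

end Crest.Agent.R213
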