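import Crest.Agent.R213.BGxA

/-!
# Row 213: the glued background
-/

set_option autoImplicit false

noncomputable section

namespace Crest.Agent.R213.BGxA

open Set Filter Topology
open scoped ContDiff

variable (s : Sol)

def gg (i : ℕ) : Fn := sim (Th i (gof s.S))

def g1 : Fn := fun t x => chi x / (1 - x) ^ 1 * gg s 0 t x + (1 - chi x)

def q1 : Fn := fun t x => chi x / (1 - x) ^ 2 * (sim (K1 s.S) t x / lam t - 1) / g1 s t x

def S1 : Fn := fun t x => chi x * (sim s.S t x / lam t) + 110 * (1 - chi x) -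
  2 * deriv chi x * (10 * gg s 0 t x + gg s 1 t x - 10 + 11 * x) -
  deriv (deriv chi) x * (x * gg s 0 t x - x + x ^ 2)

def D1 : Fn := fun t x => Dt (q1 s) t x + dx (dx (S1 s)) t x

theorem gg_lo (t : ℝ) {x : ℝ} (hx : 0 ≤ x) : 1 / 10 ≤ gg s 0 t x :=
  s.lo _ (mem_Ioi_div s.hx0 hx)

theorem g1_lo (t : ℝ) {x : ℝ} (hx : 0 ≤ x) : 1 / 10 ≤ g1 s t x := by
  have h1 := gg_lo s t hx
  have h2 := chi_mem x
  have h3 := (chi1_mem hx).1
  have := mul_le_mul h3 h1 (by norm_num) (h2.1.trans h3)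
  rw [g1]
  linarith [h2.2]

theorem sm_gg (i : ℕ) : Sm (gg s i) := sm_sim s.hx0 (contDiffOn_Th s.contDiffOn_g i)

theorem sm_g1 : Sm (g1 s) :=
  ((Sm.of_x (chi_div_sm 1)).mul (sm_gg s 0)).add (Sm.of_x (contDiff_const.sub chi_sm))

theorem sm_q1 : Sm (q1 s) :=
  ((Sm.of_x (chi_div_sm 2)).mul ((ContDiffOn.div (sm_sim s.hx0 s.sG) sm_lam
    fun _ hp => (lam_pos hp.1).ne').sub contDiffOn_const)).div (sm_g1 s) fun p hp => by
      linarith [g1_lo s p.1 hp.2.1]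

theorem sm_S1 : Sm (S1 s) := by
  have h0 := sm_gg s 0
  have h1 := sm_gg s 1
  have h2 : Sm fun t x => sim s.S t x / lam t :=
    ContDiffOn.div (sm_sim s.hx0 s.sS) sm_lam fun _ hp => (lam_pos hp.1).ne'
  have c0 := Sm.of_x chi_sm
  have c1 := Sm.of_x dchi_sm
  have c2 := Sm.of_x ddchi_sm
  have x : Sm fun _ x => x := Sm.of_x contDiff_id
  exact (((c0.mul h2).add (contDiffOn_const.mul (contDiffOn_const.sub c0))).sub
    ((contDiffOn_const.mul c1).mul ((((contDiffOn_const.mul h0).add h1).sub contDiffOn_const).add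
      (contDiffOn_const.mul x)))).sub (c2.mul (((x.mul h0).sub x).add (x.pow 2)))

theorem sm_D1 : Sm (D1 s) := ContDiffOn.add (sm_q1 s).dt.1 (sm_S1 s).dx.dx

theorem q1_eq {t x : ℝ} (hx : 0 ≤ x) : 1 - g1 s t x = ph 1 x * g1 s t x * q1 s t x := by
  have h1 : g1 s t x ≠ 0 := by linarith [g1_lo s t hx]
  rw [q1, mul_div_assoc', mul_right_comm, mul_div_cancel_right₀ _ h1]
  rcases eq_or_ne x 1 with rfl | h
  · simp [g1, ph, chi_zero (show (1 / 2 : ℝ) ≤ 1 by norm_num)]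
  · have : 1 - x ≠ 0 := sub_ne_zero.2 h.symm
    simp only [g1, ph, gg, sim, Th, gof]
    field_simp
    ring

theorem gg_dx (i : ℕ) {t x : ℝ} (ht : t < 0) (hx : 0 < x) :
    HasDerivAt (gg s i t) (gg s (i + 1) t x / x) x :=
  sim_dx s.hx0 (contDiffOn_Th s.contDiffOn_g i) ht hx

theorem simS_eq {t x : ℝ} (ht : t < 0) (hx : 0 < x) :
    sim s.S t x / lam t = (90 - (gg s 2 t x + 19 * gg s 1 t x + 90 * gg s 0 t x)) / x := by
  have h0 := lam_pos ht
  have := s.g_eq (x / lam t) (div_pos hx h0)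
  simp only [gg, sim]
  rw [show Th 0 (gof s.S) = gof s.S from rfl, ← this]
  field_simp

theorem ph_g1 (t : ℝ) {x : ℝ} : x ^ 9 * ph 1 x * g1 s t x =
    x ^ 10 - x ^ 11 + chi x * (x ^ 10 * gg s 0 t x - (x ^ 10 - x ^ 11)) := by
  rcases eq_or_ne x 1 with rfl | h
  · simp [ph, chi_zero (show (1 / 2 : ℝ) ≤ 1 by norm_num)]
  · have : 1 - x ≠ 0 := sub_ne_zero.2 h.symm
    simp only [g1, ph]
    field_simp
    ring

theorem S1_eq {t : ℝ} (ht : t < 0) :
    ∀ x ∈ Icc (0 : ℝ) 1, x ^ 9 * ph 1 x * g1 s t x = x ^ 10 - Vol (S1 s t) x := by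
  have V := sp_vol ((sm_S1 s).cont ht)
  have c0 := (sm_gg s 0).cont ht
  have c1 := (sm_gg s 1).cont ht
  have k0 := chi_sm.continuous
  have k1 := dchi_sm.continuous
  have d0 : ∀ x, HasDerivAt chi (deriv chi x) x := fun x =>
    (chi_sm.differentiable (by simp) x).hasDerivAt
  have d1 : ∀ x, HasDerivAt (deriv chi) (deriv (deriv chi) x) x := fun x =>
    (dchi_sm.differentiable (by simp) x).hasDerivAt
  have E1 := eq_of_deriv_zero (f := fun x => -(11 * x ^ 10) +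
    deriv chi x * (x ^ 10 * gg s 0 t x - (x ^ 10 - x ^ 11)) +
    chi x * (x ^ 9 * (10 * gg s 0 t x + gg s 1 t x) - (10 * x ^ 9 - 11 * x ^ 10)) +
    ∫ y in (0 : ℝ)..x, y ^ 9 * S1 s t y)
    (ContinuousOn.add (by fun_prop) V.c1) (fun x hx => by
      have p9 := hasDerivAt_pow 9 x
      have p10 := hasDerivAt_pow 10 x
      have p11 := hasDerivAt_pow 11 x
      have g0 := gg_dx s 0 ht hx.1
      have g1 := gg_dx s 1 ht hx.1
      refine ((((p10.const_mul 11).neg.add ((d1 x).mul ((p10.mul g0).sub (p10.sub p11)))).add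
        ((d0 x).mul ((p9.mul ((g0.const_mul 10).add g1)).sub
          ((p9.const_mul 10).sub (p10.const_mul 11))))).add (V.d2 x hx)).congr_deriv ?_
      have := hx.1.ne'
      simp only [S1, simS_eq s ht hx.1, Pi.sub_apply, Pi.mul_apply, Pi.add_apply]
      push_cast
      field_simp
      ring) (by simp)
  have E0 := eq_of_deriv_zero (f := fun x => -x ^ 11 +
    chi x * (x ^ 10 * gg s 0 t x - (x ^ 10 - x ^ 11)) + Vol (S1 s t) x)
    (ContinuousOn.add (by fun_prop) V.c0) (fun x hx => by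
      have p10 := hasDerivAt_pow 10 x
      have p11 := hasDerivAt_pow 11 x
      have g0 := gg_dx s 0 ht hx.1
      refine ((p11.neg.add ((d0 x).mul ((p10.mul g0).sub (p10.sub p11)))).add
        (V.d1 x hx)).congr_deriv ?_
      have := hx.1.ne'
      refine Eq.trans ?_ (E1 x (Ioo_subset_Icc_self hx))
      simp only [Pi.sub_apply, Pi.mul_apply]
      push_cast
      field_simp
      ring) (by simp [Vol])
  intro x hx
  rw [ph_g1]
  linarith [E0 x hx]

/-- Second derivatives in the interior can be computed from any local representation. -/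
theorem dx2_eq {u : Fn} (h : Sm u) {t : ℝ} (ht : t < 0) {J : Set ℝ} (hJ : IsOpen J)
    (hJ' : J ⊆ Ioo 0 1) {f f1 f2 : ℝ → ℝ} (e : ∀ x ∈ J, u t x = f x)
    (h1 : ∀ x ∈ J, HasDerivAt f (f1 x) x) (h2 : ∀ x ∈ J, HasDerivAt f1 (f2 x) x) :
    ∀ x ∈ J, dx (dx u) t x = f2 x := by
  have e1 : ∀ x ∈ J, dx u t x = f1 x := fun x hx => (h.hasDerivAt ht (hJ' hx)).unique
    ((h1 x hx).congr_of_eventuallyEq (eventually_of_mem (hJ.mem_nhds hx) e))
  exact fun x hx => (h.dx.hasDerivAt ht (hJ' hx)).unique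
    ((h2 x hx).congr_of_eventuallyEq (eventually_of_mem (hJ.mem_nhds hx) e1))

theorem q1_eq' {t x : ℝ} (hx : x ∈ Ioo (0 : ℝ) 1) :
    q1 s t x = (ph 1 x)⁻¹ * (g1 s t x)⁻¹ - (ph 1 x)⁻¹ := by
  have h1 : g1 s t x ≠ 0 := by linarith [g1_lo s t hx.1.le]
  have h2 : ph 1 x ≠ 0 := mul_ne_zero hx.1.ne' (by linarith [hx.2])
  have := q1_eq s (t := t) hx.1.le
  field_simp
  linarith

theorem dt_q1 {t x : ℝ} (ht : t < 0) (hx : x ∈ Ioo (0 : ℝ) 1) :
    Dt (q1 s) t x = -((ph 1 x)⁻¹ * (chi x / (1 - x) ^ 1)) * Dt (gg s 0) t x *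
      ((g1 s t x)⁻¹ * (g1 s t x)⁻¹) := by
  have h1 : g1 s t x ≠ 0 := by linarith [g1_lo s t hx.1.le]
  have h2 := (sm_gg s 0).dt.2 t ht x (Ioo_subset_Icc_self hx)
  have h3 : HasDerivAt (fun r => g1 s r x) (chi x / (1 - x) ^ 1 * Dt (gg s 0) t x) t :=
    (h2.const_mul _).add_const _
  rw [Dt, funext fun r => q1_eq' s (t := r) hx,
    (((h3.fun_inv h1).const_mul (ph 1 x)⁻¹).sub_const _).deriv]
  field_simp

theorem D1_in {t : ℝ} (ht : t < 0) : ∀ x ∈ Ioo (0 : ℝ) (1 / 4), D1 s t x = 0 := by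
  intro x hx
  have hl := lam_pos ht
  have hsub : Ioo (0 : ℝ) (1 / 4) ⊆ Ioo 0 1 := Ioo_subset_Ioo_right (by norm_num)
  have h1 := dx2_eq (sm_S1 s) ht isOpen_Ioo hsub (f := fun x => sim s.S t x / lam t)
    (f1 := fun x => (s.C - 1 / (2 * gg s 0 t x)) / lam t ^ 2)
    (f2 := fun x => gg s 1 t x / (2 * x * gg s 0 t x ^ 2 * lam t ^ 2))
    (fun y hy => by simp [S1, chi_one hy.2.le, dchi_lt hy.2])
    (fun y hy => (((s.ode _ (mem_Ioi_div s.hx0 hy.1.le)).comp y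
      ((hasDerivAt_id y).div_const (lam t))).div_const (lam t)).congr_deriv (by
        simp only [gg, sim, Th]; field_simp))
    (fun y hy => by
      have h0 : gg s 0 t y ≠ 0 := by linarith [gg_lo s t hy.1.le]
      have := hy.1.ne'
      refine ((((hasDerivAt_const y (1 : ℝ)).div ((gg_dx s 0 ht hy.1).const_mul 2)
        (mul_ne_zero two_ne_zero h0)).const_sub s.C).div_const (lam t ^ 2)).congr_deriv ?_
      field_simp
      ring) x hx
  have h2 : Dt (gg s 0) t x = gg s 1 t x / (2 * lam t ^ 2) :=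
    (sim_dt s.hx0 s.contDiffOn_g ht hx.1.le).deriv
  have h0 : gg s 0 t x ≠ 0 := by linarith [gg_lo s t hx.1.le]
  have h3 : 1 - x ≠ 0 := by linarith [hx.2]
  have := hx.1.ne'
  rw [D1, h1, dt_q1 s ht (hsub hx), h2, g1, chi_one hx.2.le, ph, sub_self, add_zero, one_mul]
  field_simp
  ring

theorem D1_out {t : ℝ} (ht : t < 0) : ∀ x ∈ Ioo (1 / 2 : ℝ) 1, D1 s t x = 0 := by
  intro x hx
  have hsub : Ioo (1 / 2 : ℝ) 1 ⊆ Ioo 0 1 := Ioo_subset_Ioo_left (by norm_num)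
  have h1 := dx2_eq (sm_S1 s) ht isOpen_Ioo hsub (f := fun _ => 110) (f1 := fun _ => 0)
    (f2 := fun _ => 0) (fun y hy => by simp [S1, chi_zero hy.1.le, dchi_gt hy.1])
    (fun y _ => hasDerivAt_const y _) (fun y _ => hasDerivAt_const y _) x hx
  rw [D1, h1, dt_q1 s ht (hsub hx), chi_zero hx.1.le]
  simp

theorem zero_on_closure {f : ℝ → ℝ} {a b : ℝ} (hab : a < b) (hc : ContinuousOn f (Icc a b))
    (h : ∀ x ∈ Ioo a b, f x = 0) : ∀ x ∈ Icc a b, f x = 0 :=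
  EqOn.of_subset_closure (s := Ioo a b) (g := fun _ => 0) h hc continuousOn_const
    Ioo_subset_Icc_self (by rw [closure_Ioo hab.ne])

theorem D1_zero {t : ℝ} (ht : t < 0) {x : ℝ} (hx : x ∈ Icc (0 : ℝ) 1)
    (h : x ≤ 1 / 4 ∨ 1 / 2 ≤ x) : D1 s t x = 0 := by
  have hc := (sm_D1 s).cont ht
  rcases h with h | h
  · exact zero_on_closure (by norm_num) (hc.mono (Icc_subset_Icc_right (by norm_num)))
      (D1_in s ht) x ⟨hx.1, h⟩
  · exact zero_on_closure (by norm_num) (hc.mono (Icc_subset_Icc_left (by norm_num)))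
      (D1_out s ht) x ⟨h, hx.2⟩

theorem sub_Ioo : Icc (1 / 4 : ℝ) (1 / 2) ⊆ Ioo 0 1 := fun _ hx =>
  ⟨lt_of_lt_of_le (by norm_num) hx.1, lt_of_le_of_lt hx.2 (by norm_num)⟩

theorem tame_D1 : Tame (D1 s) := by
  have t0 : Tame (gg s 0) := tame_th s 0
  have c1 := (chi_div_sm 1).continuous
  have c0 := chi_sm.continuous
  have tg : Tame (g1 s) := ((Tame.const c1.continuousOn).mul t0).add (Tame.const (by fun_prop))
  have ti := tg.inv fun t _ x hx => g1_lo s t (sub_Ici hx)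
  have tq : Tame (Dt (q1 s)) := (((Tame.const (c := fun x => -((ph 1 x)⁻¹ * (chi x / (1 - x) ^ 1)))
    (((ContinuousOn.inv₀ (by fun_prop) fun x hx => mul_ne_zero (sub_Ioo hx).1.ne'
      (by linarith [(sub_Ioo hx).2])).mul c1.continuousOn).neg)).mul (tame_dt s)).mul
        (ti.mul ti)).congr fun t ht x hx => dt_q1 s ht (sub_Ioo hx)
  have k0 := chi_sm
  have k1 := dchi_sm
  have k2 := ddchi_sm
  have kx : ContDiffOn ℝ ∞ (fun x => chi x / x) (Ioi 0) :=
    k0.contDiffOn.div contDiffOn_id fun x hx => ne_of_gt hx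
  have C0 := ((Cl.base (s := s) (fun x => -1 * (chi x / x)) (contDiffOn_const.mul kx) 2).add
    (Cl.base (fun x => -19 * (chi x / x) - 2 * deriv chi x)
      ((contDiffOn_const.mul kx).sub (by fun_prop)) 1)).add
    ((Cl.base (fun x => -90 * (chi x / x) - (20 * deriv chi x + deriv (deriv chi) x * x))
      ((contDiffOn_const.mul kx).sub (by fun_prop)) 0).add
    (Cl.cst (fun x => 90 * (chi x / x) + (110 * (1 - chi x) - 2 * deriv chi x * (-10 + 11 * x) -
      deriv (deriv chi) x * (-x + x ^ 2))) ((contDiffOn_const.mul kx).add (by fun_prop))))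
  obtain ⟨v1, C1, h1⟩ := C0.der
  obtain ⟨v2, C2, h2⟩ := C1.der
  refine (tq.add C2.tame).congr fun t ht x hx => ?_
  rw [D1, dx2_eq (sm_S1 s) ht isOpen_Ioo Subset.rfl (fun y hy => ?_) (fun y hy => h1 t ht y hy.1)
    (fun y hy => h2 t ht y hy.1) x (sub_Ioo hx)]
  rw [S1, simS_eq s ht hy.1]
  simp only [gg]
  ring

theorem D1_bd (j : ℕ) : ∃ B, ∀ t ∈ Ico (-1 : ℝ) 0, ∀ x ∈ dom 1,
    (-t) ^ j * |DT j (D1 s) t x| ≤ B := by
  obtain ⟨B, hB⟩ := (tame_D1 s).2 j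
  refine ⟨max B 0, fun t ht x hx => ?_⟩
  rw [dom_eq_Icc one_pos (one_mul 1)] at hx
  by_cases h : x ≤ 1 / 4 ∨ 1 / 2 ≤ x
  · rw [DT_congr isOpen_Iio (v := 0) (fun r hr => D1_zero s hr hx h) j t ht.2, DT_zero]
    simp
  · push Not at h
    exact (hB t ht x ⟨h.1.le, h.2.le⟩).trans (le_max_left _ _)

theorem g1_sym (c : ℕ) (hc : 1 ≤ c) : ∃ B, ∀ t < 0, ∀ x ∈ dom 1,
    om true (-t) ((x + lam t) ^ 2) c * |DT c (g1 s) t x| ≤ B := by
  obtain ⟨B, hB⟩ := s.sim_sym c hc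
  refine ⟨2 * B, fun t ht x hx => ?_⟩
  rw [dom_eq_Icc one_pos (one_mul 1)] at hx
  obtain ⟨c, rfl⟩ := Nat.exists_eq_add_of_le' hc
  have c0 := chi_sm.continuous
  have e : DT (c + 1) (g1 s) t x = chi x / (1 - x) ^ 1 * DT (c + 1) (gg s 0) t x := by
    have := DT_add isOpen_Iio ((sm_gg s 0).ts.cmul (chi_div_sm 1).continuous.continuousOn)
      (TS.const (c := fun x => 1 - chi x) (by fun_prop)) (c + 1) t ht x hx
    rwa [DT_const, DT_cmul (fun x => chi x / (1 - x) ^ 1), Pi.zero_apply, Pi.zero_apply,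
      add_zero] at this
  have h1 := hB t ht x hx.1
  have h2 := chi1_mem hx.1
  have h3 := (chi_mem x).1.trans h2.1
  rw [e, abs_mul, abs_of_nonneg h3, mul_left_comm]
  refine mul_le_mul h2.2 h1 (mul_nonneg ?_ (abs_nonneg _)) (by norm_num)
  rw [om, if_neg (by omega), if_pos rfl]
  exact mul_nonneg (sq_nonneg _) (pow_nonneg (neg_nonneg.2 ht.le) _)

include s in
theorem exists_BG : Nonempty BG := by
  obtain ⟨B, hB⟩ := s.hi
  have hg : ∀ t x, 0 ≤ x → gg s 0 t x ≤ B := fun t x hx =>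
    hB _ (div_nonneg hx (Real.sqrt_nonneg _))
  have hB0 : 0 ≤ B := le_trans (by norm_num) ((gg_lo s 0 le_rfl).trans (hg 0 0 le_rfl))
  have h2 : 2 / max 20 (2 * B + 1) ≤ 1 / 10 := by
    rw [div_le_iff₀ (by positivity)]; linarith [le_max_left 20 (2 * B + 1)]
  have hd : dom 1 = Icc 0 1 := dom_eq_Icc one_pos (one_mul 1)
  exact ⟨{
    gs := gg s 0
    g1 := g1 s
    q1 := q1 s
    S1 := S1 s
    S11 := dx (S1 s)
    S12 := dx (dx (S1 s))
    D1 := D1 s
    B0 := max 20 (2 * B + 1)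
    s0 := s.S 0
    one_le := le_trans (by norm_num) (le_max_left _ _)
    s0_pos := s.s0
    gs_ts := dom_zero ▸ ts_sim s.hx0 s.contDiffOn_g
    gs_scale := fun μ t x hμ => sim_scale _ hμ t x
    gs_bd := fun t _ x hx => ⟨h2.trans (gg_lo s t hx.1),
      (hg t x hx.1).trans (le_trans (by linarith) (le_max_right _ _))⟩
    gs_sym := fun c hc => (s.sim_sym c hc).imp fun _ h t ht x hx => h t ht x hx.1
    g1_ts := hd ▸ (sm_g1 s).ts
    g1_bd := fun t _ x hx => ⟨h2.trans (g1_lo s t hx.1), le_trans (by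
      have h3 := mul_le_mul (chi1_mem hx.1).2 (hg t x hx.1)
        (le_trans (by norm_num) (gg_lo s t hx.1)) (by norm_num)
      rw [g1]
      linarith [(chi_mem x).1]) (le_max_right _ _)⟩
    g1_sym := g1_sym s
    g1_eq := fun t _ x hx => by
      have : 1 - x ≠ 0 := by linarith [hx.2]
      rw [g1, chi_one hx.2]
      field_simp
      ring
    g1_sm := sm_g1 s
    q1_sm := sm_q1 s
    S1_sm := sm_S1 s
    S11_sm := (sm_S1 s).dx
    S12_sm := (sm_S1 s).dx.dx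
    D1_sm := sm_D1 s
    D1_ts := hd ▸ (sm_D1 s).ts
    q1_eq := fun _ _ _ hx => q1_eq s hx.1
    S1_eq := fun _ ht => S1_eq s ht
    S1_sp := fun _ ht => ⟨(sm_S1 s).cont ht, (sm_S1 s).dx.cont ht, (sm_S1 s).dx.dx.cont ht,
      fun _ hx => (sm_S1 s).hasDerivAt ht hx, fun _ hx => (sm_S1 s).dx.hasDerivAt ht hx⟩
    D1_eq := fun t ht x hx => ((sm_q1 s).dt.2 t ht x hx).congr_deriv (by rw [D1]; ring)
    D1_zero := fun _ ht _ hx h => D1_zero s ht hx h
    D1_bd := D1_bd s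
    S1_zero := fun t _ => by
      simp [S1, sim, chi_one (show (0 : ℝ) ≤ 1 / 4 by norm_num),
        dchi_lt (show (0 : ℝ) < 1 / 4 by norm_num)] }⟩

end Crest.Agent.R213.BGxA
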