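import Crest.Agent.R213.TS2

/-!
# Row 213: joint smoothness from partial derivatives, parametric integrals (auxiliary file for `Reg`)
-/

set_option autoImplicit false

noncomputable section

namespace Crest.Agent.R213.RegA

open Set Filter Topology
open scoped ContDiff

theorem partials {I : Set ℝ} (hI : IsOpen I) {L : ℝ} (hL : 0 < L) {n : ℕ}
    {u ut ux : Fn} (hu : ContinuousOn (fun p : ℝ × ℝ => u p.1 p.2) (I ×ˢ Icc 0 L))
    (ht : ∀ t ∈ I, ∀ x ∈ Ioo 0 L, HasDerivAt (fun s => u s x) (ut t x) t)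
    (hx : ∀ t ∈ I, ∀ x ∈ Ioo 0 L, HasDerivAt (u t) (ux t x) x)
    (h1 : ContDiffOn ℝ n (fun p : ℝ × ℝ => ut p.1 p.2) (I ×ˢ Icc 0 L))
    (h2 : ContDiffOn ℝ n (fun p : ℝ × ℝ => ux p.1 p.2) (I ×ˢ Icc 0 L)) :
    ContDiffOn ℝ (n + 1 : ℕ) (fun p : ℝ × ℝ => u p.1 p.2) (I ×ˢ Icc 0 L) := by
  have hS : UniqueDiffOn ℝ (I ×ˢ Icc 0 L) := hI.uniqueDiffOn.prod (uniqueDiffOn_Icc hL)
  set f' : ℝ × ℝ → ℝ × ℝ →L[ℝ] ℝ := fun p =>
    ut p.1 p.2 • ContinuousLinearMap.fst ℝ ℝ ℝ + ux p.1 p.2 • ContinuousLinearMap.snd ℝ ℝ ℝ with hf'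
  have hf'c : ContDiffOn ℝ n f' (I ×ˢ Icc 0 L) :=
    (h1.smul contDiffOn_const).add (h2.smul contDiffOn_const)
  have hO : IsOpen (I ×ˢ Ioo 0 L) := hI.prod isOpen_Ioo
  have hsub : I ×ˢ Ioo 0 L ⊆ I ×ˢ Icc 0 L := prod_mono subset_rfl Ioo_subset_Icc_self
  have key : ∀ r : ℝ, ContinuousLinearMap.toSpanSingleton ℝ r = r • ContinuousLinearMap.id ℝ ℝ :=
    fun r => by ext; simp
  have hin : ∀ p ∈ I ×ˢ Ioo 0 L, HasFDerivAt (fun p : ℝ × ℝ => u p.1 p.2) (f' p) p := by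
    intro p hp
    have hn := hO.mem_nhds hp
    have hn' : I ×ˢ Icc 0 L ∈ 𝓝 p := mem_of_superset hn hsub
    have := hasStrictFDerivAt_uncurry_coprod (𝕜 := ℝ) (u := p) (f := u)
      (f₁ := fun t x => ut t x • ContinuousLinearMap.id ℝ ℝ)
      (f₂ := fun t x => ux t x • ContinuousLinearMap.id ℝ ℝ)
      (eventually_of_mem hn fun v hv => (ht _ hv.1 _ hv.2).hasFDerivAt.congr_fderiv (key _))
      (eventually_of_mem hn fun v hv => (hx _ hv.1 _ hv.2).hasFDerivAt.congr_fderiv (key _))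
      ((h1.continuousOn.continuousAt hn').smul continuousAt_const)
      ((h2.continuousOn.continuousAt hn').smul continuousAt_const)
    refine this.hasFDerivAt.congr_fderiv ?_
    change (ut p.1 p.2 • ContinuousLinearMap.id ℝ ℝ).coprod (ux p.1 p.2 • ContinuousLinearMap.id ℝ ℝ) = _
    ext <;> simp [hf']
  rw [Nat.cast_succ, contDiffOn_succ_iff_hasFDerivWithinAt_of_uniqueDiffOn hS]
  refine ⟨fun h => absurd h (by simp), f', hf'c, fun p hp => ?_⟩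
  obtain ⟨r, hr, hb⟩ := Metric.nhds_basis_closedBall.mem_iff.1 (hI.mem_nhds hp.1)
  have hcl : closure (Metric.ball p.1 r ×ˢ Ioo 0 L) = Metric.closedBall p.1 r ×ˢ Icc 0 L := by
    rw [closure_prod_eq, closure_ball _ hr.ne', closure_Ioo hL.ne]
  have s1 : Metric.ball p.1 r ×ˢ Ioo 0 L ⊆ I ×ˢ Ioo 0 L :=
    prod_mono (Metric.ball_subset_closedBall.trans hb) subset_rfl
  have := hasFDerivWithinAt_closure_of_tendsto_fderiv (f := fun p : ℝ × ℝ => u p.1 p.2)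
    (s := Metric.ball p.1 r ×ˢ Ioo 0 L) (x := p) (f' := f' p)
    (fun q hq => (hin q (s1 hq)).differentiableAt.differentiableWithinAt)
    ((convex_ball _ _).prod (convex_Ioo _ _)) (Metric.isOpen_ball.prod isOpen_Ioo)
    (fun q hq => (hu q (prod_mono hb subset_rfl (hcl ▸ hq))).mono (s1.trans hsub))
    (((hf'c.continuousOn p hp).mono (s1.trans hsub)).tendsto.congr'
      (eventually_of_mem self_mem_nhdsWithin fun q hq => (hin q (s1 hq)).fderiv.symm))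
  rw [hcl] at this
  refine this.mono_of_mem_nhdsWithin (mem_nhdsWithin.2 ⟨Metric.ball p.1 r ×ˢ univ,
    Metric.isOpen_ball.prod isOpen_univ, ⟨Metric.mem_ball_self hr, trivial⟩, fun q hq => ?_⟩)
  exact ⟨Metric.ball_subset_closedBall hq.1.1, hq.2.2⟩

theorem dx {I : Set ℝ} (hI : IsOpen I) {L : ℝ} (hL : 0 < L) {n : ℕ} {u : Fn}
    (hu : ContDiffOn ℝ (n + 1 : ℕ) (fun p : ℝ × ℝ => u p.1 p.2) (I ×ˢ Icc 0 L)) :
    ContDiffOn ℝ n (fun p : ℝ × ℝ => derivWithin (u p.1) (Icc 0 L) p.2) (I ×ˢ Icc 0 L) ∧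
      ∀ t ∈ I, ∀ x ∈ Icc 0 L,
        HasDerivWithinAt (u t) (derivWithin (u t) (Icc 0 L) x) (Icc 0 L) x := by
  have hS : UniqueDiffOn ℝ (I ×ˢ Icc 0 L) := hI.uniqueDiffOn.prod (uniqueDiffOn_Icc hL)
  have hd : ∀ t ∈ I, ∀ x ∈ Icc 0 L, HasDerivWithinAt (u t)
      (fderivWithin ℝ (fun p : ℝ × ℝ => u p.1 p.2) (I ×ˢ Icc 0 L) (t, x) (0, 1)) (Icc 0 L) x := by
    intro t ht x hx
    have h1 := (hu.differentiableOn (by simp) (t, x) ⟨ht, hx⟩).hasFDerivWithinAt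
    have h2 : HasDerivWithinAt (fun s : ℝ => (t, s)) ((0 : ℝ), (1 : ℝ)) (Icc 0 L) x :=
      ((hasDerivAt_const x t).prodMk (hasDerivAt_id x)).hasDerivWithinAt
    exact h1.comp_hasDerivWithinAt (f := fun s : ℝ => (t, s)) x h2 fun s hs => mk_mem_prod ht hs
  refine ⟨?_, fun t ht x hx => (hd t ht x hx).differentiableWithinAt.hasDerivWithinAt⟩
  exact ((hu.fderivWithin hS (m := n) (by simp)).clm_apply
    (contDiffOn_const (c := ((0 : ℝ), (1 : ℝ))))).congr fun p hp =>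
      (hd _ hp.1 _ hp.2).derivWithin (uniqueDiffOn_Icc hL _ hp.2)

section param
variable {I : Set ℝ} {L : ℝ} {m0 m1 : ℝ → ℝ}

theorem param_cont (hm0 : Continuous m0) (hm1 : Continuous m1)
    (hm : ∀ θ ∈ Icc (0 : ℝ) 1, ∀ x ∈ Icc 0 L, m0 θ + m1 θ * x ∈ Icc 0 L) {a : ℝ → ℝ}
    (ha : Continuous a) {c : ℝ × ℝ → ℝ} (hc : Continuous c) {u : Fn}
    (hu : ContinuousOn (fun p : ℝ × ℝ => u p.1 p.2) (I ×ˢ Icc 0 L)) :
    ContinuousOn (fun q : (ℝ × ℝ) × ℝ =>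
      a q.2 * (c (q.2, q.1.2) * u q.1.1 (m0 q.2 + m1 q.2 * q.1.2)))
      ((I ×ˢ Icc 0 L) ×ˢ uIcc 0 1) := by
  rw [uIcc_of_le zero_le_one]
  refine ContinuousOn.mul (by fun_prop) (ContinuousOn.mul (by fun_prop) ?_)
  exact hu.comp (f := fun q : (ℝ × ℝ) × ℝ => (q.1.1, m0 q.2 + m1 q.2 * q.1.2)) (by fun_prop)
    fun q hq => ⟨hq.1.1, hm _ hq.2 _ hq.1.2⟩

theorem param (hI : IsOpen I) (hL : 0 < L) (hm0 : Continuous m0) (hm1 : Continuous m1)
    (hm : ∀ θ ∈ Icc (0 : ℝ) 1, ∀ x ∈ Icc 0 L, m0 θ + m1 θ * x ∈ Icc 0 L) (n : ℕ) :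
    ∀ {a : ℝ → ℝ} {c : ℝ × ℝ → ℝ} {u : Fn}, Continuous a → ContDiff ℝ ∞ c →
      ContDiffOn ℝ n (fun p : ℝ × ℝ => u p.1 p.2) (I ×ˢ Icc 0 L) →
      ContDiffOn ℝ n (fun p : ℝ × ℝ =>
        ∫ θ in (0 : ℝ)..1, a θ * (c (θ, p.2) * u p.1 (m0 θ + m1 θ * p.2))) (I ×ˢ Icc 0 L) := by
  have hm' : ∀ θ ∈ uIcc (0 : ℝ) 1, ∀ x ∈ Icc 0 L, m0 θ + m1 θ * x ∈ Icc 0 L := by
    rwa [uIcc_of_le zero_le_one]
  induction n with
  | zero =>
    intro a c u ha hc hu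
    rw [Nat.cast_zero, contDiffOn_zero] at hu ⊢
    exact TS2A.contOn_int (f := fun (p : ℝ × ℝ) θ => a θ * (c (θ, p.2) * u p.1 (m0 θ + m1 θ * p.2)))
      (param_cont hm0 hm1 hm ha hc.continuous hu)
  | succ n ih =>
    intro a c u ha hc hu
    obtain ⟨t1, t2⟩ := ContDiffOn.dt (n := n) hI (uniqueDiffOn_Icc hL) (by exact_mod_cast hu)
    obtain ⟨x1, x2⟩ := dx hI hL hu
    set cx : ℝ × ℝ → ℝ := fun p => fderiv ℝ c p (0, 1) with hcx
    have hcx1 : ContDiff ℝ ∞ cx := (hc.fderiv_right (m := ∞) (by simp)).clm_apply contDiff_const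
    have hcx2 : ∀ θ x, HasDerivAt (fun y => c (θ, y)) (cx (θ, x)) x := fun θ x =>
      (hc.differentiable (by simp) (θ, x)).hasFDerivAt.comp_hasDerivAt (f := fun s : ℝ => (θ, s)) x
        ((hasDerivAt_const x θ).prodMk (hasDerivAt_id x))
    have c0 := param_cont hm0 hm1 hm ha hc.continuous hu.continuousOn
    have c1 := param_cont hm0 hm1 hm ha hc.continuous (u := Dt u) t1.continuousOn
    have c2 := param_cont hm0 hm1 hm ha hcx1.continuous hu.continuousOn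
    have c3 := param_cont hm0 hm1 hm (ha.mul hm1) hc.continuous
      (u := fun t x => derivWithin (u t) (Icc 0 L) x) x1.continuousOn
    refine partials hI hL
      (u := fun t x => ∫ θ in (0 : ℝ)..1, a θ * (c (θ, x) * u t (m0 θ + m1 θ * x)))
      (ut := fun t x => ∫ θ in (0 : ℝ)..1, a θ * (c (θ, x) * Dt u t (m0 θ + m1 θ * x)))
      (ux := fun t x => (∫ θ in (0 : ℝ)..1, a θ * (cx (θ, x) * u t (m0 θ + m1 θ * x))) +
        ∫ θ in (0 : ℝ)..1, a θ * m1 θ *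
          (c (θ, x) * derivWithin (u t) (Icc 0 L) (m0 θ + m1 θ * x)))
      (TS2A.contOn_int (f := fun (p : ℝ × ℝ) θ =>
        a θ * (c (θ, p.2) * u p.1 (m0 θ + m1 θ * p.2))) c0)
      (fun t ht x hx => ?_) (fun t ht x hx => ?_) (ih ha hc (by exact_mod_cast t1))
      ((ih ha hcx1 (hu.of_le (by exact_mod_cast Nat.le_succ n))).add
        (ih (u := fun t x => derivWithin (u t) (Icc 0 L) x) (ha.mul hm1) hc x1))
    · have hx' := Ioo_subset_Icc_self hx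
      have k : MapsTo (fun p : ℝ × ℝ => ((p.1, x), p.2)) (I ×ˢ uIcc 0 1)
          ((I ×ˢ Icc 0 L) ×ˢ uIcc 0 1) := fun p hp => ⟨⟨hp.1, hx'⟩, hp.2⟩
      exact hasDerivAt_int hI (w := fun s θ => a θ * (c (θ, x) * u s (m0 θ + m1 θ * x)))
        (w' := fun s θ => a θ * (c (θ, x) * Dt u s (m0 θ + m1 θ * x)))
        (c0.comp (by fun_prop) k) (c1.comp (by fun_prop) k)
        (fun s hs θ hθ => ((t2 s hs _ (hm' θ hθ x hx')).const_mul _).const_mul _) ht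
    · have k : MapsTo (fun p : ℝ × ℝ => ((t, p.1), p.2)) (Ioo 0 L ×ˢ uIcc 0 1)
          ((I ×ˢ Icc 0 L) ×ˢ uIcc 0 1) := fun p hp => ⟨⟨ht, Ioo_subset_Icc_self hp.1⟩, hp.2⟩
      have d2 := c2.comp (by fun_prop) k
      have d3 := c3.comp (by fun_prop) k
      rw [← intervalIntegral.integral_add
        (TS2A.sec_cont (w := fun y θ => a θ * (cx (θ, y) * u t (m0 θ + m1 θ * y))) d2
          hx).intervalIntegrable
        (TS2A.sec_cont (w := fun y θ => a θ * m1 θ *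
          (c (θ, y) * derivWithin (u t) (Icc 0 L) (m0 θ + m1 θ * y))) d3 hx).intervalIntegrable]
      refine hasDerivAt_int isOpen_Ioo (w := fun y θ => a θ * (c (θ, y) * u t (m0 θ + m1 θ * y)))
        (w' := fun y θ => a θ * (cx (θ, y) * u t (m0 θ + m1 θ * y)) + a θ * m1 θ *
          (c (θ, y) * derivWithin (u t) (Icc 0 L) (m0 θ + m1 θ * y)))
        (c0.comp (by fun_prop) k) (d2.add d3) (fun y hy θ hθ => ?_) hx
      have e1 : HasDerivAt (fun y => m0 θ + m1 θ * y) (m1 θ) y := by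
        simpa using ((hasDerivAt_id y).const_mul (m1 θ)).const_add (m0 θ)
      have e2 := ((x2 t ht _ (hm' θ hθ y (Ioo_subset_Icc_self hy))).comp y
        (e1.hasDerivWithinAt (s := Icc 0 L)) (hm' θ hθ)).hasDerivAt (Icc_mem_nhds hy.1 hy.2)
      refine (((hcx2 θ y).fun_mul e2).const_mul (a θ)).congr_deriv ?_
      simp only [Function.comp]
      ring

end param

theorem int_t {I : Set ℝ} (hI : IsOpen I) (hI' : I.OrdConnected) {L : ℝ} (hL : 0 < L) {t0 : ℝ}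
    (h0 : t0 ∈ I) (n : ℕ) : ∀ {u : Fn}, ContDiffOn ℝ ∞ (fun p : ℝ × ℝ => u p.1 p.2) (I ×ˢ Icc 0 L) →
      ContDiffOn ℝ n (fun p : ℝ × ℝ => ∫ s in t0..p.1, u s p.2) (I ×ˢ Icc 0 L) := by
  induction n with
  | zero =>
    intro u hu
    rw [Nat.cast_zero, contDiffOn_zero]
    exact ((TS.int_t hI hI' (TS.of_contDiffOn hI (uniqueDiffOn_Icc hL) hu) h0).1 0).1
  | succ n ih =>
    intro u hu
    obtain ⟨T1, T2⟩ := TS.int_t hI hI' (TS.of_contDiffOn hI (uniqueDiffOn_Icc hL) hu) h0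
    have x1 : ContDiffOn ℝ ∞ (fun p : ℝ × ℝ => derivWithin (u p.1) (Icc 0 L) p.2) (I ×ˢ Icc 0 L) :=
      contDiffOn_infty.2 fun k => (dx hI hL (contDiffOn_infty.1 hu (k + 1))).1
    have x2 := (dx hI hL (contDiffOn_infty.1 hu (0 + 1))).2
    refine partials hI hL (u := fun t x => ∫ s in t0..t, u s x) (ut := u)
      (ux := fun t x => ∫ s in t0..t, derivWithin (u s) (Icc 0 L) x) (T1 0).1
      (fun t ht x hx => ?_) (fun t ht x hx => ?_) (contDiffOn_infty.1 hu n)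
      (ih (u := fun t x => derivWithin (u t) (Icc 0 L) x) x1)
    · have := (T1 0).2 t ht x (Ioo_subset_Icc_self hx)
      rwa [T2 0 t ht x (Ioo_subset_Icc_self hx)] at this
    · have k : MapsTo (fun p : ℝ × ℝ => (p.2, p.1)) (Ioo 0 L ×ˢ uIcc t0 t) (I ×ˢ Icc 0 L) :=
        fun p hp => ⟨hI'.uIcc_subset h0 ht hp.2, Ioo_subset_Icc_self hp.1⟩
      exact hasDerivAt_int isOpen_Ioo (w := fun y s => u s y)
        (w' := fun y s => derivWithin (u s) (Icc 0 L) y)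
        (hu.continuousOn.comp (by fun_prop) k) (x1.continuousOn.comp (by fun_prop) k)
        (fun y hy s hs => (x2 s (hI'.uIcc_subset h0 ht hs) y (Ioo_subset_Icc_self hy)).hasDerivAt
          (Icc_mem_nhds hy.1 hy.2)) hx

end Crest.Agent.R213.RegA
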