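import Crest.Agent.R213.SysB

/-!
# Row 213: the bootstrap behind `Sys.smooth`
-/

set_option autoImplicit false

noncomputable section

namespace Crest.Agent.R213.RegB

open Set Filter Topology
open scoped ContDiff

variable {ε : ℝ} {I : Set ℝ} {γ d e F F1 F2 ζ : Fn}

theorem dt_smooth (hI : IsOpen I) {u : Fn}
    (h : ContDiffOn ℝ ∞ (fun p : ℝ × ℝ => u p.1 p.2) (I ×ˢ Icc 0 1)) (j : ℕ) (n : ℕ) :
    ContDiffOn ℝ n (fun p : ℝ × ℝ => DT j u p.1 p.2) (I ×ˢ Icc 0 1) := by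
  have H : ContDiffOn ℝ ∞ (fun p : ℝ × ℝ => DT j u p.1 p.2) (I ×ˢ Icc 0 1) := by
    induction j with
    | zero => exact h
    | succ j ih => exact (ContDiffOn.dt (n := ⊤) hI (uniqueDiffOn_Icc one_pos) ih).1
  exact contDiffOn_infty.1 H n

/-- Inversion of the differentiated nonlinear relation. -/
theorem leib_inv {S : Set (ℝ × ℝ)} {n : ℕ} {X : ℝ × ℝ → ℝ} {g z y : ℕ → ℝ × ℝ → ℝ}
    (hX : ContDiffOn ℝ n X S) (hg : ∀ j, ContDiffOn ℝ n (g j) S) (hz : ∀ j, ContDiffOn ℝ n (z j) S)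
    (h0 : ∀ p ∈ S, (g 0 p + X p * z 0 p) * g 0 p ≠ 0)
    (h : ∀ l, ∀ p ∈ S, Leib (X p) (fun j => g j p) (fun j => z j p) (fun j => y j p) l) (l : ℕ) :
    ContDiffOn ℝ n (y l) S := by
  induction l using Nat.strong_induction_on with
  | _ l ih =>
    have h1 : ContDiffOn ℝ n (fun p => ∑ i ∈ Finset.range l, (l.choose i : ℝ) *
        (∑ a ∈ Finset.range (l - i + 1), ((l - i).choose a : ℝ) * (g a p + X p * z a p) *
          g (l - i - a) p) * y i p) S :=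
      ContDiffOn.sum fun i hi => (contDiffOn_const.mul (ContDiffOn.sum fun a _ =>
        (contDiffOn_const.mul ((hg a).add (hX.mul (hz a)))).mul (hg _))).mul
        (ih i (Finset.mem_range.1 hi))
    refine (((hz l).neg.sub h1).div (((hg 0).add (hX.mul (hz 0))).mul (hg 0)) h0).congr
      fun p hp => ?_
    have h2 := h l p hp
    rw [Leib, Finset.sum_range_succ] at h2
    simp only [Nat.choose_self, Nat.cast_one, one_mul, Nat.sub_self, zero_add, Finset.sum_range_one]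
      at h2
    refine eq_div_of_mul_eq (h0 p hp) ?_
    linarith

theorem smooth (hI : IsOpen I)
    (H1 : ∀ {n : ℕ} {u ut ux : Fn}, ContinuousOn (fun p : ℝ × ℝ => u p.1 p.2) (I ×ˢ Icc 0 1) →
      (∀ t ∈ I, ∀ x ∈ Ioo (0 : ℝ) 1, HasDerivAt (fun s => u s x) (ut t x) t) →
      (∀ t ∈ I, ∀ x ∈ Ioo (0 : ℝ) 1, HasDerivAt (u t) (ux t x) x) →
      ContDiffOn ℝ n (fun p : ℝ × ℝ => ut p.1 p.2) (I ×ˢ Icc 0 1) →
      ContDiffOn ℝ n (fun p : ℝ × ℝ => ux p.1 p.2) (I ×ˢ Icc 0 1) →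
      ContDiffOn ℝ (n + 1 : ℕ) (fun p : ℝ × ℝ => u p.1 p.2) (I ×ˢ Icc 0 1))
    (H2 : ∀ (n : ℕ) {u : Fn} {c : ℝ × ℝ → ℝ} {m0 m1 : ℝ → ℝ}, ContDiff ℝ ∞ c → Continuous m0 →
      Continuous m1 → (∀ θ ∈ Icc (0 : ℝ) 1, ∀ x ∈ Icc (0 : ℝ) 1, m0 θ + m1 θ * x ∈ Icc (0 : ℝ) 1) →
      ContDiffOn ℝ n (fun p : ℝ × ℝ => u p.1 p.2) (I ×ˢ Icc 0 1) →
      ContDiffOn ℝ n (fun p : ℝ × ℝ => ∫ θ in (0 : ℝ)..1, c (θ, p.2) * u p.1 (m0 θ + m1 θ * p.2))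
        (I ×ˢ Icc 0 1))
    (h : Sys 1 ε 0 I γ d e F F1 F2 ζ) (he : ∀ t ∈ I, ∀ x ∈ dom 1, e t x = 0)
    (hγ : ContDiffOn ℝ ∞ (fun p : ℝ × ℝ => γ p.1 p.2) (I ×ˢ Icc 0 1))
    (hd : ContDiffOn ℝ ∞ (fun p : ℝ × ℝ => d p.1 p.2) (I ×ˢ Icc 0 1)) (j : ℕ) :
    ContDiffOn ℝ ∞ (fun p : ℝ × ℝ => DT j F p.1 p.2) (I ×ˢ Icc 0 1) ∧
      ContDiffOn ℝ ∞ (fun p : ℝ × ℝ => DT j F1 p.1 p.2) (I ×ˢ Icc 0 1) ∧
      ContDiffOn ℝ ∞ (fun p : ℝ × ℝ => DT j F2 p.1 p.2) (I ×ˢ Icc 0 1) ∧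
      ContDiffOn ℝ ∞ (fun p : ℝ × ℝ => DT j ζ p.1 p.2) (I ×ˢ Icc 0 1) := by
  have hD : dom 1 = Icc 0 1 := dom_eq_Icc one_pos (one_mul 1)
  have A : ∀ n : ℕ, (∀ j, ContDiffOn ℝ n (fun p : ℝ × ℝ => DT j F p.1 p.2) (I ×ˢ Icc 0 1)) →
      ∀ j, ContDiffOn ℝ n (fun p : ℝ × ℝ => DT j ζ p.1 p.2) (I ×ˢ Icc 0 1) := fun n hF j => by
    have hu : ContDiffOn ℝ n (fun p : ℝ × ℝ =>
        (fun t x => DT (j + 1) F t x - DT j e t x : Fn) p.1 p.2) (I ×ˢ Icc 0 1) :=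
      (hF (j + 1)).congr fun p hp => by
        have := DT_congr (u := e) (v := 0) hI (fun t ht => he t ht p.2 (hD ▸ hp.2)) j p.1 hp.1
        simp only [this, DT_zero, Pi.zero_apply, sub_zero]
    have h1 := H2 n (u := fun t x => DT (j + 1) F t x - DT j e t x)
      (c := fun q => q.1 * (q.2 + q.1 * (1 - q.2)) ^ 9) (m0 := fun θ => θ)
      (m1 := fun θ => 1 - θ) (by fun_prop) (by fun_prop) (by fun_prop)
      (fun θ hθ x hx => ⟨by nlinarith [hθ.1, hθ.2, hx.1], by nlinarith [hθ.1, hθ.2, hx.2]⟩) hu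
    have h2 := H2 n (u := fun t x => DT (j + 1) F t x - DT j e t x)
      (c := fun q => (1 - q.1) * q.1 ^ 9) (m0 := fun _ => 0)
      (m1 := fun θ => θ) (by fun_prop) (by fun_prop) (by fun_prop)
      (fun θ hθ x hx => ⟨by nlinarith [hθ.1, hx.1], by nlinarith [hθ.1, hθ.2, hx.2]⟩) hu
    have h3 : ∀ p ∈ I ×ˢ Icc (0 : ℝ) 1, p.2 ^ 11 + (1 - 1 * p.2) ^ 2 ≠ 0 := fun p hp => by
      rcases hp.2.1.eq_or_lt with h0 | h0
      · rw [← h0]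
        norm_num
      · positivity
    refine ((h1.add h2).div (by fun_prop) h3).congr fun p hp => ?_
    have := (h.volOn hI (L := 1) (by norm_num) j hp.1).formula one_pos (one_mul 1) hp.2
    have e1 : ∀ θ : ℝ, θ + (1 - θ) * p.2 = p.2 + θ * (1 - p.2) := fun θ => by ring
    simpa only [zero_mul, sub_zero, one_pow, one_mul, K1, zero_add, e1, Pi.div_apply] using this
  have B : ∀ n : ℕ, (∀ j, ContDiffOn ℝ n (fun p : ℝ × ℝ => DT j F p.1 p.2) (I ×ˢ Icc 0 1)) →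
      ∀ j, ContDiffOn ℝ n (fun p : ℝ × ℝ => DT j F2 p.1 p.2) (I ×ˢ Icc 0 1) := fun n hF j => by
    have h1 := leib_inv (X := fun p => ε * ph 1 p.2)
      (y := fun j p => DT j F2 p.1 p.2 + DT j d p.1 p.2) (by unfold ph; fun_prop)
      (fun j => dt_smooth hI hγ j n) (A n hF)
      (fun p hp => (mul_pos (h.pos _ hp.1 _ (hD ▸ hp.2)) (h.gpos _ hp.1 _ (hD ▸ hp.2))).ne')
      (fun l p hp => h.leib hI hp.1 (hD ▸ hp.2) l) j
    exact (h1.sub (dt_smooth hI hd j n)).congr fun p _ => (add_sub_cancel_right _ _).symm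
  have hm : ∀ x ∈ Ioo (0 : ℝ) 1, x ∈ dom 1 := fun x hx => hD ▸ Ioo_subset_Icc_self hx
  have C : ∀ n : ℕ, ∀ j, ContDiffOn ℝ n (fun p : ℝ × ℝ => DT j F p.1 p.2) (I ×ˢ Icc 0 1) ∧
      ContDiffOn ℝ n (fun p : ℝ × ℝ => DT j F1 p.1 p.2) (I ×ˢ Icc 0 1) := fun n => by
    induction n with
    | zero =>
      exact fun j => ⟨contDiffOn_zero.2 (hD ▸ (h.tF j).1), contDiffOn_zero.2 (hD ▸ (h.tF1 j).1)⟩
    | succ n ih =>
      exact fun j => ⟨H1 (hD ▸ (h.tF j).1) (fun t ht x hx => (h.tF j).2 t ht x (hm x hx))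
          (fun t ht => (h.sp hI (L := 1) (by norm_num) j ht).d1) (ih (j + 1)).1 (ih j).2,
        H1 (hD ▸ (h.tF1 j).1) (fun t ht x hx => (h.tF1 j).2 t ht x (hm x hx))
          (fun t ht => (h.sp hI (L := 1) (by norm_num) j ht).d2) (ih (j + 1)).2
          (B n (fun j => (ih j).1) j)⟩
  exact ⟨contDiffOn_infty.2 fun n => (C n j).1, contDiffOn_infty.2 fun n => (C n j).2,
    contDiffOn_infty.2 fun n => B n (fun j => (C n j).1) j,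
    contDiffOn_infty.2 fun n => A n (fun j => (C n j).1) j⟩

end Crest.Agent.R213.RegB
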