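import Crest.Agent.R213.SysB
import Crest.Agent.R213.RegA
import Crest.Agent.R213.RegB

/-!
# Row 213: joint smoothness of solutions
-/

set_option autoImplicit false

noncomputable section

namespace Crest.Agent.R213

open Set Filter Topology
open scoped ContDiff

/-- Continuous partial derivatives give joint smoothness up to the spatial boundary. -/
theorem contDiffOn_succ_of_partials {I : Set ℝ} (hI : IsOpen I) {L : ℝ} (hL : 0 < L) {n : ℕ}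
    {u ut ux : Fn} (hu : ContinuousOn (fun p : ℝ × ℝ => u p.1 p.2) (I ×ˢ Icc 0 L))
    (ht : ∀ t ∈ I, ∀ x ∈ Ioo 0 L, HasDerivAt (fun s => u s x) (ut t x) t)
    (hx : ∀ t ∈ I, ∀ x ∈ Ioo 0 L, HasDerivAt (u t) (ux t x) x)
    (h1 : ContDiffOn ℝ n (fun p : ℝ × ℝ => ut p.1 p.2) (I ×ˢ Icc 0 L))
    (h2 : ContDiffOn ℝ n (fun p : ℝ × ℝ => ux p.1 p.2) (I ×ˢ Icc 0 L)) :
    ContDiffOn ℝ (n + 1 : ℕ) (fun p : ℝ × ℝ => u p.1 p.2) (I ×ˢ Icc 0 L) := by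
  exact RegA.partials hI hL hu ht hx h1 h2

/-- The spatial partial derivative of a smooth function. -/
theorem contDiffOn_dx {I : Set ℝ} (hI : IsOpen I) {L : ℝ} (hL : 0 < L) {n : ℕ} {u : Fn}
    (hu : ContDiffOn ℝ (n + 1 : ℕ) (fun p : ℝ × ℝ => u p.1 p.2) (I ×ˢ Icc 0 L)) :
    ContDiffOn ℝ n (fun p : ℝ × ℝ => derivWithin (u p.1) (Icc 0 L) p.2) (I ×ˢ Icc 0 L) ∧
      ∀ t ∈ I, ∀ x ∈ Icc 0 L,
        HasDerivWithinAt (u t) (derivWithin (u t) (Icc 0 L) x) (Icc 0 L) x := by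
  exact RegA.dx hI hL hu

/-- Parametric integrals along affine contractions of the interval. -/
theorem contDiffOn_int_param {I : Set ℝ} (hI : IsOpen I) {L : ℝ} (hL : 0 < L) (n : ℕ) {u : Fn}
    {c : ℝ × ℝ → ℝ} {m0 m1 : ℝ → ℝ} (hc : ContDiff ℝ ∞ c) (hm0 : Continuous m0)
    (hm1 : Continuous m1)
    (hm : ∀ θ ∈ Icc (0 : ℝ) 1, ∀ x ∈ Icc 0 L, m0 θ + m1 θ * x ∈ Icc 0 L)
    (hu : ContDiffOn ℝ n (fun p : ℝ × ℝ => u p.1 p.2) (I ×ˢ Icc 0 L)) :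
    ContDiffOn ℝ n (fun p : ℝ × ℝ => ∫ θ in (0 : ℝ)..1, c (θ, p.2) * u p.1 (m0 θ + m1 θ * p.2))
      (I ×ˢ Icc 0 L) := by
  simpa only [one_mul] using RegA.param hI hL hm0 hm1 hm n (a := fun _ => 1) continuous_const hc hu

/-- Integrals in space. -/
theorem contDiffOn_int_x {I : Set ℝ} (hI : IsOpen I) {L : ℝ} (hL : 0 < L) {u : Fn}
    (hu : ContDiffOn ℝ ∞ (fun p : ℝ × ℝ => u p.1 p.2) (I ×ˢ Icc 0 L)) :
    ContDiffOn ℝ ∞ (fun p : ℝ × ℝ => ∫ y in (0 : ℝ)..p.2, u p.1 y) (I ×ˢ Icc 0 L) := by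
  refine contDiffOn_infty.2 fun n => ?_
  refine (contDiffOn_int_param hI hL n (c := fun q => q.2) (m0 := fun _ => 0) (m1 := fun θ => θ)
    contDiff_snd continuous_const continuous_id (fun θ hθ x hx => by
      rw [zero_add]
      exact ⟨mul_nonneg hθ.1 hx.1, (mul_le_of_le_one_left hx.1 hθ.2).trans hx.2⟩)
    (contDiffOn_infty.1 hu n)).congr fun p _ => ?_
  rw [TS2A.int_subst]
  simp only [sub_zero, mul_comm p.2]

/-- Integrals in time. -/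
theorem contDiffOn_int_t {I : Set ℝ} (hI : IsOpen I) (hI' : I.OrdConnected) {L : ℝ} (hL : 0 < L)
    {u : Fn} (hu : ContDiffOn ℝ ∞ (fun p : ℝ × ℝ => u p.1 p.2) (I ×ˢ Icc 0 L)) {t0 : ℝ}
    (h0 : t0 ∈ I) :
    ContDiffOn ℝ ∞ (fun p : ℝ × ℝ => ∫ s in t0..p.1, u s p.2) (I ×ˢ Icc 0 L) := by
  exact contDiffOn_infty.2 fun n => RegA.int_t hI hI' hL h0 n hu

/-- Solutions with smooth data are smooth. -/
theorem Sys.smooth {ε : ℝ} {I : Set ℝ} {γ d e F F1 F2 ζ : Fn} (hI : IsOpen I)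
    (h : Sys 1 ε 0 I γ d e F F1 F2 ζ) (he : ∀ t ∈ I, ∀ x ∈ dom 1, e t x = 0)
    (hγ : ContDiffOn ℝ ∞ (fun p : ℝ × ℝ => γ p.1 p.2) (I ×ˢ Icc 0 1))
    (hd : ContDiffOn ℝ ∞ (fun p : ℝ × ℝ => d p.1 p.2) (I ×ˢ Icc 0 1)) (j : ℕ) :
    ContDiffOn ℝ ∞ (fun p : ℝ × ℝ => DT j F p.1 p.2) (I ×ˢ Icc 0 1) ∧
      ContDiffOn ℝ ∞ (fun p : ℝ × ℝ => DT j F1 p.1 p.2) (I ×ˢ Icc 0 1) ∧
      ContDiffOn ℝ ∞ (fun p : ℝ × ℝ => DT j F2 p.1 p.2) (I ×ˢ Icc 0 1) ∧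
      ContDiffOn ℝ ∞ (fun p : ℝ × ℝ => DT j ζ p.1 p.2) (I ×ˢ Icc 0 1) :=
  RegB.smooth hI (contDiffOn_succ_of_partials hI one_pos) (contDiffOn_int_param hI one_pos)
    h he hγ hd j

end Crest.Agent.R213
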