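import Crest.Agent.R213.Sim
import Crest.Agent.R213.Reg
import Crest.Agent.R213.BGxB

/-!
# Row 213: the glued background
-/

set_option autoImplicit false

noncomputable section

namespace Crest.Agent.R213

open Set Filter Topology
open scoped ContDiff

theorem exists_BG (s : Sol) : Nonempty BG := BGxA.exists_BG s

end Crest.Agent.R213
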