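import Crest.Agent.R213.Sim
import Crest.Agent.R213.Reg

/-!
# Row 213: the background, auxiliary lemmas
-/

set_option autoImplicit false

noncomputable section

namespace Crest.Agent.R213.BGxA

open Set Filter Topology
open scoped ContDiff

/-! ## The cut-off -/

def chi (x : ℝ) : ℝ := 1 - Real.smoothTransition (4 * x - 1)

theorem chi_sm : ContDiff ℝ ∞ chi :=
  contDiff_const.sub (Real.smoothTransition.contDiff.comp (by fun_prop))

theorem chi_one {x : ℝ} (h : x ≤ 1 / 4) : chi x = 1 := by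
  rw [chi, Real.smoothTransition.zero_of_nonpos (by linarith), sub_zero]

theorem chi_zero {x : ℝ} (h : 1 / 2 ≤ x) : chi x = 0 := by
  rw [chi, Real.smoothTransition.one_of_one_le (by linarith), sub_self]

theorem chi_mem (x : ℝ) : chi x ∈ Icc (0 : ℝ) 1 :=
  ⟨sub_nonneg.2 (Real.smoothTransition.le_one _),
    sub_le_self _ (Real.smoothTransition.nonneg _)⟩

theorem dchi_sm : ContDiff ℝ ∞ (deriv chi) := (contDiff_infty_iff_deriv.1 chi_sm).2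

theorem ddchi_sm : ContDiff ℝ ∞ (deriv (deriv chi)) := (contDiff_infty_iff_deriv.1 dchi_sm).2

theorem deriv_eq_zero_of {f : ℝ → ℝ} {s : Set ℝ} (hs : IsOpen s) {c : ℝ} (h : ∀ x ∈ s, f x = c) :
    ∀ x ∈ s, deriv f x = 0 := fun x hx => by
  rw [EventuallyEq.deriv_eq (f := fun _ => c) (eventually_of_mem (hs.mem_nhds hx) h), deriv_const]

theorem dchi_lt {x : ℝ} (h : x < 1 / 4) : deriv chi x = 0 ∧ deriv (deriv chi) x = 0 :=
  have h1 := deriv_eq_zero_of (f := chi) isOpen_Iio fun _ (hx : _ < (1 / 4 : ℝ)) => chi_one hx.le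
  ⟨h1 x h, deriv_eq_zero_of isOpen_Iio h1 x h⟩

theorem dchi_gt {x : ℝ} (h : 1 / 2 < x) : deriv chi x = 0 ∧ deriv (deriv chi) x = 0 :=
  have h1 := deriv_eq_zero_of (f := chi) isOpen_Ioi fun _ (hx : (1 / 2 : ℝ) < _) => chi_zero hx.le
  ⟨h1 x h, deriv_eq_zero_of isOpen_Ioi h1 x h⟩

theorem chi_div_sm (n : ℕ) : ContDiff ℝ ∞ fun x => chi x / (1 - x) ^ n := by
  refine contDiff_iff_contDiffAt.2 fun x => ?_
  rcases lt_or_ge x 1 with h | h
  · exact chi_sm.contDiffAt.div (by fun_prop) (pow_ne_zero _ (by linarith))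
  · refine (contDiffAt_const (c := (0 : ℝ))).congr_of_eventuallyEq ?_
    filter_upwards [Ioi_mem_nhds (show (1 / 2 : ℝ) < x by linarith)] with y hy
    rw [chi_zero (le_of_lt hy), zero_div]

theorem chi1_mem {x : ℝ} (hx : 0 ≤ x) :
    chi x ≤ chi x / (1 - x) ^ 1 ∧ chi x / (1 - x) ^ 1 ≤ 2 := by
  rcases le_total x (1 / 2) with h | h
  · have := chi_mem x
    rw [pow_one, le_div_iff₀ (by linarith), div_le_iff₀ (by linarith)]
    constructor <;> nlinarith [this.1, this.2]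
  · rw [chi_zero h]; norm_num

/-! ## Calculus -/

theorem eq_of_deriv_zero {f : ℝ → ℝ} (hc : ContinuousOn f (Icc 0 1))
    (hd : ∀ x ∈ Ioo (0 : ℝ) 1, HasDerivAt f 0 x) (h0 : f 0 = 0) : ∀ x ∈ Icc (0 : ℝ) 1, f x = 0 := by
  intro x hx
  rcases hx.1.eq_or_lt with rfl | h
  · exact h0
  obtain ⟨c, -, hc⟩ := exists_hasDerivAt_eq_slope f (fun _ => 0) h
    (hc.mono (Icc_subset_Icc_right hx.2)) fun y hy => hd y ⟨hy.1, hy.2.trans_le hx.2⟩
  rw [h0, sub_zero, sub_zero, eq_comm, div_eq_zero_iff] at hc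
  exact hc.resolve_right h.ne'

/-- Smooth on the closed strip. -/
def Sm (u : Fn) : Prop := ContDiffOn ℝ ∞ (fun p : ℝ × ℝ => u p.1 p.2) (Iio 0 ×ˢ Icc 0 1)

def dx (u : Fn) : Fn := fun t x => derivWithin (u t) (Icc 0 1) x

theorem Sm.dx {u : Fn} (h : Sm u) : Sm (dx u) :=
  contDiffOn_infty.2 fun n =>
    (contDiffOn_dx isOpen_Iio one_pos (contDiffOn_infty.1 h (n + 1))).1

theorem Sm.hasDerivAt {u : Fn} (h : Sm u) {t x : ℝ} (ht : t < 0) (hx : x ∈ Ioo (0 : ℝ) 1) :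
    HasDerivAt (u t) (BGxA.dx u t x) x :=
  ((contDiffOn_dx isOpen_Iio one_pos (contDiffOn_infty.1 h (0 + 1))).2 t ht x
    (Ioo_subset_Icc_self hx)).hasDerivAt (Icc_mem_nhds hx.1 hx.2)

theorem Sm.cont {u : Fn} (h : Sm u) {t : ℝ} (ht : t < 0) : ContinuousOn (u t) (Icc 0 1) :=
  h.continuousOn.comp (f := fun x => (t, x)) (by fun_prop) fun _ hx => ⟨ht, hx⟩

theorem Sm.dt {u : Fn} (h : Sm u) : Sm (Dt u) ∧
    ∀ t < 0, ∀ x ∈ Icc (0 : ℝ) 1, HasDerivAt (fun s => u s x) (Dt u t x) t :=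
  ContDiffOn.dt (n := ⊤) isOpen_Iio (uniqueDiffOn_Icc one_pos) h

theorem Sm.ts {u : Fn} (h : Sm u) : TS (Iio 0) (Icc 0 1) u :=
  TS.of_contDiffOn isOpen_Iio (uniqueDiffOn_Icc one_pos) h

theorem Sm.of_x {c : ℝ → ℝ} (h : ContDiff ℝ ∞ c) : Sm fun _ x => c x :=
  (h.comp contDiff_snd).contDiffOn

theorem sm_sim {G : ℝ → ℝ} {x0 : ℝ} (h0 : 0 < x0) (h : ContDiffOn ℝ ∞ G (Ioi (-x0))) :
    Sm (sim G) :=
  (contDiffOn_sim h).mono ((Set.prod_mono Subset.rfl Icc_subset_Ici_self).trans (subset_simU h0))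

theorem sm_lam : Sm fun t _ => lam t :=
  ContDiffOn.sqrt (by fun_prop) fun p hp => neg_ne_zero.2 (ne_of_lt hp.1)

theorem mem_Ioi_div {x0 t x : ℝ} (h0 : 0 < x0) (hx : 0 ≤ x) : x / lam t ∈ Ioi (-x0) :=
  (neg_lt_zero.2 h0).trans_le (div_nonneg hx (Real.sqrt_nonneg _))

theorem hasDerivAt_of {G : ℝ → ℝ} {x0 y : ℝ} (h : ContDiffOn ℝ ∞ G (Ioi (-x0)))
    (hy : y ∈ Ioi (-x0)) : HasDerivAt G (deriv G y) y :=
  ((h.contDiffAt (isOpen_Ioi.mem_nhds hy)).differentiableAt (by simp)).hasDerivAt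

theorem sim_dx {G : ℝ → ℝ} {x0 : ℝ} (h0 : 0 < x0) (h : ContDiffOn ℝ ∞ G (Ioi (-x0))) {t x : ℝ}
    (ht : t < 0) (hx : 0 < x) : HasDerivAt (sim G t) (sim (Th 1 G) t x / x) x := by
  have := lam_pos ht
  refine ((hasDerivAt_of h (mem_Ioi_div h0 hx.le)).comp x
    ((hasDerivAt_id x).div_const (lam t))).congr_deriv ?_
  simp only [sim, Th]
  field_simp

theorem sim_dt {G : ℝ → ℝ} {x0 : ℝ} (h0 : 0 < x0) (h : ContDiffOn ℝ ∞ G (Ioi (-x0))) {t x : ℝ}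
    (ht : t < 0) (hx : 0 ≤ x) :
    HasDerivAt (fun s => sim G s x) (sim (Th 1 G) t x / (2 * lam t ^ 2)) t := by
  have := lam_pos ht
  refine ((hasDerivAt_of h (mem_Ioi_div h0 hx)).comp t
    ((hasDerivAt_const t x).div (hasDerivAt_lam ht) this.ne')).congr_deriv ?_
  simp only [sim, Th]
  field_simp
  ring

/-! ## Tame functions on the gluing region -/

def Tame (u : Fn) : Prop :=
  TS (Iio 0) (Icc (1 / 4) (1 / 2)) u ∧ ∀ j, ∃ B, ∀ t ∈ Ico (-1 : ℝ) 0,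
    ∀ x ∈ Icc (1 / 4 : ℝ) (1 / 2), (-t) ^ j * |DT j u t x| ≤ B

theorem Tame.upto {u : Fn} (h : Tame u) (j : ℕ) : ∃ B, ∀ t ∈ Ico (-1 : ℝ) 0,
    ∀ x ∈ Icc (1 / 4 : ℝ) (1 / 2), ∀ i ≤ j, (-t) ^ i * |DT i u t x| ≤ B := by
  choose B hB using h.2
  obtain ⟨M, hM⟩ := ((Set.finite_Iic j).image B).bddAbove
  exact ⟨M, fun t ht x hx i hi => (hB i t ht x hx).trans (hM ⟨i, hi, rfl⟩)⟩

theorem Tame.congr {u v : Fn} (h : Tame u)
    (e : ∀ t < 0, ∀ x ∈ Icc (1 / 4 : ℝ) (1 / 2), v t x = u t x) : Tame v := by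
  refine ⟨h.1.congr isOpen_Iio e, fun j => ?_⟩
  obtain ⟨B, hB⟩ := h.2 j
  refine ⟨B, fun t ht x hx => ?_⟩
  rw [DT_congr isOpen_Iio (fun s hs => e s hs x hx) j t ht.2]
  exact hB t ht x hx

theorem Tame.add {u v : Fn} (h : Tame u) (k : Tame v) : Tame fun t x => u t x + v t x := by
  refine ⟨h.1.add isOpen_Iio k.1, fun j => ?_⟩
  obtain ⟨A, hA⟩ := h.2 j
  obtain ⟨B, hB⟩ := k.2 j
  refine ⟨A + B, fun t ht x hx => ?_⟩
  rw [DT_add isOpen_Iio h.1 k.1 j t ht.2 x hx]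
  have : 0 ≤ (-t) ^ j := pow_nonneg (neg_nonneg.2 ht.2.le) j
  exact (mul_le_mul_of_nonneg_left (abs_add_le _ _) this).trans
    (by rw [mul_add]; exact add_le_add (hA t ht x hx) (hB t ht x hx))

theorem Tame.mul {u v : Fn} (h : Tame u) (k : Tame v) : Tame fun t x => u t x * v t x := by
  refine ⟨h.1.mul isOpen_Iio k.1, fun j => ?_⟩
  obtain ⟨A, hA⟩ := h.upto j
  obtain ⟨B, hB⟩ := k.upto j
  exact ⟨_, fun t ht x hx => bd_mul isOpen_Iio h.1 k.1 ht.2 hx (neg_nonneg.2 ht.2.le)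
    (hA t ht x hx) (hB t ht x hx)⟩

theorem Tame.const {c : ℝ → ℝ} (h : ContinuousOn c (Icc (1 / 4) (1 / 2))) :
    Tame fun _ x => c x := by
  refine ⟨TS.const h, fun j => ?_⟩
  cases j with
  | zero =>
    obtain ⟨B, hB⟩ := isCompact_Icc.exists_bound_of_continuousOn h
    exact ⟨B, fun t _ x hx => by simpa [DT] using hB x hx⟩
  | succ j => exact ⟨0, fun t _ x _ => by simp [DT_const]⟩

theorem Tame.inv {u : Fn} (h : Tame u)
    (hl : ∀ t < 0, ∀ x ∈ Icc (1 / 4 : ℝ) (1 / 2), 1 / 10 ≤ u t x) : Tame fun t x => (u t x)⁻¹ := by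
  have h0 : ∀ t ∈ Iio (0 : ℝ), ∀ x ∈ Icc (1 / 4 : ℝ) (1 / 2), u t x ≠ 0 := fun t ht x hx => by
    linarith [hl t ht x hx]
  refine ⟨h.1.inv isOpen_Iio h0, fun j => ?_⟩
  obtain ⟨A, hA⟩ := h.upto j
  obtain ⟨C, hC⟩ := bd_inv j (max A 10)
  refine ⟨C, fun t ht x hx => hC _ _ u t x _ isOpen_Iio h.1 h0 ht.2 hx (neg_nonneg.2 ht.2.le)
    (le_trans ?_ (le_max_right _ _)) fun i hi => (hA t ht x hx i hi).trans (le_max_left _ _)⟩
  have := hl t ht.2 x hx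
  rw [abs_of_pos (inv_pos.2 (by linarith)), inv_le_comm₀ (by linarith) (by norm_num)]
  linarith

theorem sub_Ici : Icc (1 / 4 : ℝ) (1 / 2) ⊆ Ici 0 := fun _ hx => le_trans (by norm_num) hx.1

theorem tame_th (s : Sol) (k : ℕ) : Tame (sim (Th k (gof s.S))) := by
  refine ⟨(ts_sim s.hx0 (contDiffOn_Th s.contDiffOn_g k)).mono Subset.rfl sub_Ici, fun j => ?_⟩
  obtain ⟨B, hB⟩ := s.sim_th_bd k j
  exact ⟨B, fun t ht x hx => hB t ht.2 x (sub_Ici hx)⟩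

theorem tame_dt (s : Sol) : Tame (Dt (sim (gof s.S))) := by
  refine ⟨((ts_sim s.hx0 s.contDiffOn_g).dt 1).mono Subset.rfl sub_Ici, fun j => ?_⟩
  obtain ⟨B, hB⟩ := s.sim_sym (j + 1) (by omega)
  refine ⟨16 * B, fun t ht x hx => ?_⟩
  have h1 := hB t ht.2 x (sub_Ici hx)
  rw [om, if_neg (by omega), if_pos rfl, Nat.add_sub_cancel, DT_succ', mul_assoc] at h1
  have h2 : 0 ≤ (-t) ^ j * |DT j (Dt (sim (gof s.S))) t x| :=
    mul_nonneg (pow_nonneg (neg_nonneg.2 ht.2.le) j) (abs_nonneg _)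
  have h3 : 1 / 16 ≤ (x + lam t) ^ 2 := by nlinarith [hx.1, lam_pos ht.2]
  nlinarith [mul_le_mul_of_nonneg_right h3 h2]

/-- Combinations of Euler derivatives with coefficients smooth in `x > 0`. -/
inductive Cl (s : Sol) : Fn → Prop
  | base (a : ℝ → ℝ) (ha : ContDiffOn ℝ ∞ a (Ioi 0)) (i : ℕ) :
      Cl s fun t x => a x * sim (Th i (gof s.S)) t x
  | cst (a : ℝ → ℝ) (ha : ContDiffOn ℝ ∞ a (Ioi 0)) : Cl s fun _ x => a x
  | add {u v : Fn} : Cl s u → Cl s v → Cl s fun t x => u t x + v t x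

theorem sub_Ioi : Icc (1 / 4 : ℝ) (1 / 2) ⊆ Ioi 0 := fun _ hx => lt_of_lt_of_le (by norm_num) hx.1

theorem Cl.tame {s : Sol} {u : Fn} (h : Cl s u) : Tame u := by
  induction h with
  | base a ha i => exact (Tame.const (ha.continuousOn.mono sub_Ioi)).mul (tame_th s i)
  | cst a ha => exact Tame.const (ha.continuousOn.mono sub_Ioi)
  | add _ _ h k => exact h.add k

theorem Cl.der {s : Sol} {u : Fn} (h : Cl s u) :
    ∃ v, Cl s v ∧ ∀ t < 0, ∀ x, 0 < x → HasDerivAt (u t) (v t x) x := by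
  have D : ∀ a : ℝ → ℝ, ContDiffOn ℝ ∞ a (Ioi 0) → ContDiffOn ℝ ∞ (deriv a) (Ioi 0) ∧
      ∀ x, 0 < x → HasDerivAt a (deriv a x) x := fun a ha =>
    ⟨((contDiffOn_infty_iff_deriv_of_isOpen isOpen_Ioi).1 ha).2, fun x hx =>
      ((ha.contDiffAt (isOpen_Ioi.mem_nhds hx)).differentiableAt (by simp)).hasDerivAt⟩
  induction h with
  | base a ha i =>
    refine ⟨_, (Cl.base _ (D a ha).1 i).add (Cl.base (fun x => a x / x)
      (ha.div contDiffOn_id fun x hx => ne_of_gt hx) (i + 1)), fun t ht x hx => ?_⟩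
    refine (((D a ha).2 x hx).mul
      (sim_dx s.hx0 (contDiffOn_Th s.contDiffOn_g i) ht hx)).congr_deriv ?_
    change _ + a x * (sim (Th (i + 1) (gof s.S)) t x / x) = _
    ring
  | cst a ha => exact ⟨_, Cl.cst _ (D a ha).1, fun _ _ x hx => (D a ha).2 x hx⟩
  | add _ _ h k =>
    obtain ⟨u', h1, h2⟩ := h
    obtain ⟨v', k1, k2⟩ := k
    exact ⟨_, h1.add k1, fun t ht x hx => (h2 t ht x hx).add (k2 t ht x hx)⟩

end Crest.Agent.R213.BGxA
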