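import Crest.Agent.R213.B1
import Crest.Agent.R213.Abs

/-!
# Row 213: the isolating block at infinity
-/

set_option autoImplicit false

noncomputable section

namespace Crest.Agent.R213

open Set Filter Topology
open scoped ContDiff

/-- The unstable part of the quadratic form. -/
def UU (u : ℝ × ℝ) : ℝ := 2 / 3 * (u.1 ^ 2 - u.1 * u.2 + u.2 ^ 2)

/-- What the computation provides: an affine family of parameters, an approximate solution at
infinity (`a i` are its Euler derivatives) and the matching at `x = 512`. -/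
structure Cap where
  pm : ℝ × ℝ → ℝ × ℝ
  a : ℕ → ℝ × ℝ → ℝ → ℝ
  ρ : ℝ
  α1 : ℝ
  α2 : ℝ
  ρ_pos : 0 < ρ
  ρ_le : ρ ≤ 1 / 10 ^ 6
  α_le : 2 * (α1 ^ 2 + α1 * α2 + α2 ^ 2) ≤ 1 / 16
  pm_cont : Continuous pm
  pm_mem : ∀ q, ‖q‖ ≤ 1 → 0 < (pm q).1 ∧ (pm q).2 ∈ Icc (7 / 10 : ℝ) (701 / 1000)
  a_cont : ∀ i, ContinuousOn (fun p : (ℝ × ℝ) × ℝ => a i p.1 p.2) (univ ×ˢ Ici 512)
  a_der : ∀ i q x, 512 ≤ x → HasDerivAt (a i q) (a (i + 1) q x / x) x
  a_bd : ∀ q, ‖q‖ ≤ 1 → ∀ x, 512 ≤ x → a 0 q x ∈ Icc (71 / 100 : ℝ) (72 / 100) ∧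
    |a 1 q x| ≤ 1 ∧ |a 2 q x| ≤ 1
  res : ∀ q, ‖q‖ ≤ 1 → ∀ x, 512 ≤ x →
    |(-(a 3 q x + 19 * a 2 q x + 90 * a 1 q x) -
        (90 - (a 2 q x + 19 * a 1 q x + 90 * a 0 q x))) / x ^ 2 -
      ((pm q).2 - 1 / (2 * a 0 q x))| ≤ ρ / 100
  lo : ∀ q, ‖q‖ ≤ 1 → ∀ S, IsSol (pm q) S → ∀ x ∈ Icc (0 : ℝ) 512, 1 / 10 < gof S x
  mat : ∀ q, ‖q‖ ≤ 1 → ∀ S, IsSol (pm q) S → ∀ A B C : ℝ, A = gof S 512 - a 0 q 512 →
    B = (thof S 512 - a 1 q 512) / 64 →
    C = (512 * S 512 - (90 - (a 2 q 512 + 19 * a 1 q 512 + 90 * a 0 q 512))) / 4096 →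
    |A + B - 2 * ρ * q.1| ≤ ρ / 10 ∧ |A + C - 2 * ρ * q.2| ≤ ρ / 10 ∧
      |A - B - C - (α1 * (A + B) + α2 * (A + C))| ≤ ρ / 10

/-- The cone inequalities.  `w = x ^ (2 / 3)`; the system is `x A' = w B`,
`x B' = w (-C - b B - c A)`, `x C' = w (k A - e C + f)`. -/
theorem cone_ineq {A B C b c e k f ρ : ℝ} (hρ : 0 < ρ) (hb : b ∈ Icc (0 : ℝ) (31 / 100))
    (hc : c ∈ Icc (0 : ℝ) (22 / 1000)) (he : e ∈ Icc (0 : ℝ) (6 / 1000))
    (hk : k ∈ Icc (96 / 100 : ℝ) 1) (hf : |f| ≤ ρ / 90) (hU : UU (A + B, A + C) ≤ ρ ^ 2)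
    (hs : (A - B - C) ^ 2 ≤ ρ ^ 2 / 3) :
    ((A - B - C) ^ 2 = ρ ^ 2 / 3 →
        (A - B - C) * (B - (-C - b * B - c * A) - (k * A - e * C + f)) < 0) ∧
      (UU (A + B, A + C) = ρ ^ 2 →
        0 < A * B + B * (-C - b * B - c * A) + C * (k * A - e * C + f) -
          (A - B - C) * (B - (-C - b * B - c * A) - (k * A - e * C + f)) / 3) := by
  have m3 : ∀ {x y z X Y Z : ℝ}, |x| ≤ X → |y| ≤ Y → |z| ≤ Z →
      -(X * Y * Z) ≤ x * y * z ∧ x * y * z ≤ X * Y * Z := fun {x y z X Y Z} hx hy hz => by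
    have h1 := (abs_nonneg _).trans hx
    have h2 := (abs_nonneg _).trans hy
    refine abs_le.1 ?_
    rw [abs_mul, abs_mul]
    gcongr
  simp only [UU] at hU ⊢
  have h2 : 0 < ρ ^ 2 := by positivity
  have s0 : |A - B - C| ≤ 6 / 10 * ρ := abs_le_of_sq_le_sq (by linarith) (by positivity)
  have uA : |A - (A - B - C) / 3| ≤ 82 / 100 * ρ :=
    abs_le_of_sq_le_sq (by linarith [sq_nonneg (B - C)]) (by positivity)
  have uB : |B + (A - B - C) / 3| ≤ 82 / 100 * ρ :=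
    abs_le_of_sq_le_sq (by linarith [sq_nonneg (A + C)]) (by positivity)
  have uC : |C + (A - B - C) / 3| ≤ 82 / 100 * ρ :=
    abs_le_of_sq_le_sq (by linarith [sq_nonneg (A + B)]) (by positivity)
  have s1 := abs_le.1 s0
  have hA : |A| ≤ 102 / 100 * ρ := by
    have := abs_le.1 uA
    exact abs_le.2 ⟨by linarith, by linarith⟩
  have hB : |B| ≤ 102 / 100 * ρ := by
    have := abs_le.1 uB
    exact abs_le.2 ⟨by linarith, by linarith⟩
  have hC : |C| ≤ 102 / 100 * ρ := by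
    have := abs_le.1 uC
    exact abs_le.2 ⟨by linarith, by linarith⟩
  have b' : |b| ≤ 31 / 100 := abs_le.2 ⟨by linarith [hb.1], hb.2⟩
  have c' : |c| ≤ 22 / 1000 := abs_le.2 ⟨by linarith [hc.1], hc.2⟩
  have e' : |e| ≤ 6 / 1000 := abs_le.2 ⟨by linarith [he.1], he.2⟩
  have k' : |1 - k| ≤ 4 / 100 := abs_le.2 ⟨by linarith [hk.2], by linarith [hk.1]⟩
  have o' : |(1 : ℝ)| ≤ 1 := abs_one.le
  refine ⟨fun h => ?_, fun h => ?_⟩
  · linarith [(m3 b' s0 hB).2, (m3 c' s0 hA).2, (m3 k' s0 hA).2, (m3 e' s0 hC).2, (m3 o' s0 hf).1]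
  · linarith [(m3 b' uB hB).2, (m3 c' uB hA).2, (m3 k' uC hA).2, (m3 e' uC hC).2, (m3 o' uC hf).1]

namespace BlockB

/-- The weight `x ^ (2 / 3)`. -/
def ww (x : ℝ) : ℝ := x ^ (2 / 3 : ℝ)

theorem ww_cube {x : ℝ} (hx : 0 ≤ x) : ww x ^ 3 = x ^ 2 := by
  rw [ww, ← Real.rpow_natCast, ← Real.rpow_mul hx]; norm_num

theorem ww_512 : ww 512 = 64 := by
  rw [ww, show (512 : ℝ) = 8 ^ (3 : ℝ) by norm_num, ← Real.rpow_mul (by norm_num)]; norm_num

theorem ww_ge {x : ℝ} (hx : 512 ≤ x) : 64 ≤ ww x :=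
  ww_512 ▸ Real.rpow_le_rpow (by norm_num) hx (by norm_num)

theorem ww_der {x : ℝ} (hx : 512 ≤ x) : HasDerivAt ww (2 / 3 * ww x / x) x := by
  have h0 : x ≠ 0 := by linarith
  refine (Real.hasDerivAt_rpow_const (Or.inl h0)).congr_deriv ?_
  rw [Real.rpow_sub_one h0, ww]; ring

variable (c : Cap) (q : ℝ × ℝ) (S : ℝ → ℝ)

def aA (x : ℝ) : ℝ := gof S x - c.a 0 q x
def aB (x : ℝ) : ℝ := (thof S x - c.a 1 q x) / ww x
def aC (x : ℝ) : ℝ :=
  (x * S x - (90 - (c.a 2 q x + 19 * c.a 1 q x + 90 * c.a 0 q x))) / ww x ^ 2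
def ff (x : ℝ) : ℝ := -((-(c.a 3 q x + 19 * c.a 2 q x + 90 * c.a 1 q x) -
  (90 - (c.a 2 q x + 19 * c.a 1 q x + 90 * c.a 0 q x))) / x ^ 2 -
    ((c.pm q).2 - 1 / (2 * c.a 0 q x)))
def dB (x : ℝ) : ℝ := -aC c q S x - 59 / 3 / ww x * aB c q S x - 90 / ww x ^ 2 * aA c q S x
def dC (x : ℝ) : ℝ := (1 / (2 * c.a 0 q x) - 1 / (2 * max (gof S x) (1 / 10))) -
  1 / (3 * ww x) * aC c q S x + ff c q x

variable {c q S}

theorem der (h : IsSol (c.pm q) S) {x : ℝ} (hx : 512 ≤ x) :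
    HasDerivAt (aA c q S) (ww x / x * aB c q S x) x ∧
      HasDerivAt (aB c q S) (ww x / x * dB c q S x) x ∧
      HasDerivAt (aC c q S) (ww x / x * dC c q S x) x := by
  have h0 : x ≠ 0 := by linarith
  have hw : ww x ≠ 0 := by linarith [ww_ge hx]
  have a0 := c.a_der 0 q x hx
  have a1 := c.a_der 1 q x hx
  have a2 := c.a_der 2 q x hx
  refine ⟨((hasDerivAt_gof h.continuous h0).sub a0).congr_deriv ?_,
    (((hasDerivAt_thof h.continuous h0).sub a1).div (ww_der hx) hw).congr_deriv ?_,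
    ((((hasDerivAt_id x).mul (h.2 x)).sub (((a2.add (a1.const_mul 19)).add
      (a0.const_mul 90)).const_sub 90)).div ((ww_der hx).pow 2) (pow_ne_zero 2 hw)).congr_deriv ?_⟩
  · simp only [aB]; field_simp
  · simp only [dB, aA, aB, aC, Pi.sub_apply]; field_simp; ring
  · have e : x ^ 2 = ww x ^ 3 := (ww_cube (by linarith)).symm
    simp only [dC, aC, ff, e, Pi.sub_apply, Pi.mul_apply, Pi.pow_apply, Pi.add_apply, id]
    generalize 1 / (2 * max (gof S x) (1 / 10)) = m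
    generalize 1 / (2 * c.a 0 q x) = m'
    have e' : x * ((c.pm q).2 - m) = ww x ^ 3 * ((c.pm q).2 - m) / x := by
      rw [← e]; field_simp
    rw [e']
    field_simp
    push_cast
    ring

theorem small {A B C ρ : ℝ} (hρ : 0 < ρ) (hU : UU (A + B, A + C) ≤ ρ ^ 2)
    (hs : (A - B - C) ^ 2 ≤ ρ ^ 2 / 3) : |A| ≤ 2 * ρ ∧ |B| ≤ 2 * ρ ∧ |C| ≤ 2 * ρ := by
  simp only [UU] at hU
  have h : A ^ 2 + B ^ 2 + C ^ 2 ≤ (2 * ρ) ^ 2 := by nlinarith
  refine ⟨?_, ?_, ?_⟩ <;> refine abs_le_of_sq_le_sq' ?_ (by linarith) |> abs_le.2 <;>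
    nlinarith [sq_nonneg A, sq_nonneg B, sq_nonneg C]

theorem cone (hq : ‖q‖ ≤ 1) {x : ℝ} (hx : 512 ≤ x)
    (hU : UU (aA c q S x + aB c q S x, aA c q S x + aC c q S x) ≤ c.ρ ^ 2)
    (hs : (aA c q S x - aB c q S x - aC c q S x) ^ 2 ≤ c.ρ ^ 2 / 3) :
    ((aA c q S x - aB c q S x - aC c q S x) ^ 2 = c.ρ ^ 2 / 3 →
        (aA c q S x - aB c q S x - aC c q S x) * (aB c q S x - dB c q S x - dC c q S x) < 0) ∧
      (UU (aA c q S x + aB c q S x, aA c q S x + aC c q S x) = c.ρ ^ 2 →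
        0 < aA c q S x * aB c q S x + aB c q S x * dB c q S x + aC c q S x * dC c q S x -
          (aA c q S x - aB c q S x - aC c q S x) *
            (aB c q S x - dB c q S x - dC c q S x) / 3) := by
  have hw := ww_ge hx
  obtain ⟨a1, a2⟩ := (c.a_bd q hq x hx).1
  obtain ⟨g1, g2⟩ := abs_le.1 (small c.ρ_pos hU hs).1
  have hρ := c.ρ_le
  rw [aA] at g1 g2
  have e : dC c q S x = 1 / (2 * (gof S x * c.a 0 q x)) * aA c q S x -
      1 / (3 * ww x) * aC c q S x + ff c q x := by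
    have : gof S x ≠ 0 := by linarith
    have : c.a 0 q x ≠ 0 := by linarith
    rw [dC, max_eq_left (by linarith), aA]
    field_simp
  have b1 := mul_le_mul (show 7099 / 10000 ≤ gof S x by linarith) a1 (by norm_num) (by linarith)
  have b2 := mul_le_mul (show gof S x ≤ 7201 / 10000 by linarith) a2 (by linarith) (by norm_num)
  rw [e, dB]
  refine cone_ineq c.ρ_pos ⟨by positivity, ?_⟩ ⟨by positivity, ?_⟩ ⟨by positivity, ?_⟩ ⟨?_, ?_⟩
    ?_ hU hs
  · rw [div_le_iff₀ (by linarith)]; linarith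
  · rw [div_le_iff₀ (by positivity)]; nlinarith
  · rw [div_le_iff₀ (by linarith)]; linarith
  · rw [le_div_iff₀ (by linarith)]; linarith
  · rw [div_le_iff₀ (by linarith)]; linarith
  · rw [ff, abs_neg]
    linarith [c.res q hq x hx, c.ρ_pos]

theorem mat' (hq : ‖q‖ ≤ 1) (h : IsSol (c.pm q) S) :
    |aA c q S 512 + aB c q S 512 - 2 * c.ρ * q.1| ≤ c.ρ / 10 ∧
      |aA c q S 512 + aC c q S 512 - 2 * c.ρ * q.2| ≤ c.ρ / 10 ∧
      |aA c q S 512 - aB c q S 512 - aC c q S 512 - (c.α1 * (aA c q S 512 + aB c q S 512) +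
        c.α2 * (aA c q S 512 + aC c q S 512))| ≤ c.ρ / 10 :=
  c.mat q hq S h _ _ _ rfl (by rw [aB, ww_512]) (by rw [aC, ww_512]; norm_num)

theorem inv (hq : ‖q‖ ≤ 1) (h : IsSol (c.pm q) S) {x : ℝ} (hx : 512 ≤ x)
    (hU : ∀ y ∈ Icc 512 x, UU (aA c q S y + aB c q S y, aA c q S y + aC c q S y) ≤ c.ρ ^ 2) :
    (aA c q S x - aB c q S x - aC c q S x) ^ 2 ≤ c.ρ ^ 2 / 3 := by
  have D : ∀ y, 512 ≤ y → HasDerivAt (fun y => (aA c q S y - aB c q S y - aC c q S y) ^ 2)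
      (2 * (ww y / y) * ((aA c q S y - aB c q S y - aC c q S y) *
        (aB c q S y - dB c q S y - dC c q S y))) y := fun y hy => by
    obtain ⟨h1, h2, h3⟩ := der h hy
    exact (((h1.sub h2).sub h3).pow 2).congr_deriv (by simp; ring)
  refine image_le_of_deriv_right_lt_deriv_boundary
    (f := fun y => (aA c q S y - aB c q S y - aC c q S y) ^ 2) (B := fun _ => c.ρ ^ 2 / 3)
    (B' := fun _ => 0) (fun y hy => (D y hy.1).continuousAt.continuousWithinAt)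
    (fun y hy => (D y hy.1).hasDerivWithinAt) ?_ (fun y => hasDerivAt_const y _)
    (fun y hy e => ?_) ⟨hx, le_rfl⟩
  · have h1 := (mat' hq h).2.2
    have h2 := hU 512 ⟨le_rfl, hx⟩
    have h3 := c.α_le
    have hρ := c.ρ_pos
    generalize aA c q S 512 - aB c q S 512 - aC c q S 512 = s at *
    generalize aA c q S 512 + aB c q S 512 = u at *
    generalize aA c q S 512 + aC c q S 512 = v at *
    simp only [UU] at h2
    have h4 : (c.α1 * u + c.α2 * v) ^ 2 ≤ (c.ρ / 4) ^ 2 := by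
      have h5 : (c.α1 * u + c.α2 * v) ^ 2 ≤ 2 * (c.α1 ^ 2 + c.α1 * c.α2 + c.α2 ^ 2) *
          (2 / 3 * (u ^ 2 - u * v + v ^ 2)) := by
        nlinarith [sq_nonneg (c.α1 * (u - 2 * v) + c.α2 * (2 * u - v))]
      have h6 := mul_le_mul h3 h2 (by nlinarith [sq_nonneg (u - v), sq_nonneg u, sq_nonneg v])
        (by norm_num)
      linarith
    obtain ⟨h5, h6⟩ := abs_le_of_sq_le_sq' h4 (by linarith)
    obtain ⟨h7, h8⟩ := abs_le.1 h1
    nlinarith
  · have h0 : 0 < y := by linarith [hy.1]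
    have := ww_ge hy.1
    exact mul_neg_of_pos_of_neg (by positivity)
      ((cone hq hy.1 (hU y (Ico_subset_Icc_self hy)) e.le).1 e)

theorem exits (hq : ‖q‖ ≤ 1) (h : IsSol (c.pm q) S) {x : ℝ} (hx : 512 ≤ x)
    (hU : ∀ y ∈ Icc 512 x, UU (aA c q S y + aB c q S y, aA c q S y + aC c q S y) ≤ c.ρ ^ 2)
    (e : UU (aA c q S x + aB c q S x, aA c q S x + aC c q S x) = c.ρ ^ 2) :
    ∀ᶠ y in 𝓝[>] x, c.ρ ^ 2 < UU (aA c q S y + aB c q S y, aA c q S y + aC c q S y) := by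
  obtain ⟨h1, h2, h3⟩ := der h hx
  have h4 := (cone hq hx e.le (inv hq h hx hU)).2 e
  have h0 : 0 < x := by linarith
  have hw := ww_ge hx
  have D : HasDerivAt (fun y => UU (aA c q S y + aB c q S y, aA c q S y + aC c q S y))
      (2 * (ww x / x) * (aA c q S x * aB c q S x + aB c q S x * dB c q S x +
        aC c q S x * dC c q S x - (aA c q S x - aB c q S x - aC c q S x) *
            (aB c q S x - dB c q S x - dC c q S x) / 3)) x :=
    (((((h1.add h2).pow 2).sub ((h1.add h2).mul (h1.add h3))).add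
      ((h1.add h3).pow 2)).const_mul (2 / 3)).congr_deriv (by simp; ring)
  filter_upwards [(hasDerivAt_iff_tendsto_slope_left_right.1 D).2.eventually
    (lt_mem_nhds (mul_pos (by positivity) h4)), self_mem_nhdsWithin] with y hy hxy
  rw [slope_def_field, e, div_pos_iff_of_pos_right (sub_pos.2 hxy)] at hy
  linarith

end BlockB

open BlockB in
/-- A solution that stays in the block for ever. -/
theorem exists_bounded (c : Cap) : ∃ (p : ℝ × ℝ) (S : ℝ → ℝ), IsSol p S ∧ 0 < p.1 ∧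
    p.2 ∈ Icc (7 / 10 : ℝ) (701 / 1000) ∧ (∀ x, 0 ≤ x → 1 / 10 < gof S x) ∧
    ∀ x, 512 ≤ x → gof S x ∈ Icc (7 / 10 : ℝ) (73 / 100) ∧ |thof S x| ≤ x ^ 2 ∧
      |x * S x| ≤ x ^ 2 := by
  obtain ⟨S, hc, hS⟩ := exists_family
  have hρ := c.ρ_pos
  have hρ2 : 0 < c.ρ ^ 2 := by positivity
  have hc' : Continuous fun p : (ℝ × ℝ) × ℝ => S (c.pm p.1) p.2 :=
    hc.comp ((c.pm_cont.comp continuous_fst).prodMk continuous_snd)
  obtain ⟨hg, hQ⟩ := continuous_gof (S := fun q => S (c.pm q)) hc'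
  obtain ⟨q, hq, hW⟩ := wazewski (fun q x => (aA c q (S (c.pm q)) x + aB c q (S (c.pm q)) x,
    aA c q (S (c.pm q)) x + aC c q (S (c.pm q)) x)) (fun z => UU z / c.ρ ^ 2) 512 (2 * c.ρ)
    (by positivity) (by
      have ha := fun i => (c.a_cont i).mono
        (Set.prod_mono (subset_univ {q : ℝ × ℝ | ‖q‖ ≤ 1}) Subset.rfl)
      have hw : ContinuousOn (fun p : (ℝ × ℝ) × ℝ => ww p.2) ({q | ‖q‖ ≤ 1} ×ˢ Ici 512) :=
        (continuous_snd.rpow_const fun _ => Or.inr (by norm_num)).continuousOn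
      have hw0 : ∀ p ∈ {q : ℝ × ℝ | ‖q‖ ≤ 1} ×ˢ Ici (512 : ℝ), ww p.2 ≠ 0 := fun p hp => by
        linarith [ww_ge hp.2]
      have h1 := hg.continuousOn.sub (ha 0)
      have h2 := (((hQ.continuousOn.div (continuous_snd.pow 9).continuousOn fun p hp =>
        pow_ne_zero 9 (by linarith [show (512 : ℝ) ≤ p.2 from hp.2])).sub
        (continuousOn_const (c := (10 : ℝ)).mul hg.continuousOn)).sub (ha 1)).div hw hw0
      have h3 := ((continuous_snd.mul hc').continuousOn.sub (continuousOn_const (c := (90 : ℝ)).sub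
        (((ha 2).add (continuousOn_const (c := (19 : ℝ)).mul (ha 1))).add
          (continuousOn_const (c := (90 : ℝ)).mul (ha 0))))).div (hw.pow 2)
            fun p hp => pow_ne_zero 2 (hw0 p hp)
      exact (h1.add h2).prodMk (h1.add h3))
    (by unfold UU; fun_prop) (by simp [UU])
    (fun q hq => by
      obtain ⟨h1, h2, -⟩ := mat' hq.le (hS _)
      generalize aA c q (S (c.pm q)) 512 + aB c q (S (c.pm q)) 512 = u at *
      generalize aA c q (S (c.pm q)) 512 + aC c q (S (c.pm q)) 512 = v at *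
      refine ⟨?_, ?_⟩
      · rw [Prod.norm_def, max_lt_iff]
        exact ⟨lt_of_le_of_lt h1 (by linarith), lt_of_le_of_lt h2 (by linarith)⟩
      · rw [lt_div_iff₀ hρ2, one_mul]
        simp only [UU]
        obtain ⟨a1, a2⟩ := abs_le.1 h1
        obtain ⟨b1, b2⟩ := abs_le.1 h2
        rw [Prod.norm_def, max_eq_iff, Real.norm_eq_abs, Real.norm_eq_abs, abs_eq zero_le_one,
          abs_eq zero_le_one] at hq
        have k := fun (z : ℝ) (hz : 19 / 10 * c.ρ ≤ z) => mul_self_le_mul_self (by positivity) hz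
        rcases hq with ⟨h | h, -⟩ | ⟨h | h, -⟩
        · rw [h] at a1 a2
          nlinarith [sq_nonneg (u - 2 * v), k u (by linarith)]
        · rw [h] at a1 a2
          nlinarith [sq_nonneg (u - 2 * v), k (-u) (by linarith)]
        · rw [h] at b1 b2
          nlinarith [sq_nonneg (2 * u - v), k v (by linarith)]
        · rw [h] at b1 b2
          nlinarith [sq_nonneg (2 * u - v), k (-v) (by linarith)])
    (fun q hq x hx h1 h2 => by
      refine (exits hq (hS _) hx (fun y hy => (div_le_one hρ2).1 (h1 y hy))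
        ((div_eq_one_iff_eq hρ2.ne').1 h2)).mono fun y hy => (one_lt_div hρ2).2 hy)
  have hb : ∀ x, 512 ≤ x → gof (S (c.pm q)) x ∈ Icc (7 / 10 : ℝ) (73 / 100) ∧
      |thof (S (c.pm q)) x| ≤ x ^ 2 ∧ |x * S (c.pm q) x| ≤ x ^ 2 := fun x hx => by
    obtain ⟨h1, h2, h3⟩ := small hρ ((div_le_one hρ2).1 (hW x hx))
      (inv hq (hS _) hx fun y hy => (div_le_one hρ2).1 (hW y hy.1))
    obtain ⟨⟨a1, a2⟩, a3, a4⟩ := c.a_bd q hq x hx
    have hw := ww_ge hx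
    have := c.ρ_le
    rw [aB, abs_div, abs_of_pos (a := ww x) (by linarith), div_le_iff₀ (by linarith)] at h2
    rw [aC, abs_div, abs_of_pos (a := ww x ^ 2) (by positivity),
      div_le_iff₀ (by positivity)] at h3
    rw [← ww_cube (by linarith : 0 ≤ x)]
    rw [aA] at h1
    have w2 : 64 * ww x ≤ ww x ^ 2 := by nlinarith
    have w3 : 64 * ww x ^ 2 ≤ ww x ^ 3 := by nlinarith
    have r1 : 2 * c.ρ * ww x ≤ ww x := mul_le_of_le_one_left (by linarith) (by linarith)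
    have r2 : 2 * c.ρ * ww x ^ 2 ≤ ww x ^ 2 := mul_le_of_le_one_left (by linarith) (by linarith)
    rw [abs_le] at h1 h2 h3 a3 a4 ⊢
    rw [abs_le]
    refine ⟨⟨?_, ?_⟩, ⟨?_, ?_⟩, ?_, ?_⟩ <;>
      linarith [h1.1, h1.2, h2.1, h2.2, h3.1, h3.2, a3.1, a3.2, a4.1, a4.2]
  refine ⟨c.pm q, S (c.pm q), hS _, (c.pm_mem q hq).1, (c.pm_mem q hq).2, fun x hx => ?_, hb⟩
  rcases le_total x 512 with h | h
  · exact c.lo q hq _ (hS _) x ⟨hx, h⟩
  · linarith [(hb x h).1.1]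

end Crest.Agent.R213
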