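import Crest.Agent.R213.TS2

/-!
# Row 213: construction of the linear operators (auxiliary file for `C1`)
-/

set_option autoImplicit false

noncomputable section

namespace Crest.Agent.R213.C1A

open Set Filter Topology

variable {L : ℝ}

theorem ext_cont (hL : 0 ≤ L) (y : C(Icc (0 : ℝ) L, ℝ)) : Continuous (IccExtend hL y) :=
  y.continuous.Icc_extend'

theorem ext_le (hL : 0 ≤ L) (y : C(Icc (0 : ℝ) L, ℝ)) (x : ℝ) : ‖IccExtend hL y x‖ ≤ ‖y‖ :=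
  y.norm_coe_le_norm _

/-- Integral operators with a continuous kernel. -/
theorem exists_kernel (hL : 0 ≤ L) {c m : ℝ → ℝ → ℝ}
    (hc : Continuous fun p : ℝ × ℝ => c p.1 p.2) (hm : Continuous fun p : ℝ × ℝ => m p.1 p.2) :
    ∃ A : C(Icc (0 : ℝ) L, ℝ) →L[ℝ] C(Icc (0 : ℝ) L, ℝ), ∀ y, ∀ x ∈ Icc (0 : ℝ) L,
      IccExtend hL (A y) x = ∫ θ in (0 : ℝ)..1, c θ x * IccExtend hL y (m θ x) := by
  obtain ⟨C, hC⟩ := (isCompact_Icc.prod isCompact_Icc :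
    IsCompact (Icc (0 : ℝ) 1 ×ˢ Icc (0 : ℝ) L)).exists_bound_of_continuousOn hc.continuousOn
  have hC0 : 0 ≤ C := (norm_nonneg _).trans
    (hC (0, 0) ⟨⟨le_rfl, zero_le_one⟩, ⟨le_rfl, hL⟩⟩)
  have hj : ∀ y : C(Icc (0 : ℝ) L, ℝ),
      Continuous fun p : ℝ × ℝ => c p.2 p.1 * IccExtend hL y (m p.2 p.1) := fun y =>
    (hc.comp continuous_swap).mul ((ext_cont hL y).comp (hm.comp continuous_swap))
  have hi : ∀ (y : C(Icc (0 : ℝ) L, ℝ)) (x : ℝ), IntervalIntegrable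
      (fun θ => c θ x * IccExtend hL y (m θ x)) MeasureTheory.volume 0 1 := fun y x =>
    ((hj y).comp (Continuous.prodMk_right x)).intervalIntegrable _ _
  have hk : ∀ y : C(Icc (0 : ℝ) L, ℝ),
      Continuous fun x : ℝ => ∫ θ in (0 : ℝ)..1, c θ x * IccExtend hL y (m θ x) := fun y =>
    intervalIntegral.continuous_parametric_intervalIntegral_of_continuous'
      (f := fun x θ => c θ x * IccExtend hL y (m θ x)) (hj y) 0 1
  let T : C(Icc (0 : ℝ) L, ℝ) →ₗ[ℝ] C(Icc (0 : ℝ) L, ℝ) :=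
    { toFun := fun y => ⟨fun x => ∫ θ in (0 : ℝ)..1, c θ x * IccExtend hL y (m θ x),
        (hk y).comp continuous_subtype_val⟩
      map_add' := fun y z => by
        ext x
        change _ = (∫ θ in (0 : ℝ)..1, c θ x * IccExtend hL y (m θ x)) +
          ∫ θ in (0 : ℝ)..1, c θ x * IccExtend hL z (m θ x)
        rw [← intervalIntegral.integral_add (hi y x) (hi z x)]
        exact intervalIntegral.integral_congr fun θ _ => mul_add _ _ _
      map_smul' := fun a y => by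
        ext x
        change _ = a * ∫ θ in (0 : ℝ)..1, c θ x * IccExtend hL y (m θ x)
        rw [← intervalIntegral.integral_const_mul]
        exact intervalIntegral.integral_congr fun θ _ => mul_left_comm _ _ _ }
  have hb : ∀ y, ‖T y‖ ≤ C * ‖y‖ := by
    intro y
    rw [ContinuousMap.norm_le _ (mul_nonneg hC0 (norm_nonneg _))]
    intro x
    have h := intervalIntegral.norm_integral_le_of_norm_le_const (a := 0) (b := 1)
      (f := fun θ => c θ x * IccExtend hL y (m θ x)) (C := C * ‖y‖) (fun θ hθ => by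
        rw [uIoc_of_le zero_le_one] at hθ
        rw [norm_mul]
        exact mul_le_mul (hC (θ, x) ⟨Ioc_subset_Icc_self hθ, x.2⟩) (ext_le hL y _)
          (norm_nonneg _) hC0)
    rw [sub_zero, abs_one, mul_one] at h
    exact h
  refine ⟨T.mkContinuous C hb, fun y x hx => ?_⟩
  rw [IccExtend_of_mem hL _ hx]
  rfl

/-- The primitives `∫₀ˣ s ^ n y`. -/
theorem exists_prim (hL : 0 ≤ L) (n : ℕ) :
    ∃ A : C(Icc (0 : ℝ) L, ℝ) →L[ℝ] C(Icc (0 : ℝ) L, ℝ), ∀ y, ∀ x ∈ Icc (0 : ℝ) L,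
      IccExtend hL (A y) x = ∫ s in (0 : ℝ)..x, s ^ n * IccExtend hL y s := by
  obtain ⟨A, hA⟩ := exists_kernel hL (c := fun θ x => x * (x * θ) ^ n) (m := fun θ x => x * θ)
    (by fun_prop) (by fun_prop)
  refine ⟨A, fun y x hx => ?_⟩
  rw [hA y x hx, TS2A.int_subst (fun s => s ^ n * IccExtend hL y s) 0 x]
  refine intervalIntegral.integral_congr fun θ _ => ?_
  simp only [sub_zero, zero_add, mul_assoc]

/-- The moments. -/
theorem exists_mom (hL : 0 ≤ L) (n : ℕ) : ∃ A : C(Icc (0 : ℝ) L, ℝ) →L[ℝ] ℝ, ∀ y,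
    A y = ∫ s in (0 : ℝ)..L, s ^ n * IccExtend hL y s := by
  obtain ⟨A, hA⟩ := exists_prim hL n
  refine ⟨(ContinuousMap.evalCLM ℝ (⟨L, hL, le_rfl⟩ : Icc (0 : ℝ) L)).comp A, fun y => ?_⟩
  rw [← hA y L ⟨hL, le_rfl⟩, IccExtend_of_mem hL _ ⟨hL, le_rfl⟩]
  rfl

/-- Multiplication by a continuous function. -/
theorem exists_mul (hL : 0 ≤ L) {g : ℝ → ℝ} (hg : ContinuousOn g (Icc 0 L)) :
    ∃ A : C(Icc (0 : ℝ) L, ℝ) →L[ℝ] C(Icc (0 : ℝ) L, ℝ), ∀ y, ∀ x ∈ Icc (0 : ℝ) L,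
      IccExtend hL (A y) x = g x * IccExtend hL y x := by
  refine ⟨ContinuousLinearMap.mul ℝ _ ⟨(Icc (0 : ℝ) L).domRestrict g, hg.domRestrict⟩,
    fun y x hx => ?_⟩
  rw [IccExtend_of_mem hL _ hx, IccExtend_of_mem hL _ hx]
  rfl

/-- Rank-one operators. -/
theorem exists_rank (hL : 0 ≤ L) (a : C(Icc (0 : ℝ) L, ℝ) →L[ℝ] ℝ) {g : ℝ → ℝ}
    (hg : ContinuousOn g (Icc 0 L)) :
    ∃ A : C(Icc (0 : ℝ) L, ℝ) →L[ℝ] C(Icc (0 : ℝ) L, ℝ), ∀ y, ∀ x ∈ Icc (0 : ℝ) L,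
      IccExtend hL (A y) x = a y * g x := by
  refine ⟨a.smulRight ⟨(Icc (0 : ℝ) L).domRestrict g, hg.domRestrict⟩, fun y x hx => ?_⟩
  rw [IccExtend_of_mem hL _ hx]
  rfl

theorem mom_affine {k : ℝ → ℝ} (hk : Continuous k) (n : ℕ) (a b : ℝ) :
    ∫ x in (0 : ℝ)..L, x ^ n * (k x - (a + b * x)) =
      (∫ x in (0 : ℝ)..L, x ^ n * k x) - a * (L ^ (n + 1) / (n + 1)) -
        b * (L ^ (n + 2) / (n + 2)) := by
  have h1 : ∫ x in (0 : ℝ)..L, x ^ n * (k x - (a + b * x)) =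
      ∫ x in (0 : ℝ)..L, (x ^ n * k x - a * x ^ n - b * x ^ (n + 1)) :=
    intervalIntegral.integral_congr fun x _ => by ring
  rw [h1, intervalIntegral.integral_sub, intervalIntegral.integral_sub,
    intervalIntegral.integral_const_mul, intervalIntegral.integral_const_mul, integral_pow,
    integral_pow]
  · push_cast
    rw [zero_pow (Nat.succ_ne_zero _), zero_pow (Nat.succ_ne_zero _), sub_zero, sub_zero,
      add_assoc (n : ℝ), one_add_one_eq_two]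
  all_goals exact Continuous.intervalIntegrable (by fun_prop) _ _

/-- The projection that removes the affine part. -/
theorem exists_proj (hL : 0 < L) : ∃ (α β : C(Icc (0 : ℝ) L, ℝ) →L[ℝ] ℝ)
    (Pr : C(Icc (0 : ℝ) L, ℝ) →L[ℝ] C(Icc (0 : ℝ) L, ℝ)),
    (∀ y, ∀ x ∈ Icc (0 : ℝ) L,
      IccExtend hL.le (Pr y) x = IccExtend hL.le y x - (α y + β y * x)) ∧
    (∀ y, (∫ x in (0 : ℝ)..L, x ^ 9 * IccExtend hL.le (Pr y) x) = 0 ∧
      (∫ x in (0 : ℝ)..L, x ^ 10 * IccExtend hL.le (Pr y) x) = 0) ∧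
    ∀ y, α (Pr y) = 0 ∧ β (Pr y) = 0 := by
  obtain ⟨m9, h9⟩ := exists_mom hL.le 9
  obtain ⟨m10, h10⟩ := exists_mom hL.le 10
  obtain ⟨α, hα⟩ : ∃ α : C(Icc (0 : ℝ) L, ℝ) →L[ℝ] ℝ, ∀ y,
      α y = 1210 / L ^ 10 * m9 y - 1320 / L ^ 11 * m10 y :=
    ⟨(1210 / L ^ 10) • m9 - (1320 / L ^ 11) • m10, fun y => rfl⟩
  obtain ⟨β, hβ⟩ : ∃ β : C(Icc (0 : ℝ) L, ℝ) →L[ℝ] ℝ, ∀ y,
      β y = 1452 / L ^ 12 * m10 y - 1320 / L ^ 11 * m9 y :=
    ⟨(1452 / L ^ 12) • m10 - (1320 / L ^ 11) • m9, fun y => rfl⟩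
  obtain ⟨A, hA⟩ := exists_rank hL.le α (g := fun _ => 1) continuousOn_const
  obtain ⟨B, hB⟩ := exists_rank hL.le β (g := fun x => x) continuousOn_id
  obtain ⟨Pr, hP⟩ : ∃ Pr : C(Icc (0 : ℝ) L, ℝ) →L[ℝ] C(Icc (0 : ℝ) L, ℝ), ∀ y,
      ∀ x ∈ Icc (0 : ℝ) L, IccExtend hL.le (Pr y) x = IccExtend hL.le y x - (α y + β y * x) := by
    refine ⟨ContinuousLinearMap.id ℝ _ - (A + B), fun y x hx => ?_⟩
    rw [← mul_one (α y), ← hA y x hx, ← hB y x hx]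
    rfl
  have hm : ∀ y, (∫ x in (0 : ℝ)..L, x ^ 9 * IccExtend hL.le (Pr y) x) = 0 ∧
      (∫ x in (0 : ℝ)..L, x ^ 10 * IccExtend hL.le (Pr y) x) = 0 := by
    intro y
    have h0 : (0 : ℝ) ∈ Icc (0 : ℝ) L := ⟨le_rfl, hL.le⟩
    have h1 : L ∈ Icc (0 : ℝ) L := ⟨hL.le, le_rfl⟩
    have hL' := hL.ne'
    rw [TB.mom_congr (hP y) 9 h0 h1, TB.mom_congr (hP y) 10 h0 h1,
      mom_affine (ext_cont hL.le y), mom_affine (ext_cont hL.le y), ← h9, ← h10, hα, hβ]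
    constructor
    · push_cast
      field_simp
      ring
    · push_cast
      field_simp
      ring
  refine ⟨α, β, Pr, hP, hm, fun y => ?_⟩
  rw [hα, hβ, h9, h10, (hm y).1, (hm y).2]
  simp

theorem exists_ops_aux {κ : ℝ} (hL : 0 < L) (hκ : κ * L = 1) :
    ∃ (G0 G1 K : C(Icc (0 : ℝ) L, ℝ) →L[ℝ] C(Icc (0 : ℝ) L, ℝ))
      (α β : C(Icc (0 : ℝ) L, ℝ) →L[ℝ] ℝ),
      (∀ y, Sp L (IccExtend hL.le (G0 y)) (IccExtend hL.le (G1 y)) (IccExtend hL.le y)) ∧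
      (∀ y, α (G0 y) = 0 ∧ β (G0 y) = 0) ∧
      (∀ y, (∫ x in (0 : ℝ)..L, x ^ 9 * IccExtend hL.le (G0 y) x) = 0 ∧
        (∫ x in (0 : ℝ)..L, x ^ 10 * IccExtend hL.le (G0 y) x) = 0) ∧
      ∀ k, VolOn κ L (IccExtend hL.le (K k)) fun x => IccExtend hL.le k x - (α k + β k * x) := by
  obtain ⟨α, β, Pr, hP, hm, h0⟩ := exists_proj hL
  obtain ⟨I0, hI0⟩ := exists_prim hL.le 0
  obtain ⟨I1, hI1⟩ := exists_prim hL.le 1
  obtain ⟨X, hX⟩ := exists_mul hL.le (g := fun x => x) continuousOn_id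
  obtain ⟨P, hPP⟩ : ∃ P : C(Icc (0 : ℝ) L, ℝ) →L[ℝ] C(Icc (0 : ℝ) L, ℝ), ∀ y,
      ∀ x ∈ Icc (0 : ℝ) L, IccExtend hL.le (P y) x =
        x * (∫ s in (0 : ℝ)..x, s ^ 0 * IccExtend hL.le y s) -
          ∫ s in (0 : ℝ)..x, s ^ 1 * IccExtend hL.le y s := by
    refine ⟨X.comp I0 - I1, fun y x hx => ?_⟩
    rw [← hI0 y x hx, ← hI1 y x hx, ← hX (I0 y) x hx]
    rfl
  obtain ⟨B, hB⟩ := exists_rank hL.le (β.comp P) (g := fun _ => 1) continuousOn_const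
  obtain ⟨G1, hG1⟩ : ∃ G1 : C(Icc (0 : ℝ) L, ℝ) →L[ℝ] C(Icc (0 : ℝ) L, ℝ), ∀ y,
      ∀ x ∈ Icc (0 : ℝ) L, IccExtend hL.le (G1 y) x =
        (∫ s in (0 : ℝ)..x, s ^ 0 * IccExtend hL.le y s) - β (P y) := by
    refine ⟨I0 - B, fun y x hx => ?_⟩
    have h := hB y x hx
    rw [mul_one, ContinuousLinearMap.comp_apply] at h
    rw [← hI0 y x hx, ← h]
    rfl
  obtain ⟨A1, hA1⟩ := exists_kernel hL.le (c := fun θ _ => (1 - θ) * θ ^ 9)
    (m := fun θ x => θ * x) (by fun_prop) (by fun_prop)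
  obtain ⟨A2, hA2⟩ := exists_kernel hL.le (c := fun θ x => θ * (x + θ * (L - x)) ^ 9)
    (m := fun θ x => x + θ * (L - x)) (by fun_prop) (by fun_prop)
  obtain ⟨D, hD⟩ := exists_mul hL.le (g := fun x => (x ^ 11 + (1 - κ * x) ^ 2)⁻¹)
    (ContinuousOn.inv₀ (by fun_prop) fun x hx => (TB.den_pos hx.1).ne')
  refine ⟨Pr.comp P, G1, D.comp (((L ^ 2) • A2 + A1).comp Pr), α, β, fun y => ?_,
    fun y => h0 (P y), fun y => hm (P y), fun k => ?_⟩
  · have hy := ext_cont hL.le y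
    refine ⟨(ext_cont hL.le _).continuousOn, (ext_cont hL.le _).continuousOn, hy.continuousOn,
      fun x hx => ?_, fun x hx => ?_⟩
    · have hn : Icc 0 L ∈ 𝓝 x := Icc_mem_nhds hx.1 hx.2
      have d := (((hasDerivAt_id' x).mul (TB.deriv_mom hy 0 x)).sub (TB.deriv_mom hy 1 x)).sub
        (((hasDerivAt_id' x).const_mul (β (P y))).const_add (α (P y)))
      rw [hG1 y x (Ioo_subset_Icc_self hx)]
      refine (d.congr_of_eventuallyEq ?_).congr_deriv (by ring)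
      filter_upwards [hn] with z hz
      rw [ContinuousLinearMap.comp_apply, hP _ z hz, hPP y z hz]
      rfl
    · have hn : Icc 0 L ∈ 𝓝 x := Icc_mem_nhds hx.1 hx.2
      have d := (TB.deriv_mom hy 0 x).sub_const (β (P y))
      refine (d.congr_of_eventuallyEq ?_).congr_deriv (by ring)
      filter_upwards [hn] with z hz
      exact hG1 y z hz
  · have hk := ext_cont hL.le k
    have hp := ext_cont hL.le (Pr k)
    refine ⟨(ext_cont hL.le _).continuousOn, Continuous.continuousOn (by fun_prop),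
      fun x hx => ?_⟩
    have e1 : Vol (fun x => IccExtend hL.le k x - (α k + β k * x)) x =
        Vol (IccExtend hL.le (Pr k)) x :=
      vol_congr hx.1 fun z hz => (hP k z ⟨hz.1, hz.2.trans hx.2⟩).symm
    have e2 := vol_eq_K1 (IccExtend hL.le (Pr k)) x
    have e3 := (vol_eq_outer hp.continuousOn (hm k).1 (hm k).2 hx).2
    have e4 : IccExtend hL.le ((D.comp (((L ^ 2) • A2 + A1).comp Pr)) k) x =
        (x ^ 11 + (1 - κ * x) ^ 2)⁻¹ *
          (L ^ 2 * IccExtend hL.le (A2 (Pr k)) x + IccExtend hL.le (A1 (Pr k)) x) :=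
      hD _ x hx
    rw [← hA2 (Pr k) x hx] at e3
    have e5 : IccExtend hL.le (A1 (Pr k)) x = K1 (IccExtend hL.le (Pr k)) x := hA1 (Pr k) x hx
    have hd := (TB.den_pos (κ := κ) hx.1).ne'
    have hb : (L - x) ^ 2 = (1 - κ * x) ^ 2 * L ^ 2 := by
      rw [← mul_pow]
      congr 1
      linear_combination x * hκ
    rw [e1, e4, e5, ph]
    rw [hb] at e3
    generalize Vol (IccExtend hL.le (Pr k)) x = V at e2 e3 ⊢
    generalize K1 (IccExtend hL.le (Pr k)) x = k1 at e2 ⊢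
    generalize IccExtend hL.le (A2 (Pr k)) x = k2 at e3 ⊢
    generalize 1 - κ * x = b at e3 hd ⊢
    have hi := inv_mul_cancel₀ hd
    generalize (x ^ 11 + b ^ 2)⁻¹ = d at hi ⊢
    linear_combination (-(d * b ^ 2)) * e2 - d * x ^ 11 * e3 + V * hi

end Crest.Agent.R213.C1A
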