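import Crest.Agent.R213.TS2

/-!
# Row 213: time-smooth functions as smooth curves of continuous functions
-/

set_option autoImplicit false

noncomputable section

namespace Crest.Agent.R213.C1B

open Set Filter Topology Metric
open scoped ContDiff

theorem hasDerivAt_of_eval {X : Type*} [TopologicalSpace X] [CompactSpace X] {I : Set ℝ}
    (hI : IsOpen I) {y y' : ℝ → C(X, ℝ)} (hc : ContinuousOn y' I)
    (hd : ∀ t ∈ I, ∀ x, HasDerivAt (fun s => y s x) (y' t x) t) {t : ℝ} (ht : t ∈ I) :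
    HasDerivAt y (y' t) t := by
  refine hasDerivAt_iff_isLittleO.2 (Asymptotics.isLittleO_iff.2 fun ε hε => ?_)
  obtain ⟨δ, hδ, h⟩ := Metric.eventually_nhds_iff_ball.1
    (((hc.continuousAt (hI.mem_nhds ht)).eventually (closedBall_mem_nhds _ hε)).and
      (hI.mem_nhds ht))
  filter_upwards [ball_mem_nhds t hδ] with s hs
  refine (ContinuousMap.norm_le _ (by positivity)).2 fun x => ?_
  have h1 := (convex_ball t δ).norm_image_sub_le_of_norm_hasDerivWithin_le
    (f := fun s => y s x - s * y' t x) (f' := fun s => y' s x - y' t x) (C := ε)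
    (fun s hs => ((hd s (h s hs).2 x).sub (hasDerivAt_mul_const _)).hasDerivWithinAt)
    (fun s hs => ((y' s - y' t).norm_coe_le_norm x).trans (mem_closedBall_iff_norm.1 (h s hs).1))
    (mem_ball_self hδ) hs
  refine le_trans (le_of_eq (congrArg norm ?_)) h1
  show y s x - y t x - (s - t) * y' t x = _
  ring

theorem contDiffOn_tower {V : Type*} [NormedAddCommGroup V] [NormedSpace ℝ V] {I : Set ℝ}
    (hI : IsOpen I) {y : ℕ → ℝ → V} (hd : ∀ j, ∀ t ∈ I, HasDerivAt (y j) (y (j + 1) t) t) :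
    ContDiffOn ℝ ∞ (y 0) I := by
  have key : ∀ n : ℕ, ∀ j, ContDiffOn ℝ n (y j) I := by
    intro n
    induction n with
    | zero =>
      exact fun j => contDiffOn_zero.2 fun t ht => (hd j t ht).continuousAt.continuousWithinAt
    | succ n ih =>
      intro j
      rw [Nat.cast_succ, contDiffOn_succ_iff_deriv_of_isOpen hI]
      exact ⟨fun t ht => (hd j t ht).differentiableAt.differentiableWithinAt, by simp,
        (ih (j + 1)).congr fun t ht => (hd j t ht).deriv⟩
  exact contDiffOn_infty.2 fun n => key n 0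

theorem exists_curve {I D : Set ℝ} [CompactSpace D] {w : Fn}
    (hw : ContinuousOn (fun p : ℝ × ℝ => w p.1 p.2) (I ×ˢ D)) :
    ∃ y : ℝ → C(D, ℝ), ContinuousOn y I ∧ ∀ t ∈ I, ∀ x : D, y t x = w t x := by
  classical
  have h1 : Continuous fun p : I × D => w p.1 p.2 :=
    hw.comp_continuous (f := fun p : I × D => ((p.1 : ℝ), (p.2 : ℝ))) (by fun_prop)
      fun p => ⟨p.1.2, p.2.2⟩
  refine ⟨fun t => if h : t ∈ I then ContinuousMap.curry ⟨_, h1⟩ ⟨t, h⟩ else 0, ?_,
    fun t ht x => ?_⟩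
  · rw [continuousOn_iff_continuous_domRestrict]
    refine (ContinuousMap.curry ⟨_, h1⟩).continuous.congr fun t => ?_
    show _ = dite _ _ _
    rw [dif_pos t.2]
  · beta_reduce
    rw [dif_pos ht]
    rfl

theorem curve {L : ℝ} (hL : 0 ≤ L) {I : Set ℝ} (hI : IsOpen I) {u : Fn}
    (hu : TS I (Icc 0 L) u) : ∃ y : ℝ → C(Icc (0 : ℝ) L, ℝ), ContDiffOn ℝ ∞ y I ∧
      ∀ t ∈ I, ∀ x ∈ Icc 0 L, IccExtend hL (y t) x = u t x := by
  choose y hc hy using fun j => exists_curve (hu j).1
  refine ⟨y 0, contDiffOn_tower hI fun j t ht => hasDerivAt_of_eval hI (hc (j + 1))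
    (fun s hs x => ?_) ht, fun t ht x hx => (IccExtend_of_mem hL _ hx).trans (hy 0 t ht ⟨x, hx⟩)⟩
  rw [hy _ s hs]
  exact ((hu j).2 s hs x x.2).congr_of_eventuallyEq
    (eventually_of_mem (hI.mem_nhds hs) fun r hr => hy j r hr x)

theorem of_curve {L : ℝ} (hL : 0 ≤ L) {I : Set ℝ} (hI : IsOpen I) {y : ℝ → C(Icc (0 : ℝ) L, ℝ)}
    (hy : ContDiffOn ℝ ∞ y I) : TS I (Icc 0 L) (fun t => IccExtend hL (y t)) ∧
      ∀ t ∈ I, ∀ x ∈ Icc 0 L, Dt (fun t => IccExtend hL (y t)) t x =
        IccExtend hL (deriv y t : C(Icc (0 : ℝ) L, ℝ)) x := by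
  have H : ∀ j, ContDiffOn ℝ ∞ (iteratedDeriv j y) I := by
    intro j
    induction j with
    | zero => rwa [iteratedDeriv_zero]
    | succ j ih =>
      rw [iteratedDeriv_succ]
      exact ih.deriv_of_isOpen hI le_rfl
  have h := TS.of_tower (D := Icc 0 L) hI 
    (fun j t => IccExtend hL (iteratedDeriv j y t : C(Icc (0 : ℝ) L, ℝ)))
    (fun j => ((H j).continuousOn.comp continuousOn_fst fun p hp => hp.1).eval
      ((continuous_projIcc (h := hL)).comp continuous_snd).continuousOn)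
    fun j t ht x _ => by
      have h1 := (((H j).differentiableOn (by simp)).differentiableAt (hI.mem_nhds ht)).hasDerivAt
      rw [← iteratedDeriv_succ] at h1
      exact (ContinuousMap.evalCLM ℝ (projIcc 0 L hL x)).hasFDerivAt.comp_hasDerivAt t h1
  simp only [iteratedDeriv_zero] at h
  refine ⟨h.1, fun t ht x hx => (h.2 1 t ht x hx).trans ?_⟩
  rw [iteratedDeriv_one]

end Crest.Agent.R213.C1B
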