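import Crest.Agent.R213.TS2
import Crest.Agent.R213.C1A
import Crest.Agent.R213.C1B

/-!
# Row 213: the linear operators of the regularised problem
-/

set_option autoImplicit false

noncomputable section

namespace Crest.Agent.R213

open Set Filter Topology
open scoped ContDiff

/-- Continuous functions on `[0, L]`. -/
abbrev CL (L : ℝ) := C(Icc (0 : ℝ) L, ℝ)

/-- Extension to the real line. -/
def ext {L : ℝ} (hL : 0 ≤ L) (y : CL L) : ℝ → ℝ := IccExtend hL y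

/-- Double primitive orthogonal to affine functions (`G0`, derivative `G1`), affine part
(`α + β x`) and inverse (`K`) of the Fubini–Study operator. -/
structure Ops (κ L : ℝ) (hL : 0 ≤ L) where
  G0 : CL L →L[ℝ] CL L
  G1 : CL L →L[ℝ] CL L
  K : CL L →L[ℝ] CL L
  α : CL L →L[ℝ] ℝ
  β : CL L →L[ℝ] ℝ
  sp : ∀ y, Sp L (ext hL (G0 y)) (ext hL (G1 y)) (ext hL y)
  mom : ∀ y, α (G0 y) = 0 ∧ β (G0 y) = 0
  mom' : ∀ y, (∫ x in (0 : ℝ)..L, x ^ 9 * ext hL (G0 y) x) = 0 ∧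
    (∫ x in (0 : ℝ)..L, x ^ 10 * ext hL (G0 y) x) = 0
  vol : ∀ k, VolOn κ L (ext hL (K k)) fun x => ext hL k x - (α k + β k * x)

theorem exists_ops {κ L : ℝ} (hL : 0 < L) (hκ : κ * L = 1) : Nonempty (Ops κ L hL.le) := by
  obtain ⟨G0, G1, K, α, β, h1, h2, h3, h4⟩ := C1A.exists_ops_aux hL hκ
  exact ⟨⟨G0, G1, K, α, β, h1, h2, h3, h4⟩⟩

/-- Time-smooth functions are smooth curves in `CL L`. -/
theorem TS.curve {L : ℝ} (hL : 0 ≤ L) {I : Set ℝ} (hI : IsOpen I) {u : Fn}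
    (hu : TS I (Icc 0 L) u) : ∃ y : ℝ → CL L, ContDiffOn ℝ ∞ y I ∧
      ∀ t ∈ I, ∀ x ∈ Icc 0 L, ext hL (y t) x = u t x :=
  C1B.curve hL hI hu

/-- Smooth curves in `CL L` are time-smooth functions. -/
theorem TS.of_curve {L : ℝ} (hL : 0 ≤ L) {I : Set ℝ} (hI : IsOpen I) {y : ℝ → CL L}
    (hy : ContDiffOn ℝ ∞ y I) : TS I (Icc 0 L) (fun t => ext hL (y t)) ∧
      ∀ t ∈ I, ∀ x ∈ Icc 0 L, Dt (fun t => ext hL (y t)) t x = ext hL (deriv y t) x :=
  C1B.of_curve hL hI hy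

end Crest.Agent.R213
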