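import Crest.Agent.R213.TS2

/-!
# Row 213: proofs of `ibp` and `interp`
-/

set_option autoImplicit false

noncomputable section

namespace Crest.Agent.R213.D1A

open Set Filter Topology
open scoped ContDiff

theorem ii {L : ℝ} (hL : 0 < L) {f : ℝ → ℝ} (hf : ContinuousOn f (Icc 0 L)) :
    IntervalIntegrable f MeasureTheory.volume 0 L :=
  ContinuousOn.intervalIntegrable_of_Icc hL.le hf

theorem cph (κ : ℝ) : Continuous (ph κ) := by
  unfold ph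
  fun_prop

theorem ibp {κ L : ℝ} {F F1 F2 W W1 W2 Z k : ℝ → ℝ} (hL : 0 < L) (hF : Sp L F F1 F2)
    (hW : Sp L W W1 W2) (hZ : VolOn κ L Z k) (hb : κ * L = 1 ∨ (W L = 0 ∧ W1 L = 0)) :
    ∫ x in (0 : ℝ)..L, x ^ 9 * k x * (W x * F x) =
      ∫ x in (0 : ℝ)..L, x ^ 9 * ph κ x ^ 2 * Z x * (W x * F2 x + 2 * W1 x * F1 x + W2 x * F x) := by
  have hP := sp_vol hZ.ck
  have c1 : ContinuousOn (fun x => x ^ 9 * k x * (W x * F x)) (Icc 0 L) :=
    hP.c2.mul (hW.c0.mul hF.c0)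
  have c2 : ContinuousOn (fun x => Vol k x * (W x * F2 x + 2 * W1 x * F1 x + W2 x * F x))
      (Icc 0 L) :=
    hP.c0.mul (((hW.c0.mul hF.c2).add ((continuousOn_const.mul hW.c1).mul hF.c1)).add
      (hW.c2.mul hF.c0))
  have h1 := intervalIntegral.integral_eq_sub_of_hasDerivAt_of_le hL.le
    (f := fun x => (∫ y in (0 : ℝ)..x, y ^ 9 * k y) * (W x * F x) -
      Vol k x * (W1 x * F x + W x * F1 x))
    (f' := fun x => x ^ 9 * k x * (W x * F x) -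
      Vol k x * (W x * F2 x + 2 * W1 x * F1 x + W2 x * F x))
    ((hP.c1.mul (hW.c0.mul hF.c0)).sub (hP.c0.mul ((hW.c1.mul hF.c0).add (hW.c0.mul hF.c1))))
    (fun x hx => by
      have := ((hP.d2 x hx).mul ((hW.d1 x hx).mul (hF.d1 x hx))).sub
        ((hP.d1 x hx).mul (((hW.d2 x hx).mul (hF.d1 x hx)).add ((hW.d1 x hx).mul (hF.d2 x hx))))
      refine this.congr_deriv ?_
      simp only [Pi.mul_apply, Pi.add_apply]
      ring)
    (ii hL (c1.sub c2))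
  rw [intervalIntegral.integral_sub (ii hL c1) (ii hL c2)] at h1
  have h0 : Vol k 0 = 0 := intervalIntegral.integral_same
  have h2 : (∫ y in (0 : ℝ)..L, y ^ 9 * k y) * (W L * F L) -
      Vol k L * (W1 L * F L + W L * F1 L) = 0 := by
    rcases hb with hb | ⟨h3, h4⟩
    · have h5 : Vol k L = 0 := by
        rw [← hZ.eq L ⟨hL.le, le_rfl⟩, ph, hb]
        ring
      rw [(hZ.moments hL hb).1, h5]
      ring
    · rw [h3, h4]
      ring
  simp only [h2, h0, intervalIntegral.integral_same, zero_mul, sub_zero] at h1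
  rw [sub_eq_zero.1 h1]
  refine intervalIntegral.integral_congr fun x hx => ?_
  rw [uIcc_of_le hL.le] at hx
  simp only [hZ.eq x hx]

/-- the pointwise inequality -/
theorem pt {w r p c h H u δ f f1 f2 : ℝ} (hw : 0 ≤ w) (hp : p = u * r) (hu : u ^ 2 ≤ 1)
    (hh : h ^ 2 ≤ H) (hH : 0 ≤ H) (hδ : 0 < δ) (hδ1 : δ ≤ 1) :
    w * (p * c) ^ 2 * f1 ^ 2 ≤ δ * (w * r ^ 2 * p ^ 2 * c ^ 4 * f2 ^ 2) +
      (1 + H) / δ * (w * f ^ 2) +
      2 * (w * (p * c) * h * (f * f1) + w * (p * c) ^ 2 * (f1 * f1 + f * f2)) := by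
  have hi : 0 < δ⁻¹ := inv_pos.2 hδ
  have hi1 : 1 ≤ δ⁻¹ := (one_le_inv₀ hδ).2 hδ1
  have e1 : δ * δ⁻¹ = 1 := mul_inv_cancel₀ hδ.ne'
  have h1 : 0 ≤ (p * c * f1 + h * f) ^ 2 := sq_nonneg _
  have h2 : h ^ 2 * f ^ 2 ≤ H * δ⁻¹ * f ^ 2 :=
    mul_le_mul_of_nonneg_right (hh.trans (le_mul_of_one_le_right hH hi1)) (sq_nonneg _)
  have h3 : 0 ≤ δ * (r * p * c ^ 2 * f2 + δ⁻¹ * (u * f)) ^ 2 := by positivity
  have h4 : δ * (r * p * c ^ 2 * f2 + δ⁻¹ * (u * f)) ^ 2 =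
      δ * (r ^ 2 * p ^ 2 * c ^ 4 * f2 ^ 2) + 2 * ((p * c) ^ 2 * (f * f2)) +
        δ⁻¹ * (u ^ 2 * f ^ 2) := by
    rw [hp]
    linear_combination (2 * (r * (u * r) * c ^ 2 * f2) * (u * f) + δ⁻¹ * (u * f) ^ 2) * e1
  have h5 : δ⁻¹ * (u ^ 2 * f ^ 2) ≤ δ⁻¹ * f ^ 2 :=
    mul_le_mul_of_nonneg_left (mul_le_of_le_one_left (sq_nonneg _) hu) hi.le
  have h6 : (p * c) ^ 2 * f1 ^ 2 ≤ δ * (r ^ 2 * p ^ 2 * c ^ 4 * f2 ^ 2) + (1 + H) / δ * f ^ 2 +
      2 * ((p * c) * h * (f * f1) + (p * c) ^ 2 * (f1 * f1 + f * f2)) := by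
    rw [div_eq_mul_inv]
    nlinarith
  have h7 := mul_le_mul_of_nonneg_left h6 hw
  nlinarith

/-- the logarithmic derivative of the weight -/
def hh (m : ℕ) (κ θ l x : ℝ) : ℝ :=
  9 * ((1 - κ * x) * (1 - θ * x)) + 2 * ((1 - 2 * (κ * x)) * (1 - θ * x)) - 2 * (θ * ph κ x) -
    (m + 2) * (ph κ x * (x + l)⁻¹ * (1 - θ * x))

theorem u_mem {κ θ L l x : ℝ} (hG : Geo κ θ L) (hl : 0 < l) (hx : x ∈ Icc 0 L) :
    0 ≤ ph κ x * (x + l)⁻¹ ∧ ph κ x * (x + l)⁻¹ ≤ 1 := by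
  have h1 : 0 ≤ κ * x := mul_nonneg hG.hκ hx.1
  have h2 : κ * x ≤ 1 := (mul_le_mul_of_nonneg_left hx.2 hG.hκ).trans hG.κL
  have h3 : 0 < x + l := by linarith [hx.1]
  have h4 : 0 ≤ ph κ x := mul_nonneg hx.1 (by linarith)
  have h5 : ph κ x ≤ x := mul_le_of_le_one_right hx.1 (by linarith)
  exact ⟨by positivity, (mul_inv_le_iff₀ h3).2 (by linarith)⟩

theorem hh_le (m : ℕ) {κ θ L l x : ℝ} (hG : Geo κ θ L) (hl : 0 < l) (hx : x ∈ Icc 0 L) :
    hh m κ θ l x ^ 2 ≤ ((m : ℝ) + 15) ^ 2 := by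
  have h1 : 0 ≤ κ * x := mul_nonneg hG.hκ hx.1
  have h2 : κ * x ≤ 1 := (mul_le_mul_of_nonneg_left hx.2 hG.hκ).trans hG.κL
  have h1' : 0 ≤ θ * x := mul_nonneg hG.hθ hx.1
  have h2' : θ * x ≤ 1 := (mul_le_mul_of_nonneg_left hx.2 hG.hθ).trans hG.θL
  obtain ⟨u0, u1⟩ := u_mem hG hl hx
  have h3 : θ * ph κ x = θ * x * (1 - κ * x) := by unfold ph; ring
  have hm : (0 : ℝ) ≤ m := Nat.cast_nonneg m
  unfold hh
  rw [h3]
  generalize ph κ x * (x + l)⁻¹ = u at *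
  generalize κ * x = a at *
  generalize θ * x = b at *
  have k1 : 0 ≤ (1 - a) * (1 - b) := mul_nonneg (by linarith) (by linarith)
  have k2 : (1 - a) * (1 - b) ≤ 1 := mul_le_one₀ (by linarith) (by linarith) (by linarith)
  have k3 : -1 ≤ (1 - 2 * a) * (1 - b) := by nlinarith
  have k4 : (1 - 2 * a) * (1 - b) ≤ 1 := by nlinarith
  have k5 : 0 ≤ b * (1 - a) := mul_nonneg h1' (by linarith)
  have k6 : b * (1 - a) ≤ 1 := mul_le_one₀ h2' (by linarith) (by linarith)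
  have k7 : 0 ≤ u * (1 - b) := mul_nonneg u0 (by linarith)
  have k8 : u * (1 - b) ≤ 1 := mul_le_one₀ u1 (by linarith) (by linarith)
  have k9 : 0 ≤ ((m : ℝ) + 2) * (u * (1 - b)) := by positivity
  have k10 : ((m : ℝ) + 2) * (u * (1 - b)) ≤ m + 2 := mul_le_of_le_one_right (by positivity) k8
  exact sq_le_sq' (by linarith) (by linarith)

theorem deriv_a (m : ℕ) (κ θ : ℝ) {l x : ℝ} (h : 0 < x + l) :
    HasDerivAt (fun x => x ^ 9 * (x + l)⁻¹ ^ (m + 2) * (ph κ x * (1 - θ * x)) ^ 2)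
      (x ^ 9 * (x + l)⁻¹ ^ (m + 2) * (ph κ x * (1 - θ * x)) * hh m κ θ l x) x := by
  have h1 : HasDerivAt (fun x => (x + l)⁻¹) (-((x + l)⁻¹ * (x + l)⁻¹)) x := by
    refine (((hasDerivAt_id' x).add_const l).inv h.ne').congr_deriv ?_
    field_simp
  have h2 : HasDerivAt (fun x => ph κ x) (1 - 2 * (κ * x)) x := by
    refine ((hasDerivAt_id' x).mul (((hasDerivAt_id' x).const_mul κ).const_sub 1)).congr_deriv ?_
    ring
  have h3 : HasDerivAt (fun x => 1 - θ * x) (-θ) x := by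
    refine (((hasDerivAt_id' x).const_mul θ).const_sub 1).congr_deriv ?_
    ring
  refine (((hasDerivAt_pow 9 x).mul (h1.pow (m + 2))).mul ((h2.mul h3).pow 2)).congr_deriv ?_
  simp only [Pi.mul_apply, Pi.pow_apply, hh, ph, Nat.add_succ_sub_one]
  push_cast
  ring

theorem interp (m : ℕ) : ∃ C, 0 < C ∧ ∀ (κ θ L l δ : ℝ) (F F1 F2 : ℝ → ℝ), Geo κ θ L → 0 < l →
    0 < δ → δ ≤ 1 → Sp L F F1 F2 →
    ∫ x in (0 : ℝ)..L, x ^ 9 * ph κ x ^ 2 * (1 - θ * x) ^ 2 * F1 x ^ 2 / (x + l) ^ (m + 2) ≤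
      δ * (∫ x in (0 : ℝ)..L, x ^ 9 * ph κ x ^ 2 * (1 - θ * x) ^ 4 * F2 x ^ 2 / (x + l) ^ m) +
        C / δ * ∫ x in (0 : ℝ)..L, x ^ 9 * F x ^ 2 / (x + l) ^ (m + 2) := by
  refine ⟨1 + ((m : ℝ) + 15) ^ 2, by positivity, fun κ θ L l δ F F1 F2 hG hl hδ hδ1 hF => ?_⟩
  have hL := hG.hL
  have hr : ∀ x ∈ Icc 0 L, x + l ≠ 0 := fun x hx => by linarith [hx.1]
  have hr' : ∀ n : ℕ, ∀ x ∈ Icc 0 L, (x + l) ^ n ≠ 0 := fun n x hx => pow_ne_zero n (hr x hx)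
  have cp := cph κ
  have c0 := hF.c0
  have c1 := hF.c1
  have c2 := hF.c2
  have cg : ContinuousOn (fun x => (x + l)⁻¹) (Icc 0 L) := ContinuousOn.inv₀ (by fun_prop) hr
  have ch : ContinuousOn (fun x => hh m κ θ l x) (Icc 0 L) := by
    unfold hh
    fun_prop
  have cA : ContinuousOn (fun x =>
      x ^ 9 * ph κ x ^ 2 * (1 - θ * x) ^ 2 * F1 x ^ 2 / (x + l) ^ (m + 2)) (Icc 0 L) :=
    ContinuousOn.div (by fun_prop) (by fun_prop) (hr' _)
  have cB : ContinuousOn (fun x =>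
      x ^ 9 * ph κ x ^ 2 * (1 - θ * x) ^ 4 * F2 x ^ 2 / (x + l) ^ m) (Icc 0 L) :=
    ContinuousOn.div (by fun_prop) (by fun_prop) (hr' _)
  have cD : ContinuousOn (fun x => x ^ 9 * F x ^ 2 / (x + l) ^ (m + 2)) (Icc 0 L) :=
    ContinuousOn.div (by fun_prop) (by fun_prop) (hr' _)
  have cG : ContinuousOn (fun x =>
      x ^ 9 * (x + l)⁻¹ ^ (m + 2) * (ph κ x * (1 - θ * x)) * hh m κ θ l x * (F x * F1 x) +
        x ^ 9 * (x + l)⁻¹ ^ (m + 2) * (ph κ x * (1 - θ * x)) ^ 2 * (F1 x * F1 x + F x * F2 x))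
      (Icc 0 L) := by fun_prop
  have h1 := intervalIntegral.integral_eq_sub_of_hasDerivAt_of_le hL.le
    (f := fun x => x ^ 9 * (x + l)⁻¹ ^ (m + 2) * (ph κ x * (1 - θ * x)) ^ 2 * (F x * F1 x))
    (by fun_prop)
    (fun x hx => (deriv_a m κ θ (l := l) (by linarith [hx.1])).mul ((hF.d1 x hx).mul (hF.d2 x hx)))
    (ii hL cG)
  have h2 : ph κ L * (1 - θ * L) = 0 := by
    unfold ph
    rcases hG.bd with h | h <;> rw [h] <;> ring
  simp only [h2] at h1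
  have h3 := intervalIntegral.integral_mono_on hL.le (ii hL cA)
    ((((ii hL cB).const_mul δ).add ((ii hL cD).const_mul ((1 + ((m : ℝ) + 15) ^ 2) / δ))).add
      ((ii hL cG).const_mul 2)) (fun x hx => by
      obtain ⟨u0, u1⟩ := u_mem hG hl hx
      have hx0 := hx.1
      have h4 : 0 < x + l := by linarith
      have := pt (w := x ^ 9 * (x + l)⁻¹ ^ (m + 2)) (r := x + l) (p := ph κ x) (c := 1 - θ * x)
        (u := ph κ x * (x + l)⁻¹) (f := F x) (f1 := F1 x) (f2 := F2 x) (by positivity)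
        (by field_simp) (pow_le_one₀ u0 u1) (hh_le m hG hl hx) (by positivity) hδ hδ1
      refine le_trans (le_of_eq ?_) (this.trans (le_of_eq ?_))
      · rw [div_eq_mul_inv, ← inv_pow]
        ring
      · congr 2
        · congr 1
          rw [inv_pow, pow_add]
          field_simp
        · congr 1
          rw [div_eq_mul_inv, ← inv_pow]
          ring)
  rw [intervalIntegral.integral_add (((ii hL cB).const_mul δ).add
      ((ii hL cD).const_mul ((1 + ((m : ℝ) + 15) ^ 2) / δ))) ((ii hL cG).const_mul 2),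
    intervalIntegral.integral_add ((ii hL cB).const_mul δ)
      ((ii hL cD).const_mul ((1 + ((m : ℝ) + 15) ^ 2) / δ)),
    intervalIntegral.integral_const_mul, intervalIntegral.integral_const_mul,
    intervalIntegral.integral_const_mul, h1] at h3
  simpa using h3

end Crest.Agent.R213.D1A
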