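import Crest.Agent.R213.TS2

/-!
# Row 213: the weight `χ ^ 4 / (x + l) ^ n` and the commutator terms
-/

set_option autoImplicit false

noncomputable section

namespace Crest.Agent.R213.D1B

open Set Filter Topology

theorem dinv (n : ℕ) {l x : ℝ} (h : x + l ≠ 0) :
    HasDerivAt (fun x => ((x + l) ^ n)⁻¹) (-n * ((x + l) ^ (n + 1))⁻¹) x := by
  have h1 := (hasDerivAt_zpow (-(n : ℤ)) (x + l) (Or.inl h)).comp_add_const x l
  rw [show -(n : ℤ) - 1 = -((n + 1 : ℕ) : ℤ) by push_cast; ring] at h1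
  simpa only [zpow_neg, zpow_natCast, Int.cast_neg, Int.cast_natCast] using h1

theorem dchi (θ : ℝ) (k : ℕ) (x : ℝ) :
    HasDerivAt (fun x => (1 - θ * x) ^ (k + 1)) (-((k + 1 : ℕ) * θ * (1 - θ * x) ^ k)) x := by
  have h := (((hasDerivAt_id x).const_mul θ).const_sub 1).fun_pow (k + 1)
  simp only [id, Nat.add_sub_cancel] at h
  exact h.congr_deriv (by ring)

/-- The weight. -/
def W (θ l : ℝ) (n : ℕ) (x : ℝ) : ℝ := (1 - θ * x) ^ 4 * ((x + l) ^ n)⁻¹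

/-- Its derivative. -/
def W1 (θ l : ℝ) (n : ℕ) (x : ℝ) : ℝ :=
  -(4 * θ) * ((1 - θ * x) ^ 3 * ((x + l) ^ n)⁻¹) - n * ((1 - θ * x) ^ 4 * ((x + l) ^ (n + 1))⁻¹)

/-- Its second derivative. -/
def W2 (θ l : ℝ) (n : ℕ) (x : ℝ) : ℝ :=
  12 * θ ^ 2 * ((1 - θ * x) ^ 2 * ((x + l) ^ n)⁻¹) +
    8 * n * θ * ((1 - θ * x) ^ 3 * ((x + l) ^ (n + 1))⁻¹) +
    n * (n + 1) * ((1 - θ * x) ^ 4 * ((x + l) ^ (n + 2))⁻¹)

theorem cinv (n : ℕ) {l : ℝ} (hl : 0 < l) (L : ℝ) :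
    ContinuousOn (fun x => ((x + l) ^ n)⁻¹) (Icc 0 L) := fun x hx =>
  (dinv n (by linarith [hx.1] : 0 < x + l).ne').continuousAt.continuousWithinAt

theorem sp (θ : ℝ) {l : ℝ} (hl : 0 < l) (n : ℕ) (L : ℝ) : Sp L (W θ l n) (W1 θ l n) (W2 θ l n) := by
  have c0 := cinv n hl L
  have c1 := cinv (n + 1) hl L
  have c2 := cinv (n + 2) hl L
  refine ⟨?_, ?_, ?_, fun x hx => ?_, fun x hx => ?_⟩
  · unfold W; fun_prop
  · unfold W1; fun_prop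
  · unfold W2; fun_prop
  · have h : x + l ≠ 0 := (by linarith [hx.1] : 0 < x + l).ne'
    refine ((dchi θ 3 x).fun_mul (dinv n h)).congr_deriv ?_
    rw [W1]
    push_cast
    ring
  · have h : x + l ≠ 0 := (by linarith [hx.1] : 0 < x + l).ne'
    refine ((((dchi θ 2 x).fun_mul (dinv n h)).const_mul (-(4 * θ))).fun_sub
      (((dchi θ 3 x).fun_mul (dinv (n + 1) h)).const_mul (n : ℝ))).congr_deriv ?_
    rw [W2]
    push_cast
    ring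

theorem amgm {s : ℝ} (hs : 0 < s) (a A u v : ℝ) (h : |a| ≤ A) :
    |a * u * v| ≤ s / 2 * u ^ 2 + A ^ 2 / (2 * s) * v ^ 2 := by
  have h1 : |a * u * v| ≤ |u| * (A * |v|) := by
    rw [abs_mul, abs_mul, mul_comm |a|, mul_assoc]
    exact mul_le_mul_of_nonneg_left (mul_le_mul_of_nonneg_right h (abs_nonneg _)) (abs_nonneg _)
  have h2 : s / 2 * u ^ 2 + A ^ 2 / (2 * s) * v ^ 2 - |u| * (A * |v|) =
      (s * |u| - A * |v|) ^ 2 / (2 * s) := by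
    rw [← sq_abs u, ← sq_abs v]
    field_simp
    ring
  have h3 : 0 ≤ (s * |u| - A * |v|) ^ 2 / (2 * s) := by positivity
  linarith

/-- The pointwise bound. -/
theorem point (m p : ℕ) {κ θ L l s x : ℝ} (hG : Geo κ θ L) (hl : 0 < l) (hlL : l ≤ L) (hs : 0 < s)
    (hx : x ∈ Icc 0 L) (f f1 z : ℝ) :
    |x ^ 9 * ph κ x ^ 2 * z * (2 * W1 θ l (m + p) x * f1 + W2 θ l (m + p) x * f)| ≤
      s * (x ^ 9 * ph κ x ^ 2 * (1 - θ * x) ^ 4 * z ^ 2 / (x + l) ^ (m + 2 * p)) +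
      (16 + 2 * (m + p : ℕ)) ^ 2 / (2 * s) *
        (x ^ 9 * ph κ x ^ 2 * (1 - θ * x) ^ 2 * f1 ^ 2 / (x + l) ^ (m + 2)) +
      (48 + 16 * (m + p : ℕ) + (m + p : ℕ) * ((m + p : ℕ) + 1)) ^ 2 / (2 * s) *
        (x ^ 9 * f ^ 2 / (x + l) ^ (m + 2)) := by
  obtain ⟨x0, xL⟩ := hx
  have hθ := hG.hθ
  have y0 : 0 < x + l := by linarith
  have t0 : 0 ≤ θ * x := mul_nonneg hθ x0
  have t1 : θ * x ≤ 1 := (mul_le_mul_of_nonneg_left xL hθ).trans hG.θL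
  have t2 : θ * l ≤ 1 := (mul_le_mul_of_nonneg_left hlL hθ).trans hG.θL
  have k0 : 0 ≤ κ * x := mul_nonneg hG.hκ x0
  have k1 : κ * x ≤ 1 := (mul_le_mul_of_nonneg_left xL hG.hκ).trans hG.κL
  have hP : ph κ x ^ 2 ≤ (x + l) ^ 2 :=
    pow_le_pow_left₀ (mul_nonneg x0 (by linarith)) (by nlinarith) 2
  have P0 : 0 ≤ ph κ x ^ 2 := sq_nonneg _
  obtain ⟨τ, hτ⟩ : ∃ τ, τ = θ * (x + l) := ⟨_, rfl⟩
  have τ0 : 0 ≤ τ := hτ ▸ mul_nonneg hθ y0.le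
  have τ2 : τ ≤ 2 := by rw [hτ, mul_add]; linarith
  simp only [W1, W2]
  generalize ph κ x ^ 2 = P at hP P0 ⊢
  have c0 : 0 ≤ 1 - θ * x := by linarith
  have c1 : 1 - θ * x ≤ 1 := by linarith
  generalize 1 - θ * x = c at c0 c1 ⊢
  have n0 : (0 : ℝ) ≤ (m + p : ℕ) := Nat.cast_nonneg _
  generalize ((m + p : ℕ) : ℝ) = n at n0 ⊢
  have hθ' : θ = τ / (x + l) := by rw [hτ, mul_div_cancel_right₀ _ y0.ne']
  generalize x + l = y at y0 hθ' hP ⊢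
  have Q0 : 0 ≤ x ^ 9 * P / y ^ m := by positivity
  have a1 := amgm hs (-(8 * τ + 2 * (n * c))) (16 + 2 * n) (c ^ 2 * z / y ^ p) (c * f1 / y) (by
    rw [abs_neg, abs_of_nonneg (by positivity)]
    linarith [mul_le_of_le_one_right n0 c1])
  have a2 := amgm hs (12 * τ ^ 2 + 8 * (n * (τ * c)) + n * (n + 1) * c ^ 2)
    (48 + 16 * n + n * (n + 1)) (c ^ 2 * z / y ^ p) (f / y ^ 2) (by
    rw [abs_of_nonneg (by positivity)]
    have b1 : τ ^ 2 ≤ 4 := by nlinarith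
    have b2 : n * (τ * c) ≤ n * 2 :=
      mul_le_mul_of_nonneg_left ((mul_le_of_le_one_right τ0 c1).trans τ2) n0
    have b3 : n * (n + 1) * c ^ 2 ≤ n * (n + 1) :=
      mul_le_of_le_one_right (by positivity) (pow_le_one₀ c0 c1)
    linarith)
  have a3 : x ^ 9 * P / y ^ m * (f / y ^ 2) ^ 2 ≤ x ^ 9 * f ^ 2 / y ^ (m + 2) :=
    calc _ = x ^ 9 * f ^ 2 / y ^ (m + 4) * P := by field_simp; ring
      _ ≤ x ^ 9 * f ^ 2 / y ^ (m + 4) * y ^ 2 := mul_le_mul_of_nonneg_left hP (by positivity)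
      _ = _ := by field_simp; ring
  have a4 := mul_le_mul_of_nonneg_left a3
    (show 0 ≤ (48 + 16 * n + n * (n + 1)) ^ 2 / (2 * s) by positivity)
  calc _ = |x ^ 9 * P / y ^ m * (-(8 * τ + 2 * (n * c)) * (c ^ 2 * z / y ^ p) * (c * f1 / y) +
        (12 * τ ^ 2 + 8 * (n * (τ * c)) + n * (n + 1) * c ^ 2) * (c ^ 2 * z / y ^ p) *
          (f / y ^ 2))| := by
        congr 1
        rw [hθ']
        field_simp
        ring
    _ ≤ x ^ 9 * P / y ^ m * ((s / 2 * (c ^ 2 * z / y ^ p) ^ 2 +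
          (16 + 2 * n) ^ 2 / (2 * s) * (c * f1 / y) ^ 2) + (s / 2 * (c ^ 2 * z / y ^ p) ^ 2 +
          (48 + 16 * n + n * (n + 1)) ^ 2 / (2 * s) * (f / y ^ 2) ^ 2)) := by
        rw [abs_mul, abs_of_nonneg Q0]
        exact mul_le_mul_of_nonneg_left ((abs_add_le _ _).trans (add_le_add a1 a2)) Q0
    _ = s * (x ^ 9 * P * c ^ 4 * z ^ 2 / y ^ (m + 2 * p)) +
        (16 + 2 * n) ^ 2 / (2 * s) * (x ^ 9 * P * c ^ 2 * f1 ^ 2 / y ^ (m + 2)) +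
        (48 + 16 * n + n * (n + 1)) ^ 2 / (2 * s) * (x ^ 9 * P / y ^ m * (f / y ^ 2) ^ 2) := by
        field_simp
        ring
    _ ≤ _ := by linarith

/-- The commutator integral. -/
theorem int_le (m p : ℕ) {κ θ L l s : ℝ} {F F1 F2 Z k : ℝ → ℝ} (hG : Geo κ θ L) (hl : 0 < l)
    (hlL : l ≤ L) (hs : 0 < s) (hF : Sp L F F1 F2) (hZ : VolOn κ L Z k)
    (h : ∫ x in (0 : ℝ)..L, x ^ 9 * k x * (W θ l (m + p) x * F x) =
      ∫ x in (0 : ℝ)..L, x ^ 9 * ph κ x ^ 2 * Z x *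
        (W θ l (m + p) x * F2 x + 2 * W1 θ l (m + p) x * F1 x + W2 θ l (m + p) x * F x)) :
    |(∫ x in (0 : ℝ)..L, x ^ 9 * (1 - θ * x) ^ 4 * (k x * F x) / (x + l) ^ (m + p)) -
        ∫ x in (0 : ℝ)..L, x ^ 9 * ph κ x ^ 2 * (1 - θ * x) ^ 4 * (Z x * F2 x) / (x + l) ^ (m + p)| ≤
      s * (∫ x in (0 : ℝ)..L,
          x ^ 9 * ph κ x ^ 2 * (1 - θ * x) ^ 4 * Z x ^ 2 / (x + l) ^ (m + 2 * p)) +
      (16 + 2 * (m + p : ℕ)) ^ 2 / (2 * s) * (∫ x in (0 : ℝ)..L,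
        x ^ 9 * ph κ x ^ 2 * (1 - θ * x) ^ 2 * F1 x ^ 2 / (x + l) ^ (m + 2)) +
      (48 + 16 * (m + p : ℕ) + (m + p : ℕ) * ((m + p : ℕ) + 1)) ^ 2 / (2 * s) *
        ∫ x in (0 : ℝ)..L, x ^ 9 * F x ^ 2 / (x + l) ^ (m + 2) := by
  have hL := hG.hL.le
  obtain ⟨w0, w1, w2, -, -⟩ := sp θ hl (m + p) L
  have f0 := hF.c0
  have f1 := hF.c1
  have f2 := hF.c2
  have z0 := hZ.cZ
  have p0 : ContinuousOn (ph κ) (Icc 0 L) := by unfold ph; fun_prop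
  have hi : ∀ {g : ℝ → ℝ}, ContinuousOn g (Icc 0 L) →
      IntervalIntegrable g MeasureTheory.volume 0 L := fun hg => hg.intervalIntegrable_of_Icc hL
  have c1 := cinv (m + 2 * p) hl L
  have c2 := cinv (m + 2) hl L
  have e1 : ∫ x in (0 : ℝ)..L, x ^ 9 * (1 - θ * x) ^ 4 * (k x * F x) / (x + l) ^ (m + p) =
      ∫ x in (0 : ℝ)..L, x ^ 9 * k x * (W θ l (m + p) x * F x) :=
    intervalIntegral.integral_congr fun x _ => by simp only [W]; ring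
  have e2 : ∫ x in (0 : ℝ)..L,
      x ^ 9 * ph κ x ^ 2 * (1 - θ * x) ^ 4 * (Z x * F2 x) / (x + l) ^ (m + p) =
      ∫ x in (0 : ℝ)..L, x ^ 9 * ph κ x ^ 2 * Z x * (W θ l (m + p) x * F2 x) :=
    intervalIntegral.integral_congr fun x _ => by simp only [W]; ring
  have i1 : IntervalIntegrable (fun x =>
      x ^ 9 * ph κ x ^ 2 * (1 - θ * x) ^ 4 * Z x ^ 2 / (x + l) ^ (m + 2 * p))
      MeasureTheory.volume 0 L := hi (by simp only [div_eq_mul_inv]; fun_prop)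
  have i2 : IntervalIntegrable (fun x =>
      x ^ 9 * ph κ x ^ 2 * (1 - θ * x) ^ 2 * F1 x ^ 2 / (x + l) ^ (m + 2))
      MeasureTheory.volume 0 L := hi (by simp only [div_eq_mul_inv]; fun_prop)
  have i3 : IntervalIntegrable (fun x => x ^ 9 * F x ^ 2 / (x + l) ^ (m + 2))
      MeasureTheory.volume 0 L := hi (by simp only [div_eq_mul_inv]; fun_prop)
  rw [e1, e2, h, ← intervalIntegral.integral_sub (hi (by fun_prop)) (hi (by fun_prop)),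
    ← intervalIntegral.integral_const_mul, ← intervalIntegral.integral_const_mul,
    ← intervalIntegral.integral_const_mul,
    ← intervalIntegral.integral_add (i1.const_mul _) (i2.const_mul _),
    ← intervalIntegral.integral_add ((i1.const_mul _).add (i2.const_mul _)) (i3.const_mul _)]
  refine (intervalIntegral.abs_integral_le_integral_abs hL).trans
    (intervalIntegral.integral_mono_on hL (hi (by fun_prop))
      (((i1.const_mul _).add (i2.const_mul _)).add (i3.const_mul _)) fun x hx => ?_)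
  refine le_trans (le_of_eq ?_) (point m p hG hl hlL hs hx (F x) (F1 x) (Z x))
  congr 1
  ring

theorem fin {I s δ A B C I1 I2 I0 : ℝ} (hs : 0 < s) (hδ : 0 < δ) (hδ1 : δ ≤ 1) (hC : 0 < C)
    (h2 : 0 ≤ I2) (h0 : 0 ≤ I0) (h : I1 ≤ δ * I2 + C / δ * I0) :
    I + A ^ 2 / (2 * s) * I1 + B ^ 2 / (2 * s) * I0 ≤
      I + (A ^ 2 + A ^ 2 * C + B ^ 2 + 1) / s * (δ * I2 + δ⁻¹ * I0) := by
  have h1 := mul_le_mul_of_nonneg_left h (show 0 ≤ A ^ 2 / (2 * s) by positivity)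
  have h3 : B ^ 2 / (2 * s) * I0 ≤ B ^ 2 / (2 * s) * (δ⁻¹ * I0) :=
    mul_le_mul_of_nonneg_left (le_mul_of_one_le_left h0 ((one_le_inv₀ hδ).2 hδ1)) (by positivity)
  have h4 : (A ^ 2 + A ^ 2 * C + B ^ 2 + 1) / s * (δ * I2 + δ⁻¹ * I0) -
      (A ^ 2 / (2 * s) * (δ * I2 + C / δ * I0) + B ^ 2 / (2 * s) * (δ⁻¹ * I0)) =
      (A ^ 2 / 2 + A ^ 2 * C + B ^ 2 + 1) / s * (δ * I2) +
        (A ^ 2 + A ^ 2 * C / 2 + B ^ 2 / 2 + 1) / s * (δ⁻¹ * I0) := by ring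
  have h5 : 0 ≤ (A ^ 2 / 2 + A ^ 2 * C + B ^ 2 + 1) / s * (δ * I2) +
      (A ^ 2 + A ^ 2 * C / 2 + B ^ 2 / 2 + 1) / s * (δ⁻¹ * I0) := by positivity
  linarith

end Crest.Agent.R213.D1B
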