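import Crest.Agent.R213.TS2
import Crest.Agent.R213.D1A
import Crest.Agent.R213.D1B

/-!
# Row 213: integration by parts and the weighted interpolation inequality
-/

set_option autoImplicit false

noncomputable section

namespace Crest.Agent.R213

open Set Filter Topology
open scoped ContDiff

/-- Integration by parts twice. -/
theorem ibp {κ L : ℝ} {F F1 F2 W W1 W2 Z k : ℝ → ℝ} (hL : 0 < L) (hF : Sp L F F1 F2)
    (hW : Sp L W W1 W2) (hZ : VolOn κ L Z k) (hb : κ * L = 1 ∨ (W L = 0 ∧ W1 L = 0)) :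
    ∫ x in (0 : ℝ)..L, x ^ 9 * k x * (W x * F x) =
      ∫ x in (0 : ℝ)..L, x ^ 9 * ph κ x ^ 2 * Z x * (W x * F2 x + 2 * W1 x * F1 x + W2 x * F x) :=
  D1A.ibp hL hF hW hZ hb

/-- Interpolation for the first derivative. -/
theorem interp (m : ℕ) : ∃ C, 0 < C ∧ ∀ (κ θ L l δ : ℝ) (F F1 F2 : ℝ → ℝ), Geo κ θ L → 0 < l →
    0 < δ → δ ≤ 1 → Sp L F F1 F2 →
    ∫ x in (0 : ℝ)..L, x ^ 9 * ph κ x ^ 2 * (1 - θ * x) ^ 2 * F1 x ^ 2 / (x + l) ^ (m + 2) ≤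
      δ * (∫ x in (0 : ℝ)..L, x ^ 9 * ph κ x ^ 2 * (1 - θ * x) ^ 4 * F2 x ^ 2 / (x + l) ^ m) +
        C / δ * ∫ x in (0 : ℝ)..L, x ^ 9 * F x ^ 2 / (x + l) ^ (m + 2) :=
  D1A.interp m

/-- The commutator terms of the weighted energy identity. -/
theorem cross (m p : ℕ) : ∃ C, 0 < C ∧ ∀ (κ θ L l s δ : ℝ) (F F1 F2 Z k : ℝ → ℝ), Geo κ θ L →
    0 < l → l ≤ L → 0 < s → 0 < δ → δ ≤ 1 → Sp L F F1 F2 → VolOn κ L Z k →
    |(∫ x in (0 : ℝ)..L, x ^ 9 * (1 - θ * x) ^ 4 * (k x * F x) / (x + l) ^ (m + p)) -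
        ∫ x in (0 : ℝ)..L, x ^ 9 * ph κ x ^ 2 * (1 - θ * x) ^ 4 * (Z x * F2 x) / (x + l) ^ (m + p)| ≤
      s * (∫ x in (0 : ℝ)..L,
          x ^ 9 * ph κ x ^ 2 * (1 - θ * x) ^ 4 * Z x ^ 2 / (x + l) ^ (m + 2 * p)) +
        C / s * (δ * (∫ x in (0 : ℝ)..L,
            x ^ 9 * ph κ x ^ 2 * (1 - θ * x) ^ 4 * F2 x ^ 2 / (x + l) ^ m) +
          δ⁻¹ * ∫ x in (0 : ℝ)..L, x ^ 9 * F x ^ 2 / (x + l) ^ (m + 2)) := by
  obtain ⟨C, hC, h⟩ := interp m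
  refine ⟨_, ?_, fun κ θ L l s δ F F1 F2 Z k hG hl hlL hs hδ hδ1 hF hZ =>
    (D1B.int_le m p hG hl hlL hs hF hZ (ibp hG.hL hF (D1B.sp θ hl (m + p) L) hZ
      (hG.bd.imp_right fun hb => ?_))).trans (D1B.fin hs hδ hδ1 hC ?_ ?_
        (h κ θ L l δ F F1 F2 hG hl hδ hδ1 hF))⟩
  · positivity
  · simp [D1B.W, D1B.W1, hb]
  · exact intervalIntegral.integral_nonneg hG.hL.le fun x hx => by have := hx.1; positivity
  · exact intervalIntegral.integral_nonneg hG.hL.le fun x hx => by have := hx.1; positivity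

end Crest.Agent.R213
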