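import Crest.Agent.R213.PT

/-!
# Row 213: the global chain on `[0, L]` (proof of `chain_glob`)
-/

set_option autoImplicit false

noncomputable section

namespace Crest.Agent.R213.PTgA

open Set Filter Topology

theorem mvt {f f' : ℝ → ℝ} {a b c : ℝ} (hab : a ≤ b) (hf : ContinuousOn f (Icc a b))
    (hd : ∀ y ∈ Ioo a b, HasDerivAt f (f' y) y) (hc : ∀ y ∈ Ioo a b, |f' y| ≤ c) :
    |f b - f a| ≤ c * (b - a) := by
  rcases hab.eq_or_lt with rfl | hab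
  · simp
  obtain ⟨y, hy, e⟩ := exists_hasDerivAt_eq_slope f f' hab hf hd
  have h := hc y hy
  rwa [e, abs_div, abs_of_pos (sub_pos.2 hab), div_le_iff₀ (sub_pos.2 hab)] at h

theorem bd_Icc {f : ℝ → ℝ} {a b c : ℝ} (hab : a < b) (hf : ContinuousOn f (Icc a b))
    (h : ∀ x ∈ Ioo a b, |f x| ≤ c) : ∀ x ∈ Icc a b, |f x| ≤ c := by
  rw [← closure_Ioo hab.ne] at hf ⊢
  exact fun x hx => le_on_closure (f := fun x => |f x|) (g := fun _ => c) h hf.abs
    continuousOn_const hx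

theorem sp_mono {L L' : ℝ} {F F1 F2 : ℝ → ℝ} (h : Sp L F F1 F2) (hL : L' ≤ L) : Sp L' F F1 F2 :=
  ⟨h.c0.mono (Icc_subset_Icc_right hL), h.c1.mono (Icc_subset_Icc_right hL),
    h.c2.mono (Icc_subset_Icc_right hL), fun x hx => h.d1 x (Ioo_subset_Ioo_right hL hx),
    fun x hx => h.d2 x (Ioo_subset_Ioo_right hL hx)⟩

theorem int_mono {L L' : ℝ} {F : ℝ → ℝ} (h : ContinuousOn F (Icc 0 L)) (h0 : 0 ≤ L')
    (hL : L' ≤ L) : (∫ x in (0 : ℝ)..L', x ^ 9 * F x ^ 2) ≤ ∫ x in (0 : ℝ)..L, x ^ 9 * F x ^ 2 := by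
  refine intervalIntegral.integral_mono_interval le_rfl h0 hL ?_ ?_
  · refine (MeasureTheory.ae_restrict_iff' measurableSet_Ioc).2 (Eventually.of_forall fun x hx => ?_)
    exact mul_nonneg (pow_nonneg hx.1.le _) (sq_nonneg _)
  · exact ContinuousOn.intervalIntegrable_of_Icc (h0.trans hL)
      ((continuousOn_id.pow 9).mul (h.pow 2))

theorem vol_abs {κ L x : ℝ} {Z k : ℝ → ℝ} (hL : 0 < L) (hκ : κ * L = 1) (h : VolOn κ L Z k)
    (hx : x ∈ Icc 0 L) : x ^ 11 * (L - x) ^ 2 * |Z x| = L ^ 2 * |Vol k x| := by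
  have e : ph κ x = x * (L - x) / L := by
    rw [ph, eq_div_iff hL.ne']
    linear_combination (-x ^ 2) * hκ
  rw [← h.eq x hx, abs_mul, abs_of_nonneg (mul_nonneg (pow_nonneg hx.1 _) (sq_nonneg _)), e]
  field_simp

/-- Inner bound for `Z`. -/
theorem vol_in {κ L x A : ℝ} {Z k : ℝ → ℝ} (hL : 0 < L) (hκ : κ * L = 1) (h : VolOn κ L Z k)
    (hx0 : 0 < x) (hx : x ≤ L / 2) (hA : |Vol k x| ≤ A * x ^ 11) : |Z x| ≤ 4 * A := by
  have h1 := vol_abs hL hκ h ⟨hx0.le, by linarith⟩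
  have h2 : 0 < x ^ 11 * L ^ 2 := by positivity
  refine le_of_mul_le_mul_left ?_ h2
  have h3 : L ^ 2 ≤ 4 * (L - x) ^ 2 := by nlinarith
  have h4 := mul_le_mul_of_nonneg_left hA (sq_nonneg L)
  have h5 := mul_le_mul_of_nonneg_left h3 (show 0 ≤ x ^ 11 * |Z x| by positivity)
  nlinarith

/-- Outer bound for `Z`. -/
theorem vol_out {κ L x A : ℝ} {Z k : ℝ → ℝ} (hL : 0 < L) (hκ : κ * L = 1) (h : VolOn κ L Z k)
    (hx0 : L / 2 ≤ x) (hx : x < L) (hA : ∀ y ∈ Icc x L, |k y| ≤ A) : |Z x| ≤ 2 ^ 11 * A := by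
  have hx1 : 0 < x := by linarith
  have hA0 : 0 ≤ A := (abs_nonneg _).trans (hA x ⟨le_rfl, hx.le⟩)
  have h1 := vol_abs hL hκ h ⟨hx1.le, hx.le⟩
  have h2 : |∫ θ in (0 : ℝ)..1, θ * (x + θ * (L - x)) ^ 9 * k (x + θ * (L - x))| ≤ L ^ 9 * A := by
    have h3 := intervalIntegral.norm_integral_le_of_norm_le_const (a := 0) (b := 1) (C := L ^ 9 * A)
      (f := fun θ : ℝ => θ * (x + θ * (L - x)) ^ 9 * k (x + θ * (L - x))) fun θ hθ => by
        rw [uIoc_of_le zero_le_one] at hθ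
        have h4 : x ≤ x + θ * (L - x) := by nlinarith [hθ.1]
        have h5 : x + θ * (L - x) ≤ L := by nlinarith [hθ.2]
        rw [Real.norm_eq_abs, abs_mul, abs_mul, abs_of_pos hθ.1,
          abs_of_nonneg (pow_nonneg (hx1.le.trans h4) _)]
        refine mul_le_mul ?_ (hA _ ⟨h4, h5⟩) (abs_nonneg _) (by positivity)
        exact (mul_le_of_le_one_left (pow_nonneg (hx1.le.trans h4) _) hθ.2).trans
          (pow_le_pow_left₀ (hx1.le.trans h4) h5 _)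
    simpa using h3
  rw [(vol_eq_outer h.ck (h.moments hL hκ).1 (h.moments hL hκ).2 ⟨hx1.le, hx.le⟩).2, abs_mul,
    abs_of_nonneg (sq_nonneg (L - x))] at h1
  have h3 : 0 < x ^ 11 * (L - x) ^ 2 := mul_pos (by positivity) (pow_pos (sub_pos.2 hx) _)
  refine le_of_mul_le_mul_left ?_ h3
  have h4 : L ^ 11 ≤ (2 * x) ^ 11 := pow_le_pow_left₀ hL.le (by linarith) _
  calc _ = L ^ 2 * (L - x) ^ 2 * |_| := by rw [h1, mul_assoc]
    _ ≤ L ^ 2 * (L - x) ^ 2 * (L ^ 9 * A) := mul_le_mul_of_nonneg_left h2 (by positivity)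
    _ = L ^ 11 * ((L - x) ^ 2 * A) := by ring
    _ ≤ (2 * x) ^ 11 * ((L - x) ^ 2 * A) := mul_le_mul_of_nonneg_right h4 (by positivity)
    _ = _ := by ring

/-- The first level in the outer region. -/
theorem levA {κ L : ℝ} (hL : 0 < L) (hκ : κ * L = 1) : ∃ C, 0 < C ∧ ∀ (M : ℝ) (Z F e : ℝ → ℝ),
    0 ≤ M → ContinuousOn F (Icc 0 L) → VolOn κ L Z (fun y => F y - e y) →
    (∫ x in (0 : ℝ)..L, x ^ 9 * F x ^ 2) ≤ M ^ 2 → (∀ x ∈ Icc 0 L, |e x| ≤ M) →
    ∀ x ∈ Icc (L / 4) L, (L - x) * |Z x| ≤ C * M := by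
  obtain ⟨C, hC, h⟩ := pt2
  refine ⟨4 * √(C * ((2 + 2 * L ^ 10) / (L / 4) ^ 8)), by positivity,
    fun M Z F e hM hF hZ h1 h2 x hx => ?_⟩
  have h3 := h κ L (L / 4) Z _ hκ (by positivity) (by linarith) hZ x hx
  have h4 : (∫ y in (0 : ℝ)..L, y ^ 9 * (F y - e y) ^ 2 / (y + L / 4) ^ 8) ≤
      ∫ y in (0 : ℝ)..L, (2 / (L / 4) ^ 8 * (y ^ 9 * F y ^ 2) + 2 * L ^ 9 * M ^ 2 / (L / 4) ^ 8) := by
    refine intervalIntegral.integral_mono_on hL.le ?_ ?_ fun y hy => ?_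
    · refine ContinuousOn.intervalIntegrable_of_Icc hL.le (((continuousOn_id.pow 9).mul
        (hZ.ck.pow 2)).div (by fun_prop) fun y hy => ?_)
      have := hy.1
      positivity
    · exact ContinuousOn.intervalIntegrable_of_Icc hL.le ((continuousOn_const.mul
        ((continuousOn_id.pow 9).mul (hF.pow 2))).add continuousOn_const)
    · have h5 := hy.1
      have h6 : e y ^ 2 ≤ M ^ 2 := sq_le_sq' (abs_le.1 (h2 y hy)).1 (abs_le.1 (h2 y hy)).2
      have h7 : y ^ 9 ≤ L ^ 9 := pow_le_pow_left₀ h5 hy.2 _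
      have h8 : y ^ 9 * (F y - e y) ^ 2 ≤ 2 * (y ^ 9 * F y ^ 2) + 2 * L ^ 9 * M ^ 2 := by
        have h9 : (F y - e y) ^ 2 ≤ 2 * F y ^ 2 + 2 * M ^ 2 := by
          nlinarith [sq_nonneg (F y + e y)]
        have h10 := mul_le_mul_of_nonneg_left h9 (pow_nonneg h5 9)
        have h11 := mul_le_mul_of_nonneg_right h7 (sq_nonneg M)
        linarith
      calc _ ≤ (2 * (y ^ 9 * F y ^ 2) + 2 * L ^ 9 * M ^ 2) / (L / 4) ^ 8 :=
            div_le_div₀ (by positivity) h8 (by positivity)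
              (pow_le_pow_left₀ (by positivity) (by linarith) _)
        _ = _ := by ring
  have hi : IntervalIntegrable (fun y => 2 / (L / 4) ^ 8 * (y ^ 9 * F y ^ 2))
      MeasureTheory.volume 0 L := ContinuousOn.intervalIntegrable_of_Icc hL.le
    (continuousOn_const.mul ((continuousOn_id.pow 9).mul (hF.pow 2)))
  rw [intervalIntegral.integral_add hi intervalIntegrable_const,
    intervalIntegral.integral_const_mul, intervalIntegral.integral_const] at h4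
  have h5 : (ph κ x * Z x) ^ 2 ≤ C * ((2 + 2 * L ^ 10) / (L / 4) ^ 8) * M ^ 2 := by
    refine h3.trans ?_
    rw [mul_assoc]
    refine mul_le_mul_of_nonneg_left (h4.trans ?_) hC.le
    refine (add_le_add_left (mul_le_mul_of_nonneg_left h1 (by positivity)) _).trans_eq ?_
    simp only [smul_eq_mul]
    ring
  have h6 : |ph κ x * Z x| ≤ √(C * ((2 + 2 * L ^ 10) / (L / 4) ^ 8)) * M := by
    refine abs_le_of_sq_le_sq' ?_ (by positivity) |> abs_le.2
    rwa [mul_pow (√_), Real.sq_sqrt (by positivity)]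
  have h7 : L - x ≤ 4 * |ph κ x| := by
    have e : ph κ x = x * (L - x) / L := by
      rw [ph, eq_div_iff hL.ne']
      linear_combination (-x ^ 2) * hκ
    refine le_trans ?_ (mul_le_mul_of_nonneg_left (le_abs_self _) (by norm_num))
    rw [e, ← mul_div_assoc, le_div_iff₀ hL]
    nlinarith [hx.1, hx.2]
  rw [abs_mul] at h6
  have h8 := mul_le_mul_of_nonneg_right h7 (abs_nonneg (Z x))
  linarith

/-- A function whose second derivative is `O(1 / (L - x))`. -/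
theorem levB {L : ℝ} (hL : 0 < L) {C₀ : ℝ} (hC₀ : 0 < C₀) : ∃ C, 0 < C ∧
    ∀ (M : ℝ) (F F1 F2 : ℝ → ℝ), 0 ≤ M → Sp L F F1 F2 →
    (∫ x in (0 : ℝ)..L, x ^ 9 * F x ^ 2) ≤ M ^ 2 →
    (∀ x ∈ Ico (L / 4) L, (L - x) * |F2 x| ≤ C₀ * M) →
    |F1 (L / 2)| ≤ C * M ∧ ∀ x ∈ Icc (L / 2) L, |F x| ≤ C * M := by
  obtain ⟨C, hC, h⟩ := sup_of_sq
  set r := L / 4 with hr
  have hr0 : 0 < r := by positivity
  set C₁ := C * (r * C₀ + 1 / r ^ 5) with hC₁
  have hC₁0 : 0 < C₁ := by positivity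
  refine ⟨C₁ / r + 3 * C₁ + 2 * r * C₀, by positivity, fun M F F1 F2 hM hF h1 h2 => ?_⟩
  have h3 := h r ((r * C₀ + 1 / r ^ 5) * M) F F1 F2 hr0 (by positivity)
    (sp_mono hF (by linarith)) (by
      refine ((int_mono hF.c0 (by positivity) (by linarith)).trans h1).trans ?_
      have h4 : M ≤ (r * C₀ + 1 / r ^ 5) * M * r ^ 5 := by
        have : (r * C₀ + 1 / r ^ 5) * M * r ^ 5 = M + r * C₀ * M * r ^ 5 := by field_simp; ring
        rw [this]
        exact le_add_of_nonneg_right (by positivity)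
      exact (pow_le_pow_left₀ hM h4 2).trans_eq (by ring))
    (fun x hx => by
      have h4 := h2 x ⟨hx.1, by linarith [hx.2]⟩
      have h5 : r * |F2 x| ≤ (L - x) * |F2 x| :=
        mul_le_mul_of_nonneg_right (by linarith [hx.2]) (abs_nonneg _)
      have h6 := mul_le_mul_of_nonneg_left (h5.trans h4) hr0.le
      have h7 : 0 ≤ 1 / r ^ 5 * M := by positivity
      nlinarith) (L / 2) ⟨by linarith, by linarith⟩
  rw [← mul_assoc, ← hC₁] at h3
  have h4 : |F1 (L / 2)| ≤ C₁ / r * M := by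
    rw [div_mul_eq_mul_div, le_div_iff₀ hr0, mul_comm]
    exact h3.2
  have p1 : 0 ≤ C₁ * M := by positivity
  have p2 : 0 ≤ r * C₀ * M := by positivity
  have p3 : 0 ≤ C₁ / r * M := by positivity
  refine ⟨by nlinarith, fun x hx => ?_⟩
  have hs : Icc (L / 2) x ⊆ Icc 0 L := Icc_subset_Icc (by positivity) hx.2
  have h5 := mvt (f := fun y => F y + (x - y) * F1 y) (f' := fun y => (x - y) * F2 y)
    (c := C₀ * M) hx.1 ((hF.c0.mono hs).add ((continuousOn_const.sub continuousOn_id).mul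
      (hF.c1.mono hs))) (fun y hy => by
      have hy' : y ∈ Ioo 0 L := ⟨by linarith [hy.1], hy.2.trans_le hx.2⟩
      have := (hF.d1 y hy').add (((hasDerivAt_id y).const_sub x).mul (hF.d2 y hy'))
      refine this.congr_deriv ?_
      simp) (fun y hy => by
      rw [abs_mul, abs_of_pos (sub_pos.2 hy.2)]
      exact (mul_le_mul_of_nonneg_right (by linarith [hx.2]) (abs_nonneg _)).trans
        (h2 y ⟨by linarith [hy.1], hy.2.trans_le hx.2⟩))
  simp only [sub_self, zero_mul, add_zero] at h5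
  have h6 : |(x - L / 2) * F1 (L / 2)| ≤ 2 * (C₁ * M) := by
    rw [abs_mul, abs_of_nonneg (sub_nonneg.2 hx.1)]
    have h7 : (x - L / 2) * |F1 (L / 2)| ≤ 2 * r * |F1 (L / 2)| :=
      mul_le_mul_of_nonneg_right (by linarith [hx.2]) (abs_nonneg _)
    linarith [h3.2]
  have h7 : C₀ * M * (x - L / 2) ≤ C₀ * M * (2 * r) :=
    mul_le_mul_of_nonneg_left (by linarith [hx.2]) (by positivity)
  have h8 := abs_le.1 h5
  have h9 := abs_le.1 h6
  have h10 := abs_le.1 h3.1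
  rw [abs_le]
  constructor <;> nlinarith

theorem inner (i : ℕ) (B κ L : ℝ) (hB : 1 ≤ B) (hL : 0 < L) (hκ : κ * L = 1) : ∃ C, 0 < C ∧
    ∀ (S : Type) (M : ℝ) (F F1 F2 e V : S → ℕ → ℝ → ℝ), 0 ≤ M →
      (∀ s j, Sp L (F s j) (F1 s j) (F2 s j)) → (∀ s j, ContinuousOn (e s j) (Icc 0 L)) →
      (∀ s j, VolOn κ L (V s j) fun y => F s (j + 1) y - e s j y) →
      (∀ s, ∀ j ≤ i + 4, (∫ x in (0 : ℝ)..L, x ^ 9 * F s j x ^ 2) ≤ M ^ 2) →
      (∀ s, ∀ j ≤ i + 3, ∀ x ∈ Icc 0 L, |e s j x| ≤ M) →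
      (∀ j ≤ i + 3, ∀ x ∈ Ioo 0 L, ∀ A, 0 ≤ A → (∀ s, ∀ l ≤ j, |V s l x| ≤ A) →
        ∀ s, |F2 s j x| ≤ B * (A + M)) →
      ∀ s, ∀ j ≤ i, ∀ x ∈ Icc 0 (L / 2), |F s j x| ≤ C * M ∧ |F1 s j x| ≤ C * M ∧
        |F2 s j x| ≤ C * M ∧ |V s j x| ≤ C * M := by
  set r := L / 4 with hr
  have hr0 : 0 < r := by positivity
  obtain ⟨C, hC, h⟩ := chain_in i (4 * B * (1 + r ^ 2)) (by nlinarith [sq_nonneg r])
  set C₁ := C * (1 + 1 / r ^ 5) with hC₁
  have hC₁0 : 0 < C₁ := by positivity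
  refine ⟨4 * C₁ + C₁ / r + C₁ / r ^ 2, by positivity,
    fun S M F F1 F2 e V hM hF he hV h1 h2 h3 s j hj => ?_⟩
  have hM' : M ≤ (1 + 1 / r ^ 5) * M :=
    le_mul_of_one_le_left hM (le_add_of_nonneg_right (by positivity))
  have hs : Icc 0 (2 * r) ⊆ Icc 0 L := Icc_subset_Icc_right (by linarith)
  have h4 := h S r ((1 + 1 / r ^ 5) * M) F F1 F2 e hr0 (by positivity)
    (fun s j => sp_mono (hF s j) (by linarith)) (fun s j => (he s j).mono hs)
    (fun s j hj => by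
      refine ((int_mono (hF s j).c0 (by positivity) (by linarith)).trans (h1 s j hj)).trans ?_
      have h4 : M ≤ (1 + 1 / r ^ 5) * M * r ^ 5 := by
        have : (1 + 1 / r ^ 5) * M * r ^ 5 = M + M * r ^ 5 := by field_simp; ring
        rw [this]
        exact le_add_of_nonneg_right (by positivity)
      exact (pow_le_pow_left₀ hM h4 2).trans_eq (by ring))
    (fun s j hj x hx => (h2 s j hj x (hs hx)).trans hM')
    (fun j hj x hx A hA hA' s => by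
      have h4 := h3 j hj x ⟨hx.1, by linarith [hx.2]⟩ (4 * A) (by positivity)
        (fun s l hl => vol_in hL hκ (hV s l) hx.1 (by linarith [hx.2]) (hA' s l hl)) s
      have h5 : B * (4 * A + M) ≤ 4 * B * (A + (1 + 1 / r ^ 5) * M) := by nlinarith
      calc _ ≤ (1 + r ^ 2) * (4 * B * (A + (1 + 1 / r ^ 5) * M)) :=
            mul_le_mul (by linarith) (h4.trans h5) (abs_nonneg _) (by positivity)
        _ = _ := by ring) s j hj
  rw [show 2 * r = L / 2 by linarith] at h4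
  simp only [← mul_assoc C, ← hC₁] at h4
  have h5 := bd_Icc (c := 4 * (C₁ * M)) (half_pos hL)
    ((hV s j).cZ.mono (Icc_subset_Icc_right (by linarith))) fun x hx =>
      vol_in hL hκ (hV s j) hx.1 hx.2.le (h4 x (Ioo_subset_Icc_self hx)).2.2.2
  intro x hx
  obtain ⟨a1, a2, a3, -⟩ := h4 x hx
  have a4 := h5 x hx
  have a5 : |F1 s j x| ≤ C₁ / r * M := by
    rwa [div_mul_eq_mul_div, le_div_iff₀ hr0, mul_comm]
  have a6 : |F2 s j x| ≤ C₁ / r ^ 2 * M := by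
    rwa [div_mul_eq_mul_div, le_div_iff₀ (by positivity), mul_comm]
  have p1 : 0 ≤ C₁ * M := by positivity
  have p2 : 0 ≤ C₁ / r * M := by positivity
  have p3 : 0 ≤ C₁ / r ^ 2 * M := by positivity
  simp only [add_mul]
  exact ⟨by linarith, by linarith, by linarith, by linarith⟩

theorem outer (i : ℕ) (B κ L : ℝ) (hB : 1 ≤ B) (hL : 0 < L) (hκ : κ * L = 1) : ∃ C, 0 < C ∧
    ∀ (S : Type) (M : ℝ) (F F1 F2 e V : S → ℕ → ℝ → ℝ), 0 ≤ M →
      (∀ s j, Sp L (F s j) (F1 s j) (F2 s j)) →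
      (∀ s j, VolOn κ L (V s j) fun y => F s (j + 1) y - e s j y) →
      (∀ s, ∀ j ≤ i + 4, (∫ x in (0 : ℝ)..L, x ^ 9 * F s j x ^ 2) ≤ M ^ 2) →
      (∀ s, ∀ j ≤ i + 3, ∀ x ∈ Icc 0 L, |e s j x| ≤ M) →
      (∀ j ≤ i + 3, ∀ x ∈ Ioo 0 L, ∀ A, 0 ≤ A → (∀ s, ∀ l ≤ j, |V s l x| ≤ A) →
        ∀ s, |F2 s j x| ≤ B * (A + M)) →
      ∀ s, ∀ j ≤ i, ∀ x ∈ Icc (L / 2) L, |F s j x| ≤ C * M ∧ |F1 s j x| ≤ C * M ∧
        |F2 s j x| ≤ C * M ∧ |V s j x| ≤ C * M := by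
  obtain ⟨C₁, hC₁, hA⟩ := levA hL hκ
  obtain ⟨C₂, hC₂, hB'⟩ := levB hL (show 0 < B * (C₁ + L) by positivity)
  set C₃ := 2 ^ 11 * (C₂ + 1) with hC₃
  have hC₃0 : 0 < C₃ := by positivity
  set C₄ := B * (C₃ + 1) with hC₄
  have hC₄0 : 0 < C₄ := by positivity
  refine ⟨C₂ + C₃ + C₄ + C₄ * L, by positivity, fun S M F F1 F2 e V hM hF hV h1 h2 h3 => ?_⟩
  have hs : Icc (L / 2) L ⊆ Icc 0 L := Icc_subset_Icc_left (by positivity)
  have h4 : ∀ s, ∀ j ≤ i + 3, |F1 s j (L / 2)| ≤ C₂ * M ∧ ∀ x ∈ Icc (L / 2) L, |F s j x| ≤ C₂ * M :=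
    fun s j hj => hB' M _ _ _ hM (hF s j) (h1 s j (by omega)) fun x hx => by
      have h5 : 0 < L - x := sub_pos.2 hx.2
      have h0 : 0 < x := lt_of_lt_of_le (by positivity) hx.1
      have h6 := h3 j hj x ⟨h0, hx.2⟩ (C₁ * M / (L - x)) (by positivity) (fun s l hl => by
        rw [le_div_iff₀ h5, mul_comm]
        exact hA M _ _ _ hM (hF s (l + 1)).c0 (hV s l) (h1 s _ (by omega)) (h2 s l (by omega)) x
          ⟨hx.1, hx.2.le⟩) s
      refine (mul_le_mul_of_nonneg_left h6 h5.le).trans ?_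
      have h7 : (L - x) * (B * (C₁ * M / (L - x) + M)) = B * (C₁ * M + (L - x) * M) := by
        field_simp
      rw [h7, mul_assoc]
      refine mul_le_mul_of_nonneg_left ?_ (by linarith)
      nlinarith
  have h5 : ∀ s, ∀ j ≤ i, ∀ x ∈ Ioo (L / 2) L, |V s j x| ≤ C₃ * M := fun s j hj x hx => by
    rw [hC₃, mul_assoc]
    refine vol_out hL hκ (hV s j) hx.1.le hx.2 fun y hy => ?_
    have hy' : y ∈ Icc (L / 2) L := ⟨hx.1.le.trans hy.1, hy.2⟩
    have h6 := (h4 s (j + 1) (by omega)).2 y hy'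
    have h7 := h2 s j (by omega) y (hs hy')
    have h8 := abs_sub (F s (j + 1) y) (e s j y)
    linarith
  intro s j hj
  have h6 : ∀ x ∈ Ioo (L / 2) L, |F2 s j x| ≤ C₄ * M := fun x hx =>
    (h3 j (by omega) x ⟨(half_pos hL).trans hx.1, hx.2⟩ _ (by positivity)
      (fun s l hl => h5 s l (by omega) x hx) s).trans_eq (by rw [hC₄]; ring)
  intro x hx
  have a1 := (h4 s j (by omega)).2 x hx
  have a2 := bd_Icc (half_lt_self hL) ((hF s j).c2.mono hs) h6 x hx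
  have a3 := bd_Icc (half_lt_self hL) ((hV s j).cZ.mono hs) (h5 s j hj) x hx
  have a4 := mvt hx.1 ((hF s j).c1.mono (Icc_subset_Icc (by positivity) hx.2))
    (fun y hy => (hF s j).d2 y ⟨(half_pos hL).trans hy.1, hy.2.trans_le hx.2⟩)
    fun y hy => h6 y ⟨hy.1, hy.2.trans_le hx.2⟩
  have a5 : C₄ * M * (x - L / 2) ≤ C₄ * M * L :=
    mul_le_mul_of_nonneg_left (by linarith [hx.2]) (by positivity)
  have a6 := (h4 s j (by omega)).1
  have a7 := abs_sub_abs_le_abs_sub (F1 s j x) (F1 s j (L / 2))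
  have p1 : 0 ≤ C₂ * M := by positivity
  have p2 : 0 ≤ C₃ * M := by positivity
  have p3 : 0 ≤ C₄ * M := by positivity
  have p4 : 0 ≤ C₄ * L * M := by positivity
  simp only [add_mul]
  exact ⟨by linarith, by linarith, by linarith, by linarith⟩

end Crest.Agent.R213.PTgA
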