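import Crest.Agent.R213.TS2

/-!
# Row 213: basic facts about the system, part A (proofs for `SysB`)
-/

set_option autoImplicit false

noncomputable section

namespace Crest.Agent.R213.SysBA

open Set Filter Topology
open scoped ContDiff

variable {κ ε ϵ : ℝ} {I J : Set ℝ} {γ d e F F1 F2 ζ : Fn}

theorem lt_one (hκ : 0 ≤ κ) {L x : ℝ} (hL : κ * L ≤ 1) (hx : x < L) : κ * x < 1 := by
  rcases hκ.eq_or_lt with h | h
  · rw [← h, zero_mul]; exact one_pos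
  · exact (mul_lt_mul_of_pos_left hx h).trans_le hL

theorem cont_ph (κ : ℝ) : Continuous (ph κ) := by
  unfold ph
  fun_prop

theorem isOpen_int (κ : ℝ) : IsOpen {x : ℝ | 0 < x ∧ κ * x < 1} :=
  (isOpen_lt continuous_const continuous_id).inter
    (isOpen_lt (continuous_const.mul continuous_id) continuous_const)

theorem int_subset : {x : ℝ | 0 < x ∧ κ * x < 1} ⊆ dom κ := fun _ hx => ⟨hx.1.le, hx.2.le⟩

theorem dom_mem_nhds {x : ℝ} (h0 : 0 < x) (h1 : κ * x < 1) : dom κ ∈ 𝓝 x :=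
  mem_of_superset ((isOpen_int κ).mem_nhds ⟨h0, h1⟩) int_subset

theorem dom_subset_closure (hκ : 0 ≤ κ) : dom κ ⊆ closure {x : ℝ | 0 < x ∧ κ * x < 1} := by
  rcases hκ.eq_or_lt with h | h
  · subst h
    rw [dom_zero, ← closure_Ioi]
    exact closure_mono fun x hx => ⟨hx, by simp⟩
  · have h1 : κ * κ⁻¹ = 1 := mul_inv_cancel₀ h.ne'
    rw [dom_eq_Icc (inv_pos.2 h) h1, ← closure_Ioo (inv_pos.2 h).ne]
    exact closure_mono fun x hx => ⟨hx.1, lt_one hκ h1.le hx.2⟩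

theorem sp (hI : IsOpen I) (h : Sys κ ε ϵ I γ d e F F1 F2 ζ) {L : ℝ} (hL : κ * L ≤ 1) (j : ℕ)
    {t : ℝ} (ht : t ∈ I) : Sp L (DT j F t) (DT j F1 t) (DT j F2 t) := by
  have hs := Icc_subset_dom h.hκ hL
  have a0 := h.tF.mono subset_rfl hs
  have a1 := h.tF1.mono subset_rfl hs
  have a2 := h.tF2.mono subset_rfl hs
  exact ⟨a0.cont_x j ht, a1.cont_x j ht, a2.cont_x j ht,
    sp_level hI a0 a1 (fun s hs x hx => h.d1 s hs x hx.1 (lt_one h.hκ hL hx.2)) j t ht,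
    sp_level hI a1 a2 (fun s hs x hx => h.d2 s hs x hx.1 (lt_one h.hκ hL hx.2)) j t ht⟩

theorem volOn (hI : IsOpen I) (h : Sys κ ε ϵ I γ d e F F1 F2 ζ) {L : ℝ} (hL : κ * L ≤ 1)
    (j : ℕ) {t : ℝ} (ht : t ∈ I) :
    VolOn κ L (fun x => DT j ζ t x - ϵ * DT (j + 1) F2 t x)
      fun x => DT (j + 1) F t x - DT j e t x := by
  have hs := Icc_subset_dom h.hκ hL
  refine ⟨((h.tζ.cont_x j ht).sub (continuousOn_const.mul (h.tF2.cont_x (j + 1) ht))).mono hs,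
    ((h.tF.cont_x (j + 1) ht).sub (h.te.cont_x j ht)).mono hs, fun x hx => ?_⟩
  have hx' := hs hx
  have b2 : TS I (dom κ) (Dt F2) := h.tF2.dt 1
  have b0 : TS I (dom κ) (Dt F) := h.tF.dt 1
  have h1 := DT_congr (u := fun s y => (y ^ 9 * ph κ y ^ 2) * (ζ s y - ϵ * Dt F2 s y))
    (v := fun s y => ∫ z in (0 : ℝ)..y, (y - z) * z ^ 9 * (Dt F s z - e s z)) hI
    (fun s hs => h.vol s hs x hx') j t ht
  have h2 := (TS.int_x hI (b0.sub hI h.te) (fun y hy => Icc_subset_dom h.hκ hy.2)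
    (fun y hy => hy.1) (c := fun y z => (y - z) * z ^ 9) (by fun_prop)).2 j t ht x hx'
  rw [h2, DT_cmul (fun y => y ^ 9 * ph κ y ^ 2),
    DT_sub hI h.tζ (b2.cmul (c := fun _ => ϵ) continuousOn_const) j t ht x hx',
    DT_cmul (fun _ => ϵ), ← DT_succ'] at h1
  refine h1.trans (vol_congr (k := fun y => DT j (fun s z => Dt F s z - e s z) t y) hx.1
    fun y hy => ?_)
  rw [DT_sub hI b0 h.te j t ht y (Icc_subset_dom h.hκ hx'.2 hy), ← DT_succ']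

theorem leib (hI : IsOpen I) (h : Sys κ ε ϵ I γ d e F F1 F2 ζ) {t x : ℝ} (ht : t ∈ I)
    (hx : x ∈ dom κ) (l : ℕ) :
    Leib (ε * ph κ x) (fun j => DT j γ t x) (fun j => DT j ζ t x)
      (fun j => DT j F2 t x + DT j d t x) l := by
  have b1 : TS I (dom κ) fun s y => ε * ph κ y * ζ s y :=
    h.tζ.cmul (c := fun y => ε * ph κ y) (continuous_const.mul (cont_ph κ)).continuousOn
  have b2 := h.tγ.add hI b1
  have h1 := DT_congr (u := ζ) (v := fun s y =>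
    -((F2 s y + d s y) * ((γ s y + ε * ph κ y * ζ s y) * γ s y))) hI
    (fun s hs => (h.nl s hs x hx).trans (by ring)) l t ht
  rw [DT_neg, DT_mul hI (h.tF2.add hI h.td) (b2.mul hI h.tγ) l t ht x hx] at h1
  refine h1.trans (congrArg Neg.neg ?_)
  refine Finset.sum_congr rfl fun i _ => ?_
  rw [DT_add hI h.tF2 h.td i t ht x hx, DT_mul hI b2 h.tγ _ t ht x hx, mul_right_comm]
  congr 2
  refine Finset.sum_congr rfl fun a _ => ?_
  rw [DT_add hI h.tγ b1 a t ht x hx, DT_cmul (fun y => ε * ph κ y)]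

theorem mono (h : Sys κ ε ϵ I γ d e F F1 F2 ζ) (hJ : J ⊆ I) :
    Sys κ ε ϵ J γ d e F F1 F2 ζ :=
  ⟨h.hκ, h.tγ.mono hJ subset_rfl, h.td.mono hJ subset_rfl, h.te.mono hJ subset_rfl,
    h.tF.mono hJ subset_rfl, h.tF1.mono hJ subset_rfl, h.tF2.mono hJ subset_rfl,
    h.tζ.mono hJ subset_rfl, fun t ht => h.d1 t (hJ ht), fun t ht => h.d2 t (hJ ht),
    fun t ht => h.vol t (hJ ht), fun t ht => h.nl t (hJ ht), fun t ht => h.gpos t (hJ ht),
    fun t ht => h.pos t (hJ ht)⟩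

theorem congr (hI : IsOpen I) (h : Sys κ ε ϵ I γ d e F F1 F2 ζ) {γ' d' e' F' F1' F2' ζ' : Fn}
    (h1 : ∀ t ∈ I, ∀ x ∈ dom κ, γ' t x = γ t x ∧ d' t x = d t x ∧ e' t x = e t x ∧
      F' t x = F t x ∧ F1' t x = F1 t x ∧ F2' t x = F2 t x ∧ ζ' t x = ζ t x) :
    Sys κ ε ϵ I γ' d' e' F' F1' F2' ζ' := by
  have e1 := fun t ht x hx => (h1 t ht x hx).1
  have e2 := fun t ht x hx => (h1 t ht x hx).2.1
  have e3 := fun t ht x hx => (h1 t ht x hx).2.2.1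
  have e4 := fun t ht x hx => (h1 t ht x hx).2.2.2.1
  have e5 := fun t ht x hx => (h1 t ht x hx).2.2.2.2.1
  have e6 := fun t ht x hx => (h1 t ht x hx).2.2.2.2.2.1
  have e7 := fun t ht x hx => (h1 t ht x hx).2.2.2.2.2.2
  refine ⟨h.hκ, h.tγ.congr hI e1, h.td.congr hI e2, h.te.congr hI e3, h.tF.congr hI e4,
    h.tF1.congr hI e5, h.tF2.congr hI e6, h.tζ.congr hI e7, fun t ht x h0 hx => ?_,
    fun t ht x h0 hx => ?_, fun t ht x hx => ?_, fun t ht x hx => ?_, fun t ht x hx => ?_,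
    fun t ht x hx => ?_⟩
  · rw [e5 t ht x ⟨h0.le, hx.le⟩]
    exact (h.d1 t ht x h0 hx).congr_of_eventuallyEq (mem_of_superset (dom_mem_nhds h0 hx) (e4 t ht))
  · rw [e6 t ht x ⟨h0.le, hx.le⟩]
    exact (h.d2 t ht x h0 hx).congr_of_eventuallyEq (mem_of_superset (dom_mem_nhds h0 hx) (e5 t ht))
  · have a2 : Dt F2' t x = Dt F2 t x := DT_congr hI (fun s hs => e6 s hs x hx) 1 t ht
    rw [a2, e7 t ht x hx, h.vol t ht x hx]
    refine vol_congr hx.1 fun y hy => ?_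
    have hy' := Icc_subset_dom h.hκ hx.2 hy
    have a0 : Dt F' t y = Dt F t y := DT_congr hI (fun s hs => e4 s hs y hy') 1 t ht
    rw [a0, e3 t ht y hy']
  · rw [e1 t ht x hx, e2 t ht x hx, e6 t ht x hx, e7 t ht x hx]
    exact h.nl t ht x hx
  · rw [e1 t ht x hx]
    exact h.gpos t ht x hx
  · rw [e1 t ht x hx, e7 t ht x hx]
    exact h.pos t ht x hx

theorem of_local (hκ : 0 ≤ κ)
    (h : ∀ t ∈ I, ∃ J, IsOpen J ∧ t ∈ J ∧ J ⊆ I ∧ Sys κ ε ϵ J γ d e F F1 F2 ζ) :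
    Sys κ ε ϵ I γ d e F F1 F2 ζ := by
  have key : ∀ u : Fn, (∀ J, Sys κ ε ϵ J γ d e F F1 F2 ζ → TS J (dom κ) u) → TS I (dom κ) u :=
    fun u hu => TS.of_local fun t ht =>
      let ⟨J, h1, h2, h3, h4⟩ := h t ht
      ⟨J, h1, h2, h3, hu J h4⟩
  choose J _ h2 _ h4 using h
  exact ⟨hκ, key _ fun _ => Sys.tγ, key _ fun _ => Sys.td, key _ fun _ => Sys.te,
    key _ fun _ => Sys.tF, key _ fun _ => Sys.tF1, key _ fun _ => Sys.tF2, key _ fun _ => Sys.tζ,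
    fun t ht => (h4 t ht).d1 t (h2 t ht), fun t ht => (h4 t ht).d2 t (h2 t ht),
    fun t ht => (h4 t ht).vol t (h2 t ht), fun t ht => (h4 t ht).nl t (h2 t ht),
    fun t ht => (h4 t ht).gpos t (h2 t ht), fun t ht => (h4 t ht).pos t (h2 t ht)⟩

theorem scale (h : Sys κ ε 0 I γ d e F F1 F2 ζ) {μ c : ℝ} (hμ : 0 < μ) (hc : c ≠ 0)
    (hJ : ∀ t ∈ J, μ ^ 2 * t ∈ I) :
    Sys (κ * μ) (ε / (μ * c)) 0 J (fun t x => γ (μ ^ 2 * t) (μ * x))
      (fun t x => c * μ ^ 2 * d (μ ^ 2 * t) (μ * x)) (fun t x => c * μ ^ 2 * e (μ ^ 2 * t) (μ * x))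
      (fun t x => c * F (μ ^ 2 * t) (μ * x)) (fun t x => c * μ * F1 (μ ^ 2 * t) (μ * x))
      (fun t x => c * μ ^ 2 * F2 (μ ^ 2 * t) (μ * x))
      (fun t x => c * μ ^ 2 * ζ (μ ^ 2 * t) (μ * x)) := by
  have hD : ∀ x ∈ dom (κ * μ), μ * x ∈ dom κ := fun x hx =>
    ⟨mul_nonneg hμ.le hx.1, by rw [← mul_assoc]; exact hx.2⟩
  have hph : ∀ x, ph κ (μ * x) = μ * ph (κ * μ) x := fun x => by unfold ph; ring
  have hε : ∀ x z, ε / (μ * c) * ph (κ * μ) x * (c * μ ^ 2 * z) = ε * ph κ (μ * x) * z :=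
    fun x z => by rw [hph]; field_simp
  have hlin : ∀ x, HasDerivAt (fun y => μ * y) μ x := fun x => by
    simpa using (hasDerivAt_id x).const_mul μ
  refine ⟨mul_nonneg h.hκ hμ.le, ?_, h.td.scale _ _ _ hJ hD, h.te.scale _ _ _ hJ hD,
    h.tF.scale _ _ _ hJ hD, h.tF1.scale _ _ _ hJ hD, h.tF2.scale _ _ _ hJ hD,
    h.tζ.scale _ _ _ hJ hD, fun t ht x h0 hx => ?_, fun t ht x h0 hx => ?_, fun t ht x hx => ?_,
    fun t ht x hx => ?_, fun t ht x hx => h.gpos _ (hJ t ht) _ (hD x hx), fun t ht x hx => ?_⟩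
  · simpa only [one_mul] using h.tγ.scale 1 _ _ hJ hD
  · have h1 := (h.d1 _ (hJ t ht) _ (mul_pos hμ h0) (by rwa [← mul_assoc])).comp x (hlin x)
    exact (h1.const_mul c).congr_deriv (by ring)
  · have h1 := (h.d2 _ (hJ t ht) _ (mul_pos hμ h0) (by rwa [← mul_assoc])).comp x (hlin x)
    exact (h1.const_mul (c * μ)).congr_deriv (by ring)
  · have h1 := h.vol _ (hJ t ht) _ (hD x hx)
    have h2 : (fun y => Dt (fun t x => c * F (μ ^ 2 * t) (μ * x)) t y -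
        c * μ ^ 2 * e (μ ^ 2 * t) (μ * y)) =
        fun y => c * μ ^ 2 * (Dt F (μ ^ 2 * t) (μ * y) - e (μ ^ 2 * t) (μ * y)) := by
      funext y
      have h3 : Dt (fun t x => c * F (μ ^ 2 * t) (μ * x)) t y =
          c * (μ ^ 2) ^ 1 * Dt F (μ ^ 2 * t) (μ * y) := DT_scale F c (μ ^ 2) μ 1 t y
      rw [h3]
      ring
    rw [vol_scale, hph] at h1
    rw [h2, vol_cmul]
    refine mul_left_cancel₀ (pow_ne_zero 11 hμ.ne') ?_
    linear_combination c * μ ^ 2 * h1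
  · have h1 := h.nl _ (hJ t ht) _ (hD x hx)
    rw [hε]
    linear_combination c * μ ^ 2 * h1
  · rw [hε]
    exact h.pos _ (hJ t ht) _ (hD x hx)

theorem zero (hκ : 0 ≤ κ) (hγ : TS I (dom κ) γ)
    (hp : ∀ t ∈ I, ∀ x ∈ dom κ, 0 < γ t x) (hI : IsOpen I) (hd : ∀ t ∈ I, ∀ x ∈ dom κ, d t x = 0)
    (he : ∀ t ∈ I, ∀ x ∈ dom κ, e t x = 0) : Sys κ ε ϵ I γ d e 0 0 0 0 := by
  have h0 : Dt (0 : Fn) = 0 := DT_zero 1
  refine ⟨hκ, hγ, TS.zero.congr hI hd, TS.zero.congr hI he, TS.zero, TS.zero, TS.zero, TS.zero,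
    fun t _ x _ _ => hasDerivAt_const x 0, fun t _ x _ _ => hasDerivAt_const x 0,
    fun t ht x hx => ?_, fun t ht x hx => ?_, hp, fun t ht x hx => ?_⟩
  · rw [h0, vol_congr (k' := fun _ => 0) hx.1 fun y hy => by
      simp [he t ht y (Icc_subset_dom hκ hx.2 hy)]]
    simp [Vol]
  · simp [hd t ht x hx]
  · simpa using hp t ht x hx

theorem eq_of_eq {γ' d' e' F' F1' F2' ζ' : Fn} {ε' ϵ' t : ℝ} (h : Sys κ ε ϵ I γ d e F F1 F2 ζ)
    (h' : Sys κ ε' ϵ' I γ' d' e' F' F1' F2' ζ') (ht : t ∈ I) (hF : ∀ x ∈ dom κ, F t x = F' t x) :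
    ∀ x ∈ dom κ, F1 t x = F1' t x ∧ F2 t x = F2' t x := by
  have a1 : EqOn (F1 t) (F1' t) (dom κ) := by
    refine EqOn.of_subset_closure (fun x hx => ?_) (h.tF1.cont_x 0 ht) (h'.tF1.cont_x 0 ht)
      int_subset (dom_subset_closure h.hκ)
    exact (h.d1 t ht x hx.1 hx.2).unique ((h'.d1 t ht x hx.1 hx.2).congr_of_eventuallyEq
      (mem_of_superset (dom_mem_nhds hx.1 hx.2) hF))
  have a2 : EqOn (F2 t) (F2' t) (dom κ) := by
    refine EqOn.of_subset_closure (fun x hx => ?_) (h.tF2.cont_x 0 ht) (h'.tF2.cont_x 0 ht)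
      int_subset (dom_subset_closure h.hκ)
    exact (h.d2 t ht x hx.1 hx.2).unique ((h'.d2 t ht x hx.1 hx.2).congr_of_eventuallyEq
      (mem_of_superset (dom_mem_nhds hx.1 hx.2) a1))
  exact fun x hx => ⟨a1 hx, a2 hx⟩

theorem dt_zero_of {D : Set ℝ} {u : Fn} (hu : TS I D u) {t x : ℝ} (ht : t ∈ I) (hx : x ∈ D)
    (h0 : ∀ s < t, u s x = 0) (j : ℕ) : DT j u t x = 0 := by
  have h1 : ∀ s ∈ Iio t, DT j u s x = 0 := fun s hs => by
    rw [DT_congr (v := 0) isOpen_Iio (fun s hs => h0 s hs) j s hs, DT_zero]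
    rfl
  have h2 : Tendsto (fun s => DT j u s x) (𝓝[<] t) (𝓝 (DT j u t x)) :=
    ((hu j).2 t ht x hx).continuousAt.tendsto.mono_left nhdsWithin_le_nhds
  exact tendsto_nhds_unique h2
    (tendsto_const_nhds.congr' (mem_of_superset self_mem_nhdsWithin fun s hs => (h1 s hs).symm))

theorem dt_eq_zero {T t0 : ℝ} (h : Sys κ ε ϵ (Iio T) γ d e F F1 F2 ζ) (h0 : Zero κ t0 T F)
    (hd : ∀ t ≤ t0, ∀ x ∈ dom κ, d t x = 0) (j : ℕ) :
    ∀ t ≤ t0, t < T → ∀ x ∈ dom κ,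
      DT j F t x = 0 ∧ DT j F1 t x = 0 ∧ DT j F2 t x = 0 ∧ DT j ζ t x = 0 := by
  intro t h1 h2 x hx
  have hz : Sys κ ε ϵ (Iio T) γ 0 0 0 0 0 0 :=
    zero h.hκ h.tγ h.gpos isOpen_Iio (fun _ _ _ _ => rfl) fun _ _ _ _ => rfl
  have key : ∀ s < t, F1 s x = 0 ∧ F2 s x = 0 := fun s hs =>
    eq_of_eq h hz (hs.trans h2) (h0 s (hs.le.trans h1) (hs.trans h2)) x hx
  refine ⟨dt_zero_of h.tF h2 hx (fun s hs => h0 s (hs.le.trans h1) (hs.trans h2) x hx) j,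
    dt_zero_of h.tF1 h2 hx (fun s hs => (key s hs).1) j,
    dt_zero_of h.tF2 h2 hx (fun s hs => (key s hs).2) j,
    dt_zero_of h.tζ h2 hx (fun s hs => ?_) j⟩
  rw [h.nl s (hs.trans h2) x hx, (key s hs).2, hd s (hs.le.trans h1) x hx, add_zero, mul_zero,
    neg_zero]

theorem ab_mono {J J' : ℕ} {B B' t : ℝ} (h : AB κ ε γ ζ J B t) (hJ : J' ≤ J) (hB : 0 < B)
    (hB' : B ≤ B') : AB κ ε γ ζ J' B' t := by
  intro x hx
  obtain ⟨h1, h2, h3, h4, h5⟩ := h x hx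
  have h6 : 1 / B' ≤ 1 / B := one_div_le_one_div_of_le hB hB'
  exact ⟨h6.trans h1, h2.trans hB', h6.trans h3, fun c hc hc' => (h4 c hc (hc'.trans hJ)).trans hB',
    fun a ha => (h5 a (ha.trans hJ)).trans hB'⟩

end Crest.Agent.R213.SysBA
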