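import Crest.Agent.R213.TS2

/-!
# Row 213: weighted integrals and linear solutions (auxiliary file of `SysB`)
-/

set_option autoImplicit false

noncomputable section

namespace Crest.Agent.R213.SBB

open Set Filter Topology

variable {I : Set ℝ} {F F1 F2 G G1 G2 : Fn} {b : BG} {T : ℝ}

theorem om_pos (q : Bool) {T ρ : ℝ} (hT : 0 < T) (hρ : 0 < ρ) (j : ℕ) : 0 < om q T ρ j := by
  unfold om
  split_ifs <;> positivity

theorem integrand_nonneg (θ : ℝ) (q : Bool) (m j : ℕ) (t : ℝ) (u : ℝ → ℝ) {x : ℝ} (hx : 0 ≤ x) :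
    0 ≤ x ^ 9 * (1 - θ * x) ^ 4 * wt q m j t x * u x ^ 2 := by
  have : 0 ≤ lam t := Real.sqrt_nonneg _
  unfold wt
  positivity

theorem Iw_nonneg {L θ : ℝ} (hL : 0 ≤ L) (q : Bool) (m j : ℕ) (t : ℝ) (u : ℝ → ℝ) :
    0 ≤ Iw L θ q m j t u :=
  intervalIntegral.integral_nonneg hL fun _ hx => integrand_nonneg θ q m j t u hx.1

theorem Iw_congr {L θ : ℝ} (hL : 0 ≤ L) (q : Bool) (m j : ℕ) (t : ℝ) {u v : ℝ → ℝ}
    (h : ∀ x ∈ Icc 0 L, u x = v x) : Iw L θ q m j t u = Iw L θ q m j t v := by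
  refine intervalIntegral.integral_congr fun x hx => ?_
  rw [uIcc_of_le hL] at hx
  simp only [h x hx]

theorem continuousOn_wt₂ (q : Bool) (m j : ℕ) :
    ContinuousOn (fun p : ℝ × ℝ => wt q m j p.1 p.2) (Iio 0 ×ˢ Ici 0) := by
  have hl : Continuous lam := by
    unfold lam
    fun_prop
  refine ContinuousOn.div (Continuous.continuousOn ?_) (by fun_prop) fun p hp => ?_
  · unfold om
    split_ifs <;> fun_prop
  · exact (pow_pos (add_pos_of_nonneg_of_pos hp.2 (lam_pos hp.1)) m).ne'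

theorem continuousOn_wt (q : Bool) (m j : ℕ) {t : ℝ} (ht : t < 0) :
    ContinuousOn (wt q m j t) (Ici 0) :=
  (continuousOn_wt₂ q m j).comp (f := fun x => (t, x)) (by fun_prop) fun _ hx => ⟨ht, hx⟩

theorem wt_pos (q : Bool) (m j : ℕ) {t x : ℝ} (ht : t < 0) (hx : 0 ≤ x) : 0 < wt q m j t x := by
  have h1 := add_pos_of_nonneg_of_pos hx (lam_pos ht)
  have h2 := om_pos q (neg_pos.2 ht) (pow_pos h1 2) j
  unfold wt
  positivity

theorem integrable {L t : ℝ} (θ : ℝ) (q : Bool) (m j : ℕ) {u : ℝ → ℝ} (ht : t < 0) (hL : 0 ≤ L)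
    (hu : ContinuousOn u (Icc 0 L)) :
    IntervalIntegrable (fun x => x ^ 9 * (1 - θ * x) ^ 4 * wt q m j t x * u x ^ 2)
      MeasureTheory.volume 0 L := by
  refine ContinuousOn.intervalIntegrable_of_Icc hL ?_
  have := (continuousOn_wt q m j ht).mono (Icc_subset_Ici_self : Icc 0 L ⊆ Ici 0)
  fun_prop

theorem Iw_le_Iw {L L' θ θ' c t : ℝ} {q q' : Bool} {m m' j j' : ℕ} {u v : ℝ → ℝ} (ht : t < 0)
    (hL : 0 ≤ L) (hL' : L ≤ L') (hc : 0 ≤ c) (hu : ContinuousOn u (Icc 0 L))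
    (hv : ContinuousOn v (Icc 0 L'))
    (h : ∀ x ∈ Icc 0 L, (1 - θ * x) ^ 4 * wt q m j t x * u x ^ 2 ≤
      c * ((1 - θ' * x) ^ 4 * wt q' m' j' t x * v x ^ 2)) :
    Iw L θ q m j t u ≤ c * Iw L' θ' q' m' j' t v := by
  have h1 : Iw L θ q m j t u ≤ c * Iw L θ' q' m' j' t v := by
    rw [Iw, Iw, ← intervalIntegral.integral_const_mul]
    refine intervalIntegral.integral_mono_on hL (integrable θ q m j ht hL hu)
      ((integrable θ' q' m' j' ht hL (hv.mono (Icc_subset_Icc_right hL'))).const_mul c)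
      fun x hx => ?_
    have := mul_le_mul_of_nonneg_left (h x hx) (pow_nonneg hx.1 9)
    linarith
  refine h1.trans (mul_le_mul_of_nonneg_left ?_ hc)
  refine intervalIntegral.integral_mono_interval le_rfl hL hL' ?_
    (integrable θ' q' m' j' ht (hL.trans hL') hv)
  filter_upwards [MeasureTheory.ae_restrict_mem measurableSet_Ioc] with x hx
  exact integrand_nonneg θ' q' m' j' t v hx.1.le

theorem Iw_add_le {L θ t : ℝ} {q : Bool} {m j : ℕ} {u v : ℝ → ℝ} (ht : t < 0) (hL : 0 ≤ L)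
    (hu : ContinuousOn u (Icc 0 L)) (hv : ContinuousOn v (Icc 0 L)) :
    Iw L θ q m j t (fun x => u x + v x) ≤ 2 * Iw L θ q m j t u + 2 * Iw L θ q m j t v := by
  have i1 := (integrable θ q m j ht hL hu).const_mul 2
  have i2 := (integrable θ q m j ht hL hv).const_mul 2
  rw [Iw, Iw, Iw, ← intervalIntegral.integral_const_mul, ← intervalIntegral.integral_const_mul,
    ← intervalIntegral.integral_add i1 i2]
  refine intervalIntegral.integral_mono_on hL (integrable θ q m j ht hL (hu.add hv)) (i1.add i2)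
    fun x hx => ?_
  have := integrand_nonneg θ q m j t (fun x => u x - v x) hx.1
  linarith

theorem Iw_le_sum {L θ t C : ℝ} {q : Bool} {m j n : ℕ} {u : ℝ → ℝ} {v : ℕ → ℝ → ℝ} (ht : t < 0)
    (hL : 0 ≤ L) (hu : ContinuousOn u (Icc 0 L)) (hv : ∀ i, ContinuousOn (v i) (Icc 0 L))
    (h : ∀ x ∈ Icc 0 L, om q (-t) ((x + lam t) ^ 2) j * |u x| ≤
      C * ∑ i ∈ Finset.range n, om q (-t) ((x + lam t) ^ 2) i * |v i x|) :
    Iw L θ q m j t u ≤ C ^ 2 * n * ∑ i ∈ Finset.range n, Iw L θ q m i t (v i) := by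
  have i1 : ∀ i ∈ Finset.range n, IntervalIntegrable
      (fun x => x ^ 9 * (1 - θ * x) ^ 4 * wt q m i t x * v i x ^ 2) MeasureTheory.volume 0 L :=
    fun i _ => integrable θ q m i ht hL (hv i)
  simp only [Iw]
  rw [← intervalIntegral.integral_finsetSum i1, ← intervalIntegral.integral_const_mul]
  refine intervalIntegral.integral_mono_on hL (integrable θ q m j ht hL hu) ?_ fun x hx => ?_
  · have := (IntervalIntegrable.sum _ i1).const_mul (C ^ 2 * n)
    simpa only [Finset.sum_apply] using this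
  have h1 := add_pos_of_nonneg_of_pos hx.1 (lam_pos ht)
  have h2 := om_pos q (neg_pos.2 ht) (pow_pos h1 2) j
  have h3 := pow_le_pow_left₀ (by positivity) (h x hx) 2
  have h4 := sq_sum_le_card_mul_sum_sq (s := Finset.range n)
    (f := fun i => om q (-t) ((x + lam t) ^ 2) i * |v i x|)
  rw [Finset.card_range] at h4
  have h5 := h3.trans ((mul_pow _ _ 2).le.trans (mul_le_mul_of_nonneg_left h4 (sq_nonneg C)))
  simp only [mul_pow, sq_abs] at h5
  have h6 : 0 ≤ x ^ 9 * (1 - θ * x) ^ 4 / (x + lam t) ^ m := by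
    have := hx.1
    positivity
  have h7 := mul_le_mul_of_nonneg_left h5 h6
  refine le_of_eq_of_le ?_ (h7.trans (le_of_eq ?_))
  · unfold wt
    ring
  · simp only [Finset.mul_sum]
    refine Finset.sum_congr rfl fun i _ => ?_
    unfold wt
    ring

theorem om_scale (q : Bool) (a T ρ : ℝ) (j : ℕ) : om q (a * T) (a * ρ) j = a ^ j * om q T ρ j := by
  unfold om
  split_ifs with h1 h2
  · rw [h1, pow_zero, one_mul]
  · obtain ⟨k, rfl⟩ := Nat.exists_eq_add_one_of_ne_zero h1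
    rw [Nat.add_sub_cancel]
    ring
  · ring

theorem Et_scale {μ t : ℝ} (hμ : 0 < μ) (c L : ℝ) (q : Bool) (j : ℕ) (F : Fn) :
    Et L 0 q j t (fun s y => c * F (μ ^ 2 * s) (μ * y)) =
      c ^ 2 * μ ^ 2 * Et (μ * L) 0 q j (μ ^ 2 * t) F := by
  have h1 := intervalIntegral.mul_integral_comp_mul_left (a := 0) (b := L) (f := fun x =>
    x ^ 9 * (1 - 0 * x) ^ 4 * wt q 13 j (μ ^ 2 * t) x * DT j F (μ ^ 2 * t) x ^ 2) μ
  rw [mul_zero] at h1
  rw [Et, Et, Iw, Iw, ← h1, lam_scale hμ.le]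
  have h2 : ∀ x, x ^ 9 * (1 - 0 * x) ^ 4 * wt q 13 j t x *
      DT j (fun s y => c * F (μ ^ 2 * s) (μ * y)) t x ^ 2 = c ^ 2 * μ ^ 4 *
      ((μ * x) ^ 9 * (1 - 0 * (μ * x)) ^ 4 * wt q 13 j (μ ^ 2 * t) (μ * x) *
        DT j F (μ ^ 2 * t) (μ * x) ^ 2) := fun x => by
    rw [DT_scale, wt, wt, lam_scale hμ.le, ← mul_add, mul_pow μ (x + lam t) 2, ← mul_neg, om_scale,
      mul_pow μ (x + lam t) 13, ← div_div, div_right_comm]
    field_simp
    ring
  simp only [h2]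
  rw [intervalIntegral.integral_const_mul]
  ring

theorem continuousOn_Iw (hI0 : I ⊆ Iio 0) {D : Set ℝ} {u : Fn} (hu : TS I D u)
    {L : ℝ} (hL : 0 ≤ L) (hD : Icc 0 L ⊆ D) (θ : ℝ) (q : Bool) (m j i : ℕ) :
    ContinuousOn (fun t => Iw L θ q m j t (DT i u t)) I := by
  have h1 : ContinuousOn (fun p : ℝ × ℝ => p.2 ^ 9 * (1 - θ * p.2) ^ 4 * wt q m j p.1 p.2 *
      DT i u p.1 p.2 ^ 2) (I ×ˢ Icc 0 L) := by
    have a1 := (continuousOn_wt₂ q m j).mono (prod_mono hI0 (Icc_subset_Ici_self : Icc 0 L ⊆ Ici 0))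
    have a2 := (hu i).1.mono (prod_mono (Subset.refl I) hD)
    exact (ContinuousOn.mul (by fun_prop) a1).mul (a2.pow 2)
  have h2 := h1.comp_continuous (f := fun p : I × ℝ => ((p.1 : ℝ), (projIcc 0 L hL p.2 : ℝ)))
    (continuous_subtype_val.comp continuous_fst |>.prodMk
      (continuous_subtype_val.comp (continuous_projIcc.comp continuous_snd)))
    fun p => ⟨p.1.2, (projIcc 0 L hL p.2).2⟩
  have h3 := intervalIntegral.continuous_parametric_intervalIntegral_of_continuous'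
    (μ := MeasureTheory.volume) (f := fun (t : I) (x : ℝ) => (projIcc 0 L hL x : ℝ) ^ 9 *
      (1 - θ * (projIcc 0 L hL x : ℝ)) ^ 4 * wt q m j t (projIcc 0 L hL x : ℝ) *
      DT i u t (projIcc 0 L hL x : ℝ) ^ 2) h2 0 L
  rw [continuousOn_iff_continuous_domRestrict]
  refine h3.congr fun t => intervalIntegral.integral_congr fun x hx => ?_
  rw [uIcc_of_le hL] at hx
  simp only [projIcc_of_mem hL hx]

/-! Linear solutions. -/

theorem lin_add (h : IsLin b T F F1 F2) (h' : IsLin b T G G1 G2) :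
    IsLin b T (F + G) (F1 + G1) (F2 + G2) where
  hκ := le_rfl
  tγ := h.tγ
  td := h.td
  te := h.te
  tF := h.tF.add isOpen_Iio h'.tF
  tF1 := h.tF1.add isOpen_Iio h'.tF1
  tF2 := h.tF2.add isOpen_Iio h'.tF2
  tζ := (h.tζ.add isOpen_Iio h'.tζ).congr isOpen_Iio fun t _ x _ => by
    simp only [Pi.add_apply]
    ring
  d1 t ht x h0 h1 := (h.d1 t ht x h0 h1).add (h'.d1 t ht x h0 h1)
  d2 t ht x h0 h1 := (h.d2 t ht x h0 h1).add (h'.d2 t ht x h0 h1)
  vol t ht x hx := by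
    have h1 := h.vol t ht x hx
    have h2 := h'.vol t ht x hx
    have hs : Icc 0 x ⊆ dom 0 := Icc_subset_dom le_rfl hx.2
    simp only [Pi.zero_apply, sub_zero, zero_mul, Pi.add_apply] at h1 h2 ⊢
    have h3 := vol_congr hx.1 (k := fun y => Dt (F + G) t y) (k' := fun y => Dt F t y + Dt G t y)
      fun y hy => DT_add isOpen_Iio h.tF h'.tF 1 t ht y (hs hy)
    have h4 := vol_add hx.1 (k := fun y => Dt F t y) (k' := fun y => Dt G t y)
      ((h.tF.cont_x 1 ht).mono hs) ((h'.tF.cont_x 1 ht).mono hs)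
    linear_combination h1 + h2 - h3 - h4
  nl t _ x _ := by
    simp only [Pi.zero_apply]
    ring
  gpos := h.gpos
  pos t ht x hx := by
    rw [zero_mul, zero_mul, add_zero]
    exact h.gpos t ht x hx

theorem lin_smul (h : IsLin b T F F1 F2) (c : ℝ) : IsLin b T (c • F) (c • F1) (c • F2) where
  hκ := le_rfl
  tγ := h.tγ
  td := h.td
  te := h.te
  tF := h.tF.cmul (c := fun _ => c) continuousOn_const
  tF1 := h.tF1.cmul (c := fun _ => c) continuousOn_const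
  tF2 := h.tF2.cmul (c := fun _ => c) continuousOn_const
  tζ := (h.tζ.cmul (c := fun _ => c) continuousOn_const).congr isOpen_Iio fun t _ x _ => by
    simp only [Pi.smul_apply, smul_eq_mul]
    ring
  d1 t ht x h0 h1 := (h.d1 t ht x h0 h1).const_mul c
  d2 t ht x h0 h1 := (h.d2 t ht x h0 h1).const_mul c
  vol t ht x hx := by
    have h1 := h.vol t ht x hx
    simp only [Pi.zero_apply, sub_zero, zero_mul, Pi.smul_apply, smul_eq_mul] at h1 ⊢
    have h3 := vol_congr hx.1 (k := fun y => Dt (c • F) t y) (k' := fun y => c * Dt F t y)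
      fun y _ => DT_cmul (fun _ => c) F 1 t y
    have h4 := vol_cmul c (fun y => Dt F t y) x
    linear_combination c * h1 - h3 - h4
  nl t _ x _ := by
    simp only [Pi.zero_apply]
    ring
  gpos := h.gpos
  pos t ht x hx := by
    rw [zero_mul, zero_mul, add_zero]
    exact h.gpos t ht x hx

theorem lin_zero (hT : T ≤ 0) : IsLin b T 0 0 0 := by
  have hp : ∀ t ∈ Iio T, ∀ x ∈ dom 0, 0 < b.gs t x := fun t ht x hx =>
    lt_of_lt_of_le (div_pos two_pos (lt_of_lt_of_le one_pos b.one_le))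
      (b.gs_bd t (lt_of_lt_of_le ht hT) x hx).1
  exact
    { hκ := le_rfl
      tγ := b.gs_ts.mono (Iio_subset_Iio hT) Subset.rfl
      td := TS.zero
      te := TS.zero
      tF := TS.zero
      tF1 := TS.zero
      tF2 := TS.zero
      tζ := TS.zero.congr isOpen_Iio fun t _ x _ => by simp
      d1 := fun t _ x _ _ => hasDerivAt_const x 0
      d2 := fun t _ x _ _ => hasDerivAt_const x 0
      vol := fun t _ x _ => by simp [Vol, Dt]
      nl := fun t _ x _ => by simp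
      gpos := hp
      pos := fun t ht x hx => by
        rw [zero_mul, zero_mul, add_zero]
        exact hp t ht x hx }

theorem anc_add {σ : ℝ} (h : IsAnc b σ F) (h' : IsAnc b σ G) : IsAnc b σ (F + G) := by
  obtain ⟨h1, ⟨F1, F2, h2⟩, h3⟩ := h
  obtain ⟨h1', ⟨G1, G2, h2'⟩, h3'⟩ := h'
  refine ⟨fun t x hx => ?_, ⟨_, _, lin_add h2 h2'⟩, fun j => ?_⟩
  · rw [Pi.add_apply, Pi.add_apply, h1 t x hx, h1' t x hx, add_zero]
  obtain ⟨C, hC⟩ := h3 j
  obtain ⟨C', hC'⟩ := h3' j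
  refine ⟨2 * C + 2 * C', fun t ht R hR => ?_⟩
  have hs : Icc 0 R ⊆ dom 0 := Icc_subset_dom le_rfl (by simp)
  have ht0 : t < 0 := by linarith
  have a1 := hC t ht R hR
  have a2 := hC' t ht R hR
  have a3 := mul_le_mul_of_nonneg_left (Iw_add_le (θ := 0) (q := false) (m := 13) (j := j) ht0 hR.le
    ((h2.tF.cont_x j ht).mono hs) ((h2'.tF.cont_x j ht).mono hs)) (lam_pos ht0).le
  rw [Et] at a1 a2 ⊢
  rw [Iw_congr hR.le false 13 j t (u := DT j (F + G) t) (v := fun x => DT j F t x + DT j G t x)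
    fun x hx =>
    DT_add isOpen_Iio h2.tF h2'.tF j t ht x (hs hx)]
  linarith

theorem anc_smul {σ : ℝ} (h : IsAnc b σ F) (c : ℝ) : IsAnc b σ (c • F) := by
  obtain ⟨h1, ⟨F1, F2, h2⟩, h3⟩ := h
  refine ⟨fun t x hx => ?_, ⟨_, _, lin_smul h2 c⟩, fun j => ?_⟩
  · rw [Pi.smul_apply, Pi.smul_apply, h1 t x hx, smul_zero]
  obtain ⟨C, hC⟩ := h3 j
  refine ⟨c ^ 2 * C, fun t ht R hR => ?_⟩
  have e : Et R 0 false j t (c • F) = c ^ 2 * Et R 0 false j t F := by
    have e1 : ∀ x, DT j (c • F) t x = c * DT j F t x := DT_cmul (fun _ => c) F j t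
    rw [Et, Et, Iw, Iw, mul_left_comm, ← intervalIntegral.integral_const_mul (c ^ 2)]
    congr 2
    funext x
    rw [e1]
    ring
  rw [e, mul_assoc]
  exact mul_le_mul_of_nonneg_left (hC t ht R hR) (sq_nonneg c)

theorem anc_zero {σ : ℝ} : IsAnc b σ 0 :=
  ⟨fun _ _ _ => rfl, ⟨0, 0, lin_zero (by norm_num)⟩, fun j => ⟨0, fun t _ R _ => by
    simp [Et, Iw, DT_zero]⟩⟩

theorem anc_mono {σ σ' : ℝ} (h : IsAnc b σ F) (hσ : σ ≤ σ') : IsAnc b σ' F := by
  refine ⟨h.1, h.2.1, fun j => ?_⟩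
  obtain ⟨C, hC⟩ := h.2.2 j
  refine ⟨max C 0, fun t ht R hR => (hC t ht R hR).trans ?_⟩
  exact mul_le_mul (le_max_left _ _) (Real.rpow_le_rpow_of_exponent_le (by linarith) hσ)
    (Real.rpow_nonneg (by linarith) _) (le_max_right _ _)

theorem scale_lt {μ t : ℝ} (hμ : 1 ≤ μ) (ht : t < -1) : μ ^ 2 * t < -1 := by
  have : 1 ≤ μ ^ 2 := one_le_pow₀ hμ
  nlinarith

theorem eb_sc {σ μ : ℝ} (h : EB σ F) (σ' : ℝ) (hμ : 1 ≤ μ) : EB σ (sc σ' μ F) := by
  intro j
  obtain ⟨C, hC⟩ := h j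
  have hμ0 : 0 < μ := by linarith
  refine ⟨(μ ^ (-(1 + σ'))) ^ 2 * μ ^ 2 * (C * (μ ^ 2) ^ σ), fun t ht R hR => ?_⟩
  have e : Et R 0 false j t (sc σ' μ F) =
      Et R 0 false j t fun s y => μ ^ (-(1 + σ')) * F (μ ^ 2 * s) (μ * y) := by
    rw [Et, Et, Iw_congr hR.le false 13 j t fun x hx =>
      DT_congr (I := Iio (-1)) isOpen_Iio (u := sc σ' μ F)
        (v := fun s y => μ ^ (-(1 + σ')) * F (μ ^ 2 * s) (μ * y))
        (fun s hs => if_pos ⟨hs, hx.1⟩) j t ht]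
  have h1 := hC _ (scale_lt hμ ht) (μ * R) (by positivity)
  rw [← mul_neg, Real.mul_rpow (by positivity) (by linarith)] at h1
  rw [e, Et_scale hμ0, mul_assoc _ (C * _), mul_assoc C]
  exact mul_le_mul_of_nonneg_left h1 (by positivity)

theorem sc_sc (σ : ℝ) {μ ν : ℝ} (hμ : 1 ≤ μ) (hν : 1 ≤ ν) (F : Fn) :
    sc σ μ (sc σ ν F) = sc σ (μ * ν) F := by
  funext t x
  unfold sc
  by_cases h : t < -1 ∧ 0 ≤ x
  · rw [if_pos h, if_pos h, if_pos ⟨scale_lt hμ h.1, mul_nonneg (by linarith) h.2⟩,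
      Real.mul_rpow (by linarith) (by linarith), mul_assoc (μ ^ _), mul_pow,
      show ν ^ 2 * (μ ^ 2 * t) = μ ^ 2 * ν ^ 2 * t by ring, show ν * (μ * x) = μ * ν * x by ring]
  · rw [if_neg h, if_neg h]

end Crest.Agent.R213.SBB
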