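import Crest.Agent.R213.TS2
import Crest.Agent.R213.SysBB
import Crest.Agent.R213.SysBA

/-!
# Row 213: basic facts about the system
-/

set_option autoImplicit false

noncomputable section

namespace Crest.Agent.R213

open Set Filter Topology
open scoped ContDiff

variable {κ ε ϵ : ℝ} {I J : Set ℝ} {γ d e F F1 F2 ζ : Fn}

theorem Sys.sp (hI : IsOpen I) (h : Sys κ ε ϵ I γ d e F F1 F2 ζ) {L : ℝ} (hL : κ * L ≤ 1) (j : ℕ)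
    {t : ℝ} (ht : t ∈ I) : Sp L (DT j F t) (DT j F1 t) (DT j F2 t) :=
  SysBA.sp hI h hL j ht

theorem Sys.volOn (hI : IsOpen I) (h : Sys κ ε ϵ I γ d e F F1 F2 ζ) {L : ℝ} (hL : κ * L ≤ 1)
    (j : ℕ) {t : ℝ} (ht : t ∈ I) :
    VolOn κ L (fun x => DT j ζ t x - ϵ * DT (j + 1) F2 t x)
      fun x => DT (j + 1) F t x - DT j e t x :=
  SysBA.volOn hI h hL j ht

theorem Sys.leib (hI : IsOpen I) (h : Sys κ ε ϵ I γ d e F F1 F2 ζ) {t x : ℝ} (ht : t ∈ I)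
    (hx : x ∈ dom κ) (l : ℕ) :
    Leib (ε * ph κ x) (fun j => DT j γ t x) (fun j => DT j ζ t x)
      (fun j => DT j F2 t x + DT j d t x) l :=
  SysBA.leib hI h ht hx l

theorem Sys.mono (h : Sys κ ε ϵ I γ d e F F1 F2 ζ) (hJ : J ⊆ I) :
    Sys κ ε ϵ J γ d e F F1 F2 ζ :=
  SysBA.mono h hJ

theorem Sys.congr (hI : IsOpen I) (h : Sys κ ε ϵ I γ d e F F1 F2 ζ) {γ' d' e' F' F1' F2' ζ' : Fn}
    (h1 : ∀ t ∈ I, ∀ x ∈ dom κ, γ' t x = γ t x ∧ d' t x = d t x ∧ e' t x = e t x ∧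
      F' t x = F t x ∧ F1' t x = F1 t x ∧ F2' t x = F2 t x ∧ ζ' t x = ζ t x) :
    Sys κ ε ϵ I γ' d' e' F' F1' F2' ζ' :=
  SysBA.congr hI h h1

/-- Locality in time. -/
theorem Sys.of_local (hκ : 0 ≤ κ)
    (h : ∀ t ∈ I, ∃ J, IsOpen J ∧ t ∈ J ∧ J ⊆ I ∧ Sys κ ε ϵ J γ d e F F1 F2 ζ) :
    Sys κ ε ϵ I γ d e F F1 F2 ζ :=
  SysBA.of_local hκ h

/-- Parabolic rescaling. -/
theorem Sys.scale (h : Sys κ ε 0 I γ d e F F1 F2 ζ) {μ c : ℝ} (hμ : 0 < μ) (hc : c ≠ 0)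
    (hJ : ∀ t ∈ J, μ ^ 2 * t ∈ I) :
    Sys (κ * μ) (ε / (μ * c)) 0 J (fun t x => γ (μ ^ 2 * t) (μ * x))
      (fun t x => c * μ ^ 2 * d (μ ^ 2 * t) (μ * x)) (fun t x => c * μ ^ 2 * e (μ ^ 2 * t) (μ * x))
      (fun t x => c * F (μ ^ 2 * t) (μ * x)) (fun t x => c * μ * F1 (μ ^ 2 * t) (μ * x))
      (fun t x => c * μ ^ 2 * F2 (μ ^ 2 * t) (μ * x))
      (fun t x => c * μ ^ 2 * ζ (μ ^ 2 * t) (μ * x)) :=
  SysBA.scale h hμ hc hJ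

theorem Sys.zero (hI : IsOpen I) (hκ : 0 ≤ κ) (hγ : TS I (dom κ) γ)
    (hp : ∀ t ∈ I, ∀ x ∈ dom κ, 0 < γ t x) (hd : ∀ t ∈ I, ∀ x ∈ dom κ, d t x = 0)
    (he : ∀ t ∈ I, ∀ x ∈ dom κ, e t x = 0) : Sys κ ε ϵ I γ d e 0 0 0 0 :=
  SysBA.zero hκ hγ hp hI hd he

/-- `F1` and `F2` are determined by `F`. -/
theorem Sys.eq_of_eq {γ' d' e' F' F1' F2' ζ' : Fn} {ε' ϵ' t : ℝ} (h : Sys κ ε ϵ I γ d e F F1 F2 ζ)
    (h' : Sys κ ε' ϵ' I γ' d' e' F' F1' F2' ζ') (ht : t ∈ I) (hF : ∀ x ∈ dom κ, F t x = F' t x) :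
    ∀ x ∈ dom κ, F1 t x = F1' t x ∧ F2 t x = F2' t x :=
  SysBA.eq_of_eq h h' ht hF

/-- Before and at the starting time everything vanishes. -/
theorem Sys.dt_eq_zero {T t0 : ℝ} (h : Sys κ ε ϵ (Iio T) γ d e F F1 F2 ζ) (h0 : Zero κ t0 T F)
    (hd : ∀ t ≤ t0, ∀ x ∈ dom κ, d t x = 0) (j : ℕ) :
    ∀ t ≤ t0, t < T → ∀ x ∈ dom κ,
      DT j F t x = 0 ∧ DT j F1 t x = 0 ∧ DT j F2 t x = 0 ∧ DT j ζ t x = 0 :=
  SysBA.dt_eq_zero h h0 hd j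

theorem AB.mono {J J' : ℕ} {B B' t : ℝ} (h : AB κ ε γ ζ J B t) (hJ : J' ≤ J) (hB : 0 < B)
    (hB' : B ≤ B') : AB κ ε γ ζ J' B' t :=
  SysBA.ab_mono h hJ hB hB'

theorem Iw_nonneg {L θ : ℝ} (hL : 0 ≤ L) (q : Bool) (m j : ℕ) (t : ℝ) (u : ℝ → ℝ) :
    0 ≤ Iw L θ q m j t u :=
  SBB.Iw_nonneg hL q m j t u

theorem Iw_congr {L θ : ℝ} (hL : 0 ≤ L) (q : Bool) (m j : ℕ) (t : ℝ) {u v : ℝ → ℝ}
    (h : ∀ x ∈ Icc 0 L, u x = v x) : Iw L θ q m j t u = Iw L θ q m j t v :=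
  SBB.Iw_congr hL q m j t h

theorem continuousOn_wt (q : Bool) (m j : ℕ) {t : ℝ} (ht : t < 0) :
    ContinuousOn (wt q m j t) (Ici 0) :=
  SBB.continuousOn_wt q m j ht

theorem wt_pos (q : Bool) (m j : ℕ) {t x : ℝ} (ht : t < 0) (hx : 0 ≤ x) : 0 < wt q m j t x :=
  SBB.wt_pos q m j ht hx

/-- Comparison of weighted integrals from a pointwise comparison of the integrands. -/
theorem Iw_le_Iw {L L' θ θ' c t : ℝ} {q q' : Bool} {m m' j j' : ℕ} {u v : ℝ → ℝ} (ht : t < 0)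
    (hL : 0 ≤ L) (hL' : L ≤ L') (hc : 0 ≤ c) (hu : ContinuousOn u (Icc 0 L))
    (hv : ContinuousOn v (Icc 0 L'))
    (h : ∀ x ∈ Icc 0 L, (1 - θ * x) ^ 4 * wt q m j t x * u x ^ 2 ≤
      c * ((1 - θ' * x) ^ 4 * wt q' m' j' t x * v x ^ 2)) :
    Iw L θ q m j t u ≤ c * Iw L' θ' q' m' j' t v :=
  SBB.Iw_le_Iw ht hL hL' hc hu hv h

theorem Iw_add_le {L θ t : ℝ} {q : Bool} {m j : ℕ} {u v : ℝ → ℝ} (ht : t < 0) (hL : 0 ≤ L)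
    (hu : ContinuousOn u (Icc 0 L)) (hv : ContinuousOn v (Icc 0 L)) :
    Iw L θ q m j t (fun x => u x + v x) ≤ 2 * Iw L θ q m j t u + 2 * Iw L θ q m j t v :=
  SBB.Iw_add_le ht hL hu hv

/-- `|u| ≤ C ∑ |v i|` in the weights of the levels gives the corresponding integral bound. -/
theorem Iw_le_sum {L θ t C : ℝ} {q : Bool} {m j n : ℕ} {u : ℝ → ℝ} {v : ℕ → ℝ → ℝ} (ht : t < 0)
    (hL : 0 ≤ L) (hu : ContinuousOn u (Icc 0 L)) (hv : ∀ i, ContinuousOn (v i) (Icc 0 L))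
    (h : ∀ x ∈ Icc 0 L, om q (-t) ((x + lam t) ^ 2) j * |u x| ≤
      C * ∑ i ∈ Finset.range n, om q (-t) ((x + lam t) ^ 2) i * |v i x|) :
    Iw L θ q m j t u ≤ C ^ 2 * n * ∑ i ∈ Finset.range n, Iw L θ q m i t (v i) :=
  SBB.Iw_le_sum ht hL hu hv h

/-- The scaled energies are covariant under parabolic rescaling. -/
theorem Et_scale {μ t : ℝ} (hμ : 0 < μ) (ht : t < 0) (c L : ℝ) (q : Bool) (j : ℕ) (F : Fn) :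
    Et L 0 q j t (fun s y => c * F (μ ^ 2 * s) (μ * y)) =
      c ^ 2 * μ ^ 2 * Et (μ * L) 0 q j (μ ^ 2 * t) F :=
  SBB.Et_scale hμ c L q j F

theorem continuousOn_Iw (hI : IsOpen I) (hI0 : I ⊆ Iio 0) {D : Set ℝ} {u : Fn} (hu : TS I D u)
    {L : ℝ} (hL : 0 ≤ L) (hD : Icc 0 L ⊆ D) (θ : ℝ) (q : Bool) (m j i : ℕ) :
    ContinuousOn (fun t => Iw L θ q m j t (DT i u t)) I :=
  SBB.continuousOn_Iw hI0 hu hL hD θ q m j i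

/-! Linear solutions. -/

variable {b : BG} {T : ℝ} {G G1 G2 : Fn}

theorem IsLin.add (hT : T ≤ 0) (h : IsLin b T F F1 F2) (h' : IsLin b T G G1 G2) :
    IsLin b T (F + G) (F1 + G1) (F2 + G2) :=
  SBB.lin_add h h'

theorem IsLin.smul (h : IsLin b T F F1 F2) (c : ℝ) : IsLin b T (c • F) (c • F1) (c • F2) :=
  SBB.lin_smul h c

theorem IsLin.zero (hT : T ≤ 0) : IsLin b T 0 0 0 :=
  SBB.lin_zero hT

theorem IsAnc.add {σ : ℝ} (h : IsAnc b σ F) (h' : IsAnc b σ G) : IsAnc b σ (F + G) :=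
  SBB.anc_add h h'

theorem IsAnc.smul {σ : ℝ} (h : IsAnc b σ F) (c : ℝ) : IsAnc b σ (c • F) :=
  SBB.anc_smul h c

theorem IsAnc.zero {σ : ℝ} : IsAnc b σ 0 :=
  SBB.anc_zero

theorem IsAnc.mono {σ σ' : ℝ} (h : IsAnc b σ F) (hσ : σ ≤ σ') : IsAnc b σ' F :=
  SBB.anc_mono h hσ

theorem IsAnc.sc {σ μ : ℝ} (h : IsAnc b σ F) (σ' : ℝ) (hμ : 1 ≤ μ) : IsAnc b σ (sc σ' μ F) := by
  obtain ⟨-, ⟨F1, F2, h2⟩, h3⟩ := h
  have hμ0 : 0 < μ := by linarith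
  have h4 := Sys.scale (J := Iio (-1)) h2 hμ0 (Real.rpow_pos_of_pos hμ0 (-(1 + σ'))).ne'
    fun t ht => SBB.scale_lt hμ ht
  rw [zero_mul, zero_div] at h4
  refine ⟨fun t x hx => if_neg hx, ⟨_, _, h4.congr isOpen_Iio fun t ht x hx =>
    ⟨(b.gs_scale μ t x hμ0).symm, by simp, by simp, if_pos ⟨ht, hx.1⟩, rfl, rfl, ?_⟩⟩,
    SBB.eb_sc h3 σ' hμ⟩
  rw [b.gs_scale μ t x hμ0]
  ring

theorem sc_sc (σ : ℝ) {μ ν : ℝ} (hμ : 1 ≤ μ) (hν : 1 ≤ ν) (F : Fn) :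
    sc σ μ (sc σ ν F) = sc σ (μ * ν) F :=
  SBB.sc_sc σ hμ hν F

/-- The space of ancient solutions. -/
def Anc (b : BG) (σ : ℝ) : Submodule ℝ Fn where
  carrier := {F | IsAnc b σ F}
  add_mem' := IsAnc.add
  zero_mem' := IsAnc.zero
  smul_mem' := fun c _ h => IsAnc.smul h c

end Crest.Agent.R213
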