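import Crest.Agent.R213.PT
import Crest.Agent.R213.SysB
import Crest.Agent.R213.Alg

/-!
# Row 213: local pointwise bounds for the system at a fixed time
-/

set_option autoImplicit false

noncomputable section

namespace Crest.Agent.R213.PTgB

open Set Filter Topology
open scoped ContDiff

theorem sp_cmul {L : ℝ} {F F1 F2 : ℝ → ℝ} (h : Sp L F F1 F2) (c : ℝ) :
    Sp L (fun x => c * F x) (fun x => c * F1 x) fun x => c * F2 x :=
  ⟨continuousOn_const.mul h.c0, continuousOn_const.mul h.c1, continuousOn_const.mul h.c2,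
    fun x hx => (h.d1 x hx).const_mul c, fun x hx => (h.d2 x hx).const_mul c⟩

theorem le_of_Ioc {f : ℝ → ℝ} {L c : ℝ} (hL : 0 < L) (hf : ContinuousOn f (Icc 0 L))
    (h : ∀ x ∈ Ioc 0 L, f x ≤ c) : ∀ x ∈ Icc 0 L, f x ≤ c := by
  have := le_on_closure (f := f) (g := fun _ => c) (s := Ioc 0 L) h
    (by rwa [closure_Ioc hL.ne]) continuousOn_const
  rw [closure_Ioc hL.ne] at this
  exact fun x hx => this hx

/-- A bound of the Volterra integral gives a bound of `Z`. -/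
theorem abs_le_of_vol {κ x c A Z v : ℝ} (hx : 0 < x) (hκ : 2 * (κ * x) ≤ 1) (hc : 0 ≤ c)
    (h : x ^ 9 * ph κ x ^ 2 * Z = v) (hv : |c * v| ≤ A * x ^ 11) : c * |Z| ≤ 4 * A := by
  have h1 : (1 : ℝ) / 4 ≤ (1 - κ * x) ^ 2 := by nlinarith
  have h2 : |c * v| = x ^ 11 * ((1 - κ * x) ^ 2 * (c * |Z|)) := by
    rw [← h, ph, abs_mul, abs_mul, abs_of_nonneg hc, abs_of_nonneg (by positivity)]
    ring
  rw [h2, mul_comm A] at hv
  have h3 := le_of_mul_le_mul_left hv (by positivity)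
  have h4 : 0 ≤ c * |Z| := by positivity
  nlinarith

/-- The unweighted square integral from the scaled energy. -/
theorem sq_int_le {R t M : ℝ} {u : ℝ → ℝ} {j : ℕ} (hR : 1 ≤ R) (ht : t < 0)
    (hu : ContinuousOn u (Icc 0 (2 * (R * lam t))))
    (h : lam t * Iw (2 * (R * lam t)) 0 false 13 j t u ≤ M ^ 2) :
    (∫ x in (0 : ℝ)..(2 * (R * lam t)), x ^ 9 * ((-t) ^ j * u x) ^ 2) ≤
      ((2 * R + 1) ^ 7 * M * lam t) ^ 2 * (R * lam t) ^ 10 := by
  have hl := lam_pos ht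
  have hL : 0 ≤ 2 * (R * lam t) := by positivity
  have h1 : (∫ x in (0 : ℝ)..(2 * (R * lam t)), x ^ 9 * ((-t) ^ j * u x) ^ 2) ≤
      ((2 * R + 1) * lam t) ^ 13 * Iw (2 * (R * lam t)) 0 false 13 j t u := by
    rw [Iw, ← intervalIntegral.integral_const_mul]
    refine intervalIntegral.integral_mono_on hL ?_ ?_ fun x hx => ?_
    · refine ContinuousOn.intervalIntegrable ?_
      rw [uIcc_of_le hL]
      exact (continuousOn_id.pow 9).mul ((continuousOn_const.mul hu).pow 2)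
    · refine ContinuousOn.intervalIntegrable ?_
      rw [uIcc_of_le hL]
      exact continuousOn_const.mul ((((continuousOn_id.pow 9).mul (by fun_prop)).mul
        ((continuousOn_wt false 13 j ht).mono Icc_subset_Ici_self)).mul (hu.pow 2))
    · have h0 : 0 < x + lam t := by linarith [hx.1]
      have h2 : (x + lam t) ^ 13 ≤ ((2 * R + 1) * lam t) ^ 13 :=
        pow_le_pow_left₀ h0.le (by linarith [hx.2]) 13
      have h3 : 0 ≤ x ^ 9 * ((-t) ^ j * u x) ^ 2 / (x + lam t) ^ 13 := by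
        have := hx.1
        positivity
      calc x ^ 9 * ((-t) ^ j * u x) ^ 2
          = (x + lam t) ^ 13 * (x ^ 9 * ((-t) ^ j * u x) ^ 2 / (x + lam t) ^ 13) := by
            field_simp
        _ ≤ ((2 * R + 1) * lam t) ^ 13 * (x ^ 9 * ((-t) ^ j * u x) ^ 2 / (x + lam t) ^ 13) :=
            mul_le_mul_of_nonneg_right h2 h3
        _ = _ := by
            rw [wt, om_false]
            ring
  refine h1.trans ?_
  have h4 : (1 : ℝ) ≤ (2 * R + 1) * R ^ 10 :=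
    one_le_mul_of_one_le_of_one_le (by linarith) (one_le_pow₀ hR)
  calc ((2 * R + 1) * lam t) ^ 13 * Iw (2 * (R * lam t)) 0 false 13 j t u
      = (2 * R + 1) ^ 13 * lam t ^ 12 * (lam t * Iw (2 * (R * lam t)) 0 false 13 j t u) := by ring
    _ ≤ (2 * R + 1) ^ 13 * lam t ^ 12 * M ^ 2 := by gcongr
    _ = (2 * R + 1) ^ 13 * lam t ^ 12 * M ^ 2 * 1 := by ring
    _ ≤ (2 * R + 1) ^ 13 * lam t ^ 12 * M ^ 2 * ((2 * R + 1) * R ^ 10) := by gcongr
    _ = _ := by ring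

/-- The second derivatives are bounded by the `ζ` terms. -/
theorem transfer (n : ℕ) (B : ℝ) (hB : 1 ≤ B) : ∃ C, 1 ≤ C ∧
    ∀ (κ ε t x A : ℝ) (I : Set ℝ) (γ d e F F1 F2 ζ : Fn), IsOpen I →
      Sys κ ε 0 I γ d e F F1 F2 ζ → t ∈ I → t < 0 → AB κ ε γ ζ n B t → x ∈ dom κ → 0 ≤ A →
      ∀ j ≤ n, (∀ l ≤ j, (-t) ^ (l + 1) * |DT l ζ t x| ≤ A) →
        (-t) ^ (j + 1) * |DT j F2 t x + DT j d t x| ≤ C * A := by
  choose Ca h1 h2 using fun j => alg j B hB
  have hs : ∀ j ≤ n, Ca j ≤ ∑ j ∈ Finset.range (n + 1), Ca j := fun j hj =>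
    Finset.single_le_sum (fun i _ => zero_le_one.trans (h1 i)) (Finset.mem_range.2 (by omega))
  refine ⟨(∑ j ∈ Finset.range (n + 1), Ca j) * (n + 1), one_le_mul_of_one_le_of_one_le
    ((h1 0).trans (hs 0 n.zero_le)) (by linarith [(n.cast_nonneg : (0 : ℝ) ≤ n)]), ?_⟩
  intro κ ε t x A I γ d e F F1 F2 ζ hI h ht ht0 hab hx hA j hj hz
  have hT : 0 < -t := neg_pos.2 ht0
  have hρ : -t ≤ (x + lam t) ^ 2 := by
    rw [← lam_sq ht0.le]
    exact pow_le_pow_left₀ (lam_pos ht0).le (by linarith [hx.1]) 2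
  obtain ⟨a1, a2, a3, a4, a5⟩ := hab x hx
  have h3 := (h2 j false (-t) ((x + lam t) ^ 2) (ε * ph κ x) (fun j => DT j γ t x)
    (fun j => DT j ζ t x) (fun j => DT j F2 t x + DT j d t x) hT hρ
    (fun l _ => h.leib hI ht hx l) a1 a2 a3
    (fun c hc hc' => (mul_le_mul_of_nonneg_right (om_false_le false hT hρ c).2
      (abs_nonneg _)).trans (a4 c hc (hc'.trans hj)))
    (fun a ha => a5 a (ha.trans hj))).2.1
  simp only [om_false] at h3
  have h4 : -t * ∑ i ∈ Finset.range (j + 1), (-t) ^ i * |DT i ζ t x| ≤ (n + 1) * A := by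
    rw [Finset.mul_sum]
    calc _ ≤ ∑ _i ∈ Finset.range (j + 1), A := Finset.sum_le_sum fun i hi => by
          rw [← mul_assoc, ← pow_succ']
          exact hz i (Nat.lt_succ_iff.1 (Finset.mem_range.1 hi))
      _ = (j + 1) * A := by simp
      _ ≤ (n + 1) * A := by gcongr
  have h5 := h1 j
  have h6 := hs j hj
  calc (-t) ^ (j + 1) * |DT j F2 t x + DT j d t x|
      = -t * ((-t) ^ j * |DT j F2 t x + DT j d t x|) := by ring
    _ ≤ -t * (Ca j * ∑ i ∈ Finset.range (j + 1), (-t) ^ i * |DT i ζ t x|) := by gcongr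
    _ = Ca j * (-t * ∑ i ∈ Finset.range (j + 1), (-t) ^ i * |DT i ζ t x|) := by ring
    _ ≤ Ca j * ((n + 1) * A) := by gcongr
    _ ≤ (∑ j ∈ Finset.range (n + 1), Ca j) * ((n + 1) * A) := by gcongr
    _ = _ := by ring

theorem ptloc (i : ℕ) (B R : ℝ) (hB : 1 ≤ B) (hR : 1 ≤ R) : ∃ C, 0 < C ∧
    ∀ (κ ε t M : ℝ) (I : Set ℝ) (γ d e F F1 F2 ζ : Fn), IsOpen I → Sys κ ε 0 I γ d e F F1 F2 ζ →
      t ∈ I → t < 0 → AB κ ε γ ζ (i + 3) B t → 4 * κ * (R * lam t) ≤ 1 → 0 ≤ M →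
      (∀ j ≤ i + 4, Et (2 * (R * lam t)) 0 false j t F ≤ M ^ 2) →
      (∀ j ≤ i + 3, ∀ x ∈ Icc 0 (2 * (R * lam t)), (-t) ^ (j + 1) * |DT j e t x| ≤ M * lam t ∧
        (-t) ^ (j + 1) * |DT j d t x| ≤ M * lam t) →
      ∀ j ≤ i, ∀ x ∈ Icc 0 (2 * (R * lam t)), (-t) ^ j * |DT j F t x| ≤ C * M * lam t ∧
        (-t) ^ j * lam t * |DT j F1 t x| ≤ C * M * lam t ∧
        (-t) ^ (j + 1) * |DT j F2 t x| ≤ C * M * lam t ∧
        (-t) ^ (j + 1) * |DT j ζ t x| ≤ C * M * lam t := by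
  obtain ⟨C1, hC1, H1⟩ := transfer (i + 3) B hB
  have hR2 : 1 ≤ R ^ 2 := one_le_pow₀ hR
  obtain ⟨C, hC, H⟩ := chain_in i (R ^ 2 * (4 * C1))
    (one_le_mul_of_one_le_of_one_le hR2 (by linarith))
  have hC0 : (1 : ℝ) ≤ (2 * R + 1) ^ 7 := one_le_pow₀ (by linarith)
  refine ⟨4 * C * (2 * R + 1) ^ 7, by positivity, ?_⟩
  intro κ ε t M I γ d e F F1 F2 ζ hI h ht ht0 hab hκ hM hE hed
  have hT : 0 < -t := neg_pos.2 ht0
  have hl := lam_pos ht0
  have hr : 0 < R * lam t := by positivity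
  have hκ0 := h.hκ
  have hL : κ * (2 * (R * lam t)) ≤ 1 := by nlinarith [mul_nonneg hκ0 hr.le]
  have hD : Icc 0 (2 * (R * lam t)) ⊆ dom κ := Icc_subset_dom hκ0 hL
  have hM' : M * lam t ≤ (2 * R + 1) ^ 7 * M * lam t := by
    rw [mul_assoc]
    exact le_mul_of_one_le_left (by positivity) hC0
  have hr2 : (R * lam t) ^ 2 = R ^ 2 * -t := by rw [mul_pow, lam_sq ht0.le]
  -- the bound of `ζ` from the bound of the Volterra integral
  have hζ : ∀ l A, ∀ x ∈ Ioc 0 (2 * (R * lam t)),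
      |Vol (fun y => (-t) ^ (l + 1) * DT (l + 1) F t y - (-t) ^ (l + 1) * DT l e t y) x| ≤
        A * x ^ 11 → (-t) ^ (l + 1) * |DT l ζ t x| ≤ 4 * A := by
    intro l A x hx hv
    have h1 := (h.volOn hI hL l ht).eq x ⟨hx.1.le, hx.2⟩
    simp only [zero_mul, sub_zero] at h1
    simp only [← mul_sub] at hv
    rw [vol_cmul] at hv
    refine abs_le_of_vol hx.1 ?_ (by positivity) h1 hv
    nlinarith [mul_le_mul_of_nonneg_left hx.2 hκ0]
  have H2 := H Unit (R * lam t) ((2 * R + 1) ^ 7 * M * lam t)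
    (fun _ j x => (-t) ^ j * DT j F t x) (fun _ j x => (-t) ^ j * DT j F1 t x)
    (fun _ j x => (-t) ^ j * DT j F2 t x) (fun _ j x => (-t) ^ (j + 1) * DT j e t x) hr
    (by positivity) (fun _ j => sp_cmul (h.sp hI hL j ht) _)
    (fun _ j => continuousOn_const.mul ((h.te.cont_x j ht).mono hD))
    (fun _ j hj => sq_int_le hR ht0 ((h.tF.cont_x j ht).mono hD) (hE j hj))
    (fun _ j hj x hx => by
      rw [abs_mul, abs_of_pos (pow_pos hT _)]
      exact (hed j hj x hx).1.trans hM')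
    (fun j hj x hx A hA hv _ => by
      have hx' : x ∈ Icc 0 (2 * (R * lam t)) := ⟨hx.1.le, hx.2.le⟩
      have h1 := H1 κ ε t x (4 * A) I γ d e F F1 F2 ζ hI h ht ht0 hab (hD hx') (by positivity) j hj
        fun l hl => hζ l A x ⟨hx.1, hx.2.le⟩ (hv () l hl)
      have h2 := (hed j hj x hx').2.trans hM'
      have h3 : |DT j F2 t x| ≤ |DT j F2 t x + DT j d t x| + |DT j d t x| := by
        simpa using abs_sub (DT j F2 t x + DT j d t x) (DT j d t x)
      have h4 := mul_le_mul_of_nonneg_left h3 (pow_pos hT (j + 1)).le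
      have h5 : 0 ≤ (2 * R + 1) ^ 7 * M * lam t := by positivity
      rw [hr2, abs_mul, abs_of_pos (pow_pos hT _)]
      calc R ^ 2 * -t * ((-t) ^ j * |DT j F2 t x|)
          = R ^ 2 * ((-t) ^ (j + 1) * |DT j F2 t x|) := by ring
        _ ≤ R ^ 2 * (4 * C1 * (A + (2 * R + 1) ^ 7 * M * lam t)) := by
            refine mul_le_mul_of_nonneg_left ?_ (by positivity)
            nlinarith
        _ = _ := by ring)
    ()
  have h5 : C * ((2 * R + 1) ^ 7 * M * lam t) ≤ 4 * C * (2 * R + 1) ^ 7 * M * lam t := by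
    have : 0 ≤ C * ((2 * R + 1) ^ 7 * M * lam t) := by positivity
    linarith
  intro j hj x hx
  obtain ⟨b1, b2, b3, -⟩ := H2 j hj x hx
  rw [abs_mul, abs_of_pos (pow_pos hT _)] at b1 b2 b3
  refine ⟨b1.trans h5, le_trans ?_ (b2.trans h5), le_trans ?_ (b3.trans h5), ?_⟩
  · have : 0 ≤ (-t) ^ j * lam t * |DT j F1 t x| := by positivity
    nlinarith
  · have : 0 ≤ (-t) ^ (j + 1) * |DT j F2 t x| := by positivity
    rw [hr2]
    calc _ ≤ R ^ 2 * ((-t) ^ (j + 1) * |DT j F2 t x|) := le_mul_of_one_le_left this hR2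
      _ = _ := by ring
  · refine le_of_Ioc (f := fun x => (-t) ^ (j + 1) * |DT j ζ t x|) (by positivity)
      (continuousOn_const.mul ((h.tζ.cont_x j ht).mono hD).abs) (fun y hy => ?_) x hx
    refine (hζ j _ y hy (H2 j hj y ⟨hy.1.le, hy.2⟩).2.2.2).trans (le_of_eq ?_)
    ring

end Crest.Agent.R213.PTgB
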