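import Crest.Agent.R213.PT
import Crest.Agent.R213.PTgA
import Crest.Agent.R213.SysB
import Crest.Agent.R213.Alg
import Crest.Agent.R213.PTgB

/-!
# Row 213: pointwise bounds: global chain and local bounds for the system
-/

set_option autoImplicit false

noncomputable section

namespace Crest.Agent.R213

open Set Filter Topology
open scoped ContDiff

/-- The global chain on `[0, L]` with natural boundary. -/
theorem chain_glob (i : ℕ) (B κ L : ℝ) (hB : 1 ≤ B) (hL : 0 < L) (hκ : κ * L = 1) : ∃ C, 0 < C ∧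
    ∀ (S : Type) (M : ℝ) (F F1 F2 e V : S → ℕ → ℝ → ℝ), 0 ≤ M →
      (∀ s j, Sp L (F s j) (F1 s j) (F2 s j)) → (∀ s j, ContinuousOn (e s j) (Icc 0 L)) →
      (∀ s j, VolOn κ L (V s j) fun y => F s (j + 1) y - e s j y) →
      (∀ s, ∀ j ≤ i + 4, (∫ x in (0 : ℝ)..L, x ^ 9 * F s j x ^ 2) ≤ M ^ 2) →
      (∀ s, ∀ j ≤ i + 3, ∀ x ∈ Icc 0 L, |e s j x| ≤ M) →
      (∀ j ≤ i + 3, ∀ x ∈ Ioo 0 L, ∀ A, 0 ≤ A → (∀ s, ∀ l ≤ j, |V s l x| ≤ A) →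
        ∀ s, |F2 s j x| ≤ B * (A + M)) →
      ∀ s, ∀ j ≤ i, ∀ x ∈ Icc 0 L, |F s j x| ≤ C * M ∧ |F1 s j x| ≤ C * M ∧
        |F2 s j x| ≤ C * M ∧ |V s j x| ≤ C * M := by
  obtain ⟨C₁, hC₁, h₁⟩ := PTgA.inner i B κ L hB hL hκ
  obtain ⟨C₂, hC₂, h₂⟩ := PTgA.outer i B κ L hB hL hκ
  refine ⟨C₁ + C₂, by positivity, fun S M F F1 F2 e V hM hF he hV h1 h2 h3 s j hj x hx => ?_⟩
  have p1 : 0 ≤ C₁ * M := by positivity
  have p2 : 0 ≤ C₂ * M := by positivity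
  rw [add_mul]
  rcases le_total x (L / 2) with h | h
  · obtain ⟨a1, a2, a3, a4⟩ := h₁ S M F F1 F2 e V hM hF he hV h1 h2 h3 s j hj x ⟨hx.1, h⟩
    exact ⟨by linarith, by linarith, by linarith, by linarith⟩
  · obtain ⟨a1, a2, a3, a4⟩ := h₂ S M F F1 F2 e V hM hF hV h1 h2 h3 s j hj x ⟨h, hx.2⟩
    exact ⟨by linarith, by linarith, by linarith, by linarith⟩

/-- Local pointwise bounds for the true system at a fixed time. -/
theorem ptloc (i : ℕ) (B R : ℝ) (hB : 1 ≤ B) (hR : 1 ≤ R) : ∃ C, 0 < C ∧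
    ∀ (κ ε t M : ℝ) (I : Set ℝ) (γ d e F F1 F2 ζ : Fn), IsOpen I → Sys κ ε 0 I γ d e F F1 F2 ζ →
      t ∈ I → t < 0 → AB κ ε γ ζ (i + 3) B t → 4 * κ * (R * lam t) ≤ 1 → 0 ≤ M →
      (∀ j ≤ i + 4, Et (2 * (R * lam t)) 0 false j t F ≤ M ^ 2) →
      (∀ j ≤ i + 3, ∀ x ∈ Icc 0 (2 * (R * lam t)), (-t) ^ (j + 1) * |DT j e t x| ≤ M * lam t ∧
        (-t) ^ (j + 1) * |DT j d t x| ≤ M * lam t) →
      ∀ j ≤ i, ∀ x ∈ Icc 0 (2 * (R * lam t)), (-t) ^ j * |DT j F t x| ≤ C * M * lam t ∧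
        (-t) ^ j * lam t * |DT j F1 t x| ≤ C * M * lam t ∧
        (-t) ^ (j + 1) * |DT j F2 t x| ≤ C * M * lam t ∧
        (-t) ^ (j + 1) * |DT j ζ t x| ≤ C * M * lam t :=
  PTgB.ptloc i B R hB hR

end Crest.Agent.R213
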