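import Crest.Agent.R213.C1
import Crest.Agent.R213.PTg
import Crest.Agent.R213.D1

/-!
# Row 213: method of continuity and the a priori bound for the resolvent (auxiliary file of `C2`)
-/

set_option autoImplicit false

noncomputable section

namespace Crest.Agent.R213
namespace C2A

open Set Filter Topology

theorem isUnit_of_apriori {X : Type} [NormedAddCommGroup X] [NormedSpace ℝ X] [CompleteSpace X]
    (A : X →L[ℝ] X) {ϵ C : ℝ} (h : ∀ s, ϵ ≤ s → ∀ y, ‖y‖ ≤ C * ‖s • y + A y‖) :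
    IsUnit (ϵ • (1 : X →L[ℝ] X) + A) := by
  set c : ℝ := |C| + 1 with hc
  have hc0 : 0 < c := by positivity
  have step : ∀ s s₀ : ℝ, ϵ ≤ s₀ → |s₀ - s| ≤ 1 / (2 * c) → IsUnit (s₀ • (1 : X →L[ℝ] X) + A) →
      IsUnit (s • (1 : X →L[ℝ] X) + A) := by
    rintro s s₀ hs₀ hd ⟨u, hu⟩
    have h1 : ‖((u⁻¹ : (X →L[ℝ] X)ˣ) : X →L[ℝ] X)‖ ≤ c := by
      refine ContinuousLinearMap.opNorm_le_bound _ hc0.le fun z => ?_
      have h2 := h s₀ hs₀ (((u⁻¹ : (X →L[ℝ] X)ˣ) : X →L[ℝ] X) z)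
      have h3 : s₀ • ((u⁻¹ : (X →L[ℝ] X)ˣ) : X →L[ℝ] X) z +
          A (((u⁻¹ : (X →L[ℝ] X)ˣ) : X →L[ℝ] X) z) = z := by
        have h4 := congrArg (fun T : X →L[ℝ] X => T z) u.mul_inv
        simpa [hu] using h4
      rw [h3] at h2
      exact h2.trans (mul_le_mul_of_nonneg_right ((le_abs_self C).trans (by linarith))
        (norm_nonneg _))
    have h5 : ‖(s₀ - s) • ((u⁻¹ : (X →L[ℝ] X)ˣ) : X →L[ℝ] X)‖ < 1 := by
      rw [norm_smul, Real.norm_eq_abs]
      calc _ ≤ 1 / (2 * c) * c := mul_le_mul hd h1 (norm_nonneg _) (by positivity)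
        _ = 1 / 2 := by field_simp
        _ < 1 := by norm_num
    have h6 : s • (1 : X →L[ℝ] X) + A =
        (u : X →L[ℝ] X) * (1 - (s₀ - s) • ((u⁻¹ : (X →L[ℝ] X)ˣ) : X →L[ℝ] X)) := by
      rw [mul_sub, mul_one, mul_smul_comm, u.mul_inv, hu, sub_smul]
      abel
    rw [h6]
    exact u.isUnit.mul (isUnit_one_sub_of_norm_lt_one h5)
  have base : ∀ s : ℝ, ‖A‖ + 1 ≤ s → IsUnit (s • (1 : X →L[ℝ] X) + A) := by
    intro s hs
    have hs0 : 0 < s := by linarith [norm_nonneg A]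
    have h1 : ‖(-s⁻¹) • A‖ < 1 := by
      rw [norm_smul, Real.norm_eq_abs, abs_neg, abs_of_pos (inv_pos.2 hs0), inv_mul_lt_iff₀ hs0]
      linarith
    have h2 : s • (1 : X →L[ℝ] X) + A = algebraMap ℝ (X →L[ℝ] X) s * (1 - (-s⁻¹) • A) := by
      rw [← Algebra.smul_def, smul_sub, smul_smul, mul_neg, mul_inv_cancel₀ hs0.ne', neg_smul,
        one_smul, sub_neg_eq_add]
    rw [h2]
    exact ((IsUnit.mk0 s hs0.ne').map _).mul (isUnit_one_sub_of_norm_lt_one h1)
  have ind : ∀ n : ℕ, ∀ s : ℝ, ϵ ≤ s → ‖A‖ + 1 ≤ s + n * (1 / (2 * c)) →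
      IsUnit (s • (1 : X →L[ℝ] X) + A) := by
    intro n
    induction n with
    | zero => exact fun s _ hs => base s (by simpa using hs)
    | succ n ih =>
      intro s hs hn
      have hδ : 0 < 1 / (2 * c) := by positivity
      refine step s (s + 1 / (2 * c)) (by linarith) ?_ (ih _ (by linarith) ?_)
      · rw [add_sub_cancel_left, abs_of_pos hδ]
      · push_cast at hn
        linarith
  obtain ⟨n, hn⟩ := exists_nat_ge ((‖A‖ + 1 - ϵ) * (2 * c))
  refine ind n ϵ le_rfl ?_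
  have : ‖A‖ + 1 - ϵ ≤ n * (1 / (2 * c)) := by
    rw [mul_one_div, le_div_iff₀ (by positivity)]
    exact hn
  linarith

theorem invertible {X : Type} [NormedAddCommGroup X] [NormedSpace ℝ X] [CompleteSpace X]
    (A : X →L[ℝ] X) {ϵ C : ℝ} (h : ∀ s, ϵ ≤ s → ∀ y, ‖y‖ ≤ C * ‖s • y + A y‖) :
    ∃ B : X →L[ℝ] X, (∀ y, B (ϵ • y + A y) = y) ∧ ∀ z, ϵ • B z + A (B z) = z := by
  obtain ⟨u, hu⟩ := isUnit_of_apriori A h
  refine ⟨((u⁻¹ : (X →L[ℝ] X)ˣ) : X →L[ℝ] X), fun y => ?_, fun z => ?_⟩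
  · have h4 := congrArg (fun T : X →L[ℝ] X => T y) u.inv_mul
    rw [hu] at h4
    exact h4
  · have h4 := congrArg (fun T : X →L[ℝ] X => T z) u.mul_inv
    rw [hu] at h4
    exact h4

theorem abs_ext_le {L : ℝ} (hL : 0 ≤ L) (z : CL L) (x : ℝ) : |ext hL z x| ≤ ‖z‖ :=
  z.norm_coe_le_norm (projIcc 0 L hL x)

/-- the energy bound -/
theorem energy {κ L ϵ : ℝ} (hL : 0 < L) (hκ : κ * L = 1) (o : Ops κ L hL.le) (hϵ : 0 < ϵ) {s : ℝ}
    (hs : ϵ ≤ s) (y : CL L) :
    (∫ x in (0 : ℝ)..L, x ^ 9 * ext hL.le (o.G0 y) x ^ 2) ≤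
      L ^ 12 / (4 * ϵ) * ‖s • y + o.K (o.G0 y)‖ ^ 2 := by
  have hW : Sp L (fun _ => 1) (fun _ => 0) (fun _ => 0) :=
    ⟨continuousOn_const, continuousOn_const, continuousOn_const,
      fun x _ => hasDerivAt_const x _, fun x _ => hasDerivAt_const x _⟩
  have h1 := ibp hL (o.sp y) hW (o.vol (o.G0 y)) (Or.inl hκ)
  simp only [(o.mom y).1, (o.mom y).2, zero_mul, add_zero, sub_zero, one_mul, mul_zero] at h1
  have h2 : (∫ x in (0 : ℝ)..L, x ^ 9 * ext hL.le (o.G0 y) x ^ 2) =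
      ∫ x in (0 : ℝ)..L, x ^ 9 * ext hL.le (o.G0 y) x * ext hL.le (o.G0 y) x :=
    intervalIntegral.integral_congr fun x _ => by ring
  rw [h2, h1]
  set N : ℝ := ‖s • y + o.K (o.G0 y)‖ with hN
  have hκ0 : 0 < κ := by
    by_contra hk
    nlinarith [mul_nonpos_of_nonpos_of_nonneg (not_lt.1 hk) hL.le]
  have hc : ContinuousOn (fun x => x ^ 9 * ph κ x ^ 2 * ext hL.le (o.K (o.G0 y)) x * ext hL.le y x)
      (Icc 0 L) := by
    have : Continuous fun x : ℝ => x ^ 9 * ph κ x ^ 2 := by unfold ph; fun_prop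
    exact (this.continuousOn.mul (o.vol (o.G0 y)).cZ).mul (o.sp y).c2
  calc _ ≤ ∫ _ in (0 : ℝ)..L, L ^ 11 * (N ^ 2 / (4 * ϵ)) := by
        refine intervalIntegral.integral_mono_on hL.le
          (hc.intervalIntegrable_of_Icc hL.le) intervalIntegrable_const fun x hx => ?_
        have e1 : ext hL.le (s • y + o.K (o.G0 y)) x =
          s * ext hL.le y x + ext hL.le (o.K (o.G0 y)) x := rfl
        have e2 := abs_ext_le hL.le (s • y + o.K (o.G0 y)) x
        rw [e1, ← hN] at e2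
        set a := ext hL.le y x
        set v := ext hL.le (o.K (o.G0 y)) x
        have e3 : (s * a + v) ^ 2 ≤ N ^ 2 := by
          rw [← sq_abs]
          exact pow_le_pow_left₀ (abs_nonneg _) e2 2
        have e4 : v * a ≤ N ^ 2 / (4 * ϵ) := by
          rw [le_div_iff₀ (by positivity)]
          have hs0 : 0 < s := hϵ.trans_le hs
          by_cases hva : v * a ≤ 0
          · nlinarith [sq_nonneg N, mul_nonneg (neg_nonneg.2 hva) hϵ.le]
          · have := mul_le_mul_of_nonneg_left hs (not_le.1 hva).le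
            nlinarith [sq_nonneg (s * a - v)]
        have e5 : 0 ≤ ph κ x := mul_nonneg hx.1 (by nlinarith [hx.2])
        have e6 : ph κ x ≤ L := by
          unfold ph
          nlinarith [hx.1, hx.2, mul_nonneg hx.1 (mul_nonneg hκ0.le hx.1)]
        have e7 : x ^ 9 * ph κ x ^ 2 ≤ L ^ 11 := by
          calc _ ≤ L ^ 9 * L ^ 2 := mul_le_mul (pow_le_pow_left₀ hx.1 hx.2 9)
                (pow_le_pow_left₀ e5 e6 2) (by positivity) (by positivity)
            _ = _ := by ring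
        have e8 : 0 ≤ x ^ 9 * ph κ x ^ 2 := by have := hx.1; positivity
        calc _ = x ^ 9 * ph κ x ^ 2 * (v * a) := by ring
          _ ≤ x ^ 9 * ph κ x ^ 2 * (N ^ 2 / (4 * ϵ)) := mul_le_mul_of_nonneg_left e4 e8
          _ ≤ _ := mul_le_mul_of_nonneg_right e7 (by positivity)
    _ = _ := by
        rw [intervalIntegral.integral_const, smul_eq_mul]
        ring

theorem apriori {κ L ϵ : ℝ} (hL : 0 < L) (hκ : κ * L = 1) (o : Ops κ L hL.le) (hϵ : 0 < ϵ) :
    ∃ C : ℝ, ∀ s, ϵ ≤ s → ∀ y : CL L, ‖y‖ ≤ C * ‖s • y + o.K (o.G0 y)‖ := by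
  have hB : (1 : ℝ) ≤ 1 + 1 / ϵ := le_add_of_nonneg_right (by positivity)
  obtain ⟨C, hC, h⟩ := chain_glob 0 (1 + 1 / ϵ) κ L hB hL hκ
  set c : ℝ := 1 + L ^ 12 / (4 * ϵ) with hc
  have hc1 : 1 ≤ c := le_add_of_nonneg_right (by positivity)
  refine ⟨C * c, fun s hs y => ?_⟩
  set N : ℝ := ‖s • y + o.K (o.G0 y)‖ with hN
  have hN0 : 0 ≤ N := norm_nonneg _
  have hM : 0 ≤ c * N := by positivity
  have h1 := h Unit (c * N) (fun _ _ => ext hL.le (o.G0 y)) (fun _ _ => ext hL.le (o.G1 y))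
    (fun _ _ => ext hL.le y) (fun _ _ x => o.α (o.G0 y) + o.β (o.G0 y) * x)
    (fun _ _ => ext hL.le (o.K (o.G0 y))) hM (fun _ _ => o.sp y) (fun _ _ => by fun_prop)
    (fun _ _ => o.vol (o.G0 y))
    (fun _ _ _ => (energy hL hκ o hϵ hs y).trans (by
      rw [mul_pow]
      refine mul_le_mul_of_nonneg_right ?_ (by positivity)
      nlinarith))
    (fun _ _ _ x _ => by simpa [(o.mom y).1, (o.mom y).2] using hM)
    (fun j _ x _ A hA hV _ => by
      have e1 : ext hL.le (s • y + o.K (o.G0 y)) x =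
        s * ext hL.le y x + ext hL.le (o.K (o.G0 y)) x := rfl
      have e2 := abs_ext_le hL.le (s • y + o.K (o.G0 y)) x
      rw [e1, ← hN] at e2
      have e3 := hV () 0 (Nat.zero_le _)
      have e4 : ϵ * |ext hL.le y x| ≤ A + c * N := by
        calc _ ≤ |s * ext hL.le y x| := by
              rw [abs_mul, abs_of_pos (hϵ.trans_le hs)]
              exact mul_le_mul_of_nonneg_right hs (abs_nonneg _)
          _ = |(s * ext hL.le y x + ext hL.le (o.K (o.G0 y)) x) - ext hL.le (o.K (o.G0 y)) x| := by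
              rw [add_sub_cancel_right]
          _ ≤ N + A := (abs_sub _ _).trans (add_le_add e2 e3)
          _ ≤ _ := by nlinarith
      calc _ ≤ 1 / ϵ * (A + c * N) := by
            rw [one_div, ← div_eq_inv_mul, le_div_iff₀ hϵ, mul_comm]
            exact e4
        _ ≤ _ := mul_le_mul_of_nonneg_right (by linarith) (by positivity))
  rw [mul_assoc]
  refine (ContinuousMap.norm_le _ (by positivity)).2 fun x => ?_
  have h2 := (h1 () 0 le_rfl x x.2).2.2.1
  rwa [ext, IccExtend_val] at h2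

end C2A
end Crest.Agent.R213
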