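import Crest.Agent.R213.C1
import Crest.Agent.R213.PTg
import Crest.Agent.R213.D1
import Crest.Agent.R213.C2A

/-!
# Row 213: the resolvent of the regularised problem
-/

set_option autoImplicit false

noncomputable section

namespace Crest.Agent.R213

open Set Filter Topology
open scoped ContDiff

/-- Method of continuity in the spectral parameter. -/
theorem invertible_of_apriori {X : Type} [NormedAddCommGroup X] [NormedSpace ℝ X] [CompleteSpace X]
    (A : X →L[ℝ] X) {ϵ C : ℝ} (h : ∀ s, ϵ ≤ s → ∀ y, ‖y‖ ≤ C * ‖s • y + A y‖) :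
    ∃ B : X →L[ℝ] X, (∀ y, B (ϵ • y + A y) = y) ∧ ∀ z, ϵ • B z + A (B z) = z :=
  C2A.invertible A h

theorem exists_resolvent {κ L ϵ : ℝ} (hL : 0 < L) (hκ : κ * L = 1) (o : Ops κ L hL.le)
    (hϵ : 0 < ϵ) : ∃ B : CL L →L[ℝ] CL L, ∀ z, ϵ • B z + o.K (o.G0 (B z)) = z := by
  obtain ⟨C, hC⟩ := C2A.apriori hL hκ o hϵ
  obtain ⟨B, -, hB⟩ := invertible_of_apriori (o.K.comp o.G0) hC
  exact ⟨B, hB⟩

end Crest.Agent.R213
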