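import Crest.Agent.R213.C2
import Crest.Agent.R213.SysB

/-!
# Row 213: solutions of the regularised problem (proofs)
-/

set_option autoImplicit false

noncomputable section

namespace Crest.Agent.R213.C3A

open Set Filter Topology
open scoped ContDiff

/-- Global solutions of globally Lipschitz equations on a compact interval: cut off the field
outside the Gronwall ball. -/
theorem exists_ode {X : Type} [NormedAddCommGroup X] [NormedSpace ℝ X] [CompleteSpace X]
    (V : ℝ → X → X) {a b : ℝ} (K : NNReal)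
    (hc : ∀ y, ContinuousOn (fun t => V t y) (Icc a b))
    (hl : ∀ t ∈ Icc a b, LipschitzWith K (V t)) (y0 : X) :
    ∃ y : ℝ → X, y a = y0 ∧ ∀ t ∈ Icc a b, HasDerivWithinAt y (V t (y t)) (Icc a b) t := by
  rcases lt_or_ge b a with hab | hab
  · exact ⟨fun _ => y0, rfl, fun t ht => absurd (ht.1.trans ht.2) (not_le.2 hab)⟩
  have hs : a ∈ Icc a b := left_mem_Icc.2 hab
  obtain ⟨M, hM⟩ := isCompact_Icc.exists_bound_of_continuousOn (hc 0)
  have hM0 : 0 ≤ M := (norm_nonneg _).trans (hM a hs)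
  have hK0 : (0 : ℝ) ≤ K := K.2
  have hab' : 0 ≤ b - a := sub_nonneg.2 hab
  set R : ℝ := |gronwallBound ‖y0‖ K M (b - a)| with hR
  have hR0 : 0 ≤ R := abs_nonneg _
  let c : X → ℝ := fun x => max 0 (min 1 (R + 1 - ‖x‖))
  have c0 : ∀ x, 0 ≤ c x := fun x => le_max_left _ _
  have c1 : ∀ x, c x ≤ 1 := fun x => max_le zero_le_one (min_le_left _ _)
  have cl : ∀ x y, |c x - c y| ≤ ‖x - y‖ := fun x y => by
    refine (abs_max_sub_max_le_max _ _ _ _).trans (max_le (by simp) ?_)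
    refine (abs_min_sub_min_le_max _ _ _ _).trans (max_le (by simp) ?_)
    have := abs_norm_sub_norm_le y x
    rw [norm_sub_rev] at this
    rwa [show R + 1 - ‖x‖ - (R + 1 - ‖y‖) = ‖y‖ - ‖x‖ by ring]
  have cb : ∀ x, c x * ‖x‖ ≤ R + 1 := fun x => by
    rcases le_total ‖x‖ (R + 1) with h | h
    · nlinarith [c0 x, c1 x, norm_nonneg x]
    · have : c x = 0 := max_eq_left ((min_le_right _ _).trans (by linarith))
      rw [this]; linarith
  have hd : ∀ t ∈ Icc a b, ∀ x y, ‖V t x - V t y‖ ≤ K * ‖x - y‖ := fun t ht x y => by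
    simpa only [dist_eq_norm] using (hl t ht).dist_le_mul x y
  have hV : ∀ t ∈ Icc a b, ∀ x, ‖V t x‖ ≤ K * ‖x‖ + M := fun t ht x => by
    have h1 := hd t ht x 0
    rw [sub_zero] at h1
    linarith [norm_le_insert' (V t x) (V t 0), hM t ht]
  have hL0 : 0 ≤ K * (R + 1) + M := by positivity
  have ha0 : 0 ≤ (K * (R + 1) + M) * (b - a) := by positivity
  have hK1 : 0 ≤ (K * (‖y0‖ + (K * (R + 1) + M) * (b - a)) + M) + K := by positivity
  have hpl : IsPicardLindelof (fun t x => c x • V t x) (⟨a, hs⟩ : Icc a b) y0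
      ⟨_, ha0⟩ 0 ⟨_, hL0⟩ ⟨_, hK1⟩ := by
    refine ⟨fun t ht => LipschitzOnWith.of_dist_le_mul fun x hx y _ => ?_, fun x _ => ?_,
      fun t ht x _ => ?_, ?_⟩
    · rw [dist_eq_norm, dist_eq_norm]
      have hx' : ‖x‖ ≤ ‖y0‖ + (K * (R + 1) + M) * (b - a) := by
        have h1 : ‖x - y0‖ ≤ (K * (R + 1) + M) * (b - a) := mem_closedBall_iff_norm.1 hx
        linarith [norm_le_insert' x y0]
      have e : c x • V t x - c y • V t y = (c x - c y) • V t x + c y • (V t x - V t y) := by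
        rw [sub_smul, smul_sub]; abel
      rw [e]
      refine (norm_add_le _ _).trans ?_
      rw [norm_smul, norm_smul, Real.norm_eq_abs, Real.norm_eq_abs, abs_of_nonneg (c0 y)]
      have h1 : |c x - c y| * ‖V t x‖ ≤
          ‖x - y‖ * (K * (‖y0‖ + (K * (R + 1) + M) * (b - a)) + M) :=
        mul_le_mul (cl x y) ((hV t ht x).trans
          (by linarith [mul_le_mul_of_nonneg_left hx' hK0])) (norm_nonneg _) (norm_nonneg _)
      have h2 : c y * ‖V t x - V t y‖ ≤ 1 * (K * ‖x - y‖) :=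
        mul_le_mul (c1 y) (hd t ht _ _) (norm_nonneg _) zero_le_one
      change _ ≤ ((K * (‖y0‖ + (K * (R + 1) + M) * (b - a)) + M) + K) * ‖x - y‖
      linarith
    · exact (hc x).const_smul (c x)
    · rw [norm_smul, Real.norm_eq_abs, abs_of_nonneg (c0 x)]
      change _ ≤ K * (R + 1) + M
      have h1 := mul_le_mul_of_nonneg_left (hV t ht x) (c0 x)
      have h2 := mul_le_mul_of_nonneg_left (cb x) hK0
      have h3 := mul_le_mul_of_nonneg_right (c1 x) hM0
      linarith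
    · change (K * (R + 1) + M) * max (b - a) (a - a) ≤ (K * (R + 1) + M) * (b - a) - 0
      rw [sub_zero, sub_self, max_eq_left hab']
  obtain ⟨x, hx0, hx⟩ := hpl.exists_eq_forall_mem_Icc_hasDerivWithinAt₀
  have hx0' : x a = y0 := hx0
  have hb := norm_le_gronwallBound_of_norm_deriv_right_le (f := x)
    (f' := fun t => c (x t) • V t (x t)) (a := a) (b := b) (K := K) (ε := M) (δ := ‖y0‖)
    (fun t ht => (hx t ht).continuousWithinAt)
    (fun t ht => (hx t (Ico_subset_Icc_self ht)).mono_of_mem_nhdsWithin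
      (mem_of_superset (Icc_mem_nhdsGE ht.2) (Icc_subset_Icc_left ht.1)))
    (by rw [hx0']) (fun t ht => by
      rw [norm_smul, Real.norm_eq_abs, abs_of_nonneg (c0 _)]
      calc c (x t) * ‖V t (x t)‖ ≤ 1 * (K * ‖x t‖ + M) :=
            mul_le_mul (c1 _) (hV t (Ico_subset_Icc_self ht) _) (norm_nonneg _) zero_le_one
        _ = _ := one_mul _)
  refine ⟨x, hx0', fun t ht => ?_⟩
  have h0 : ‖x t‖ ≤ R := ((hb t ht).trans
    (gronwallBound_mono (norm_nonneg _) hM0 hK0 (by linarith [ht.2]))).trans (le_abs_self _)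
  have h1 : c (x t) = 1 := by
    have h2 : min 1 (R + 1 - ‖x t‖) = 1 := min_eq_left (by linarith)
    simp only [c, h2]; exact max_eq_right zero_le_one
  simpa [h1] using hx t ht

/-- The scalar nonlinearity is globally Lipschitz. -/
theorem lip_scalar {c : ℝ} (hc : 0 < c) (hc1 : c < 1) (m s s' : ℝ) :
    |s / max (1 + m * s) c - s' / max (1 + m * s') c| ≤ 3 / c ^ 2 * |s - s'| := by
  have key : ∀ s s' : ℝ, c ≤ 1 + m * s' →
      |s / max (1 + m * s) c - s' / max (1 + m * s') c| ≤ 3 / c ^ 2 * |s - s'| := by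
    intro s s' h
    have h1 : |max (1 + m * s) c - max (1 + m * s') c| ≤ |m| * |s - s'| := by
      refine (abs_max_sub_max_le_abs _ _ _).trans_eq ?_
      rw [← abs_mul]; congr 1; ring
    rw [max_eq_left h] at h1 ⊢
    have hM : c ≤ max (1 + m * s) c := le_max_right _ _
    generalize max (1 + m * s) c = M at h1 hM
    have hM0 : 0 < M := hc.trans_le hM
    have h2 : |m * s'| ≤ (1 + m * s') + 1 := abs_le.2 ⟨by linarith, by linarith⟩
    generalize hM' : 1 + m * s' = M' at h h1 h2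
    have hM0' : 0 < M' := hc.trans_le h
    have e : s / M - s' / M' = ((s - s') * M' - s' * (M - M')) / (M * M') := by
      field_simp; ring
    rw [e, abs_div, abs_of_pos (mul_pos hM0 hM0'), div_le_iff₀ (mul_pos hM0 hM0')]
    have h3 : |(s - s') * M' - s' * (M - M')| ≤ |s - s'| * (2 * M' + 1) := by
      refine (abs_sub _ _).trans ?_
      rw [abs_mul, abs_mul, abs_of_pos hM0']
      have h4 := mul_le_mul_of_nonneg_left h1 (abs_nonneg s')
      have h5 := mul_le_mul_of_nonneg_right h2 (abs_nonneg (s - s'))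
      rw [abs_mul] at h5
      linarith
    refine h3.trans ?_
    rw [mul_comm (3 / c ^ 2), mul_assoc]
    refine mul_le_mul_of_nonneg_left ?_ (abs_nonneg _)
    rw [div_mul_eq_mul_div, le_div_iff₀ (by positivity)]
    have h6 : c * c ≤ M * M' := mul_le_mul hM h hc.le hM0.le
    have h7 : c * M' ≤ M * M' := mul_le_mul_of_nonneg_right hM hM0'.le
    have h8 : c * M' * c ≤ c * M' * 1 := mul_le_mul_of_nonneg_left hc1.le (by positivity)
    nlinarith
  rcases le_total c (1 + m * s') with h | h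
  · exact key s s' h
  rcases le_total c (1 + m * s) with h' | h'
  · rw [abs_sub_comm, abs_sub_comm s]; exact key s' s h'
  rw [max_eq_right h, max_eq_right h', ← sub_div, abs_div, abs_of_pos hc, div_eq_mul_inv, mul_comm]
  refine mul_le_mul_of_nonneg_right ?_ (abs_nonneg _)
  rw [inv_eq_one_div, div_le_div_iff₀ hc (by positivity)]
  nlinarith

section abstract

variable {Ω : Type} [TopologicalSpace Ω] [CompactSpace Ω]

/-- The truncated nonlinearity. -/
def N {c : ℝ} (hc : 0 < c) (m Y : C(Ω, ℝ)) : C(Ω, ℝ) :=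
  ⟨fun x => Y x / max (1 + m x * Y x) c, Y.continuous.div
    ((continuous_const.add (m.continuous.mul Y.continuous)).max continuous_const)
    fun _ => (hc.trans_le (le_max_right _ _)).ne'⟩

omit [CompactSpace Ω] in
theorem N_apply {c : ℝ} (hc : 0 < c) (m Y : C(Ω, ℝ)) (x : Ω) :
    N hc m Y x = Y x / max (1 + m x * Y x) c := rfl

omit [CompactSpace Ω] in
theorem N_zero {c : ℝ} (hc : 0 < c) (m : C(Ω, ℝ)) : N hc m 0 = 0 := by
  ext x; simp [N_apply]

theorem N_lip {c : ℝ} (hc : 0 < c) (hc1 : c < 1) (m Y Y' : C(Ω, ℝ)) :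
    ‖N hc m Y - N hc m Y'‖ ≤ 3 / c ^ 2 * ‖Y - Y'‖ := by
  refine (ContinuousMap.norm_le _ (by positivity)).2 fun x => ?_
  refine (lip_scalar hc hc1 (m x) (Y x) (Y' x)).trans ?_
  exact mul_le_mul_of_nonneg_left ((Y - Y').norm_coe_le_norm x) (by positivity)

omit [CompactSpace Ω] in
theorem N_cont [LocallyCompactSpace Ω] {c : ℝ} (hc : 0 < c) :
    Continuous fun q : C(Ω, ℝ) × C(Ω, ℝ) => N hc q.1 q.2 := by
  refine ContinuousMap.continuous_of_continuous_uncurry _ ?_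
  have h1 : Continuous fun q : (C(Ω, ℝ) × C(Ω, ℝ)) × Ω => q.1.1 q.2 := by fun_prop
  have h2 : Continuous fun q : (C(Ω, ℝ) × C(Ω, ℝ)) × Ω => q.1.2 q.2 := by fun_prop
  exact h2.div ((continuous_const.add (h1.mul h2)).max continuous_const)
    fun _ => (hc.trans_le (le_max_right _ _)).ne'

omit [CompactSpace Ω] in
theorem N_eq {c : ℝ} (hc : 0 < c) {m Y : C(Ω, ℝ)} (h : ∀ x, c < 1 + m x * Y x) :
    IsUnit (1 + m * Y) ∧ N hc m Y = Y * Ring.inverse (1 + m * Y) := by
  have hu : IsUnit (1 + m * Y) :=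
    (ContinuousMap.isUnit_iff_forall_ne_zero _).2 fun x => (hc.trans (h x)).ne'
  refine ⟨hu, ?_⟩
  ext x
  have h1 : (1 + m x * Y x) * Ring.inverse (1 + m * Y) x = 1 :=
    congrArg (fun f : C(Ω, ℝ) => f x) (Ring.mul_inverse_cancel _ hu)
  rw [N_apply, max_eq_left (h x).le, ContinuousMap.mul_apply, div_eq_mul_inv,
    eq_inv_of_mul_eq_one_right h1]

/-- Extension of a solution by zero to the past. -/
theorem exists_sol {X : Type} [NormedAddCommGroup X] [NormedSpace ℝ X] [CompleteSpace X]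
    (V : ℝ → X → X) {a b : ℝ} (hab : a < b) (K : NNReal)
    (hc : ∀ y, ContinuousOn (fun t => V t y) (Icc a b))
    (hl : ∀ t ∈ Icc a b, LipschitzWith K (V t)) (h0 : ∀ t ≤ a, V t 0 = 0) :
    ∃ y : ℝ → X, (∀ t ≤ a, y t = 0) ∧ ContinuousOn y (Icc a b) ∧
      ∀ t < b, HasDerivAt y (V t (y t)) t := by
  obtain ⟨y, hy0, hy⟩ := exists_ode V K hc hl 0
  have e1 : ∀ t ≤ a, y (max t a) = 0 := fun t ht => by rw [max_eq_right ht, hy0]
  refine ⟨fun t => y (max t a), e1, ?_, fun t ht => ?_⟩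
  · exact ContinuousOn.congr (fun t ht => (hy t ht).continuousWithinAt)
      fun t ht => by rw [max_eq_left ht.1]
  beta_reduce
  rcases lt_trichotomy t a with h | rfl | h
  · rw [e1 t h.le, h0 t h.le]
    refine (hasDerivAt_const t (0 : X)).congr_of_eventuallyEq ?_
    filter_upwards [Iic_mem_nhds h] with s hs using e1 s hs
  · rw [e1 t le_rfl]
    have h1 : HasDerivWithinAt (fun s => y (max s t)) (V t 0) (Iic t) t := by
      rw [h0 t le_rfl]
      exact (hasDerivWithinAt_const t _ (0 : X)).congr (fun s hs => e1 s hs) (e1 t le_rfl)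
    have h2 : HasDerivWithinAt (fun s => y (max s t)) (V t 0) (Ici t) t := by
      have h3 := (hy t (left_mem_Icc.2 hab.le)).mono_of_mem_nhdsWithin (Icc_mem_nhdsGE hab)
      rw [hy0] at h3
      exact h3.congr (fun s hs => by rw [max_eq_left hs]) (by rw [max_self])
    have h4 := h1.union h2
    rwa [Iic_union_Ici, hasDerivWithinAt_univ] at h4
  · rw [max_eq_left h.le]
    refine ((hy t ⟨h.le, ht.le⟩).hasDerivAt (Icc_mem_nhds h ht)).congr_of_eventuallyEq ?_
    filter_upwards [Ici_mem_nhds h] with s hs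
    rw [max_eq_left hs]

/-- The first time at which a curve of functions reaches the level `c`. -/
theorem exists_time {W : ℝ → C(Ω, ℝ)} {a b c : ℝ} (hab : a < b)
    (hW : ContinuousOn W (Icc a b)) (h0 : ∀ t ≤ a, ∀ x, c < W t x) :
    ∃ T, a < T ∧ T ≤ b ∧ (∀ t < T, ∀ x, c < W t x) ∧
      (T < b → ∀ c', c < c' → ∃ t < T, ∃ x, W t x < c') := by
  have hU : IsOpen {f : C(Ω, ℝ) | MapsTo f univ (Ioi c)} :=
    ContinuousMap.isOpen_setOfPred_mapsTo isCompact_univ isOpen_Ioi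
  set S : Set ℝ := (Icc a b ∩ W ⁻¹' {f : C(Ω, ℝ) | MapsTo f univ (Ioi c)}ᶜ) ∪ {b} with hS
  have hcl : IsClosed S :=
    (hW.preimage_isClosed_of_isClosed isClosed_Icc hU.isClosed_compl).union isClosed_singleton
  have hbd : ∀ t ∈ S, a ≤ t := by
    rintro t (ht | ht)
    · exact ht.1.1
    · exact ht ▸ hab.le
  have hb : b ∈ S := Or.inr rfl
  have hT : sInf S ∈ S := hcl.csInf_mem ⟨b, hb⟩ ⟨a, hbd⟩
  have hle : ∀ t ∈ S, sInf S ≤ t := fun t ht => csInf_le ⟨a, hbd⟩ ht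
  have ha : a < sInf S := by
    refine lt_of_le_of_ne (hbd _ hT) fun h => ?_
    rw [← h] at hT
    rcases hT with hT | hT
    · exact hT.2 fun x _ => h0 a le_rfl x
    · exact hab.ne hT
  refine ⟨sInf S, ha, hle b hb, fun t ht x => ?_, fun hlt c' hc' => ?_⟩
  · rcases le_total t a with h | h
    · exact h0 t h x
    · by_contra hx
      exact (hle t (Or.inl ⟨⟨h, ht.le.trans (hle b hb)⟩, fun hm => hx (hm (mem_univ x))⟩)).not_gt ht
  · rcases hT with hT | hT
    · obtain ⟨x, hx⟩ : ∃ x, W (sInf S) x ≤ c := by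
        by_contra hn
        push Not at hn
        exact hT.2 fun x _ => hn x
      have h1 : ContinuousAt (fun t => W t x) (sInf S) :=
        (continuous_eval_const x).continuousAt.comp
          (hW.continuousAt (Icc_mem_nhds ha hlt))
      have h2 : ∀ᶠ t in 𝓝[<] (sInf S), W t x < c' :=
        nhdsWithin_le_nhds (h1.eventually (gt_mem_nhds (hx.trans_lt hc')))
      obtain ⟨t, ht1, ht2⟩ := (h2.and self_mem_nhdsWithin).exists
      exact ⟨t, ht2, x, ht1⟩
    · exact absurd hT hlt.ne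

/-- The abstract form of the regularised problem. -/
theorem exists_curve [LocallyCompactSpace Ω] (B : C(Ω, ℝ) →L[ℝ] C(Ω, ℝ)) (p : C(Ω, ℝ))
    {g dd h : ℝ → C(Ω, ℝ)} {b t0 T2 c : ℝ} (hc : 0 < c) (hc1 : c < 1) (h02 : t0 < T2)
    (h2 : T2 < b) (hg : ContDiffOn ℝ ∞ g (Iio b)) (hd : ContDiffOn ℝ ∞ dd (Iio b))
    (hh : ContDiffOn ℝ ∞ h (Iio b)) (h0 : ∀ t ≤ t0, dd t = 0 ∧ h t = 0) :
    ∃ (T1 : ℝ) (y z : ℝ → C(Ω, ℝ)), t0 < T1 ∧ T1 ≤ T2 ∧ ContDiffOn ℝ ∞ y (Iio T1) ∧
      ContDiffOn ℝ ∞ z (Iio T1) ∧ (∀ t ≤ t0, y t = 0) ∧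
      (∀ t < T1, HasDerivAt y (B (z t + h t)) t) ∧
      (∀ t < T1, ∀ x, c < 1 + p x * g t x * (y t x + dd t x) ∧
        z t x = -(g t x ^ 2 * ((y t x + dd t x) / (1 + p x * g t x * (y t x + dd t x))))) ∧
      (T1 < T2 → ∀ c', c < c' → ∃ t < T1, ∃ x, 1 + p x * g t x * (y t x + dd t x) < c') := by
  have hsub : Icc t0 T2 ⊆ Iio b := fun t ht => ht.2.trans_lt h2
  have cg := hg.continuousOn.mono hsub
  have cd := hd.continuousOn.mono hsub
  have ch := hh.continuousOn.mono hsub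
  obtain ⟨M, hM⟩ := isCompact_Icc.exists_bound_of_continuousOn cg
  have hM0 : 0 ≤ M := (norm_nonneg _).trans (hM t0 (left_mem_Icc.2 h02.le))
  let Z : ℝ → C(Ω, ℝ) → C(Ω, ℝ) := fun t y => -(g t * g t * N hc (p * g t) (y + dd t))
  have hK : 0 ≤ ‖B‖ * (M * M * (3 / c ^ 2)) := by positivity
  obtain ⟨y, hy0, hyc, hy⟩ := exists_sol (fun t y => B (Z t y + h t)) h02 ⟨_, hK⟩
    (fun y => B.continuous.comp_continuousOn (((cg.mul cg).mul ((N_cont hc).comp_continuousOn
      ((continuousOn_const.mul cg).prodMk (continuousOn_const.add cd)))).neg.add ch))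
    (fun t ht => LipschitzWith.of_dist_le_mul fun y y' => by
      rw [dist_eq_norm, dist_eq_norm, ← map_sub]
      refine (B.le_opNorm _).trans ?_
      change _ ≤ ‖B‖ * (M * M * (3 / c ^ 2)) * ‖y - y'‖
      rw [mul_assoc ‖B‖]
      refine mul_le_mul_of_nonneg_left ?_ (norm_nonneg _)
      have e : Z t y + h t - (Z t y' + h t) =
          -(g t * g t * (N hc (p * g t) (y + dd t) - N hc (p * g t) (y' + dd t))) := by
        simp only [Z]; ring
      have h1 := N_lip hc hc1 (p * g t) (y + dd t) (y' + dd t)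
      rw [add_sub_add_right_eq_sub] at h1
      rw [e, norm_neg, mul_assoc (M * M)]
      refine (norm_mul_le _ _).trans (mul_le_mul ((norm_mul_le _ _).trans ?_) h1 (norm_nonneg _)
        (by positivity))
      exact mul_le_mul (hM t ht) (hM t ht) (norm_nonneg _) hM0)
    (fun t ht => by simp only [Z, (h0 t ht).1, (h0 t ht).2, add_zero, N_zero, mul_zero, neg_zero,
      map_zero])
  obtain ⟨T1, hT0, hT2, hT, hT'⟩ := exists_time (W := fun t => 1 + p * g t * (y t + dd t)) (c := c)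
    h02 (continuousOn_const.add ((continuousOn_const.mul cg).mul (hyc.add cd)))
    (fun t ht x => by simpa [hy0 t ht, (h0 t ht).1] using hc1)
  have hsub' : Iio T1 ⊆ Iio b := Iio_subset_Iio (hT2.trans h2.le)
  have hy' : ∀ t < T1, HasDerivAt y (B (Z t (y t) + h t)) t := fun t ht => hy t (ht.trans_le hT2)
  have hZ : ∀ n : ℕ, ContDiffOn ℝ n y (Iio T1) → ContDiffOn ℝ n (fun t => Z t (y t)) (Iio T1) := by
    intro n hn
    have g' : ContDiffOn ℝ n g (Iio T1) := (hg.mono hsub').of_le (by exact_mod_cast le_top)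
    have d' : ContDiffOn ℝ n dd (Iio T1) := (hd.mono hsub').of_le (by exact_mod_cast le_top)
    have w' : ContDiffOn ℝ n (fun t => 1 + p * g t * (y t + dd t)) (Iio T1) :=
      contDiffOn_const.add ((contDiffOn_const.mul g').mul (hn.add d'))
    have i' : ContDiffOn ℝ n (fun t => Ring.inverse (1 + p * g t * (y t + dd t))) (Iio T1) := by
      intro t ht
      obtain ⟨u, hu⟩ := (N_eq hc (hT t ht)).1
      refine ContDiffAt.comp_contDiffWithinAt (g := Ring.inverse) t ?_ (w' t ht)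
      rw [← hu]
      exact contDiffAt_ringInverse ℝ u
    refine (((g'.mul g').mul ((hn.add d').mul i')).neg).congr fun t ht => ?_
    simp only [Z, (N_eq hc (hT t ht)).2]
  have hyn : ∀ n : ℕ, ContDiffOn ℝ n y (Iio T1) := by
    intro n
    induction n with
    | zero =>
      exact contDiffOn_zero.2 fun t ht => (hy' t ht).continuousAt.continuousWithinAt
    | succ n ih =>
      rw [Nat.cast_succ, contDiffOn_succ_iff_deriv_of_isOpen isOpen_Iio]
      refine ⟨fun t ht => (hy' t ht).differentiableAt.differentiableWithinAt, by simp, ?_⟩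
      have h' : ContDiffOn ℝ n h (Iio T1) := (hh.mono hsub').of_le (by exact_mod_cast le_top)
      exact (B.contDiff.comp_contDiffOn ((hZ n ih).add h')).congr fun t ht => (hy' t ht).deriv
  refine ⟨T1, y, fun t => Z t (y t), hT0, hT2, contDiffOn_infty.2 hyn,
    contDiffOn_infty.2 fun n => hZ n (hyn n), hy0, hy', fun t ht x => ⟨hT t ht x, ?_⟩, hT'⟩
  have h1 : c ≤ 1 + p x * g t x * (y t x + dd t x) := (hT t ht x).le
  simp only [Z, ContinuousMap.neg_apply, ContinuousMap.mul_apply, N_apply, ContinuousMap.add_apply,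
    max_eq_left h1, sq]

end abstract

/-- Primitives of smooth curves. -/
theorem exists_prim {X : Type} [NormedAddCommGroup X] [NormedSpace ℝ X] [CompleteSpace X]
    {f : ℝ → X} {a b : ℝ} (hab : a < b) (hf : ContDiffOn ℝ ∞ f (Iio b)) (h0 : ∀ t ≤ a, f t = 0) :
    ∃ E : ℝ → X, ContDiffOn ℝ ∞ E (Iio b) ∧ (∀ t < b, HasDerivAt E (f t) t) ∧ ∀ t ≤ a, E t = 0 := by
  have hE : ∀ t < b, HasDerivAt (fun t => ∫ s in a..t, f s) (f t) t := fun t ht =>
    intervalIntegral.integral_hasDerivAt_right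
      (hf.continuousOn.mono (ordConnected_Iio.uIcc_subset hab ht)).intervalIntegrable
      (hf.continuousOn.stronglyMeasurableAtFilter isOpen_Iio t ht)
      (hf.continuousOn.continuousAt (Iio_mem_nhds ht))
  refine ⟨_, ?_, hE, fun t ht => ?_⟩
  · rw [contDiffOn_infty_iff_deriv_of_isOpen isOpen_Iio]
    exact ⟨fun t ht => (hE t ht).differentiableAt.differentiableWithinAt,
      hf.congr fun t ht => (hE t ht).deriv⟩
  · rw [intervalIntegral.integral_congr (g := fun _ => 0) fun s hs => h0 s ?_,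
      intervalIntegral.integral_zero]
    rw [uIcc_of_ge ht] at hs
    exact hs.2

theorem ext_mem {L x : ℝ} (hL : 0 ≤ L) (y : CL L) (hx : x ∈ Icc 0 L) : ext hL y x = y ⟨x, hx⟩ :=
  IccExtend_of_mem hL y hx

theorem exists_reg {κ ε ϵ b t0 T2 c : ℝ} {γ d e : Fn} (hκ : 0 < κ) (hϵ : 0 < ϵ) (hc : 0 < c)
    (hc1 : c < 1) (h02 : t0 < T2) (h2 : T2 < b) (hγ : TS (Iio b) (dom κ) γ)
    (hd : TS (Iio b) (dom κ) d) (he : TS (Iio b) (dom κ) e)
    (hp : ∀ t < b, ∀ x ∈ dom κ, 0 < γ t x) (h0 : ∀ t ≤ t0, ∀ x ∈ dom κ, d t x = 0 ∧ e t x = 0) :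
    ∃ T1 F F1 F2 ζ, t0 < T1 ∧ T1 ≤ T2 ∧ Sys κ ε ϵ (Iio T1) γ d e F F1 F2 ζ ∧ Zero κ t0 T1 F ∧
      (T1 < T2 → ∀ c', c < c' → ∃ t < T1, ∃ x ∈ dom κ,
        1 + ε * ph κ x * γ t x * (F2 t x + d t x) < c') := by
  obtain ⟨L, hL, hκL⟩ : ∃ L : ℝ, 0 < L ∧ κ * L = 1 := ⟨κ⁻¹, inv_pos.2 hκ, mul_inv_cancel₀ hκ.ne'⟩
  have hD : dom κ = Icc 0 L := dom_eq_Icc hL hκL
  obtain ⟨o⟩ := exists_ops hL hκL
  obtain ⟨B, hB⟩ := exists_resolvent hL hκL o hϵ
  obtain ⟨g, hg, hg'⟩ := TS.curve hL.le isOpen_Iio (hD ▸ hγ)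
  obtain ⟨dd, hdd, hdd'⟩ := TS.curve hL.le isOpen_Iio (hD ▸ hd)
  obtain ⟨ee, hee, hee'⟩ := TS.curve hL.le isOpen_Iio (hD ▸ he)
  have eg : ∀ t < b, ∀ x (hx : x ∈ Icc 0 L), g t ⟨x, hx⟩ = γ t x := fun t ht x hx =>
    (ext_mem hL.le _ hx).symm.trans (hg' t ht x hx)
  have ed : ∀ t < b, ∀ x (hx : x ∈ Icc 0 L), dd t ⟨x, hx⟩ = d t x := fun t ht x hx =>
    (ext_mem hL.le _ hx).symm.trans (hdd' t ht x hx)
  have ee' : ∀ t < b, ∀ x (hx : x ∈ Icc 0 L), ee t ⟨x, hx⟩ = e t x := fun t ht x hx =>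
    (ext_mem hL.le _ hx).symm.trans (hee' t ht x hx)
  have h0b : t0 < b := h02.trans h2
  have d0 : ∀ t ≤ t0, dd t = 0 := fun t ht => ContinuousMap.ext fun x =>
    (ed t (ht.trans_lt h0b) x.1 x.2).trans (h0 t ht x.1 (hD.ge x.2)).1
  have e0 : ∀ t ≤ t0, ee t = 0 := fun t ht => ContinuousMap.ext fun x =>
    (ee' t (ht.trans_lt h0b) x.1 x.2).trans (h0 t ht x.1 (hD.ge x.2)).2
  let p : CL L := ⟨fun x => ε * ph κ x, by unfold ph; fun_prop⟩
  let ι : CL L := ⟨fun x => x, continuous_subtype_val⟩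
  obtain ⟨T1, y, z, hT0, hT2, hy, hz, hy0, hy', hW, hT⟩ := exists_curve B p
    (h := fun t => o.K (ee t)) hc hc1 h02 h2 hg hdd (o.K.contDiff.comp_contDiffOn hee)
    fun t ht => ⟨d0 t ht, by rw [e0 t ht, map_zero]⟩
  obtain ⟨E, hE, hE', hE0⟩ := exists_prim h0b hee e0
  have hTb : T1 ≤ b := hT2.trans h2.le
  have hsub : Iio T1 ⊆ Iio b := Iio_subset_Iio hTb
  have hα : ContDiffOn ℝ ∞ (fun t => o.α (E t)) (Iio T1) :=
    o.α.contDiff.comp_contDiffOn (hE.mono hsub)
  have hβ : ContDiffOn ℝ ∞ (fun t => o.β (E t)) (Iio T1) :=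
    o.β.contDiff.comp_contDiffOn (hE.mono hsub)
  let f0 : ℝ → CL L := fun t => o.G0 (y t) + o.α (E t) • (1 : CL L) + o.β (E t) • ι
  let f1 : ℝ → CL L := fun t => o.G1 (y t) + o.β (E t) • (1 : CL L)
  have hf0 : ContDiffOn ℝ ∞ f0 (Iio T1) :=
    ((o.G0.contDiff.comp_contDiffOn hy).add (hα.smul contDiffOn_const)).add
      (hβ.smul contDiffOn_const)
  have hf1 : ContDiffOn ℝ ∞ f1 (Iio T1) :=
    (o.G1.contDiff.comp_contDiffOn hy).add (hβ.smul contDiffOn_const)
  have hf0' : ∀ t < T1, deriv f0 t =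
      o.G0 (B (z t + o.K (ee t))) + o.α (ee t) • (1 : CL L) + o.β (ee t) • ι := fun t ht =>
    (((o.G0.hasFDerivAt.comp_hasDerivAt t (hy' t ht)).add
      ((o.α.hasFDerivAt.comp_hasDerivAt t (hE' t (hsub ht))).smul_const (1 : CL L))).add
      ((o.β.hasFDerivAt.comp_hasDerivAt t (hE' t (hsub ht))).smul_const ι)).deriv
  obtain ⟨tF, dF⟩ := TS.of_curve hL.le isOpen_Iio hf0
  obtain ⟨tF1, -⟩ := TS.of_curve hL.le isOpen_Iio hf1
  obtain ⟨tF2, dF2⟩ := TS.of_curve hL.le isOpen_Iio hy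
  obtain ⟨tζ, -⟩ := TS.of_curve hL.le isOpen_Iio hz
  have hint : ∀ x, 0 < x → κ * x < 1 → x ∈ Ioo 0 L := fun x h1 h2 =>
    ⟨h1, lt_of_mul_lt_mul_left (h2.trans_eq hκL.symm) hκ.le⟩
  -- the pointwise relation between `z` and `y`
  have hW' : ∀ t < T1, ∀ x ∈ Icc 0 L, c < 1 + ε * ph κ x * γ t x * (ext hL.le (y t) x + d t x) ∧
      ext hL.le (z t) x = -(γ t x ^ 2 * ((ext hL.le (y t) x + d t x) /
        (1 + ε * ph κ x * γ t x * (ext hL.le (y t) x + d t x)))) := fun t ht x hx => by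
    rw [ext_mem hL.le _ hx, ext_mem hL.le _ hx, ← eg t (hsub ht) x hx, ← ed t (hsub ht) x hx]
    exact hW t ht ⟨x, hx⟩
  have hΓ : ∀ t < T1, ∀ x ∈ Icc 0 L, γ t x + ε * ph κ x * ext hL.le (z t) x =
      γ t x / (1 + ε * ph κ x * γ t x * (ext hL.le (y t) x + d t x)) := fun t ht x hx => by
    obtain ⟨h1, h3⟩ := hW' t ht x hx
    have h4 := (hc.trans h1).ne'
    rw [h3, eq_div_iff h4]
    linear_combination (-(ε * ph κ x * γ t x ^ 2)) * div_mul_cancel₀ (ext hL.le (y t) x + d t x) h4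
  refine ⟨T1, fun t => ext hL.le (f0 t), fun t => ext hL.le (f1 t), fun t => ext hL.le (y t),
    fun t => ext hL.le (z t), hT0, hT2,
    ⟨hκ.le, hγ.mono hsub subset_rfl, hd.mono hsub subset_rfl, he.mono hsub subset_rfl,
      hD ▸ tF, hD ▸ tF1, hD ▸ tF2, hD ▸ tζ, fun t ht x h1 h3 => ?_, fun t ht x h1 h3 => ?_,
      fun t ht x hx => ?_, fun t ht x hx => ?_, fun t ht x hx => hp t (hsub ht) x hx,
      fun t ht x hx => ?_⟩, fun t ht _ x hx => ?_, fun h1 c' hc' => ?_⟩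
  · have hx := hint x h1 h3
    have h4 := (((o.sp (y t)).d1 x hx).add_const (o.α (E t))).add
      ((hasDerivAt_id x).const_mul (o.β (E t)))
    have h5 : ext hL.le (f1 t) x = ext hL.le (o.G1 (y t)) x + o.β (E t) * 1 := by
      rw [ext_mem hL.le _ (Ioo_subset_Icc_self hx), ext_mem hL.le _ (Ioo_subset_Icc_self hx)]
      rfl
    rw [h5]
    refine h4.congr_of_eventuallyEq ?_
    filter_upwards [Icc_mem_nhds hx.1 hx.2] with s hs
    rw [ext_mem hL.le _ hs, Pi.add_apply, ext_mem hL.le _ hs]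
    simp [f0, ι]
  · have hx := hint x h1 h3
    refine (((o.sp (y t)).d2 x hx).add_const (o.β (E t))).congr_of_eventuallyEq ?_
    filter_upwards [Icc_mem_nhds hx.1 hx.2] with s hs
    rw [ext_mem hL.le _ hs, ext_mem hL.le _ hs]
    simp [f1]
  · rw [hD] at hx
    have h1 := (o.vol (o.G0 (B (z t + o.K (ee t))) - ee t)).eq x hx
    have h3 : o.K (o.G0 (B (z t + o.K (ee t))) - ee t) = z t - ϵ • B (z t + o.K (ee t)) := by
      rw [map_sub, sub_eq_sub_iff_add_eq_add, add_comm, hB]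
    rw [h3] at h1
    rw [dF2 t ht x hx, (hy' t ht).deriv]
    refine Eq.trans ?_ (h1.trans (vol_congr hx.1 fun s hs => ?_))
    · simp only [ext_mem hL.le _ hx, ContinuousMap.sub_apply, ContinuousMap.smul_apply, smul_eq_mul]
    · have hs' : s ∈ Icc 0 L := ⟨hs.1, hs.2.trans hx.2⟩
      rw [dF t ht s hs', hf0' t ht, ext_mem hL.le _ hs', ext_mem hL.le _ hs', map_sub, map_sub,
        (o.mom _).1, (o.mom _).2, ← ee' t (hsub ht) s hs']
      simp only [ContinuousMap.sub_apply, ContinuousMap.add_apply, ContinuousMap.smul_apply,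
        ContinuousMap.one_apply, smul_eq_mul, ι, ContinuousMap.coe_mk]
      ring
  · rw [hD] at hx
    rw [hΓ t ht x hx, (hW' t ht x hx).2]
    ring
  · rw [hΓ t ht x (hD ▸ hx)]
    exact div_pos (hp t (hsub ht) x hx) (hc.trans (hW' t ht x (hD ▸ hx)).1)
  · rw [hD] at hx
    beta_reduce
    rw [ext_mem hL.le _ hx]
    simp [f0, hy0 t ht, hE0 t ht]
  · obtain ⟨t, ht, x, hx⟩ := hT h1 c' hc'
    refine ⟨t, ht, x, hD.ge x.2, ?_⟩
    beta_reduce
    rw [ext_mem hL.le _ x.2, ← eg t (hsub ht) x x.2, ← ed t (hsub ht) x x.2]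
    exact hx

end Crest.Agent.R213.C3A
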