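import Crest.Agent.R213.C2
import Crest.Agent.R213.SysB
import Crest.Agent.R213.C3A

/-!
# Row 213: solutions of the regularised problem
-/

set_option autoImplicit false

noncomputable section

namespace Crest.Agent.R213

open Set Filter Topology
open scoped ContDiff

/-- Global solutions of globally Lipschitz equations on a compact interval. -/
theorem exists_ode {X : Type} [NormedAddCommGroup X] [NormedSpace ℝ X] [CompleteSpace X]
    (V : ℝ → X → X) {a b : ℝ} (K : NNReal)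
    (hc : ∀ y, ContinuousOn (fun t => V t y) (Icc a b))
    (hl : ∀ t ∈ Icc a b, LipschitzWith K (V t)) (y0 : X) :
    ∃ y : ℝ → X, y a = y0 ∧ ∀ t ∈ Icc a b, HasDerivWithinAt y (V t (y t)) (Icc a b) t :=
  C3A.exists_ode V K hc hl y0

/-- The regularised problem has a solution until the metric degenerates. -/
theorem exists_reg {κ ε ϵ b t0 T2 c : ℝ} {γ d e : Fn} (hκ : 0 < κ) (hϵ : 0 < ϵ) (hc : 0 < c)
    (hc1 : c < 1) (h02 : t0 < T2) (h2 : T2 < b) (hγ : TS (Iio b) (dom κ) γ)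
    (hd : TS (Iio b) (dom κ) d) (he : TS (Iio b) (dom κ) e)
    (hp : ∀ t < b, ∀ x ∈ dom κ, 0 < γ t x) (h0 : ∀ t ≤ t0, ∀ x ∈ dom κ, d t x = 0 ∧ e t x = 0) :
    ∃ T1 F F1 F2 ζ, t0 < T1 ∧ T1 ≤ T2 ∧ Sys κ ε ϵ (Iio T1) γ d e F F1 F2 ζ ∧ Zero κ t0 T1 F ∧
      (T1 < T2 → ∀ c', c < c' → ∃ t < T1, ∃ x ∈ dom κ,
        1 + ε * ph κ x * γ t x * (F2 t x + d t x) < c') :=
  C3A.exists_reg hκ hϵ hc hc1 h02 h2 hγ hd he hp h0

end Crest.Agent.R213
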