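import Crest.Agent.R213.SysB
import Crest.Agent.R213.Alg
import Crest.Agent.R213.D1

/-!
# Row 213: energy bounds for the regularised problem (proof of `reg_energy`)
-/

set_option autoImplicit false

noncomputable section

namespace Crest.Agent.R213.C4A

open Set Filter Topology
open scoped ContDiff

theorem bd {I D : Set ℝ} {u : Fn} (hu : TS I D u) {a b L : ℝ} (hI : Icc a b ⊆ I)
    (hD : Icc 0 L ⊆ D) (J : ℕ) :
    ∃ M, 0 ≤ M ∧ ∀ c ≤ J, ∀ t ∈ Icc a b, ∀ x ∈ Icc 0 L, |DT c u t x| ≤ M := by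
  choose M hM using fun c => (isCompact_Icc.prod isCompact_Icc).exists_bound_of_continuousOn
    ((hu c).1.mono (prod_mono hI hD))
  refine ⟨∑ c ∈ Finset.range (J + 1), |M c|, Finset.sum_nonneg fun _ _ => abs_nonneg _,
    fun c hc t ht x hx => ((hM c (t, x) ⟨ht, hx⟩).trans (le_abs_self _)).trans ?_⟩
  exact Finset.single_le_sum (f := fun c => |M c|) (fun _ _ => abs_nonneg _)
    (Finset.mem_range.2 (by omega))

theorem lo {I D : Set ℝ} {u : Fn} (hu : TS I D u) {a b L : ℝ} (hI : Icc a b ⊆ I)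
    (hD : Icc 0 L ⊆ D) (hp : ∀ t ∈ I, ∀ x ∈ D, 0 < u t x) :
    ∃ M, 0 ≤ M ∧ ∀ t ∈ Icc a b, ∀ x ∈ Icc 0 L, (u t x)⁻¹ ≤ M := by
  obtain ⟨M, hM⟩ := (isCompact_Icc.prod isCompact_Icc).exists_bound_of_continuousOn
    (((hu 0).1.mono (prod_mono hI hD)).inv₀ fun p hp' => (hp _ (hI hp'.1) _ (hD hp'.2)).ne')
  exact ⟨|M|, abs_nonneg _, fun t ht x hx =>
    (le_abs_self _).trans ((hM (t, x) ⟨ht, hx⟩).trans (le_abs_self _))⟩

/-- the pointwise inequality -/
theorem point {B C G z : ℝ} {j J : ℕ} {f d : ℕ → ℝ} (hB : 0 < B) (hC : 0 ≤ C) (hj : j ≤ J)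
    (h1 : 1 / B ^ 2 ≤ G) (h2 : G ≤ 4 * B ^ 2) (hd : ∀ i ≤ j, |d i| ≤ B)
    (h : |z + G * (f j + d j)| ≤ C * ∑ i ∈ Finset.range j, |f i + d i|) :
    2 * (z * f j) ≤ -(1 / B ^ 2) * f j ^ 2 + 2 * C ^ 2 * J * B ^ 2 * ∑ i ∈ Finset.range j, f i ^ 2 +
      2 * (4 * B ^ 3 + C * J * B) ^ 2 * B ^ 2 := by
  have hj' : (j : ℝ) ≤ J := by exact_mod_cast hj
  have hG : 0 < G := lt_of_lt_of_le (by positivity) h1
  set S := ∑ i ∈ Finset.range j, |f i| with hS
  set Q := ∑ i ∈ Finset.range j, f i ^ 2 with hQ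
  set P := 4 * B ^ 3 + C * J * B with hP
  have hQ0 : 0 ≤ Q := Finset.sum_nonneg fun _ _ => sq_nonneg _
  have h3 : ∑ i ∈ Finset.range j, |f i + d i| ≤ S + J * B := by
    refine (Finset.sum_le_sum fun i hi => (abs_add_le _ _).trans
      (add_le_add le_rfl (hd i (Finset.mem_range.1 hi).le))).trans ?_
    rw [Finset.sum_add_distrib, Finset.sum_const, Finset.card_range, nsmul_eq_mul]
    nlinarith
  have h4 : S ^ 2 ≤ J * Q := by
    have := sq_sum_le_card_mul_sum_sq (s := Finset.range j) (f := fun i => |f i|)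
    simp only [Finset.card_range, sq_abs] at this
    nlinarith
  have h5 : G * |d j| ≤ 4 * B ^ 3 := by
    have := mul_le_mul h2 (hd j le_rfl) (abs_nonneg _) (by positivity)
    linarith
  have h6 : |z + G * f j| ≤ P + C * S := by
    have e : z + G * f j = z + G * (f j + d j) - G * d j := by ring
    rw [e]
    refine (abs_sub _ _).trans ?_
    rw [abs_mul G, abs_of_nonneg hG.le]
    nlinarith [mul_le_mul_of_nonneg_left h3 hC]
  have h7 : (z + G * f j) ^ 2 ≤ 2 * P ^ 2 + 2 * C ^ 2 * (J * Q) := by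
    have := pow_le_pow_left₀ (abs_nonneg _) h6 2
    rw [sq_abs] at this
    nlinarith [sq_nonneg (P - C * S), mul_le_mul_of_nonneg_left h4 (sq_nonneg C)]
  have h8 : 1 / B ^ 2 * f j ^ 2 ≤ G * f j ^ 2 := mul_le_mul_of_nonneg_right h1 (sq_nonneg _)
  have h9 : 2 * ((z + G * f j) * f j) ≤
      1 / B ^ 2 * f j ^ 2 + B ^ 2 * (z + G * f j) ^ 2 := by
    have e : 1 / B ^ 2 * f j ^ 2 + B ^ 2 * (z + G * f j) ^ 2 -
        2 * ((z + G * f j) * f j) = (f j / B - B * (z + G * f j)) ^ 2 := by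
      field_simp; ring
    linarith [sq_nonneg (f j / B - B * (z + G * f j))]
  nlinarith [mul_le_mul_of_nonneg_left h7 (sq_nonneg B)]

theorem prod_bd {B u v : ℝ} (hB : 0 < B) (h1 : 1 / B ≤ u) (h2 : u ≤ 2 * B) (h3 : 1 / B ≤ v)
    (h4 : v ≤ 2 * B) : 1 / B ^ 2 ≤ u * v ∧ u * v ≤ 4 * B ^ 2 := by
  have h0 : 0 < 1 / B := by positivity
  refine ⟨?_, by nlinarith [mul_le_mul h2 h4 (by linarith) (by linarith)]⟩
  rw [← one_div_pow, sq]
  exact mul_le_mul h1 h3 h0.le (by linarith)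

theorem cont_ph (κ : ℝ) : Continuous (ph κ) := by
  unfold ph; fun_prop

/-- the energy -/
def En (κ ϵ L : ℝ) (F F2 : Fn) (j : ℕ) (t : ℝ) : ℝ :=
  ∫ x in (0 : ℝ)..L, (x ^ 9 * DT j F t x ^ 2 + ϵ * (x ^ 9 * ph κ x ^ 2 * DT j F2 t x ^ 2))

variable {κ ε ϵ L : ℝ} {I : Set ℝ} {γ d e F F1 F2 ζ : Fn}

theorem hasDerivAt_En (hI : IsOpen I) (hS : Sys κ ε ϵ I γ d e F F1 F2 ζ) (hL : 0 < L)
    (hκ : κ * L = 1) (j : ℕ) {t : ℝ} (ht : t ∈ I) :
    HasDerivAt (En κ ϵ L F F2 j) (∫ x in (0 : ℝ)..L,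
      (x ^ 9 * ph κ x ^ 2 * (2 * (DT j ζ t x * DT j F2 t x)) +
        x ^ 9 * (2 * (DT j e t x * DT j F t x)))) t := by
  have hD : uIcc 0 L = dom κ := by rw [uIcc_of_le hL.le, dom_eq_Icc hL hκ]
  have hp := cont_ph κ
  have a1 := (hS.tF j).1
  have a2 := (hS.tF (j + 1)).1
  have a3 := (hS.tF2 j).1
  have a4 := (hS.tF2 (j + 1)).1
  have h1 := hasDerivAt_int hI (a := 0) (b := L)
    (w := fun t x => x ^ 9 * DT j F t x ^ 2 + ϵ * (x ^ 9 * ph κ x ^ 2 * DT j F2 t x ^ 2))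
    (w' := fun t x => x ^ 9 * (2 * (DT j F t x * DT (j + 1) F t x)) +
      ϵ * (x ^ 9 * ph κ x ^ 2 * (2 * (DT j F2 t x * DT (j + 1) F2 t x))))
    (by rw [hD]; fun_prop) (by rw [hD]; fun_prop) (fun s hs x hx => by
      rw [hD] at hx
      refine (((((hS.tF j).2 s hs x hx).pow 2).const_mul _).add
        (((((hS.tF2 j).2 s hs x hx).pow 2).const_mul _).const_mul _)).congr_deriv ?_
      push_cast
      ring) ht
  refine h1.congr_deriv ?_
  have hc : ∀ {u : Fn}, TS I (dom κ) u → ∀ i, ContinuousOn (DT i u t) (uIcc 0 L) :=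
    fun hu i => hD ▸ hu.cont_x i ht
  have b1 := hc hS.tF j
  have b2 := hc hS.tF (j + 1)
  have b3 := hc hS.tF2 j
  have b4 := hc hS.tF2 (j + 1)
  have b5 := hc hS.tζ j
  have b6 := hc hS.te j
  have b7 := hc hS.tF1 j
  have h2 := ibp (W := fun _ => 1) (W1 := fun _ => 0) (W2 := fun _ => 0) hL (hS.sp hI hκ.le j ht)
    ⟨continuousOn_const, continuousOn_const, continuousOn_const,
      fun x _ => hasDerivAt_const _ _, fun x _ => hasDerivAt_const _ _⟩
    (hS.volOn hI hκ.le j ht) (Or.inl hκ)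
  rw [← sub_eq_zero, ← intervalIntegral.integral_sub
    (ContinuousOn.intervalIntegrable (by fun_prop))
    (ContinuousOn.intervalIntegrable (by fun_prop))] at h2 ⊢
  refine Eq.trans ?_ ((congrArg (2 * ·) h2).trans (mul_zero _))
  rw [← intervalIntegral.integral_const_mul]
  congr 1
  funext x
  ring

theorem reg_energy {κ L ε b t0 T2 : ℝ} {γ d e : Fn} (hL : 0 < L) (hκ : κ * L = 1) (h2 : T2 < b)
    (hγ : TS (Iio b) (dom κ) γ) (hd : TS (Iio b) (dom κ) d) (he : TS (Iio b) (dom κ) e)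
    (hp : ∀ t < b, ∀ x ∈ dom κ, 0 < γ t x) (h0 : ∀ t ≤ t0, ∀ x ∈ dom κ, d t x = 0 ∧ e t x = 0)
    (J : ℕ) (B : ℝ) (hB : 1 ≤ B) : ∃ C, ∀ (ϵ T : ℝ) (F F1 F2 ζ : Fn), 0 ≤ ϵ → T ≤ T2 →
      Sys κ ε ϵ (Iio T) γ d e F F1 F2 ζ → Zero κ t0 T F →
      (∀ t ∈ Ico t0 T, ∀ x ∈ dom κ, 1 / B ≤ γ t x + ε * ph κ x * ζ t x ∧
        ∀ a, 2 * a ≤ J → |ε * ph κ x * DT a ζ t x| ≤ B) →
      ∀ j ≤ J, ∀ t < T, (∫ x in (0 : ℝ)..L, x ^ 9 * DT j F t x ^ 2) ≤ C := by
  have hD := dom_eq_Icc hL hκ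
  have hI : Icc t0 T2 ⊆ Iio b := fun t ht => ht.2.trans_lt h2
  obtain ⟨M₁, p₁, h₁⟩ := bd hγ hI hD.ge J
  obtain ⟨M₂, p₂, h₂⟩ := bd hd hI hD.ge J
  obtain ⟨M₃, p₃, h₃⟩ := bd he hI hD.ge J
  obtain ⟨M₄, p₄, h₄⟩ := lo hγ hI hD.ge hp
  obtain ⟨A, hA⟩ : ∃ A, A = B + M₁ + M₂ + M₃ + M₄ := ⟨_, rfl⟩
  have hA1 : 1 ≤ A := by linarith
  have hA0 : 0 < A := by linarith
  choose Ca hCa ha using fun j => alg j A hA1
  obtain ⟨C, hC⟩ : ∃ C, C = ∑ j ∈ Finset.range (J + 1), Ca j := ⟨_, rfl⟩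
  have hC0 : 0 ≤ C := hC ▸ Finset.sum_nonneg fun j _ => by linarith [hCa j]
  have hCC : ∀ j ≤ J, Ca j ≤ C := fun j hj => hC ▸ Finset.single_le_sum (f := Ca)
    (fun j _ => by linarith [hCa j]) (Finset.mem_range.2 (by omega))
  obtain ⟨δ, hδ, hδ1, hh⟩ := hier J (c := 1 / A ^ 2) (C := 2 * C ^ 2 * J * A ^ 2) (by positivity)
    (by positivity)
  have hph := cont_ph κ
  obtain ⟨M, hM⟩ : ∃ M, M = ∫ x in (0 : ℝ)..L,
    (x ^ 9 * ph κ x ^ 2 * (2 * (4 * A ^ 3 + C * J * A) ^ 2 * A ^ 2) + x ^ 9 * A ^ 2) := ⟨_, rfl⟩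
  have hM0 : 0 ≤ M := hM ▸ intervalIntegral.integral_nonneg hL.le fun x hx => by
    have := hx.1; positivity
  refine ⟨(∑ j ∈ Finset.range (J + 1), δ ^ j * M) * Real.exp (T2 - t0) / δ ^ J,
    fun ϵ T F F1 F2 ζ hϵ hT hS hZ hb j hj t ht => ?_⟩
  have hM1 : 0 ≤ ∑ j ∈ Finset.range (J + 1), δ ^ j * M := by positivity
  have hz := fun i => hS.dt_eq_zero hZ (fun t ht x hx => (h0 t ht x hx).1) i
  have hc : ∀ {u : Fn}, TS (Iio T) (dom κ) u → ∀ i, ∀ s < T, ContinuousOn (DT i u s) (uIcc 0 L) :=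
    fun hu i s hs => by rw [uIcc_of_le hL.le, ← hD]; exact hu.cont_x i hs
  rcases le_total t t0 with htt | htt
  · rw [intervalIntegral.integral_congr (g := fun _ => 0) fun x hx => by
      rw [uIcc_of_le hL.le, ← hD] at hx
      simp [(hz j t htt ht x hx).1]]
    rw [intervalIntegral.integral_zero]
    positivity
  have hEn : ∀ i, ∀ s < T, (∫ x in (0 : ℝ)..L, x ^ 9 * DT i F s x ^ 2) ≤ En κ ϵ L F F2 i s := by
    intro i s hs
    have b1 := hc hS.tF i s hs
    have b2 := hc hS.tF2 i s hs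
    refine intervalIntegral.integral_mono_on hL.le (ContinuousOn.intervalIntegrable (by fun_prop))
      (ContinuousOn.intervalIntegrable (by fun_prop)) fun x hx => le_add_of_nonneg_right ?_
    have := hx.1
    positivity
  have hnn : ∀ i s, 0 ≤ En κ ϵ L F F2 i s := fun i s =>
    intervalIntegral.integral_nonneg hL.le fun x hx => by have := hx.1; positivity
  have key := gron_le (a := t0) (b := t) (K := 1)
    (u := fun s => ∑ i ∈ Finset.range (J + 1), δ ^ i * En κ ϵ L F F2 i s) htt one_pos hM1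
    (fun s hs => HasDerivAt.fun_sum fun i _ =>
      (hasDerivAt_En isOpen_Iio hS hL hκ i (hs.2.trans_lt ht)).const_mul _) fun s hs => by
    have hsT : s < T := hs.2.trans_lt ht
    have hs2 : s ∈ Icc t0 T2 := ⟨hs.1, hsT.le.trans hT⟩
    rw [one_mul, ← Finset.sum_add_distrib]
    simp only [← mul_add]
    refine hh _ (fun i => ∫ x in (0 : ℝ)..L, x ^ 9 * ph κ x ^ 2 * DT i F2 s x ^ 2) _
      (fun i _ => intervalIntegral.integral_nonneg hL.le fun x hx => by have := hx.1; positivity)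
      fun i hi => ?_
    have b1 := hc hS.tF i s hsT
    have b2 := fun i => hc hS.tF2 i s hsT
    have b3 := hc hS.tζ i s hsT
    have b4 := hc hS.te i s hsT
    have b5 := b2 i
    have b6 : ContinuousOn (fun x => ∑ l ∈ Finset.range i, x ^ 9 * ph κ x ^ 2 * DT l F2 s x ^ 2)
        (uIcc 0 L) := continuousOn_finsetSum _ fun l _ => by have := b2 l; fun_prop
    rw [hM, En, ← intervalIntegral.integral_finsetSum fun l _ =>
        ContinuousOn.intervalIntegrable (by have := b2 l; fun_prop),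
      ← intervalIntegral.integral_const_mul, ← intervalIntegral.integral_const_mul,
      ← intervalIntegral.integral_add (ContinuousOn.intervalIntegrable (by fun_prop))
        (ContinuousOn.intervalIntegrable (by fun_prop)),
      ← intervalIntegral.integral_add (ContinuousOn.intervalIntegrable (by fun_prop))
        (ContinuousOn.intervalIntegrable (by fun_prop)),
      ← intervalIntegral.integral_add (ContinuousOn.intervalIntegrable (by fun_prop))
        (ContinuousOn.intervalIntegrable (by fun_prop))]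
    refine intervalIntegral.integral_mono_on hL.le (ContinuousOn.intervalIntegrable (by fun_prop))
      (ContinuousOn.intervalIntegrable (by fun_prop)) fun x hx => ?_
    have hx' : x ∈ dom κ := hD ▸ hx
    obtain ⟨c1, c2⟩ := hb s ⟨hs.1, hsT⟩ x hx'
    have c3 : 1 / A ≤ γ s x + ε * ph κ x * ζ s x :=
      (one_div_le_one_div_of_le (by linarith) (by linarith)).trans c1
    have c4 : γ s x ≤ M₁ := (le_abs_self _).trans (h₁ 0 (Nat.zero_le _) s hs2 x hx)
    have c5 : ε * ph κ x * ζ s x ≤ B := (le_abs_self _).trans (c2 0 (Nat.zero_le _))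
    have c0 : 1 / A ≤ γ s x := by
      rw [one_div, inv_le_comm₀ hA0 (hp s (hI hs2) x hx')]
      exact (h₄ s hs2 x hx).trans (by linarith)
    have c6 := (ha i false 1 1 (ε * ph κ x) (fun j => DT j γ s x) (fun j => DT j ζ s x)
      (fun j => DT j F2 s x + DT j d s x) one_pos le_rfl
      (fun l _ => hS.leib isOpen_Iio hsT hx' l)
      c0 (c4.trans (by linarith)) c3
      (fun c _ hc => by
        rw [om_false, one_pow, one_mul]
        exact (h₁ c (hc.trans hi) s hs2 x hx).trans (by linarith))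
      (fun a ha => by
        rw [one_pow, one_mul]
        exact (c2 a (ha.trans hi)).trans (by linarith))).1
    simp only [om_false, one_pow, one_mul] at c6
    have c6' := prod_bd (v := if i = 0 then γ s x else γ s x + ε * ph κ x * ζ s x) hA0 c3
      (by linarith) (by split_ifs; exacts [c0, c3]) (by split_ifs <;> linarith)
    have c7 := point (f := fun j => DT j F2 s x) (d := fun j => DT j d s x) hA0 hC0 hi c6'.1
      c6'.2 (fun l hl => (h₂ l (hl.trans hi) s hs2 x hx).trans (by linarith))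
      (c6.trans (mul_le_mul_of_nonneg_right (hCC i hi)
        (Finset.sum_nonneg fun _ _ => abs_nonneg _)))
    have c8 : 2 * (DT i e s x * DT i F s x) ≤ DT i F s x ^ 2 + A ^ 2 := by
      have := pow_le_pow_left₀ (abs_nonneg _)
        ((h₃ i hi s hs2 x hx).trans (show M₃ ≤ A by linarith)) 2
      rw [sq_abs] at this
      nlinarith [sq_nonneg (DT i e s x - DT i F s x)]
    have hx0 := hx.1
    have c9 := mul_le_mul_of_nonneg_left c7 (show 0 ≤ x ^ 9 * ph κ x ^ 2 by positivity)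
    have c10 := mul_le_mul_of_nonneg_left c8 (show 0 ≤ x ^ 9 by positivity)
    have c11 : 0 ≤ ϵ * (x ^ 9 * ph κ x ^ 2 * DT i F2 s x ^ 2) := by positivity
    rw [← Finset.mul_sum]
    linarith
  have e0 : ∑ i ∈ Finset.range (J + 1), δ ^ i * En κ ϵ L F F2 i t0 = 0 := by
    refine Finset.sum_eq_zero fun i _ => ?_
    rw [En, intervalIntegral.integral_congr (g := fun _ => 0) fun x hx => by
      rw [uIcc_of_le hL.le, ← hD] at hx
      have := hz i t0 le_rfl (htt.trans_lt ht) x hx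
      simp [this.1, this.2.2.1]]
    rw [intervalIntegral.integral_zero, mul_zero]
  rw [e0, zero_add, div_one, one_mul] at key
  have k1 : δ ^ j * En κ ϵ L F F2 j t ≤ ∑ i ∈ Finset.range (J + 1), δ ^ i * En κ ϵ L F F2 i t :=
    Finset.single_le_sum (f := fun i => δ ^ i * En κ ϵ L F F2 i t)
      (fun i _ => mul_nonneg (by positivity) (hnn i t)) (Finset.mem_range.2 (by omega))
  have k2 := mul_le_mul_of_nonneg_right (pow_le_pow_of_le_one hδ.le hδ1 hj) (hnn j t)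
  have k3 := mul_le_mul_of_nonneg_left
    (Real.exp_le_exp.2 (show t - t0 ≤ T2 - t0 by linarith)) hM1
  refine (hEn j t ht).trans ?_
  rw [le_div_iff₀ (by positivity)]
  linarith

end Crest.Agent.R213.C4A
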