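import Crest.Agent.R213.C4B
import Crest.Agent.R213.PTg
import Crest.Agent.R213.D1
import Crest.Agent.R213.C4A

/-!
# Row 213: a priori bounds for the regularised problem
-/

set_option autoImplicit false

noncomputable section

namespace Crest.Agent.R213

open Set Filter Topology
open scoped ContDiff

/-- Energy bounds at the levels `≤ J`, uniformly in `ϵ`. -/
theorem reg_energy {κ L ε b t0 T2 : ℝ} {γ d e : Fn} (hL : 0 < L) (hκ : κ * L = 1) (h2 : T2 < b)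
    (hγ : TS (Iio b) (dom κ) γ) (hd : TS (Iio b) (dom κ) d) (he : TS (Iio b) (dom κ) e)
    (hp : ∀ t < b, ∀ x ∈ dom κ, 0 < γ t x) (h0 : ∀ t ≤ t0, ∀ x ∈ dom κ, d t x = 0 ∧ e t x = 0)
    (J : ℕ) (B : ℝ) (hB : 1 ≤ B) : ∃ C, ∀ (ϵ T : ℝ) (F F1 F2 ζ : Fn), 0 ≤ ϵ → T ≤ T2 →
      Sys κ ε ϵ (Iio T) γ d e F F1 F2 ζ → Zero κ t0 T F →
      (∀ t ∈ Ico t0 T, ∀ x ∈ dom κ, 1 / B ≤ γ t x + ε * ph κ x * ζ t x ∧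
        ∀ a, 2 * a ≤ J → |ε * ph κ x * DT a ζ t x| ≤ B) →
      ∀ j ≤ J, ∀ t < T, (∫ x in (0 : ℝ)..L, x ^ 9 * DT j F t x ^ 2) ≤ C :=
  C4A.reg_energy hL hκ h2 hγ hd he hp h0 J B hB

/-- Supremum bounds for all time derivatives, uniformly in `ϵ`. -/
theorem reg_sup {κ ε b t0 T2 : ℝ} {γ d e : Fn} (hκ : 0 < κ) (h2 : T2 < b)
    (hγ : TS (Iio b) (dom κ) γ) (hd : TS (Iio b) (dom κ) d) (he : TS (Iio b) (dom κ) e)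
    (hp : ∀ t < b, ∀ x ∈ dom κ, 0 < γ t x) (h0 : ∀ t ≤ t0, ∀ x ∈ dom κ, d t x = 0 ∧ e t x = 0)
    (B : ℝ) (hB : 1 ≤ B) (j : ℕ) : ∃ C, ∀ (ϵ T : ℝ) (F F1 F2 ζ : Fn), 0 ≤ ϵ → T ≤ T2 →
      Sys κ ε ϵ (Iio T) γ d e F F1 F2 ζ → Zero κ t0 T F →
      (∀ t ∈ Ico t0 T, ∀ x ∈ dom κ, 1 / B ≤ γ t x + ε * ph κ x * ζ t x ∧
        ∀ a ≤ 4, |ε * ph κ x * DT a ζ t x| ≤ B) →
      ∀ t < T, ∀ x ∈ dom κ, |DT j F t x| ≤ C ∧ |DT j F1 t x| ≤ C ∧ |DT j F2 t x| ≤ C ∧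
        |DT j ζ t x| ≤ C :=
  C4B.reg_sup hκ h2 hγ hd he hp h0 (fun J B' hB' =>
    reg_energy (inv_pos.2 hκ) (mul_inv_cancel₀ hκ.ne') h2 hγ hd he hp h0 J B' hB') B hB j

end Crest.Agent.R213
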