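import Crest.Agent.R213.PTg
import Crest.Agent.R213.D1

/-!
# Row 213: supremum bounds for the regularised problem (proof of `reg_sup`)
-/

set_option autoImplicit false

noncomputable section

namespace Crest.Agent.R213.C4B

open Set Filter Topology
open scoped ContDiff

/-- The algebraic lemma without weights, uniformly in the level. -/
theorem alg1 (J : ℕ) (B : ℝ) (hB : 1 ≤ B) : ∃ C, 1 ≤ C ∧ ∀ j ≤ J, ∀ (x : ℝ) (g z y : ℕ → ℝ),
    (∀ l, Leib x g z y l) → 1 / B ≤ g 0 → (∀ c ≤ J, |g c| ≤ B) → 1 / B ≤ g 0 + x * z 0 →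
    (∀ a, 2 * a ≤ J → |x * z a| ≤ B) →
    (∃ c, 1 / B ^ 2 ≤ c ∧ c ≤ 4 * B ^ 2 ∧ |z j + c * y j| ≤ C * ∑ i ∈ Finset.range j, |y i|) ∧
      |z j| ≤ C * ∑ i ∈ Finset.range (j + 1), |y i| := by
  choose Ca h1 h2 using fun j => alg j B hB
  have hle : ∀ j ≤ J, Ca j ≤ ∑ i ∈ Finset.range (J + 1), Ca i := fun j hj =>
    Finset.single_le_sum (f := Ca) (fun i _ => zero_le_one.trans (h1 i))
      (Finset.mem_range.2 (by omega))
  refine ⟨∑ i ∈ Finset.range (J + 1), Ca i, (h1 0).trans (hle 0 (Nat.zero_le _)), ?_⟩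
  intro j hj x g z y hl a1 a2 a3 a4
  have hB0 : 0 < B := by linarith
  have g0 : g 0 ≤ B := (le_abs_self _).trans (a2 0 (Nat.zero_le _))
  have := h2 j false 1 1 x g z y one_pos le_rfl (fun l _ => hl l) a1 g0 a3
    (fun c _ hc => by simpa [om_false] using a2 c (hc.trans hj))
    (fun a ha => by simpa using a4 a (ha.trans hj))
  simp only [om_false, one_pow, one_mul] at this
  obtain ⟨b1, -, b3⟩ := this
  have hs : ∀ n, 0 ≤ ∑ i ∈ Finset.range n, |y i| := fun n =>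
    Finset.sum_nonneg fun i _ => abs_nonneg _
  refine ⟨⟨_, ?_, ?_, b1.trans (mul_le_mul_of_nonneg_right (hle j hj) (hs _))⟩,
    b3.trans (mul_le_mul_of_nonneg_right (hle j hj) (hs _))⟩
  · have hib : 0 < 1 / B := by positivity
    have e1 : 1 / B ^ 2 = 1 / B * (1 / B) := by field_simp
    rw [e1]
    refine mul_le_mul a3 ?_ hib.le (hib.le.trans a3)
    split_ifs
    exacts [a1, a3]
  · have hib : 0 < 1 / B := by positivity
    have a7 := (le_abs_self _).trans (a4 0 (by omega))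
    have e2 : 4 * B ^ 2 = 2 * B * (2 * B) := by ring
    rw [e2]
    refine mul_le_mul (by linarith) ?_ ?_ (by positivity)
    · split_ifs <;> linarith
    · split_ifs <;> linarith

/-- Damping through the levels. -/
theorem transfer (n : ℕ) (B C : ℝ) (hB : 1 ≤ B) (hC : 0 ≤ C) : ∃ K, 1 ≤ K ∧ ∀ j < n,
    ∀ (u z dd : ℕ → ℝ → ℝ) (a b ϵ A M : ℝ), 0 ≤ ϵ → 0 ≤ A → 0 ≤ M →
    (∀ l, ∀ t ∈ Ico a b, HasDerivAt (u l) (u (l + 1) t) t) → (∀ l, u l a = 0) →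
    (∀ l ≤ j, ∀ t ∈ Ico a b, |dd l t| ≤ M ∧ |z l t - ϵ * u (l + 1) t| ≤ A ∧
      ∃ c, 1 / B ^ 2 ≤ c ∧ c ≤ 4 * B ^ 2 ∧
        |z l t + c * (u l t + dd l t)| ≤ C * ∑ i ∈ Finset.range l, |u i t + dd i t|) →
    ∀ t ∈ Ico a b, |u j t| ≤ K * (A + M) := by
  induction n with
  | zero => exact ⟨1, le_rfl, fun j hj => absurd hj (Nat.not_lt_zero _)⟩
  | succ n ih =>
    obtain ⟨K, hK, h⟩ := ih
    have hB0 : 0 < B := by linarith
    have hK0 : 0 ≤ K := by linarith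
    have hp : 0 ≤ B ^ 2 * (4 * B ^ 2 + C * n * (K + 1) + 1) := by positivity
    refine ⟨K + B ^ 2 * (4 * B ^ 2 + C * n * (K + 1) + 1), by linarith, ?_⟩
    intro j hj u z dd a b ϵ A M hϵ hA hM hd h0 hl t ht
    have hAM : 0 ≤ A + M := by positivity
    rcases Nat.lt_succ_iff_lt_or_eq.1 hj with hj' | rfl
    · exact (h j hj' u z dd a b ϵ A M hϵ hA hM hd h0 hl t ht).trans
        (mul_le_mul_of_nonneg_right (by linarith) hAM)
    · have low : ∀ i < j, ∀ t ∈ Ico a b, |u i t| ≤ K * (A + M) := fun i hi =>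
        h i hi u z dd a b ϵ A M hϵ hA hM hd h0 fun l hl' => hl l (by omega)
      have hj' := hl j le_rfl
      choose! c hc1 hc2 hc3 using fun t ht => (hj' t ht).2.2
      have key := damp_le (u := u j) (u' := u (j + 1)) (c := c)
        (r := fun t => ϵ * u (j + 1) t + c t * u j t) (a := a) (b := b) (c0 := 1 / B ^ 2)
        (M := (4 * B ^ 2 + C * j * (K + 1) + 1) * (A + M)) hϵ (by positivity) (by positivity)
        (hd j) (h0 j) (fun s hs => ⟨rfl, hc1 s hs, ?_⟩) t ht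
      · refine key.trans ?_
        rw [div_div_eq_mul_div, div_one]
        nlinarith [mul_nonneg hK0 hAM]
      · obtain ⟨d1, d2, -⟩ := hj' s hs
        have c0 : 0 ≤ c s := le_trans (by positivity) (hc1 s hs)
        have s1 : ∑ i ∈ Finset.range j, |u i s + dd i s| ≤ j * ((K + 1) * (A + M)) := by
          have := Finset.sum_le_card_nsmul (Finset.range j) (fun i => |u i s + dd i s|)
            ((K + 1) * (A + M)) fun i hi => by
              have hi' := Finset.mem_range.1 hi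
              have e1 := low i hi' s hs
              have e2 := (hl i hi'.le s hs).1
              have e3 := abs_add_le (u i s) (dd i s)
              linarith
          simpa using this
        have s2 := (hc3 s hs).trans (mul_le_mul_of_nonneg_left s1 hC)
        have s3 : |c s * dd j s| ≤ 4 * B ^ 2 * M := by
          rw [abs_mul, abs_of_nonneg c0]
          exact mul_le_mul (hc2 s hs) d1 (abs_nonneg _) (by positivity)
        have e : ϵ * u (j + 1) s + c s * u j s = (z j s + c s * (u j s + dd j s)) -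
            (z j s - ϵ * u (j + 1) s) - c s * dd j s := by ring
        have s4 : 0 ≤ 4 * B ^ 2 * A := by positivity
        rw [e]
        refine (abs_sub _ _).trans ((add_le_add_left (abs_sub _ _) _).trans ?_)
        linarith

/-- Time-smooth functions have bounded derivatives on compact sets. -/
theorem bd_TS {b t0 T2 L : ℝ} {u : Fn} (hu : TS (Iio b) (Icc 0 L) u) (h2 : T2 < b) (J : ℕ) :
    ∃ M, 0 ≤ M ∧ ∀ j ≤ J, ∀ t ∈ Icc t0 T2, ∀ x ∈ Icc 0 L, |DT j u t x| ≤ M := by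
  have hc : IsCompact (Icc t0 T2 ×ˢ Icc (0 : ℝ) L) := isCompact_Icc.prod isCompact_Icc
  have hsub : Icc t0 T2 ×ˢ Icc (0 : ℝ) L ⊆ Iio b ×ˢ Icc 0 L :=
    prod_mono (fun t ht => lt_of_le_of_lt ht.2 h2) subset_rfl
  choose M hM using fun j => hc.exists_bound_of_continuousOn ((hu j).1.mono hsub)
  refine ⟨∑ i ∈ Finset.range (J + 1), |M i|, Finset.sum_nonneg fun i _ => abs_nonneg _,
    fun j hj t ht x hx => ?_⟩
  refine ((hM j (t, x) (mk_mem_prod ht hx)).trans (le_abs_self _)).trans ?_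
  exact Finset.single_le_sum (f := fun i => |M i|) (fun i _ => abs_nonneg _)
    (Finset.mem_range.2 (by omega))

theorem lower_TS {b t0 T2 L : ℝ} {u : Fn} (hu : TS (Iio b) (Icc 0 L) u) (h2 : T2 < b)
    (hp : ∀ t < b, ∀ x ∈ Icc 0 L, 0 < u t x) :
    ∃ c, 0 < c ∧ ∀ t ∈ Icc t0 T2, ∀ x ∈ Icc 0 L, c ≤ u t x := by
  have hc : IsCompact (Icc t0 T2 ×ˢ Icc (0 : ℝ) L) := isCompact_Icc.prod isCompact_Icc
  have hsub : Icc t0 T2 ×ˢ Icc (0 : ℝ) L ⊆ Iio b ×ˢ Icc 0 L :=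
    prod_mono (fun t ht => lt_of_le_of_lt ht.2 h2) subset_rfl
  obtain ⟨c, hc0, h⟩ := hc.exists_forall_le' ((hu 0).1.mono hsub) (a := 0)
    fun p hp' => hp p.1 (hsub hp').1 p.2 hp'.2
  exact ⟨c, hc0, fun t ht x hx => h (t, x) (mk_mem_prod ht hx)⟩

/-- The conclusion of `reg_energy`. -/
def Energy (κ L ε t0 T2 : ℝ) (γ d e : Fn) : Prop :=
  ∀ (J : ℕ) (B : ℝ), 1 ≤ B → ∃ C, ∀ (ϵ T : ℝ) (F F1 F2 ζ : Fn), 0 ≤ ϵ → T ≤ T2 →
    Sys κ ε ϵ (Iio T) γ d e F F1 F2 ζ → Zero κ t0 T F →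
    (∀ t ∈ Ico t0 T, ∀ x ∈ dom κ, 1 / B ≤ γ t x + ε * ph κ x * ζ t x ∧
      ∀ a, 2 * a ≤ J → |ε * ph κ x * DT a ζ t x| ≤ B) →
    ∀ j ≤ J, ∀ t < T, (∫ x in (0 : ℝ)..L, x ^ 9 * DT j F t x ^ 2) ≤ C

/-- One step of the bootstrap. -/
theorem step {κ L ε b t0 T2 : ℝ} {γ d e : Fn} (hL : 0 < L) (hκ : κ * L = 1) (h2 : T2 < b)
    (hγ : TS (Iio b) (dom κ) γ) (hd : TS (Iio b) (dom κ) d) (he : TS (Iio b) (dom κ) e)
    (hp : ∀ t < b, ∀ x ∈ dom κ, 0 < γ t x) (h0 : ∀ t ≤ t0, ∀ x ∈ dom κ, d t x = 0 ∧ e t x = 0)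
    (hE : Energy κ L ε t0 T2 γ d e) (A : ℕ) (hA : 4 ≤ A) (B : ℝ) (hB : 1 ≤ B) :
    ∃ C, 0 ≤ C ∧ ∀ (ϵ T : ℝ) (F F1 F2 ζ : Fn), 0 ≤ ϵ → T ≤ T2 →
      Sys κ ε ϵ (Iio T) γ d e F F1 F2 ζ → Zero κ t0 T F →
      (∀ t ∈ Ico t0 T, ∀ x ∈ dom κ, 1 / B ≤ γ t x + ε * ph κ x * ζ t x ∧
        ∀ a ≤ A, |ε * ph κ x * DT a ζ t x| ≤ B) →
      ∀ j ≤ A + 1, ∀ t ∈ Ico t0 T, ∀ x ∈ dom κ, |DT j F t x| ≤ C ∧ |DT j F1 t x| ≤ C ∧
        |DT j F2 t x| ≤ C ∧ |DT j ζ t x| ≤ C := by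
  have hdom := dom_eq_Icc hL hκ
  obtain ⟨CE, hCE⟩ := hE (2 * A + 1) B hB
  obtain ⟨Mγ, hMγ, bγ⟩ := bd_TS (t0 := t0) (hdom ▸ hγ) h2 (A + 4)
  obtain ⟨Md, hMd, bd⟩ := bd_TS (t0 := t0) (hdom ▸ hd) h2 (A + 4)
  obtain ⟨Me, hMe, be⟩ := bd_TS (t0 := t0) (hdom ▸ he) h2 (A + 4)
  obtain ⟨c, hc, lγ⟩ := lower_TS (t0 := t0) (hdom ▸ hγ) h2 (hdom ▸ hp)
  set B' := B + Mγ + 1 / c with hB'
  have hic : 0 < 1 / c := by positivity
  have hB1 : 1 ≤ B' := by linarith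
  have hBB : 1 / B' ≤ 1 / B := one_div_le_one_div_of_le (by linarith) (by linarith)
  have hBc : 1 / B' ≤ c := by
    have := one_div_le_one_div_of_le hic (show 1 / c ≤ B' by linarith)
    rwa [one_div_one_div] at this
  obtain ⟨Ca, hCa, halg⟩ := alg1 (A + 4) B' hB1
  obtain ⟨K, hK, htr⟩ := transfer (A + 5) B' Ca hB1 (by linarith)
  obtain ⟨Cg, hCg, hch⟩ := chain_glob (A + 1) K κ L hK hL hκ
  set M := |CE| + 1 + Md + Me with hM
  have hM1 : 1 ≤ M := by have := abs_nonneg CE; linarith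
  have hM0 : 0 ≤ M := by linarith
  have hMC : CE ≤ M ^ 2 := by
    have := le_abs_self CE
    nlinarith
  have hCM : 0 ≤ Cg * M := by positivity
  have hz0 : 0 ≤ Ca * ((A + 2) * (Cg * M + Md)) := by positivity
  refine ⟨Cg * M + Ca * ((A + 2) * (Cg * M + Md)), by positivity, ?_⟩
  intro ϵ T F F1 F2 ζ hϵ hT hS hZ hb j hj t ht x hx
  have hI : IsOpen (Iio T) := isOpen_Iio
  have hIcc : ∀ s ∈ Ico t0 T, s ∈ Icc t0 T2 := fun s hs => ⟨hs.1, hs.2.le.trans hT⟩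
  have halg' : ∀ l ≤ A + 4, ∀ s ∈ Ico t0 T, ∀ y ∈ dom κ,
      (∃ c, 1 / B' ^ 2 ≤ c ∧ c ≤ 4 * B' ^ 2 ∧ |DT l ζ s y + c * (DT l F2 s y + DT l d s y)| ≤
        Ca * ∑ i ∈ Finset.range l, |DT i F2 s y + DT i d s y|) ∧
      |DT l ζ s y| ≤ Ca * ∑ i ∈ Finset.range (l + 1), |DT i F2 s y + DT i d s y| := by
    intro l hl s hs y hy
    have hy' : y ∈ Icc 0 L := hdom ▸ hy
    exact halg l hl (ε * ph κ y) (fun j => DT j γ s y) (fun j => DT j ζ s y)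
      (fun j => DT j F2 s y + DT j d s y) (hS.leib hI hs.2 hy)
      (hBc.trans (lγ s (hIcc s hs) y hy'))
      (fun c hc => (bγ c hc s (hIcc s hs) y hy').trans (by linarith))
      (hBB.trans (hb s hs y hy).1)
      (fun a ha => ((hb s hs y hy).2 a (by omega)).trans (by linarith))
  have hen := hCE ϵ T F F1 F2 ζ hϵ hT hS hZ
    fun s hs y hy => ⟨(hb s hs y hy).1, fun a ha => (hb s hs y hy).2 a (by omega)⟩
  have key := hch (Ico t0 T) M (fun s j => DT j F s) (fun s j => DT j F1 s)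
    (fun s j => DT j F2 s) (fun s j => DT j e s)
    (fun s j y => DT j ζ s y - ϵ * DT (j + 1) F2 s y) hM0
    (fun s j => hS.sp hI hκ.le j s.2.2)
    (fun s j => hdom ▸ hS.te.cont_x j s.2.2)
    (fun s j => hS.volOn hI hκ.le j s.2.2)
    (fun s j hj => (hen j (by omega) s s.2.2).trans hMC)
    (fun s j hj y hy => (be j (by omega) s (hIcc s s.2) y hy).trans
      (by have := abs_nonneg CE; linarith))
    (fun j hj y hy A' hA' hV s => by
      have hy' : y ∈ Icc 0 L := Ioo_subset_Icc_self hy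
      have hyd : y ∈ dom κ := hdom ▸ hy'
      refine htr j (by omega) (fun l r => DT l F2 r y) (fun l r => DT l ζ r y)
        (fun l r => DT l d r y) t0 T ϵ A' M hϵ hA' hM0
        (fun l r hr => (hS.tF2 l).2 r hr.2 y hyd)
        (fun l => (hS.dt_eq_zero hZ (fun r hr w hw => (h0 r hr w hw).1) l t0 le_rfl
          (ht.1.trans_lt ht.2) y hyd).2.2.1)
        (fun l hl r hr => ⟨(bd l (by omega) r (hIcc r hr) y hy').trans
          (by have := abs_nonneg CE; linarith), hV ⟨r, hr⟩ l hl,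
          (halg' l (by omega) r hr y hyd).1⟩) s s.2)
    ⟨t, ht⟩
  have hx' : x ∈ Icc 0 L := hdom ▸ hx
  obtain ⟨k1, k2, k3, -⟩ := key j hj x hx'
  refine ⟨k1.trans (by linarith), k2.trans (by linarith), k3.trans (by linarith), ?_⟩
  have s1 : ∑ i ∈ Finset.range (j + 1), |DT i F2 t x + DT i d t x| ≤
      (A + 2) * (Cg * M + Md) := by
    have := Finset.sum_le_card_nsmul (Finset.range (j + 1)) (fun i => |DT i F2 t x + DT i d t x|)
      (Cg * M + Md) fun i hi => by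
        have hi' := Finset.mem_range.1 hi
        have e1 : |DT i F2 t x| ≤ Cg * M := (key i (by omega) x hx').2.2.1
        have e2 := bd i (by omega) t (hIcc t ht) x hx'
        exact (abs_add_le _ _).trans (add_le_add e1 e2)
    refine this.trans ?_
    have hjA : (j : ℝ) ≤ A + 1 := by exact_mod_cast hj
    simp only [Finset.card_range, nsmul_eq_mul, Nat.cast_add, Nat.cast_one]
    exact mul_le_mul_of_nonneg_right (by linarith) (by positivity)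
  have s2 := (halg' j (by omega) t ht x hx).2.trans (mul_le_mul_of_nonneg_left s1 (by linarith))
  linarith

theorem reg_sup {κ ε b t0 T2 : ℝ} {γ d e : Fn} (hκ : 0 < κ) (h2 : T2 < b)
    (hγ : TS (Iio b) (dom κ) γ) (hd : TS (Iio b) (dom κ) d) (he : TS (Iio b) (dom κ) e)
    (hp : ∀ t < b, ∀ x ∈ dom κ, 0 < γ t x) (h0 : ∀ t ≤ t0, ∀ x ∈ dom κ, d t x = 0 ∧ e t x = 0)
    (hE : Energy κ κ⁻¹ ε t0 T2 γ d e)
    (B : ℝ) (hB : 1 ≤ B) (j : ℕ) : ∃ C, ∀ (ϵ T : ℝ) (F F1 F2 ζ : Fn), 0 ≤ ϵ → T ≤ T2 →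
      Sys κ ε ϵ (Iio T) γ d e F F1 F2 ζ → Zero κ t0 T F →
      (∀ t ∈ Ico t0 T, ∀ x ∈ dom κ, 1 / B ≤ γ t x + ε * ph κ x * ζ t x ∧
        ∀ a ≤ 4, |ε * ph κ x * DT a ζ t x| ≤ B) →
      ∀ t < T, ∀ x ∈ dom κ, |DT j F t x| ≤ C ∧ |DT j F1 t x| ≤ C ∧ |DT j F2 t x| ≤ C ∧
        |DT j ζ t x| ≤ C := by
  have hL : 0 < κ⁻¹ := inv_pos.2 hκ
  have hκL : κ * κ⁻¹ = 1 := mul_inv_cancel₀ hκ.ne'
  have hdom := dom_eq_Icc hL hκL
  have boot : ∀ n : ℕ, ∃ B', 1 ≤ B' ∧ ∀ (ϵ T : ℝ) (F F1 F2 ζ : Fn), 0 ≤ ϵ → T ≤ T2 →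
      Sys κ ε ϵ (Iio T) γ d e F F1 F2 ζ → Zero κ t0 T F →
      (∀ t ∈ Ico t0 T, ∀ x ∈ dom κ, 1 / B ≤ γ t x + ε * ph κ x * ζ t x ∧
        ∀ a ≤ 4, |ε * ph κ x * DT a ζ t x| ≤ B) →
      ∀ t ∈ Ico t0 T, ∀ x ∈ dom κ, 1 / B' ≤ γ t x + ε * ph κ x * ζ t x ∧
        ∀ a ≤ n + 4, |ε * ph κ x * DT a ζ t x| ≤ B' := by
    intro n
    induction n with
    | zero => exact ⟨B, hB, fun _ _ _ _ _ _ _ _ _ _ h => by simpa using h⟩
    | succ n ih =>
      obtain ⟨B', hB', h⟩ := ih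
      obtain ⟨C, hC, hs⟩ := step hL hκL h2 hγ hd he hp h0 hE (n + 4) (by omega) B' hB'
      have hp0 : 0 ≤ |ε| * κ⁻¹ * C := by positivity
      refine ⟨B' + |ε| * κ⁻¹ * C, by linarith, ?_⟩
      intro ϵ T F F1 F2 ζ hϵ hT hS hZ hb t ht x hx
      have hb' := h ϵ T F F1 F2 ζ hϵ hT hS hZ hb
      refine ⟨(one_div_le_one_div_of_le (by linarith) (by linarith)).trans (hb' t ht x hx).1,
        fun a ha => ?_⟩
      have h1 := (hs ϵ T F F1 F2 ζ hϵ hT hS hZ hb' a (by omega) t ht x hx).2.2.2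
      have hx' : x ∈ Icc 0 κ⁻¹ := hdom ▸ hx
      have h3 : |ph κ x| ≤ κ⁻¹ := by
        have a1 : 0 ≤ κ * x := mul_nonneg hκ.le hx.1
        have a2 : 0 ≤ 1 - κ * x := by linarith [hx.2]
        rw [ph, abs_of_nonneg (mul_nonneg hx.1 a2)]
        exact (mul_le_of_le_one_right hx.1 (by linarith)).trans hx'.2
      have h4 : |ε * ph κ x * DT a ζ t x| ≤ |ε| * κ⁻¹ * C := by
        rw [abs_mul, abs_mul]
        gcongr
      linarith
  obtain ⟨B', hB', h⟩ := boot j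
  obtain ⟨C, hC, hs⟩ := step hL hκL h2 hγ hd he hp h0 hE (j + 4) (by omega) B' hB'
  refine ⟨C, fun ϵ T F F1 F2 ζ hϵ hT hS hZ hb t ht x hx => ?_⟩
  rcases le_total t0 t with h1 | h1
  · exact hs ϵ T F F1 F2 ζ hϵ hT hS hZ (h ϵ T F F1 F2 ζ hϵ hT hS hZ hb) j (by omega) t ⟨h1, ht⟩ x hx
  · obtain ⟨z1, z2, z3, z4⟩ := hS.dt_eq_zero hZ (fun r hr w hw => (h0 r hr w hw).1) j t h1 ht x hx
    simp only [z1, z2, z3, z4, abs_zero, and_self]
    exact hC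

end Crest.Agent.R213.C4B
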