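import Crest.Agent.R213.AA
import Crest.Agent.R213.SysB

/-!
# Row 213: limits of regularised solutions
-/

set_option autoImplicit false

noncomputable section

namespace Crest.Agent.R213
namespace C5A

open Set Filter Topology MeasureTheory
open scoped ContDiff

theorem lip {L C : ℝ} {f f1 : ℝ → ℝ} (hc : ContinuousOn f (Icc 0 L))
    (hd : ∀ x ∈ Ioo 0 L, HasDerivAt f (f1 x) x) (hb : ∀ x ∈ Icc 0 L, |f1 x| ≤ C) :
    ∀ x ∈ Icc 0 L, ∀ y ∈ Icc 0 L, |f x - f y| ≤ C * |x - y| := by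
  have key : ∀ x ∈ Icc 0 L, ∀ y ∈ Icc 0 L, y < x → |f x - f y| ≤ C * |x - y| := by
    intro x hx y hy h
    obtain ⟨z, hz, e⟩ := exists_hasDerivAt_eq_slope f f1 h (hc.mono (Icc_subset_Icc hy.1 hx.2))
      fun z hz => hd z ⟨hy.1.trans_lt hz.1, hz.2.trans_le hx.2⟩
    rw [eq_div_iff (sub_pos.2 h).ne'] at e
    rw [← e, abs_mul]
    exact mul_le_mul_of_nonneg_right (hb z ⟨hy.1.trans hz.1.le, hz.2.le.trans hx.2⟩) (abs_nonneg _)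
  intro x hx y hy
  rcases lt_trichotomy y x with h | rfl | h
  · exact key x hx y hy h
  · simp
  · rw [abs_sub_comm (f x), abs_sub_comm x]
    exact key y hy x hx h

theorem lim_int {L a C : ℝ} (ha : 0 ≤ a) {c m : ℝ → ℝ} (hc : Continuous c) (hm : Continuous m)
    (hmL : ∀ y ∈ Icc 0 a, m y ∈ Icc 0 L) {f : ℕ → ℝ → ℝ} {g : ℝ → ℝ}
    (h : ∀ᶠ n in atTop, ContinuousOn (f n) (Icc 0 L) ∧ ∀ y ∈ Icc 0 L, |f n y| ≤ C)
    (hl : ∀ y ∈ Icc 0 L, Tendsto (fun n => f n y) atTop (𝓝 (g y))) :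
    Tendsto (fun n => ∫ y in (0 : ℝ)..a, c y * f n (m y)) atTop
      (𝓝 (∫ y in (0 : ℝ)..a, c y * g (m y))) := by
  have hI : ∀ y ∈ uIoc 0 a, y ∈ Icc 0 a := fun y hy => by
    rw [uIoc_of_le ha] at hy
    exact Ioc_subset_Icc_self hy
  refine intervalIntegral.tendsto_integral_filter_of_dominated_convergence (fun y => |c y| * C)
    (h.mono fun n hn => ?_) (h.mono fun n hn => ae_of_all _ fun y hy => ?_)
    ((hc.abs.mul continuous_const).intervalIntegrable _ _) (ae_of_all _ fun y hy => ?_)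
  · exact ((hc.continuousOn.mul (hn.1.comp hm.continuousOn hmL)).mono hI).aestronglyMeasurable
      measurableSet_uIoc
  · rw [Real.norm_eq_abs, abs_mul]
    exact mul_le_mul_of_nonneg_left (hn.2 _ (hmL y (hI y hy))) (abs_nonneg _)
  · exact (hl _ (hmL y (hI y hy))).const_mul _

theorem lim_deriv {L C : ℝ} {f f1 : ℕ → ℝ → ℝ} {g g1 : ℝ → ℝ}
    (h : ∀ᶠ n in atTop, ContinuousOn (f n) (Icc 0 L) ∧ ContinuousOn (f1 n) (Icc 0 L) ∧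
      (∀ x ∈ Ioo 0 L, HasDerivAt (f n) (f1 n x) x) ∧ ∀ y ∈ Icc 0 L, |f1 n y| ≤ C)
    (hl : ∀ y ∈ Icc 0 L, Tendsto (fun n => f n y) atTop (𝓝 (g y)))
    (hl1 : ∀ y ∈ Icc 0 L, Tendsto (fun n => f1 n y) atTop (𝓝 (g1 y)))
    (hg : ContinuousOn g1 (Icc 0 L)) : ∀ x ∈ Ioo 0 L, HasDerivAt g (g1 x) x := by
  have e : ∀ y ∈ Icc 0 L, g y = g 0 + ∫ z in (0 : ℝ)..y, g1 z := by
    intro y hy
    have h1 := lim_int (c := fun _ => 1) (m := id) hy.1 continuous_const continuous_id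
      (fun z hz => ⟨hz.1, hz.2.trans hy.2⟩) (h.mono fun n hn => ⟨hn.2.1, hn.2.2.2⟩) hl1
    simp only [one_mul, id] at h1
    refine tendsto_nhds_unique (hl y hy)
      (((hl 0 ⟨le_rfl, hy.1.trans hy.2⟩).add h1).congr' (h.mono fun n hn => ?_))
    have hs : Icc 0 y ⊆ Icc 0 L := Icc_subset_Icc_right hy.2
    beta_reduce
    rw [intervalIntegral.integral_eq_sub_of_hasDerivAt_of_le hy.1 (hn.1.mono hs)
      (fun z hz => hn.2.2.1 z ⟨hz.1, hz.2.trans_le hy.2⟩)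
      ((hn.2.1.mono hs).intervalIntegrable_of_Icc hy.1)]
    ring
  intro x hx
  have hn : Icc 0 L ∈ 𝓝 x := Icc_mem_nhds hx.1 hx.2
  refine ((intervalIntegral.integral_hasDerivAt_right
    ((hg.mono (Icc_subset_Icc_right hx.2.le)).intervalIntegrable_of_Icc hx.1.le)
    ((hg.mono Ioo_subset_Icc_self).stronglyMeasurableAtFilter isOpen_Ioo x hx)
    (hg.continuousAt hn)).const_add (g 0)).congr_of_eventuallyEq ?_
  filter_upwards [hn] with y hy using e y hy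

/-- the solution formula -/
def Φ (κ L : ℝ) (k : ℝ → ℝ) (x : ℝ) : ℝ :=
  (x ^ 11 + (1 - κ * x) ^ 2)⁻¹ *
    (L ^ 2 * (∫ θ in (0 : ℝ)..1, θ * (x + θ * (L - x)) ^ 9 * k (x + θ * (L - x))) + K1 k x)

theorem mem1 {L x θ : ℝ} (hx : x ∈ Icc 0 L) (hθ : θ ∈ Icc (0 : ℝ) 1) :
    x + θ * (L - x) ∈ Icc 0 L :=
  ⟨by nlinarith [hx.1, hx.2, hθ.1], by nlinarith [hx.1, hx.2, hθ.2]⟩

theorem mem2 {L x θ : ℝ} (hx : x ∈ Icc 0 L) (hθ : θ ∈ Icc (0 : ℝ) 1) : θ * x ∈ Icc 0 L :=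
  ⟨mul_nonneg hθ.1 hx.1, by nlinarith [hx.1, hx.2, hθ.2]⟩

theorem lim_Φ {κ L C x : ℝ} (hx : x ∈ Icc 0 L) {f : ℕ → ℝ → ℝ} {g : ℝ → ℝ}
    (h : ∀ᶠ n in atTop, ContinuousOn (f n) (Icc 0 L) ∧ ∀ y ∈ Icc 0 L, |f n y| ≤ C)
    (hl : ∀ y ∈ Icc 0 L, Tendsto (fun n => f n y) atTop (𝓝 (g y))) :
    Tendsto (fun n => Φ κ L (f n) x) atTop (𝓝 (Φ κ L g x)) :=
  (((lim_int (c := fun θ => θ * (x + θ * (L - x)) ^ 9) (m := fun θ => x + θ * (L - x)) zero_le_one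
    (by fun_prop) (by fun_prop) (fun _ => mem1 hx) h hl).const_mul _).add
    (lim_int (c := fun θ => (1 - θ) * θ ^ 9) (m := fun θ => θ * x) zero_le_one
      (by fun_prop) (by fun_prop) (fun _ => mem2 hx) h hl)).const_mul _

theorem ts_Φ {κ L : ℝ} {I : Set ℝ} (hI : IsOpen I) {u : Fn} (hu : TS I (Icc 0 L) u) :
    TS I (Icc 0 L) fun t x => Φ κ L (u t) x := by
  refine TS.cmul (c := fun x => (x ^ 11 + (1 - κ * x) ^ 2)⁻¹)
    (ContinuousOn.inv₀ (by fun_prop) fun x hx => ?_)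
    (TS.add hI (TS.cmul (c := fun _ => L ^ 2) continuousOn_const
      (hu.int_param hI (c := fun θ x => θ * (x + θ * (L - x)) ^ 9)
        (m := fun θ x => x + θ * (L - x)) (by fun_prop) (by fun_prop)
        fun θ hθ x hx => mem1 hx hθ).1)
      (hu.int_param hI (c := fun θ _ => (1 - θ) * θ ^ 9) (m := fun θ x => θ * x)
        (by fun_prop) (by fun_prop) fun θ hθ x hx => mem2 hx hθ).1)
  rcases hx.1.eq_or_lt with rfl | h
  · simp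
  · positivity

theorem volOn_sub {κ L : ℝ} {Z k Z' k' : ℝ → ℝ} (h : VolOn κ L Z k) (h' : VolOn κ L Z' k') :
    VolOn κ L (fun x => Z x - Z' x) fun x => k x - k' x :=
  ⟨h.cZ.sub h'.cZ, h.ck.sub h'.ck, fun x hx => by
    rw [vol_sub hx.1 (h.ck.mono (Icc_subset_Icc_right hx.2))
      (h'.ck.mono (Icc_subset_Icc_right hx.2)), ← h.eq x hx, ← h'.eq x hx, mul_sub]⟩

/-- extraction of a subsequence -/
theorem extract {κ L T : ℝ} (hκ : 0 ≤ κ) (hD : dom κ = Icc 0 L) {Tk : ℕ → ℝ}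
    (hTk : Tendsto Tk atTop (𝓝 T)) {u u1 : ℕ → Fn} (hu : ∀ k, TS (Iio (Tk k)) (dom κ) (u k))
    (hd : ∀ k j, ∀ t < Tk k, ∀ x ∈ Ioo 0 L, HasDerivAt (DT j (u k) t) (DT j (u1 k) t x) x)
    (hb : ∀ j, ∃ C, ∀ k, ∀ t < Tk k, ∀ x ∈ dom κ, |DT j (u k) t x| ≤ C ∧ |DT j (u1 k) t x| ≤ C) :
    ∃ φ : ℕ → ℕ, StrictMono φ ∧ ∃ v : Fn, TS (Iio T) (dom κ) v ∧
      ∀ (j : ℕ), ∀ t < T, ∀ η, 0 < η → ∀ᶠ k in atTop,
        ∀ x ∈ dom κ, |DT j (u (φ k)) t x - DT j v t x| ≤ η := by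
  obtain ⟨φ, hφ, v, hv, h⟩ := aa_ts T κ hκ u
    (fun tb htb R => (hTk.eventually (lt_mem_nhds htb)).mono fun k hk =>
      (hu k).mono (Iio_subset_Iio hk.le) inter_subset_left)
    fun j ta tb htb R => by
      obtain ⟨C, hC⟩ := hb j
      refine ⟨C, (hTk.eventually (lt_mem_nhds htb)).mono fun k hk t ht x hx =>
        ⟨(hC k t (ht.2.trans_lt hk) x hx.1).1, fun y hy => ?_⟩⟩
      exact lip (hD ▸ (hu k).cont_x j (ht.2.trans_lt hk)) (hd k j t (ht.2.trans_lt hk))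
        (fun z hz => (hC k t (ht.2.trans_lt hk) z (hD ▸ hz)).2) x (hD ▸ hx.1) y (hD ▸ hy.1)
  exact ⟨φ, hφ, v, hv, fun j t ht η hη => (h j t t ht L η hη).mono fun k hk x hx =>
    hk t ⟨le_rfl, le_rfl⟩ x ⟨hx, (hD ▸ hx : x ∈ Icc 0 L).2⟩⟩

theorem tend {a : ℕ → ℝ} {b : ℝ} (h : ∀ η, 0 < η → ∀ᶠ k in atTop, |a k - b| ≤ η) :
    Tendsto a atTop (𝓝 b) :=
  Metric.tendsto_nhds.2 fun η hη => (h (η / 2) (half_pos hη)).mono fun _ hk =>
    hk.trans_lt (half_lt_self hη)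

theorem small {ϵ a : ℕ → ℝ} {C : ℝ} (hϵ : Tendsto ϵ atTop (𝓝 0)) (h : ∀ᶠ k in atTop, |a k| ≤ C) :
    Tendsto (fun k => ϵ k * a k) atTop (𝓝 0) :=
  hϵ.zero_mul_isBoundedUnder_le ⟨C, h⟩

/-- the limit along the full sequence -/
theorem limit {κ ε L t0 T c : ℝ} {γ d e G G1 : Fn} (hL : 0 < L) (hκ : κ * L = 1) (hc : 0 < c)
    (hγ : TS (Iio T) (dom κ) γ) (hd : TS (Iio T) (dom κ) d) (he : TS (Iio T) (dom κ) e)
    {ϵ Tk : ℕ → ℝ} {F F1 F2 ζ : ℕ → Fn} (hϵ : Tendsto ϵ atTop (𝓝 0))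
    (hTk : Tendsto Tk atTop (𝓝 T))
    (hs : ∀ k, Sys κ ε (ϵ k) (Iio (Tk k)) γ d e (F k) (F1 k) (F2 k) (ζ k) ∧ Zero κ t0 (Tk k) (F k))
    (hpos : ∀ k, ∀ t ∈ Ico t0 (Tk k), ∀ x ∈ dom κ, c ≤ γ t x + ε * ph κ x * ζ k t x)
    (h0 : ∀ t ≤ t0, ∀ x ∈ dom κ, d t x = 0 ∧ e t x = 0)
    (hb : ∀ j, ∃ C, ∀ k, ∀ t < Tk k, ∀ x ∈ dom κ, |DT j (F k) t x| ≤ C ∧ |DT j (F1 k) t x| ≤ C ∧
      |DT j (F2 k) t x| ≤ C ∧ |DT j (ζ k) t x| ≤ C)
    (hG : TS (Iio T) (dom κ) G) (hG1 : TS (Iio T) (dom κ) G1)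
    (hF : ∀ (j : ℕ), ∀ t < T, ∀ η, 0 < η → ∀ᶠ k in atTop,
      ∀ x ∈ dom κ, |DT j (F k) t x - DT j G t x| ≤ η)
    (hF1 : ∀ t < T, ∀ x ∈ dom κ, Tendsto (fun k => F1 k t x) atTop (𝓝 (G1 t x))) :
    ∃ G2 Z, Sys κ ε 0 (Iio T) γ d e G G1 G2 Z ∧ Zero κ t0 T G ∧
      ∀ (j : ℕ), ∀ t < T, ∀ η, 0 < η → ∀ᶠ k in atTop, ∀ x ∈ dom κ,
        |DT j (ζ k) t x - DT j Z t x| ≤ η := by
  have hD := dom_eq_Icc hL hκ
  have hev : ∀ t < T, ∀ᶠ k in atTop, t < Tk k := fun t ht => hTk.eventually (lt_mem_nhds ht)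
  have hFl : ∀ j, ∀ t < T, ∀ x ∈ dom κ, Tendsto (fun k => DT j (F k) t x) atTop (𝓝 (DT j G t x)) :=
    fun j t ht x hx => tend fun η hη => (hF j t ht η hη).mono fun k hk => hk x hx
  obtain ⟨C0, hC0⟩ := hb 0
  obtain ⟨C1, hC1⟩ := hb 1
  set Z : Fn := fun t x => Φ κ L (fun y => Dt G t y - e t y) x with hZ
  have tZ : TS (Iio T) (dom κ) Z := hD ▸ ts_Φ isOpen_Iio (hD ▸ (hG.dt 1).sub isOpen_Iio he)
  have hk : ∀ t < T, (∃ C, ∀ᶠ n in atTop, ContinuousOn (fun y => Dt (F n) t y - e t y) (Icc 0 L) ∧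
      ∀ y ∈ Icc 0 L, |Dt (F n) t y - e t y| ≤ C) ∧ ∀ y ∈ Icc 0 L,
      Tendsto (fun n => Dt (F n) t y - e t y) atTop (𝓝 (Dt G t y - e t y)) := by
    intro t ht
    have h1 : ContinuousOn (e t) (Icc 0 L) := hD ▸ he.cont_x 0 ht
    obtain ⟨B, hB⟩ := isCompact_Icc.exists_bound_of_continuousOn h1
    refine ⟨⟨C1 + B, (hev t ht).mono fun n hn =>
      ⟨(hD ▸ (hs n).1.tF.cont_x 1 hn : ContinuousOn (DT 1 (F n) t) (Icc 0 L)).sub h1,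
        fun y hy => ?_⟩⟩, fun y hy => (hFl 1 t ht y (hD ▸ hy)).sub_const _⟩
    exact (abs_sub _ _).trans (add_le_add (hC1 n t hn y (hD ▸ hy)).1 (hB y hy))
  have hW : ∀ t < T, ∀ x ∈ dom κ,
      Tendsto (fun k => ζ k t x - ϵ k * Dt (F2 k) t x) atTop (𝓝 (Z t x)) := by
    intro t ht x hx
    obtain ⟨⟨C, h1⟩, h2⟩ := hk t ht
    refine (lim_Φ (κ := κ) (hD ▸ hx) h1 h2).congr' ((hev t ht).mono fun n hn => ?_)
    refine Eq.trans ?_ (((hs n).1.volOn isOpen_Iio hκ.le 0 hn).formula hL hκ (hD ▸ hx)).symm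
    rw [div_eq_inv_mul]
    rfl
  have hζ : ∀ t < T, ∀ x ∈ dom κ, Tendsto (fun k => ζ k t x) atTop (𝓝 (Z t x)) := by
    intro t ht x hx
    have := (hW t ht x hx).add (small (a := fun k => Dt (F2 k) t x) hϵ
      ((hev t ht).mono fun n hn => (hC1 n t hn x hx).2.2.1))
    simpa using this
  have gpos : ∀ t < T, ∀ x ∈ dom κ, 0 < γ t x := fun t ht x hx => by
    obtain ⟨n, hn⟩ := (hev t ht).exists
    exact (hs n).1.gpos t hn x hx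
  have pos : ∀ t < T, ∀ x ∈ dom κ, 0 < γ t x + ε * ph κ x * Z t x := fun t ht x hx => by
    have h1 := ((hζ t ht x hx).const_mul (ε * ph κ x)).const_add (γ t x)
    rcases le_total t t0 with h | h
    · refine (gpos t ht x hx).trans_le (ge_of_tendsto h1 ((hev t ht).mono fun n hn => ?_))
      have : ζ n t x = 0 :=
        ((hs n).1.dt_eq_zero (hs n).2 (fun s hs y hy => (h0 s hs y hy).1) 0 t h hn x hx).2.2.2
      simp [this]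
    · exact hc.trans_le (ge_of_tendsto h1 ((hev t ht).mono fun n hn => hpos n t ⟨h, hn⟩ x hx))
  set G2 : Fn := fun t x => -(Z t x * ((γ t x + ε * ph κ x * Z t x) * γ t x)⁻¹) - d t x with hG2
  have tG2 : TS (Iio T) (dom κ) G2 :=
    TS.sub isOpen_Iio (TS.neg (tZ.mul isOpen_Iio (TS.inv isOpen_Iio (TS.mul isOpen_Iio
      (hγ.add isOpen_Iio (tZ.cmul (c := fun x => ε * ph κ x) (by unfold ph; fun_prop))) hγ)
      fun t ht x hx => (mul_pos (pos t ht x hx) (gpos t ht x hx)).ne'))) hd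
  have hF2 : ∀ t < T, ∀ x ∈ dom κ, Tendsto (fun k => F2 k t x) atTop (𝓝 (G2 t x)) := by
    intro t ht x hx
    refine ((((hζ t ht x hx).mul (((((hζ t ht x hx).const_mul (ε * ph κ x)).const_add
      (γ t x)).mul_const (γ t x)).inv₀
      (mul_pos (pos t ht x hx) (gpos t ht x hx)).ne')).neg).sub_const (d t x)).congr'
      ((hev t ht).mono fun n hn => ?_)
    have h1 := (hs n).1.nl t hn x hx
    have h2 := (mul_pos ((hs n).1.pos t hn x hx) (gpos t ht x hx)).ne'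
    beta_reduce
    generalize (γ t x + ε * ph κ x * ζ n t x) * γ t x = w at h1 h2 ⊢
    rw [h1]
    field_simp
    ring
  have hIo : ∀ x, 0 < x → κ * x < 1 → x ∈ Ioo 0 L := fun x h1 h2 =>
    ⟨h1, by nlinarith [(hs 0).1.hκ]⟩
  have hsys : Sys κ ε 0 (Iio T) γ d e G G1 G2 Z := by
    refine ⟨(hs 0).1.hκ, hγ, hd, he, hG, hG1, tG2, tZ, fun t ht x h1 h2 => ?_,
      fun t ht x h1 h2 => ?_, fun t ht x hx => ?_, fun t ht x hx => ?_, gpos, pos⟩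
    · refine lim_deriv (f := fun k => F k t) (f1 := fun k => F1 k t) (C := C0)
        ((hev t ht).mono fun n hn => ?_) (fun y hy => hFl 0 t ht y (hD ▸ hy))
        (fun y hy => hF1 t ht y (hD ▸ hy)) (hD ▸ hG1.cont_x 0 ht) x (hIo x h1 h2)
      have := (hs n).1.sp isOpen_Iio hκ.le 0 hn
      exact ⟨this.c0, this.c1, this.d1, fun y hy => (hC0 n t hn y (hD ▸ hy)).2.1⟩
    · refine lim_deriv (f := fun k => F1 k t) (f1 := fun k => F2 k t) (C := C0)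
        ((hev t ht).mono fun n hn => ?_) (fun y hy => hF1 t ht y (hD ▸ hy))
        (fun y hy => hF2 t ht y (hD ▸ hy)) (hD ▸ tG2.cont_x 0 ht) x (hIo x h1 h2)
      have := (hs n).1.sp isOpen_Iio hκ.le 0 hn
      exact ⟨this.c1, this.c2, this.d2, fun y hy => (hC0 n t hn y (hD ▸ hy)).2.2.1⟩
    · obtain ⟨⟨C, h1⟩, h2⟩ := hk t ht
      have hx' : x ∈ Icc 0 L := hD ▸ hx
      rw [zero_mul, sub_zero]
      exact tendsto_nhds_unique ((hW t ht x hx).const_mul _)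
        ((lim_int (c := fun y => (x - y) * y ^ 9) (m := id) hx'.1 (by fun_prop) continuous_id
          (fun z hz => ⟨hz.1, hz.2.trans hx'.2⟩) h1 h2).congr'
          ((hev t ht).mono fun n hn => ((hs n).1.vol t hn x hx).symm))
    · have h2 := (mul_pos (pos t ht x hx) (gpos t ht x hx)).ne'
      simp only [hG2]
      generalize (γ t x + ε * ph κ x * Z t x) * γ t x = w at h2 ⊢
      field_simp
      ring
  refine ⟨G2, Z, hsys, fun t h ht x hx => tendsto_nhds_unique (hFl 0 t ht x hx)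
    (tendsto_const_nhds.congr' ((hev t ht).mono fun n hn => ((hs n).2 t h hn x hx).symm)),
    fun j t ht η hη => ?_⟩
  obtain ⟨A, hA⟩ := VolOn.abs_le hL hκ
  obtain ⟨C, hC⟩ := hb (j + 1)
  have h1 : Tendsto (fun δ : ℝ => A * δ) (𝓝[>] 0) (𝓝 0) :=
    (Continuous.tendsto' (by fun_prop) 0 0 (by simp)).mono_left nhdsWithin_le_nhds
  obtain ⟨δ, hδ1, hδ⟩ := ((h1.eventually (gt_mem_nhds (half_pos hη))).and
    self_mem_nhdsWithin).exists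
  have h2 : Tendsto (fun k => |ϵ k| * C) atTop (𝓝 0) := by simpa using hϵ.abs.mul_const C
  filter_upwards [hev t ht, hF (j + 1) t ht δ hδ, h2.eventually (gt_mem_nhds (half_pos hη))]
    with n hn h3 h4 x hx
  have h5 := hA _ _ δ (volOn_sub ((hs n).1.volOn isOpen_Iio hκ.le j hn)
    (hsys.volOn isOpen_Iio hκ.le j ht))
    (fun y hy => by simpa using h3 y (hD ▸ hy)) x (hD ▸ hx)
  have h6 : |ϵ n * DT (j + 1) (F2 n) t x| ≤ |ϵ n| * C := by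
    rw [abs_mul]
    exact mul_le_mul_of_nonneg_left (hC n t hn x hx).2.2.1 (abs_nonneg _)
  rw [abs_le] at h5 h6 ⊢
  constructor <;> linarith [h5.1, h5.2, h6.1, h6.2]

theorem reg_limit {κ ε b t0 T c : ℝ} {γ d e : Fn} (hκ : 0 < κ) (hT : T ≤ b) (hc : 0 < c)
    (hγ : TS (Iio b) (dom κ) γ) (hd : TS (Iio b) (dom κ) d) (he : TS (Iio b) (dom κ) e)
    (ϵ Tk : ℕ → ℝ) (F F1 F2 ζ : ℕ → Fn) (hϵ : Tendsto ϵ atTop (𝓝 0))
    (hTk : Tendsto Tk atTop (𝓝 T))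
    (hs : ∀ k, Sys κ ε (ϵ k) (Iio (Tk k)) γ d e (F k) (F1 k) (F2 k) (ζ k) ∧ Zero κ t0 (Tk k) (F k))
    (hpos : ∀ k, ∀ t ∈ Ico t0 (Tk k), ∀ x ∈ dom κ, c ≤ γ t x + ε * ph κ x * ζ k t x)
    (h0 : ∀ t ≤ t0, ∀ x ∈ dom κ, d t x = 0 ∧ e t x = 0)
    (hb : ∀ j, ∃ C, ∀ k, ∀ t < Tk k, ∀ x ∈ dom κ, |DT j (F k) t x| ≤ C ∧ |DT j (F1 k) t x| ≤ C ∧
      |DT j (F2 k) t x| ≤ C ∧ |DT j (ζ k) t x| ≤ C) :
    ∃ φ : ℕ → ℕ, StrictMono φ ∧ ∃ G G1 G2 Z, Sys κ ε 0 (Iio T) γ d e G G1 G2 Z ∧ Zero κ t0 T G ∧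
      ∀ (j : ℕ), ∀ t < T, ∀ η, 0 < η → ∀ᶠ k in atTop, ∀ x ∈ dom κ,
        |DT j (ζ (φ k)) t x - DT j Z t x| ≤ η := by
  have hL : 0 < κ⁻¹ := inv_pos.2 hκ
  have hκL : κ * κ⁻¹ = 1 := mul_inv_cancel₀ hκ.ne'
  have hD := dom_eq_Icc hL hκL
  obtain ⟨φ, hφ, G, hG, h1⟩ := extract hκ.le hD hTk (u := F) (u1 := F1) (fun k => (hs k).1.tF)
    (fun k j t ht => ((hs k).1.sp isOpen_Iio hκL.le j ht).d1)
    fun j => (hb j).imp fun C hC k t ht x hx => ⟨(hC k t ht x hx).1, (hC k t ht x hx).2.1⟩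
  obtain ⟨ψ, hψ, G1, hG1, h2⟩ := extract hκ.le hD (hTk.comp hφ.tendsto_atTop)
    (u := fun k => F1 (φ k)) (u1 := fun k => F2 (φ k)) (fun k => (hs _).1.tF1)
    (fun k j t ht => ((hs _).1.sp isOpen_Iio hκL.le j ht).d2)
    fun j => (hb j).imp fun C hC k t ht x hx => ⟨(hC _ t ht x hx).2.1, (hC _ t ht x hx).2.2.1⟩
  have hs' := (hφ.comp hψ).tendsto_atTop
  exact ⟨φ ∘ ψ, hφ.comp hψ, G, G1, limit hL hκL hc (hγ.mono (Iio_subset_Iio hT) subset_rfl)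
    (hd.mono (Iio_subset_Iio hT) subset_rfl) (he.mono (Iio_subset_Iio hT) subset_rfl)
    (F := fun k => F (φ (ψ k))) (F1 := fun k => F1 (φ (ψ k))) (F2 := fun k => F2 (φ (ψ k)))
    (ζ := fun k => ζ (φ (ψ k))) (hϵ.comp hs') (hTk.comp hs') (fun k => hs _) (fun k => hpos _) h0
    (fun j => (hb j).imp fun C hC k => hC _) hG hG1
    (fun j t ht η hη => hψ.tendsto_atTop.eventually (h1 j t ht η hη))
    fun t ht x hx => tend fun η hη => (h2 0 t ht η hη).mono fun k hk => hk x hx⟩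

end C5A
end Crest.Agent.R213
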