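import Crest.Agent.R213.SysB
import Crest.Agent.R213.Alg
import Crest.Agent.R213.D1

/-!
# Row 213: uniqueness, stability and gluing (proofs)
-/

set_option autoImplicit false

noncomputable section

namespace Crest.Agent.R213.UniqA

open Set Filter Topology
open scoped ContDiff

variable {κ ε L T t0 : ℝ} {γ d e e' F F1 F2 ζ F' F1' F2' ζ' : Fn}

theorem zdiff {g x z z' y y' : ℝ} (hg : g ≠ 0) (h : z = -((g + x * z) * g * y))
    (h' : z' = -((g + x * z') * g * y')) : z - z' = -((g + x * z) * (g + x * z') * (y - y')) := by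
  refine mul_left_cancel₀ hg ?_
  linear_combination (g + x * z') * h - (g + x * z) * h'

theorem Sys_zdiff {I : Set ℝ} (h : Sys κ ε 0 I γ d e F F1 F2 ζ)
    (h' : Sys κ ε 0 I γ d e' F' F1' F2' ζ') {t x : ℝ} (ht : t ∈ I) (hx : x ∈ dom κ) :
    ζ t x - ζ' t x = -((γ t x + ε * ph κ x * ζ t x) * (γ t x + ε * ph κ x * ζ' t x) *
      (F2 t x - F2' t x)) := by
  rw [zdiff (h.gpos t ht x hx).ne' (h.nl t ht x hx) (h'.nl t ht x hx), add_sub_add_right_eq_sub]

theorem diss (hL : 0 < L) (hκ : κ * L = 1) (h : Sys κ ε 0 (Iio T) γ d e F F1 F2 ζ)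
    (h' : Sys κ ε 0 (Iio T) γ d e' F' F1' F2' ζ') {s : ℝ} (hs : s < T) :
    (∫ x in (0 : ℝ)..L, x ^ 9 * (Dt F s x - e s x - (Dt F' s x - e' s x)) *
      (1 * (F s x - F' s x))) ≤ 0 := by
  have hD := dom_eq_Icc hL hκ
  have a := h.sp isOpen_Iio hκ.le 0 hs
  have a' := h'.sp isOpen_Iio hκ.le 0 hs
  have v := h.volOn isOpen_Iio hκ.le 0 hs
  have v' := h'.volOn isOpen_Iio hκ.le 0 hs
  simp only [DT, zero_mul, sub_zero] at a a' v v'
  have b : Sp L (fun x => F s x - F' s x) (fun x => F1 s x - F1' s x) fun x => F2 s x - F2' s x :=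
    ⟨a.c0.sub a'.c0, a.c1.sub a'.c1, a.c2.sub a'.c2, fun x hx => (a.d1 x hx).sub (a'.d1 x hx),
      fun x hx => (a.d2 x hx).sub (a'.d2 x hx)⟩
  have w : Sp L (fun _ => 1) (fun _ => 0) fun _ => 0 :=
    ⟨continuousOn_const, continuousOn_const, continuousOn_const, fun x _ => hasDerivAt_const x _,
      fun x _ => hasDerivAt_const x _⟩
  have z : VolOn κ L (fun x => ζ s x - ζ' s x) fun x => Dt F s x - e s x - (Dt F' s x - e' s x) :=
    ⟨v.cZ.sub v'.cZ, v.ck.sub v'.ck, fun x hx => by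
      rw [vol_sub hx.1 (v.ck.mono (Icc_subset_Icc_right hx.2))
        (v'.ck.mono (Icc_subset_Icc_right hx.2)), ← v.eq x hx, ← v'.eq x hx, mul_sub]⟩
  rw [ibp hL b w z (Or.inl hκ), ← neg_nonneg, ← intervalIntegral.integral_neg]
  refine intervalIntegral.integral_nonneg hL.le fun x hx => ?_
  have hx' : x ∈ dom κ := hD ▸ hx
  rw [Sys_zdiff h h' hs hx']
  have h1 := mul_nonneg (mul_nonneg (pow_nonneg hx.1 9) (sq_nonneg (ph κ x)))
    (mul_nonneg (mul_pos (h.pos s hs x hx') (h'.pos s hs x hx')).le (sq_nonneg (F2 s x - F2' s x)))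
  refine h1.trans_eq ?_
  ring

theorem stab (hL : 0 < L) (hκ : κ * L = 1) (h : Sys κ ε 0 (Iio T) γ d e F F1 F2 ζ)
    (h' : Sys κ ε 0 (Iio T) γ d e' F' F1' F2' ζ') (h0 : Zero κ t0 T F) (h0' : Zero κ t0 T F')
    {t δ : ℝ} (ht0 : t0 ≤ t) (ht : t < T)
    (he : ∀ s ∈ Icc t0 t, (∫ x in (0 : ℝ)..L, x ^ 9 * (e s x - e' s x) ^ 2) ≤ δ) :
    (∫ x in (0 : ℝ)..L, x ^ 9 * (F t x - F' t x) ^ 2) ≤ δ * Real.exp (t - t0) := by
  have hD := dom_eq_Icc hL hκ
  have hU : uIcc 0 L = dom κ := by rw [hD, uIcc_of_le hL.le]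
  have hδ : 0 ≤ δ := le_trans (intervalIntegral.integral_nonneg hL.le fun x hx =>
    mul_nonneg (pow_nonneg hx.1 9) (sq_nonneg _)) (he t0 ⟨le_rfl, ht0⟩)
  have hd : ∀ s ∈ Icc t0 t, HasDerivAt (fun s => ∫ x in (0 : ℝ)..L, x ^ 9 * (F s x - F' s x) ^ 2)
      (∫ x in (0 : ℝ)..L, x ^ 9 * (2 * (F s x - F' s x) * (Dt F s x - Dt F' s x))) s := by
    intro s hs
    refine hasDerivAt_int (I := Iio T) isOpen_Iio (w := fun s x => x ^ 9 * (F s x - F' s x) ^ 2)
      (w' := fun s x => x ^ 9 * (2 * (F s x - F' s x) * (Dt F s x - Dt F' s x))) ?_ ?_ ?_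
      (hs.2.trans_lt ht)
    · rw [hU]
      exact (continuousOn_snd.pow 9).mul (((h.tF 0).1.sub (h'.tF 0).1).pow 2)
    · rw [hU]
      exact (continuousOn_snd.pow 9).mul ((continuousOn_const.mul
        ((h.tF 0).1.sub (h'.tF 0).1)).mul ((h.tF 1).1.sub (h'.tF 1).1))
    · rw [hU]
      intro s hs x hx
      have := ((((h.tF 0).2 s hs x hx).sub ((h'.tF 0).2 s hs x hx)).pow 2).const_mul (x ^ 9)
      simpa [DT] using this
  have key := gron_le (K := 1) ht0 one_pos hδ hd fun s hs => ?_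
  · have hs0 : t0 < T := ht0.trans_lt ht
    have e0 : (∫ x in (0 : ℝ)..L, x ^ 9 * (F t0 x - F' t0 x) ^ 2) = 0 := by
      rw [intervalIntegral.integral_congr (g := fun _ => 0) fun x hx => ?_,
        intervalIntegral.integral_zero]
      rw [hU] at hx
      simp [h0 t0 le_rfl hs0 x hx, h0' t0 le_rfl hs0 x hx]
    simpa [e0] using key
  have hs' : s < T := hs.2.trans_lt ht
  have c0 : ContinuousOn (F s) (uIcc 0 L) := hU ▸ h.tF.cont_x 0 hs'
  have c0' : ContinuousOn (F' s) (uIcc 0 L) := hU ▸ h'.tF.cont_x 0 hs'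
  have c1 : ContinuousOn (Dt F s) (uIcc 0 L) := hU ▸ h.tF.cont_x 1 hs'
  have c1' : ContinuousOn (Dt F' s) (uIcc 0 L) := hU ▸ h'.tF.cont_x 1 hs'
  have ce : ContinuousOn (e s) (uIcc 0 L) := hU ▸ h.te.cont_x 0 hs'
  have ce' : ContinuousOn (e' s) (uIcc 0 L) := hU ▸ h'.te.cont_x 0 hs'
  have i1 : IntervalIntegrable (fun x => x ^ 9 * (Dt F s x - e s x - (Dt F' s x - e' s x)) *
      (1 * (F s x - F' s x))) MeasureTheory.volume 0 L :=
    ContinuousOn.intervalIntegrable (by fun_prop)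
  have i2 : IntervalIntegrable (fun x => x ^ 9 * (F s x - F' s x) ^ 2) MeasureTheory.volume 0 L :=
    ContinuousOn.intervalIntegrable (by fun_prop)
  have i3 : IntervalIntegrable (fun x => x ^ 9 * (e s x - e' s x) ^ 2) MeasureTheory.volume 0 L :=
    ContinuousOn.intervalIntegrable (by fun_prop)
  have h1 := intervalIntegral.integral_mono_on hL.le
    (f := fun x => x ^ 9 * (2 * (F s x - F' s x) * (Dt F s x - Dt F' s x)))
    (ContinuousOn.intervalIntegrable (by fun_prop)) (((i1.const_mul 2).add i2).add i3) fun x hx => by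
      have := mul_nonneg (pow_nonneg hx.1 9) (sq_nonneg (F s x - F' s x - (e s x - e' s x)))
      linarith
  rw [intervalIntegral.integral_add ((i1.const_mul 2).add i2) i3,
    intervalIntegral.integral_add (i1.const_mul 2) i2, intervalIntegral.integral_const_mul] at h1
  linarith [diss hL hκ h h' hs', he s hs]

theorem uniq (hκ : 0 < κ) (h : Sys κ ε 0 (Iio T) γ d e F F1 F2 ζ)
    (h' : Sys κ ε 0 (Iio T) γ d e F' F1' F2' ζ') (h0 : Zero κ t0 T F) (h0' : Zero κ t0 T F') :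
    ∀ t < T, ∀ x ∈ dom κ, F t x = F' t x ∧ F1 t x = F1' t x ∧ F2 t x = F2' t x ∧
      ζ t x = ζ' t x := by
  intro t ht
  have hL : 0 < κ⁻¹ := inv_pos.2 hκ
  have hκL : κ * κ⁻¹ = 1 := mul_inv_cancel₀ hκ.ne'
  have hD := dom_eq_Icc hL hκL
  have hF : ∀ x ∈ dom κ, F t x = F' t x := by
    rcases le_total t t0 with h1 | h1
    · exact fun x hx => (h0 t h1 ht x hx).trans (h0' t h1 ht x hx).symm
    have h2 := stab (δ := 0) hL hκL h h' h0 h0' h1 ht fun s _ => by simp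
    have c0 : ContinuousOn (F t) (Icc 0 κ⁻¹) := hD ▸ h.tF.cont_x 0 ht
    have c0' : ContinuousOn (F' t) (Icc 0 κ⁻¹) := hD ▸ h'.tF.cont_x 0 ht
    rw [hD]
    refine EqOn.of_subset_closure (s := Ioc 0 κ⁻¹) (fun x hx => ?_) c0 c0' Ioc_subset_Icc_self
      (closure_Ioc hL.ne).ge
    by_contra hne
    refine absurd (h2.trans_eq (zero_mul _)) (not_le.2 (intervalIntegral.integral_pos hL
      (by fun_prop) (fun y hy => mul_nonneg (pow_nonneg hy.1.le 9) (sq_nonneg _))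
      ⟨x, Ioc_subset_Icc_self hx, mul_pos (pow_pos hx.1 9) (sq_pos_of_ne_zero (sub_ne_zero.2 hne))⟩))
  intro x hx
  obtain ⟨h1, h2⟩ := h.eq_of_eq h' ht hF x hx
  refine ⟨hF x hx, h1, h2, sub_eq_zero.1 ?_⟩
  rw [Sys_zdiff h h' ht hx, h2, sub_self, mul_zero, neg_zero]

theorem glue (hκ : 0 < κ)
    (h : ∀ T' < T, ∃ F F1 F2 ζ, Sys κ ε 0 (Iio T') γ d e F F1 F2 ζ ∧ Zero κ t0 T' F) :
    ∃ F F1 F2 ζ, Sys κ ε 0 (Iio T) γ d e F F1 F2 ζ ∧ Zero κ t0 T F := by
  have h1 : ∀ s : ℝ, ∃ F F1 F2 ζ : Fn, s < T →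
      Sys κ ε 0 (Iio ((s + T) / 2)) γ d e F F1 F2 ζ ∧ Zero κ t0 ((s + T) / 2) F := by
    intro s
    by_cases hs : s < T
    · obtain ⟨F, F1, F2, ζ, h2⟩ := h ((s + T) / 2) (by linarith)
      exact ⟨F, F1, F2, ζ, fun _ => h2⟩
    · exact ⟨0, 0, 0, 0, fun h2 => absurd h2 hs⟩
  choose A A1 A2 Z hA using h1
  refine ⟨fun t => A t t, fun t => A1 t t, fun t => A2 t t, fun t => Z t t,
    Sys.of_local hκ.le fun t ht => ?_, fun t h1 ht x hx => (hA t ht).2 t h1 (by linarith) x hx⟩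
  have ht' : t < T := ht
  refine ⟨Iio ((t + T) / 2), isOpen_Iio, show t < (t + T) / 2 by linarith,
    Iio_subset_Iio (by linarith), (hA t ht).1.congr isOpen_Iio fun s hs x hx => ⟨rfl, rfl, rfl, ?_⟩⟩
  have hs' : s < (t + T) / 2 := hs
  have hsT : s < T := by linarith
  exact uniq (T := min ((s + T) / 2) ((t + T) / 2)) hκ
    ((hA s hsT).1.mono (Iio_subset_Iio (min_le_left _ _)))
    ((hA t ht).1.mono (Iio_subset_Iio (min_le_right _ _)))
    (fun τ h1 h2 => (hA s hsT).2 τ h1 (h2.trans_le (min_le_left _ _)))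
    (fun τ h1 h2 => (hA t ht).2 τ h1 (h2.trans_le (min_le_right _ _))) s
    (lt_min (by linarith) hs') x hx

theorem small_of_sq {r C : ℝ} (hr : 0 < r) (η : ℝ) (hη : 0 < η) : ∃ δ, 0 < δ ∧
    ∀ (u : ℝ → ℝ), ContinuousOn u (Icc 0 r) →
      (∀ x ∈ Icc 0 r, ∀ y ∈ Icc 0 r, |u x - u y| ≤ C * |x - y|) →
      (∫ x in (0 : ℝ)..r, x ^ 9 * u x ^ 2) ≤ δ → ∀ x ∈ Icc 0 r, |u x| ≤ η := by
  have hC : 0 < |C| + 1 := by positivity
  obtain ⟨l, hl, hl1, hl2⟩ : ∃ l : ℝ, 0 < l ∧ l ≤ r / 4 ∧ (|C| + 1) * (2 * l) ≤ η / 2 := by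
    refine ⟨min (r / 4) (η / (4 * (|C| + 1))), by positivity, min_le_left _ _, ?_⟩
    have := (le_div_iff₀ (by positivity)).1 (min_le_right (r / 4) (η / (4 * (|C| + 1))))
    linarith
  have hp : 0 < l * (l ^ 9 * (η / 2) ^ 2) := by positivity
  refine ⟨l * (l ^ 9 * (η / 2) ^ 2) / 2, by positivity, fun u hu hlip hint x hx => ?_⟩
  by_contra hne
  obtain ⟨a, ha1, ha2, ha3, ha4⟩ : ∃ a, l ≤ a ∧ a + l ≤ r ∧ x - 2 * l ≤ a ∧ a + l ≤ x + 2 * l := by
    rcases le_total x (r / 2) with h | h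
    · exact ⟨x + l, by linarith [hx.1], by linarith, by linarith, by linarith⟩
    · exact ⟨x - l, by linarith, by linarith [hx.2], by linarith, by linarith⟩
  have hc : ContinuousOn (fun y => y ^ 9 * u y ^ 2) (Icc 0 r) := by fun_prop
  have h1 := intervalIntegral.integral_mono_interval (μ := MeasureTheory.volume)
    (f := fun y => y ^ 9 * u y ^ 2) (show 0 ≤ a by linarith) (show a ≤ a + l by linarith) ha2
    ((MeasureTheory.ae_restrict_mem measurableSet_Ioc).mono fun y hy =>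
      mul_nonneg (pow_nonneg hy.1.le 9) (sq_nonneg _)) (hc.intervalIntegrable_of_Icc hr.le)
  have h2 := intervalIntegral.integral_mono_on (μ := MeasureTheory.volume)
    (show a ≤ a + l by linarith) (f := fun _ => l ^ 9 * (η / 2) ^ 2) intervalIntegrable_const
    ((hc.mono (Icc_subset_Icc (by linarith) ha2)).intervalIntegrable_of_Icc (by linarith))
    fun y hy => by
      have h3 := hlip x hx y ⟨by linarith [hy.1], hy.2.trans ha2⟩
      have h4 : |x - y| ≤ 2 * l := abs_le.2 ⟨by linarith [hy.2], by linarith [hy.1]⟩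
      have h5 : C * |x - y| ≤ (|C| + 1) * (2 * l) :=
        mul_le_mul (by linarith [le_abs_self C]) h4 (abs_nonneg _) hC.le
      have h6 : η / 2 ≤ |u y| := by linarith [abs_sub_abs_le_abs_sub (u x) (u y), not_le.1 hne]
      rw [← sq_abs (u y)]
      exact mul_le_mul (pow_le_pow_left₀ hl.le (ha1.trans hy.1) 9)
        (pow_le_pow_left₀ (by positivity) h6 2) (by positivity) (pow_nonneg (by linarith [hy.1]) 9)
  rw [intervalIntegral.integral_const, add_sub_cancel_left, smul_eq_mul] at h2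
  linarith

end Crest.Agent.R213.UniqA
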