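import Crest.Agent.R213.SysB
import Crest.Agent.R213.Alg
import Crest.Agent.R213.D1
import Crest.Agent.R213.UniqA

/-!
# Row 213: uniqueness, stability and gluing
-/

set_option autoImplicit false

noncomputable section

namespace Crest.Agent.R213

open Set Filter Topology
open scoped ContDiff

variable {κ ε L T t0 : ℝ} {γ d e e' F F1 F2 ζ F' F1' F2' ζ' : Fn}

/-- `L²` stability (the flow is a gradient flow of a convex functional). -/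
theorem stab (hL : 0 < L) (hκ : κ * L = 1) (h : Sys κ ε 0 (Iio T) γ d e F F1 F2 ζ)
    (h' : Sys κ ε 0 (Iio T) γ d e' F' F1' F2' ζ') (h0 : Zero κ t0 T F) (h0' : Zero κ t0 T F')
    {t δ : ℝ} (ht0 : t0 ≤ t) (ht : t < T)
    (he : ∀ s ∈ Icc t0 t, (∫ x in (0 : ℝ)..L, x ^ 9 * (e s x - e' s x) ^ 2) ≤ δ) :
    (∫ x in (0 : ℝ)..L, x ^ 9 * (F t x - F' t x) ^ 2) ≤ δ * Real.exp (t - t0) :=
  UniqA.stab hL hκ h h' h0 h0' ht0 ht he

theorem uniq (hκ : 0 < κ) (h : Sys κ ε 0 (Iio T) γ d e F F1 F2 ζ)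
    (h' : Sys κ ε 0 (Iio T) γ d e F' F1' F2' ζ') (h0 : Zero κ t0 T F) (h0' : Zero κ t0 T F') :
    ∀ t < T, ∀ x ∈ dom κ, F t x = F' t x ∧ F1 t x = F1' t x ∧ F2 t x = F2' t x ∧
      ζ t x = ζ' t x :=
  UniqA.uniq hκ h h' h0 h0'

/-- Solutions on all shorter intervals glue to a solution. -/
theorem glue (hκ : 0 < κ)
    (h : ∀ T' < T, ∃ F F1 F2 ζ, Sys κ ε 0 (Iio T') γ d e F F1 F2 ζ ∧ Zero κ t0 T' F) :
    ∃ F F1 F2 ζ, Sys κ ε 0 (Iio T) γ d e F F1 F2 ζ ∧ Zero κ t0 T F :=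
  UniqA.glue hκ h

/-- Small in `L²` and Lipschitz implies uniformly small. -/
theorem small_of_sq {r C : ℝ} (hr : 0 < r) (η : ℝ) (hη : 0 < η) : ∃ δ, 0 < δ ∧
    ∀ (u : ℝ → ℝ), ContinuousOn u (Icc 0 r) →
      (∀ x ∈ Icc 0 r, ∀ y ∈ Icc 0 r, |u x - u y| ≤ C * |x - y|) →
      (∫ x in (0 : ℝ)..r, x ^ 9 * u x ^ 2) ≤ δ → ∀ x ∈ Icc 0 r, |u x| ≤ η :=
  UniqA.small_of_sq hr η hη

end Crest.Agent.R213
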