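import Crest.Agent.R213.C3
import Crest.Agent.R213.C4
import Crest.Agent.R213.AA
import Crest.Agent.R213.Uniq

/-!
# Row 213: auxiliary lemmas for the continuation theorem
-/

set_option autoImplicit false

noncomputable section

namespace Crest.Agent.R213.C5B

open Set Filter Topology

/-- The first time at which a property may fail. -/
theorem stop {t0 T1 : ℝ} (h : t0 ≤ T1) (Q : ℝ → Prop) : ∃ T ∈ Icc t0 T1, (∀ t ∈ Ico t0 T, Q t) ∧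
    (T < T1 → ¬ ∀ᶠ s in 𝓝 T, Q s) := by
  set S := {T' | T' ∈ Icc t0 T1 ∧ ∀ t ∈ Ico t0 T', Q t}
  have h0 : t0 ∈ S := ⟨⟨le_rfl, h⟩, fun t ht => absurd ht.2 ht.1.not_gt⟩
  have hb : BddAbove S := ⟨T1, fun _ h => h.1.2⟩
  have h1 : ∀ t ∈ Ico t0 (sSup S), Q t := fun t ht => by
    obtain ⟨T', hT', h⟩ := exists_lt_of_lt_csSup ⟨_, h0⟩ ht.2
    exact hT'.2 t ⟨ht.1, h⟩
  refine ⟨sSup S, ⟨le_csSup hb h0, csSup_le ⟨_, h0⟩ fun _ h => h.1.2⟩, h1, fun hlt hev => ?_⟩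
  obtain ⟨l, u, hu, hs⟩ := hev.exists_Ioo_subset
  have h2 : sSup S < min u T1 := lt_min hu.2 hlt
  refine h2.not_ge (le_csSup hb ⟨⟨(le_csSup hb h0).trans h2.le, min_le_right _ _⟩, fun t ht => ?_⟩)
  rcases lt_or_ge t (sSup S) with h3 | h3
  · exact h1 t ⟨ht.1, h3⟩
  · exact hs ⟨hu.1.trans_le h3, ht.2.trans_le (min_le_left _ _)⟩

/-- Continuity in time, uniformly on a compact set. -/
theorem tube {I D : Set ℝ} (hI : IsOpen I) (hD : IsCompact D) {u : Fn} (hu : TS I D u) (j : ℕ)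
    {t η : ℝ} (ht : t ∈ I) (hη : 0 < η) :
    ∀ᶠ s in 𝓝 t, ∀ x ∈ D, |DT j u s x - DT j u t x| ≤ η := by
  have h := hD.eventually_forall_of_forall_eventually (x₀ := t)
    (P := fun s x => x ∈ D → |DT j u s x - DT j u t x| ≤ η) fun y hy => by
      have h1 : ContinuousWithinAt (fun p : ℝ × ℝ => |DT j u p.1 p.2 - DT j u t p.2|) (I ×ˢ D)
          (t, y) := (((hu j).1 _ ⟨ht, hy⟩).sub
        (((hu.cont_x j ht).comp continuousOn_snd fun p hp => hp.2) _ ⟨ht, hy⟩)).abs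
      have h2 := eventually_nhdsWithin_iff.1 (h1.eventually_le_const (by simpa using hη))
      filter_upwards [h2, (hI.preimage continuous_fst).mem_nhds (x := (t, y)) ht] with p h3 h4 h5
      exact h3 ⟨h4, h5⟩
  exact h.mono fun s hs x hx => hs x hx hx

theorem lip {I D : Set ℝ} {u : Fn} (hu : TS I D u) (j : ℕ) {s t x C : ℝ} (hst : s ≤ t)
    (hI : Icc s t ⊆ I) (hx : x ∈ D) (hC : ∀ r ∈ Ico s t, |DT (j + 1) u r x| ≤ C) :
    |DT j u t x - DT j u s x| ≤ C * (t - s) :=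
  norm_image_sub_le_of_norm_deriv_right_le_segment (f := fun r => DT j u r x)
    (fun r hr => ((hu j).2 r (hI hr) x hx).continuousAt.continuousWithinAt)
    (fun r hr => ((hu j).2 r (hI (Ico_subset_Icc_self hr)) x hx).hasDerivWithinAt) hC t
    ⟨hst, le_rfl⟩

theorem isCompact_dom {κ : ℝ} (hκ : 0 < κ) : IsCompact (dom κ) := by
  rw [dom_eq_Icc (inv_pos.2 hκ) (mul_inv_cancel₀ hκ.ne')]
  exact isCompact_Icc

/-- Perturbation of the bounds. -/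
theorem step {D : Set ℝ} {p : ℝ → ℝ} {γ ζ ζ' : Fn} {P lo hi η s t : ℝ} (hP : ∀ x ∈ D, |p x| ≤ P)
    (h : ∀ x ∈ D, lo ≤ γ t x + p x * ζ t x ∧ ∀ a ≤ 4, |p x * DT a ζ t x| ≤ hi)
    (h1 : ∀ x ∈ D, |γ s x - γ t x| ≤ η)
    (h2 : ∀ a ≤ 4, ∀ x ∈ D, |DT a ζ' s x - DT a ζ t x| ≤ η) :
    ∀ x ∈ D, lo - (1 + P) * η ≤ γ s x + p x * ζ' s x ∧
      ∀ a ≤ 4, |p x * DT a ζ' s x| ≤ hi + (1 + P) * η := fun x hx => by
  have h3 : ∀ a ≤ 4, |p x * DT a ζ' s x - p x * DT a ζ t x| ≤ P * η := fun a ha => by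
    rw [← mul_sub, abs_mul]
    exact mul_le_mul (hP x hx) (h2 a ha x hx) (abs_nonneg _) ((abs_nonneg _).trans (hP x hx))
  have h4 := abs_le.1 (h1 x hx)
  refine ⟨?_, fun a ha => ?_⟩
  · have : |p x * ζ' s x - p x * ζ t x| ≤ P * η := h3 0 (by omega)
    linarith [(h x hx).1, (abs_le.1 this).1]
  · linarith [(h x hx).2 a ha, h3 a ha, abs_sub_abs_le_abs_sub (p x * DT a ζ' s x) (p x * DT a ζ t x)]

/-- Two-sided bounds on a compact set. -/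
theorem bounds {κ b t1 T2 : ℝ} {γ : Fn} (hκ : 0 < κ) (h2 : T2 < b) (hγ : TS (Iio b) (dom κ) γ)
    (hp : ∀ t < b, ∀ x ∈ dom κ, 0 < γ t x) (B : ℝ) :
    ∃ B', B ≤ B' ∧ ∀ t ∈ Icc t1 T2, ∀ x ∈ dom κ, 1 / B' ≤ γ t x ∧ γ t x ≤ B' := by
  have hK : IsCompact (Icc t1 T2 ×ˢ dom κ) := isCompact_Icc.prod (isCompact_dom hκ)
  have hc : ContinuousOn (fun p : ℝ × ℝ => γ p.1 p.2) (Icc t1 T2 ×ˢ dom κ) :=
    (hγ 0).1.mono (prod_mono (fun t ht => ht.2.trans_lt h2) Subset.rfl)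
  obtain ⟨m, hm, h3⟩ := hK.exists_forall_le' hc (a := 0) fun p h => hp _ (h.1.2.trans_lt h2) _ h.2
  obtain ⟨M, h4⟩ := hK.bddAbove_image hc
  refine ⟨max B (max M m⁻¹), le_max_left _ _, fun t ht x hx => ⟨?_, ?_⟩⟩
  · refine le_trans ?_ (h3 (t, x) ⟨ht, hx⟩)
    rw [one_div]
    exact inv_le_of_inv_le₀ hm ((le_max_right _ _).trans (le_max_right _ _))
  · exact (h4 ⟨(t, x), ⟨ht, hx⟩, rfl⟩).trans ((le_max_left _ _).trans (le_max_right _ _))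

end Crest.Agent.R213.C5B
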