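import Crest.Agent.R213.C3
import Crest.Agent.R213.C4
import Crest.Agent.R213.AA
import Crest.Agent.R213.Uniq
import Crest.Agent.R213.C5B
import Crest.Agent.R213.C5A

/-!
# Row 213: the continuation theorem
-/

set_option autoImplicit false

noncomputable section

namespace Crest.Agent.R213

open Set Filter Topology
open scoped ContDiff

/-- Limits of regularised solutions solve the true system. -/
theorem reg_limit {κ ε b t0 T c : ℝ} {γ d e : Fn} (hκ : 0 < κ) (hT : T ≤ b) (hc : 0 < c)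
    (hγ : TS (Iio b) (dom κ) γ) (hd : TS (Iio b) (dom κ) d) (he : TS (Iio b) (dom κ) e)
    (ϵ Tk : ℕ → ℝ) (F F1 F2 ζ : ℕ → Fn) (hϵ : Tendsto ϵ atTop (𝓝 0))
    (hTk : Tendsto Tk atTop (𝓝 T))
    (hs : ∀ k, Sys κ ε (ϵ k) (Iio (Tk k)) γ d e (F k) (F1 k) (F2 k) (ζ k) ∧ Zero κ t0 (Tk k) (F k))
    (hpos : ∀ k, ∀ t ∈ Ico t0 (Tk k), ∀ x ∈ dom κ, c ≤ γ t x + ε * ph κ x * ζ k t x)
    (h0 : ∀ t ≤ t0, ∀ x ∈ dom κ, d t x = 0 ∧ e t x = 0)
    (hb : ∀ j, ∃ C, ∀ k, ∀ t < Tk k, ∀ x ∈ dom κ, |DT j (F k) t x| ≤ C ∧ |DT j (F1 k) t x| ≤ C ∧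
      |DT j (F2 k) t x| ≤ C ∧ |DT j (ζ k) t x| ≤ C) :
    ∃ φ : ℕ → ℕ, StrictMono φ ∧ ∃ G G1 G2 Z, Sys κ ε 0 (Iio T) γ d e G G1 G2 Z ∧ Zero κ t0 T G ∧
      ∀ (j : ℕ), ∀ t < T, ∀ η, 0 < η → ∀ᶠ k in atTop, ∀ x ∈ dom κ,
        |DT j (ζ (φ k)) t x - DT j Z t x| ≤ η :=
  C5A.reg_limit hκ hT hc hγ hd he ϵ Tk F F1 F2 ζ hϵ hTk hs hpos h0 hb

/-- A solution with bounded geometry can be continued. -/
theorem continuation {κ ε b t0 T B : ℝ} {γ d e F F1 F2 ζ : Fn} (hκ : 0 < κ) (hT0 : t0 ≤ T)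
    (hT : T < b) (hB : 1 ≤ B) (hγ : TS (Iio b) (dom κ) γ) (hd : TS (Iio b) (dom κ) d)
    (he : TS (Iio b) (dom κ) e) (hp : ∀ t < b, ∀ x ∈ dom κ, 0 < γ t x)
    (h0 : ∀ t ≤ t0, ∀ x ∈ dom κ, d t x = 0 ∧ e t x = 0)
    (h : Sys κ ε 0 (Iio T) γ d e F F1 F2 ζ) (hz : Zero κ t0 T F)
    (hb : ∀ t ∈ Ico t0 T, ∀ x ∈ dom κ, 1 / B ≤ γ t x + ε * ph κ x * ζ t x ∧
      ∀ a ≤ 4, |ε * ph κ x * DT a ζ t x| ≤ B) :
    ∃ T' G G1 G2 Z, T < T' ∧ T' ≤ b ∧ Sys κ ε 0 (Iio T') γ d e G G1 G2 Z ∧ Zero κ t0 T' G := by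
  set T2 := (T + b) / 2 with hT2
  have hT2a : T < T2 := by linarith
  have hT2b : T2 < b := by linarith
  have hD := C5B.isCompact_dom hκ
  have hd0 : ∀ t ≤ t0, ∀ x ∈ dom κ, d t x = 0 := fun t ht x hx => (h0 t ht x hx).1
  obtain ⟨A, hBA, hA⟩ := C5B.bounds (t1 := t0 - 1) hκ hT2b hγ hp B
  have hA1 : 1 ≤ A := hB.trans hBA
  have hA0 : 0 < A := by linarith
  obtain ⟨P, hP⟩ := hD.exists_bound_of_continuousOn (f := fun x => ε * ph κ x)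
    (by unfold ph; fun_prop)
  simp only [Real.norm_eq_abs] at hP
  have hP0 : 0 ≤ P := (abs_nonneg _).trans (hP 0 ⟨le_rfl, by simp⟩)
  have hbA : ∀ t ∈ Ico (t0 - 1) T, ∀ x ∈ dom κ, 1 / A ≤ γ t x + ε * ph κ x * ζ t x ∧
      ∀ a ≤ 4, |ε * ph κ x * DT a ζ t x| ≤ A := fun t ht x hx => by
    rcases le_total t t0 with h1 | h1
    · have h2 := fun a => (h.dt_eq_zero hz hd0 a t h1 ht.2 x hx).2.2.2
      refine ⟨?_, fun a _ => by rw [h2, mul_zero, abs_zero]; exact hA0.le⟩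
      rw [show ζ t x = 0 from h2 0, mul_zero, add_zero]
      exact (hA t ⟨ht.1, ht.2.le.trans hT2a.le⟩ x hx).1
    · obtain ⟨h2, h3⟩ := hb t ⟨h1, ht.2⟩ x hx
      exact ⟨(one_div_le_one_div_of_le (by linarith) hBA).trans h2, fun a ha => (h3 a ha).trans hBA⟩
  have hc1 : 1 / (3 * A ^ 2) ≤ 1 := by rw [div_le_one (by positivity)]; nlinarith
  have hc0 : 0 < 1 / (3 * A ^ 2) := by positivity
  choose T1 F' F1' F2' ζ' h01 h12 hs hz' hex using fun k : ℕ =>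
    exists_reg (ε := ε) (ϵ := 1 / ((k : ℝ) + 1)) (c := 1 / (3 * A ^ 2) / 2) hκ (by positivity)
      (by positivity) (by linarith) (hT0.trans_lt hT2a) hT2b hγ hd he hp h0
  choose Tk hTk hQ hstop using fun k : ℕ => C5B.stop (h01 k).le fun t => ∀ x ∈ dom κ,
    1 / (2 * A) ≤ γ t x + ε * ph κ x * ζ' k t x ∧ ∀ a ≤ 4, |ε * ph κ x * DT a (ζ' k) t x| ≤ 2 * A
  have hs' := fun k => (hs k).mono (Iio_subset_Iio (hTk k).2)
  have hz'' : ∀ k, Zero κ t0 (Tk k) (F' k) := fun k t h1 h2 => hz' k t h1 (h2.trans_le (hTk k).2)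
  have hsup : ∀ j, ∃ C, ∀ k, ∀ t < Tk k, ∀ x ∈ dom κ, |DT j (F' k) t x| ≤ C ∧
      |DT j (F1' k) t x| ≤ C ∧ |DT j (F2' k) t x| ≤ C ∧ |DT j (ζ' k) t x| ≤ C := fun j => by
    obtain ⟨C, hC⟩ := reg_sup (ε := ε) hκ hT2b hγ hd he hp h0 (2 * A) (by linarith) j
    exact ⟨C, fun k => hC _ _ _ _ _ _ (by positivity) ((hTk k).2.trans (h12 k)) (hs' k) (hz'' k)
      (hQ k)⟩
  obtain ⟨T', hT', ψ, hψ, hlim⟩ := (isCompact_Icc (a := t0) (b := T2)).tendsto_subseq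
    (x := Tk) fun k => ⟨(hTk k).1, (hTk k).2.trans (h12 k)⟩
  have hT'b : T' < b := hT'.2.trans_lt hT2b
  obtain ⟨φ, hφ, G, G1, G2, Z, hG, hGz, hconv⟩ := reg_limit (t0 := t0) (c := 1 / (2 * A)) hκ hT'b.le
    (by positivity) hγ hd he (fun k => 1 / ((ψ k : ℝ) + 1)) (Tk ∘ ψ) (F' ∘ ψ) (F1' ∘ ψ) (F2' ∘ ψ)
    (ζ' ∘ ψ) (tendsto_one_div_add_atTop_nhds_zero_nat.comp hψ.tendsto_atTop) hlim
    (fun k => ⟨hs' _, hz'' _⟩) (fun k t ht x hx => (hQ _ t ht x hx).1) h0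
    fun j => (hsup j).imp fun C hC k => hC _
  rcases lt_or_ge T T' with hlt | hle
  · exact ⟨T', G, G1, G2, Z, hlt, hT'b.le, hG, hGz⟩
  exfalso
  have hZ := uniq hκ (h.mono (Iio_subset_Iio hle)) hG
    (fun t h1 h2 => hz t h1 (h2.trans_le hle)) hGz
  obtain ⟨C, hC0, hC⟩ : ∃ C, 0 ≤ C ∧ ∀ a ≤ 4, ∀ k, ∀ t < Tk k, ∀ x ∈ dom κ,
      |DT (a + 1) (ζ' k) t x| ≤ C := by
    choose C hC using hsup
    exact ⟨∑ a ∈ Finset.range 5, |C (a + 1)|, Finset.sum_nonneg fun _ _ => abs_nonneg _,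
      fun a ha k t ht x hx => ((hC _ k t ht x hx).2.2.2.trans (le_abs_self _)).trans
        (Finset.single_le_sum (f := fun a => |C (a + 1)|) (fun _ _ => abs_nonneg _)
          (Finset.mem_range.2 (by omega)))⟩
  obtain ⟨η, hη, hη'⟩ : ∃ η, 0 < η ∧ (1 + P) * η = 1 / (2 * A) / 2 :=
    ⟨1 / (2 * A) / 2 / (1 + P), by positivity, by field_simp⟩
  have hev : ∀ᶠ s in 𝓝 T', (∀ x ∈ dom κ, |γ s x - γ T' x| ≤ η / 2) ∧ C * |s - T'| ≤ η / 4 :=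
    (C5B.tube isOpen_Iio hD hγ 0 hT'b (half_pos hη)).and
      ((by fun_prop : ContinuousAt (fun s => C * |s - T'|) T').eventually_le_const
        (by simpa using hη))
  obtain ⟨t, ⟨ht1, ht2⟩, ht3⟩ := ((hev.filter_mono nhdsWithin_le_nhds).and
    (Ico_mem_nhdsLT (show t0 - 1 < T' by linarith [hT'.1]))).exists
  have hlim' : Tendsto (fun k => Tk (ψ (φ k))) atTop (𝓝 T') := hlim.comp hφ.tendsto_atTop
  obtain ⟨k, ⟨hk1, hk2⟩, hk3, hk4, hk5⟩ := ((hlim'.eventually hev).and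
    ((hlim'.eventually_const_lt ht3.2).and ((hlim'.eventually_lt_const (hle.trans_lt hT2a)).and
      (((finite_Iic 4).eventually_all (l := atTop)).2 fun a _ =>
        hconv a t ht3.2 _ (half_pos hη))))).exists
  simp only [Function.comp] at hk5
  generalize ψ (φ k) = n at hk1 hk2 hk3 hk4 hk5
  rcases (hTk n).2.eq_or_lt with he1 | hl1
  · obtain ⟨s, hs1, x, hx, hs2⟩ := hex n (he1 ▸ hk4) (1 / (3 * A ^ 2)) (by linarith)
    rcases le_total s t0 with h1 | h1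
    · rw [show F2' n s x = 0 from ((hs n).dt_eq_zero (hz' n) hd0 0 s h1 hs1 x hx).2.2.1,
        hd0 s h1 x hx] at hs2
      linarith
    · obtain ⟨-, h3⟩ := hQ n s ⟨h1, he1 ▸ hs1⟩ x hx
      have h4 : |ε * ph κ x * ζ' n s x| ≤ 2 * A := h3 0 (by omega)
      obtain ⟨h5, h6⟩ := hA s ⟨by linarith, hs1.le.trans (h12 n)⟩ x hx
      have h7 := (hs n).nl s hs1 x hx
      have h8 := (hs n).pos s hs1 x hx
      have h9 : γ s x = (γ s x + ε * ph κ x * ζ' n s x) *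
          (1 + ε * ph κ x * γ s x * (F2' n s x + d s x)) := by
        linear_combination (-(ε * ph κ x)) * h7
      have h10 := mul_lt_mul_of_pos_left hs2 h8
      have h11 : (γ s x + ε * ph κ x * ζ' n s x) * (1 / (3 * A ^ 2)) ≤ 3 * A * (1 / (3 * A ^ 2)) :=
        mul_le_mul_of_nonneg_right (by linarith [(abs_le.1 h4).2]) hc0.le
      have h12 : 3 * A * (1 / (3 * A ^ 2)) = 1 / A := by field_simp
      linarith
  · refine hstop n hl1 ?_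
    have s1 := C5B.step (s := Tk n) (η := η) (ζ' := ζ' n) hP (hbA t ⟨ht3.1, ht3.2.trans_le hle⟩)
      (fun x hx => by
        have q := abs_sub_comm (γ T' x) (γ t x)
        linarith [abs_sub_le (γ (Tk n) x) (γ T' x) (γ t x), hk1 x hx, ht1 x hx])
      fun a ha x hx => by
        have q1 := C5B.lip (hs n).tζ a hk3.le (fun r hr => hr.2.trans_lt hl1) hx
          fun r hr => hC a ha n r hr.2 x hx
        have q2 := hk5 a ha x hx
        rw [← DT_congr isOpen_Iio (fun r hr => (hZ r hr x hx).2.2.2) a t ht3.2] at q2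
        have q3 : C * (Tk n - t) ≤ C * (|Tk n - T'| + |t - T'|) :=
          mul_le_mul_of_nonneg_left (by linarith [le_abs_self (Tk n - T'), neg_abs_le (t - T')]) hC0
        linarith [abs_sub_le (DT a (ζ' n) (Tk n) x) (DT a (ζ' n) t x) (DT a ζ t x)]
    have q4 : 1 / A = 2 * (1 / (2 * A)) := by field_simp
    have q5 : 1 / A ≤ 1 := by rw [div_le_one hA0]; exact hA1
    filter_upwards [C5B.tube isOpen_Iio hD (hs n).tγ 0 hl1 hη,
      ((finite_Iic 4).eventually_all (l := 𝓝 (Tk n))).2 fun a _ =>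
        C5B.tube isOpen_Iio hD (hs n).tζ a hl1 hη] with s h1 h2 x hx
    obtain ⟨h3, h4⟩ := C5B.step hP s1 h1 h2 x hx
    exact ⟨by linarith, fun a ha => by linarith [h4 a ha]⟩

end Crest.Agent.R213
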