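import Crest.Agent.R213.ChkT
import Crest.Agent.R213.ChkD1
import Crest.Agent.R213.ChkD2

/-!
# Row 213: the computer-assisted part
-/

set_option autoImplicit false

noncomputable section

namespace Crest.Agent.R213

open Chk

theorem exists_cap : Nonempty Cap :=
  cap_of_fin fin_ok fun _ _ hu hv _ hS =>
    run_sound hu hv hS _ (run_sound hu hv hS _ (run_sound hu hv hS _ (run_sound hu hv hS _
      (run_sound hu hv hS _ (run_sound hu hv hS _ (run_sound hu hv hS _ (run_sound hu hv hS _
        (run_sound hu hv hS _ (run_sound hu hv hS _ (init_sound hS) run1) run2) run3) run4)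
          run5) run6) run7) run8) run9) run10

end Crest.Agent.R213
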