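import Crest.Agent.R213.Rad

/-!
# Row 213: Wirtinger calculus for the charts at infinity
-/

set_option autoImplicit false

noncomputable section

namespace Crest.Agent.R213.ChartKA

open Set Filter Topology
open scoped ContDiff

open Crest.GeometryTopology.ProjKahler
open scoped ComplexOrder ComplexConjugate

/-- `f` is differentiable at `z` and its Wirtinger derivative (`c = -I`: `dz`, `c = I`: `dzbar`)
is `y`. -/
def HD (c : ℂ) (f : V 10 → ℂ) (z : V 10) (a : Fin 10) (y : ℂ) : Prop :=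
  ∃ f' : V 10 →L[ℝ] ℂ, HasFDerivAt f f' z ∧ (f' (bv a) + c * f' (Complex.I • bv a)) / 2 = y

variable {c : ℂ} {z : V 10} {a : Fin 10}

theorem HD.dz_eq {f : V 10 → ℂ} {y : ℂ} (h : HD (-Complex.I) f z a y) : dz f z a = y := by
  obtain ⟨f', hf, e⟩ := h
  unfold dz
  rw [hf.fderiv, ← e]; ring

theorem HD.dzbar_eq {f : V 10 → ℂ} {y : ℂ} (h : HD Complex.I f z a y) : dzbar f z a = y := by
  obtain ⟨f', hf, e⟩ := h
  unfold dzbar
  rw [hf.fderiv, ← e]

theorem HD.congr {f g : V 10 → ℂ} {y y' : ℂ} (h : HD c f z a y) (e : ∀ u, g u = f u)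
    (e' : y = y') : HD c g z a y' := by
  obtain rfl : g = f := funext e
  exact e' ▸ h

theorem HD.const (r : ℂ) : HD c (fun _ => r) z a 0 :=
  ⟨0, hasFDerivAt_const r z, by simp⟩

theorem HD.add {f g : V 10 → ℂ} {y y' : ℂ} (h : HD c f z a y) (h' : HD c g z a y') :
    HD c (fun u => f u + g u) z a (y + y') := by
  obtain ⟨f', hf, e⟩ := h
  obtain ⟨g', hg, e'⟩ := h'
  refine ⟨f' + g', hf.add hg, ?_⟩
  rw [← e, ← e']
  simp only [add_apply]; ring

theorem HD.sub {f g : V 10 → ℂ} {y y' : ℂ} (h : HD c f z a y) (h' : HD c g z a y') :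
    HD c (fun u => f u - g u) z a (y - y') := by
  obtain ⟨f', hf, e⟩ := h
  obtain ⟨g', hg, e'⟩ := h'
  refine ⟨f' - g', hf.sub hg, ?_⟩
  rw [← e, ← e']
  simp only [sub_apply]; ring

theorem HD.mul {f g : V 10 → ℂ} {y y' : ℂ} (h : HD c f z a y) (h' : HD c g z a y') :
    HD c (fun u => f u * g u) z a (y * g z + f z * y') := by
  obtain ⟨f', hf, e⟩ := h
  obtain ⟨g', hg, e'⟩ := h'
  refine ⟨_, hf.mul hg, ?_⟩
  rw [← e, ← e']
  simp only [add_apply, smul_apply, smul_eq_mul]; ring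

theorem HD.sum {ι : Type*} (S : Finset ι) {f : ι → V 10 → ℂ} {y : ι → ℂ}
    (h : ∀ i ∈ S, HD c (f i) z a (y i)) : HD c (fun u => ∑ i ∈ S, f i u) z a (∑ i ∈ S, y i) := by
  classical
  induction S using Finset.induction_on with
  | empty => exact (HD.const 0).congr (fun u => by simp) (by simp)
  | insert k S hk ih =>
    exact ((h k (Finset.mem_insert_self _ _)).add
      (ih fun k' hk' => h k' (Finset.mem_insert_of_mem hk'))).congr
      (fun u => by rw [Finset.sum_insert hk]) (by rw [Finset.sum_insert hk])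

theorem HD.inv {f : V 10 → ℂ} {y : ℂ} (h : HD c f z a y) (h0 : f z ≠ 0) :
    HD c (fun u => (f u)⁻¹) z a (-((f z)⁻¹ * (f z)⁻¹ * y)) := by
  obtain ⟨f', hf, e⟩ := h
  refine ⟨_, (hasDerivAt_inv h0).comp_hasFDerivAt z hf, ?_⟩
  rw [← e]
  simp only [smul_apply, smul_eq_mul]
  field_simp
  ring

theorem HD.comp_real {x : V 10 → ℝ} {y : ℂ} (h : HD c (fun u => (x u : ℂ)) z a y) {φ : ℝ → ℝ}
    {φ' : ℝ} {t : Set ℝ} (hφ : HasDerivWithinAt φ φ' t (x z)) (hm : ∀ u, x u ∈ t) :
    HD c (fun u => (φ (x u) : ℂ)) z a (φ' * y) := by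
  obtain ⟨f', hf, e⟩ := h
  have hx : HasFDerivAt x (Complex.reCLM.comp f') z :=
    (Complex.reCLM.hasFDerivAt.comp z hf).congr_of_eventuallyEq
      (Eventually.of_forall fun u => by simp)
  have hf2 : HasFDerivAt (fun u => (x u : ℂ)) (Complex.ofRealCLM.comp (Complex.reCLM.comp f')) z :=
    Complex.ofRealCLM.hasFDerivAt.comp z hx
  have e2 := hf.unique hf2
  have h1 : HasFDerivAt (φ ∘ x) (φ' • Complex.reCLM.comp f') z :=
    hasFDerivWithinAt_univ.1 (hφ.comp_hasFDerivWithinAt z hx.hasFDerivWithinAt fun u _ => hm u)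
  refine ⟨_, Complex.ofRealCLM.hasFDerivAt.comp z h1, ?_⟩
  rw [← e]
  conv_rhs => rw [e2]
  simp only [ContinuousLinearMap.comp_apply, smul_apply, smul_eq_mul,
    Complex.ofRealCLM_apply, Complex.ofReal_mul]
  ring

theorem hasFDerivAt_coord (b : Fin 10) : HasFDerivAt (fun u : V 10 => u b)
    ((EuclideanSpace.proj b : V 10 →L[ℂ] ℂ).restrictScalars ℝ) z :=
  ((EuclideanSpace.proj b : V 10 →L[ℂ] ℂ).restrictScalars ℝ).hasFDerivAt

theorem bv_apply (a b : Fin 10) : (bv a : V 10) b = if a = b then 1 else 0 := by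
  unfold bv
  by_cases h : a = b
  · subst h; simp
  · simp [h, Ne.symm h]

theorem hd_coord (b : Fin 10) :
    HD c (fun u => u b) z a (if a = b then (1 + c * Complex.I) / 2 else 0) := by
  refine ⟨_, hasFDerivAt_coord b, ?_⟩
  change ((bv a : V 10) b + c * (Complex.I * (bv a : V 10) b)) / 2 = _
  rw [bv_apply]
  split_ifs <;> ring

theorem hd_conj (b : Fin 10) :
    HD c (fun u => conj (u b)) z a (if a = b then (1 - c * Complex.I) / 2 else 0) := by
  refine ⟨_, Complex.conjCLE.toContinuousLinearMap.hasFDerivAt.comp z (hasFDerivAt_coord b), ?_⟩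
  change (conj ((bv a : V 10) b) + c * conj (Complex.I * (bv a : V 10) b)) / 2 = _
  rw [bv_apply]
  split_ifs
  · simp only [mul_one, map_one, Complex.conj_I]; ring
  · simp

theorem hd_z (b : Fin 10) : HD (-Complex.I) (fun u => u b) z a (if a = b then 1 else 0) :=
  (hd_coord b).congr (fun _ => rfl) (by
    split_ifs
    · rw [neg_mul, Complex.I_mul_I]; norm_num
    · rfl)

theorem hd_zc (b : Fin 10) : HD (-Complex.I) (fun u => conj (u b)) z a 0 :=
  (hd_conj b).congr (fun _ => rfl) (by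
    split_ifs
    · rw [neg_mul, Complex.I_mul_I]; norm_num
    · rfl)

theorem hb_z (b : Fin 10) : HD Complex.I (fun u => u b) z a 0 :=
  (hd_coord b).congr (fun _ => rfl) (by
    split_ifs
    · rw [Complex.I_mul_I]; norm_num
    · rfl)

theorem hb_zc (b : Fin 10) : HD Complex.I (fun u => conj (u b)) z a (if a = b then 1 else 0) :=
  (hd_conj b).congr (fun _ => rfl) (by
    split_ifs
    · rw [Complex.I_mul_I]; norm_num
    · rfl)

/-- `1 + |u|²` as a complex polynomial in `u`, `conj u`. -/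
def Nc (u : V 10) : ℂ := 1 + ∑ j, conj (u j) * u j

/-- The moment coordinate. -/
def X (k : Fin 10) (w : V 10) : ℝ := 1 - ‖w k‖ ^ 2 / (1 + ‖w‖ ^ 2)

theorem Nc_eq (u : V 10) : Nc u = ((1 + ‖u‖ ^ 2 : ℝ) : ℂ) := by
  unfold Nc
  rw [EuclideanSpace.norm_sq_eq]
  push_cast
  simp only [Complex.conj_mul']

theorem Nc_ne (u : V 10) : Nc u ≠ 0 := by
  rw [Nc_eq]
  exact Complex.ofReal_ne_zero.2 (by positivity)

theorem X_eq (k : Fin 10) (u : V 10) : (X k u : ℂ) = 1 - conj (u k) * u k * (Nc u)⁻¹ := by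
  unfold X
  rw [Nc_eq, Complex.conj_mul']
  push_cast
  rw [div_eq_mul_inv]

theorem sq_coord_le (k : Fin 10) (w : V 10) : ‖w k‖ ^ 2 ≤ ‖w‖ ^ 2 :=
  pow_le_pow_left₀ (norm_nonneg _) (PiLp.norm_apply_le w k) 2

theorem X_mem (k : Fin 10) (w : V 10) : X k w ∈ Ioc (0 : ℝ) 1 := by
  unfold X
  have h1 := sq_coord_le k w
  have h2 : (0 : ℝ) < 1 + ‖w‖ ^ 2 := by positivity
  constructor
  · rw [sub_pos, div_lt_one h2]; linarith
  · have : 0 ≤ ‖w k‖ ^ 2 / (1 + ‖w‖ ^ 2) := by positivity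
    linarith

theorem hd_N : HD (-Complex.I) Nc z a (conj (z a)) :=
  ((HD.const 1).add (HD.sum Finset.univ fun j _ => (hd_zc j).mul (hd_z j))).congr (fun _ => rfl)
    (by simp)

theorem hb_N : HD Complex.I Nc z a (z a) :=
  ((HD.const 1).add (HD.sum Finset.univ fun j _ => (hb_zc j).mul (hb_z j))).congr (fun _ => rfl)
    (by simp)

/-- `∂̄_b X`. -/
def xi (k b : Fin 10) (u : V 10) : ℂ :=
  conj (u k) * u k * u b * (Nc u)⁻¹ * (Nc u)⁻¹ - (if b = k then 1 else 0) * (u k * (Nc u)⁻¹)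

theorem hb_X (k : Fin 10) : HD Complex.I (fun u => (X k u : ℂ)) z a (xi k a z) :=
  ((HD.const 1).sub (((hb_zc k).mul (hb_z k)).mul (hb_N.inv (Nc_ne z)))).congr (X_eq k) (by
    unfold xi; ring)

theorem hd_X (k : Fin 10) : HD (-Complex.I) (fun u => (X k u : ℂ)) z a
    (conj (z k) * z k * conj (z a) * (Nc z)⁻¹ * (Nc z)⁻¹ -
      (if a = k then 1 else 0) * (conj (z k) * (Nc z)⁻¹)) :=
  ((HD.const 1).sub (((hd_zc k).mul (hd_z k)).mul (hd_N.inv (Nc_ne z)))).congr (X_eq k) (by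
    ring)

theorem hasDeriv_dw {ψ : ℝ → ℝ} (h : ContDiffOn ℝ ∞ ψ (Icc 0 1)) {x : ℝ} (hx : x ∈ Icc (0 : ℝ) 1) :
    HasDerivWithinAt ψ (dw ψ x) (Icc 0 1) x :=
  (h.differentiableOn (by simp) x hx).hasDerivWithinAt

theorem contDiffOn_dw {ψ : ℝ → ℝ} (h : ContDiffOn ℝ ∞ ψ (Icc 0 1)) :
    ContDiffOn ℝ ∞ (dw ψ) (Icc 0 1) :=
  h.derivWithin (uniqueDiffOn_Icc zero_lt_one) (by simp)

theorem dzbar_pot {ψ : ℝ → ℝ} (h : ContDiffOn ℝ ∞ ψ (Icc 0 1)) (k b : Fin 10) (w : V 10) :
    dzbar (fun u => ((fsPot u + ψ (X k u) : ℝ) : ℂ)) w b =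
      w b * (Nc w)⁻¹ + (dw ψ (X k w) : ℂ) * xi k b w := by
  have hm : ∀ u, X k u ∈ Icc (0 : ℝ) 1 := fun u => Ioc_subset_Icc_self (X_mem k u)
  have h1 : HD Complex.I (fun u => ((1 + ‖u‖ ^ 2 : ℝ) : ℂ)) w b (w b) :=
    hb_N.congr (fun u => (Nc_eq u).symm) rfl
  have hpos : (1 + ‖w‖ ^ 2 : ℝ) ≠ 0 := by positivity
  have h2 := h1.comp_real (Real.hasDerivAt_log hpos).hasDerivWithinAt (fun u => mem_univ _)
  have h3 := (hb_X (z := w) (a := b) k).comp_real (hasDeriv_dw h (hm w)) hm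
  refine ((h2.add h3).congr (fun u => ?_) ?_).dzbar_eq
  · unfold fsPot; push_cast; rfl
  · rw [Nc_eq, Complex.ofReal_inv]; ring

/-- The vector `w` with the `k`-th entry removed. -/
def cut (k : Fin 10) (w : Fin 10 → ℂ) (j : Fin 10) : ℂ := if j = k then 0 else w j

theorem cHess_pot {ψ : ℝ → ℝ} (h : ContDiffOn ℝ ∞ ψ (Icc 0 1)) (k : Fin 10) (w : V 10)
    (B : ℝ) (hB : B = 1 + ‖w‖ ^ 2 - ‖w k‖ ^ 2) (a b : Fin 10) :
    cHess (fun u : V 10 => fsPot u + ψ (X k u)) w a b =
      ((tx ψ (X k w) / ((1 + ‖w‖ ^ 2) ^ 2 * B) : ℝ) : ℂ) *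
        (conj ((if a = k then (B : ℂ) else 0) - conj (w k) * cut k w a) *
          ((if b = k then (B : ℂ) else 0) - conj (w k) * cut k w b)) +
      ((aa ψ (X k w) / ((1 + ‖w‖ ^ 2) * B) : ℝ) : ℂ) *
        (B * (if a = b ∧ a ≠ k then 1 else 0) - conj (cut k w a) * cut k w b) := by
  have hm : ∀ u, X k u ∈ Icc (0 : ℝ) 1 := fun u => Ioc_subset_Icc_self (X_mem k u)
  have hNi := (hd_N (z := w) (a := a)).inv (Nc_ne w)
  have h1 := (hd_z (z := w) (a := a) b).mul hNi
  have h2 := (hd_X (z := w) (a := a) k).comp_real (hasDeriv_dw (contDiffOn_dw h) (hm w)) hm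
  have h3 := (((((hd_zc k).mul (hd_z k)).mul (hd_z b)).mul hNi).mul hNi).sub
    ((HD.const (if b = k then 1 else 0)).mul ((hd_z k).mul hNi))
  have h4 := (h1.add (h2.mul h3)).dz_eq
  have e : cHess (fun u : V 10 => fsPot u + ψ (X k u)) w a b =
      dz (fun u => u b * (Nc u)⁻¹ + (dw ψ (X k u) : ℂ) * xi k b u) w a := by
    unfold cHess
    rw [Matrix.of_apply]
    congr 1
    funext u
    exact dzbar_pot h k b u
  rw [e]
  refine h4.trans ?_
  have hB0 : 0 < B := by have := sq_coord_le k w; rw [hB]; linarith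
  have hBc : (B : ℂ) ≠ 0 := Complex.ofReal_ne_zero.2 hB0.ne'
  have hN : ((1 + ‖w‖ ^ 2 : ℝ) : ℂ) = B + conj (w k) * w k := by
    rw [hB, Complex.conj_mul']; push_cast; ring
  have hN0 : (B : ℂ) + conj (w k) * w k ≠ 0 := by rw [← hN, ← Nc_eq]; exact Nc_ne w
  have hX : (X k w : ℂ) = B / (B + conj (w k) * w k) := by
    rw [X_eq, Nc_eq, hN]; field_simp; ring
  unfold tx aa cut
  rw [Complex.ofReal_div, Complex.ofReal_div, Complex.ofReal_mul, Complex.ofReal_mul,
    Complex.ofReal_pow, Nc_eq, hN]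
  push_cast
  rw [hX]
  generalize (dw ψ (X k w) : ℂ) = p1
  generalize (dw (dw ψ) (X k w) : ℂ) = p2
  by_cases ha : a = k
  · subst ha
    by_cases hb : b = a
    · subst hb
      simp only [if_true, ne_eq, not_true_eq_false, and_false, if_false, mul_zero, sub_zero,
        Complex.conj_ofReal, map_zero]
      field_simp
      ring
    · simp only [if_true, ne_eq, not_true_eq_false, and_false, if_false, mul_zero, sub_zero,
        Complex.conj_ofReal, map_zero, hb, Ne.symm hb]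
      field_simp
      ring
  · by_cases hb : b = k
    · subst hb
      simp only [if_true, ne_eq, false_and, if_false, mul_zero, sub_zero,
        ha, zero_sub, map_neg, map_mul, Complex.conj_conj]
      field_simp
      ring
    · by_cases hab : a = b
      · subst hab
        simp only [if_true, ne_eq, not_false_eq_true, and_self, if_false,
          ha, zero_sub, map_neg, map_mul, Complex.conj_conj]
        field_simp
        ring
      · simp only [ne_eq, false_and, if_false, hab, hb,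
          ha, zero_sub, map_neg, map_mul, Complex.conj_conj]
        field_simp
        ring

theorem posDef_form (k : Fin 10) (w : Fin 10 → ℂ) (c1 c2 B : ℝ) (h1 : 0 < c1) (h2 : 0 < c2)
    (hB : B = 1 + ∑ j, ‖cut k w j‖ ^ 2) (H : Matrix (Fin 10) (Fin 10) ℂ)
    (hH : ∀ a b, H a b = (c1 : ℂ) *
        (conj ((if a = k then (B : ℂ) else 0) - conj (w k) * cut k w a) *
          ((if b = k then (B : ℂ) else 0) - conj (w k) * cut k w b)) +
      (c2 : ℂ) * (B * (if a = b ∧ a ≠ k then 1 else 0) - conj (cut k w a) * cut k w b)) :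
    H.PosDef := by
  set η : Fin 10 → ℂ := fun a => (if a = k then (B : ℂ) else 0) - conj (w k) * cut k w a with hη
  have hH' : ∀ a b, H a b = (c1 : ℂ) * (conj (η a) * η b) +
      (c2 : ℂ) * (B * (if a = b ∧ a ≠ k then 1 else 0) - conj (cut k w a) * cut k w b) := hH
  refine Matrix.PosDef.of_dotProduct_mulVec_pos ?_ fun v hv => ?_
  · ext a b
    rw [Matrix.conjTranspose_apply, hH', hH']
    have e : (if b = a ∧ b ≠ k then (1 : ℂ) else 0) = if a = b ∧ a ≠ k then 1 else 0 := by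
      by_cases hab : a = b
      · subst hab; rfl
      · simp [hab, Ne.symm hab]
    rw [e]
    simp only [Complex.star_def, map_add, map_mul, map_sub, Complex.conj_ofReal, Complex.conj_conj,
      apply_ite conj, map_one, map_zero]
    ring
  · set E : ℂ := ∑ b, η b * v b with hE
    set p : ℂ := ∑ b, cut k w b * v b with hp
    set S : ℝ := ∑ b, ‖cut k v b‖ ^ 2 with hS
    have hq : star v ⬝ᵥ H.mulVec v = ((c1 * ‖E‖ ^ 2 + c2 * (B * S - ‖p‖ ^ 2) : ℝ) : ℂ) := by
      have e1 : ∑ a, ∑ b, conj (v a) * (conj (η a) * η b * v b) = ((‖E‖ ^ 2 : ℝ) : ℂ) := by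
        push_cast
        rw [← Complex.conj_mul', hE, map_sum, Finset.sum_mul_sum]
        refine Finset.sum_congr rfl fun a _ => Finset.sum_congr rfl fun b _ => ?_
        rw [map_mul]; ring
      have e2 : ∑ a, ∑ b, conj (v a) * (conj (cut k w a) * cut k w b * v b) =
          ((‖p‖ ^ 2 : ℝ) : ℂ) := by
        push_cast
        rw [← Complex.conj_mul', hp, map_sum, Finset.sum_mul_sum]
        refine Finset.sum_congr rfl fun a _ => Finset.sum_congr rfl fun b _ => ?_
        rw [map_mul]; ring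
      have e3 : ∑ a, ∑ b, conj (v a) * ((if a = b ∧ a ≠ k then 1 else 0) * v b) = (S : ℂ) := by
        rw [hS]
        push_cast
        refine Finset.sum_congr rfl fun a _ => ?_
        rw [Finset.sum_eq_single a]
        · unfold cut
          by_cases ha : a = k
          · simp [ha]
          · simp [ha, Complex.conj_mul']
        · intro b _ hb
          simp [Ne.symm hb]
        · intro h; exact absurd (Finset.mem_univ a) h
      rw [Complex.ofReal_add, Complex.ofReal_mul, Complex.ofReal_mul, Complex.ofReal_sub,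
        Complex.ofReal_mul, ← e1, ← e2, ← e3]
      simp only [dotProduct, Matrix.mulVec, hH', Pi.star_apply, Complex.star_def, Finset.mul_sum,
        ← Finset.sum_sub_distrib, ← Finset.sum_add_distrib]
      refine Finset.sum_congr rfl fun a _ => Finset.sum_congr rfl fun b _ => ?_
      ring
    rw [hq, Complex.zero_lt_real]
    have hp' : p = ∑ b, cut k w b * cut k v b := by
      refine Finset.sum_congr rfl fun b _ => ?_
      unfold cut
      split_ifs <;> simp
    have hcs : ‖p‖ ^ 2 ≤ (∑ j, ‖cut k w j‖ ^ 2) * S := by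
      refine le_trans ?_ (Finset.sum_mul_sq_le_sq_mul_sq Finset.univ (fun j => ‖cut k w j‖)
        (fun j => ‖cut k v j‖))
      refine pow_le_pow_left₀ (norm_nonneg _) ?_ 2
      rw [hp']
      exact (norm_sum_le _ _).trans (le_of_eq (Finset.sum_congr rfl fun j _ => norm_mul _ _))
    have hS0 : 0 ≤ S := Finset.sum_nonneg fun _ _ => by positivity
    have hW0 : 0 ≤ ∑ j, ‖cut k w j‖ ^ 2 := Finset.sum_nonneg fun _ _ => by positivity
    have hlow : S ≤ B * S - ‖p‖ ^ 2 := by rw [hB]; linarith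
    rcases hS0.eq_or_lt with h0 | h0
    · have hz : ∀ b, cut k v b = 0 := by
        intro b
        have := (Finset.sum_eq_zero_iff_of_nonneg (fun _ _ => by positivity)).1 h0.symm b
          (Finset.mem_univ b)
        simpa using this
      have hvk : v k ≠ 0 := by
        intro hk
        apply hv
        funext b
        have := hz b
        unfold cut at this
        by_cases hb : b = k
        · rw [hb, hk]; rfl
        · rwa [if_neg hb] at this
      have hE' : E = B * v k := by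
        rw [hE, Finset.sum_eq_single k]
        · simp only [hη]; unfold cut; simp
        · intro b _ hb
          have := hz b
          unfold cut at this
          rw [if_neg hb] at this
          rw [this, mul_zero]
        · intro h; exact absurd (Finset.mem_univ k) h
      have hB0 : (B : ℂ) ≠ 0 := Complex.ofReal_ne_zero.2 (by rw [hB]; positivity)
      have hE0 : 0 < ‖E‖ ^ 2 := by
        rw [hE']; exact pow_pos (norm_pos_iff.2 (mul_ne_zero hB0 hvk)) 2
      have := mul_pos h1 hE0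
      have := mul_nonneg h2.le (hS0.trans hlow)
      linarith
    · have := mul_pos h2 (h0.trans_le hlow)
      have : 0 ≤ c1 * ‖E‖ ^ 2 := by positivity
      linarith

theorem sum_cut (k : Fin 10) (w : V 10) : ∑ j, ‖cut k w j‖ ^ 2 = ‖w‖ ^ 2 - ‖w k‖ ^ 2 := by
  rw [EuclideanSpace.norm_sq_eq, ← Finset.add_sum_erase _ _ (Finset.mem_univ k),
    ← Finset.add_sum_erase _ (fun j => ‖w j‖ ^ 2) (Finset.mem_univ k)]
  have e : ∑ j ∈ Finset.univ.erase k, ‖cut k w j‖ ^ 2 = ∑ j ∈ Finset.univ.erase k, ‖w j‖ ^ 2 := by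
    refine Finset.sum_congr rfl fun j hj => ?_
    unfold cut
    rw [if_neg (Finset.ne_of_mem_erase hj)]
  rw [e]
  unfold cut
  simp

theorem posDef_X {ψ : ℝ → ℝ} (h : ContDiffOn ℝ ∞ ψ (Icc 0 1))
    (ha : ∀ x ∈ Icc (0 : ℝ) 1, 0 < aa ψ x) (ht : ∀ x ∈ Icc (0 : ℝ) 1, 0 < tx ψ x) (k : Fin 10)
    (w : V 10) : (cHess (fun u : V 10 => fsPot u + ψ (X k u)) w).PosDef := by
  have hm : X k w ∈ Icc (0 : ℝ) 1 := Ioc_subset_Icc_self (X_mem k w)
  have hB0 : 0 < 1 + ‖w‖ ^ 2 - ‖w k‖ ^ 2 := by have := sq_coord_le k w; linarith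
  refine posDef_form k w _ _ (1 + ‖w‖ ^ 2 - ‖w k‖ ^ 2) ?_ ?_ ?_ _ (cHess_pot h k w _ rfl)
  · exact div_pos (ht _ hm) (by positivity)
  · exact div_pos (ha _ hm) (by positivity)
  · rw [sum_cut]; ring

theorem contDiff_X (k : Fin 10) : ContDiff ℝ ∞ (X k) := by
  unfold X
  refine contDiff_const.sub (ContDiff.div ?_ (contDiff_const.add (contDiff_norm_sq ℂ))
    fun w => by positivity)
  exact (contDiff_norm_sq ℂ).comp
    ((EuclideanSpace.proj k : V 10 →L[ℂ] ℂ).restrictScalars ℝ).contDiff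

theorem xc_trans (k : Fin 10) (w : V 10) (h : w k ≠ 0) : xc (transition k w) = X k w := by
  have hA : 0 < ‖w k‖ ^ 2 := pow_pos (norm_pos_iff.2 h) 2
  have e : ‖transition k w‖ ^ 2 = (1 + ‖w‖ ^ 2 - ‖w k‖ ^ 2) / ‖w k‖ ^ 2 := by
    rw [EuclideanSpace.norm_sq_eq (transition k w), ← Finset.add_sum_erase _ _ (Finset.mem_univ k),
      add_sub_assoc, ← sum_cut, ← Finset.add_sum_erase _ (fun j => ‖cut k w j‖ ^ 2)
        (Finset.mem_univ k), add_div, add_div, Finset.sum_div]
    unfold transition cut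
    simp only [if_true, norm_inv, norm_zero]
    congr 1
    · rw [inv_pow, one_div]
    · rw [zero_pow two_ne_zero, zero_div, zero_add]
      refine Finset.sum_congr rfl fun j hj => ?_
      rw [if_neg (Finset.ne_of_mem_erase hj), if_neg (Finset.ne_of_mem_erase hj), norm_div, div_pow]
  unfold xc X
  rw [e]
  have h2 : (0 : ℝ) < 1 + ‖w‖ ^ 2 := by positivity
  have e2 : 1 + (1 + ‖w‖ ^ 2 - ‖w k‖ ^ 2) / ‖w k‖ ^ 2 = (1 + ‖w‖ ^ 2) / ‖w k‖ ^ 2 := by
    field_simp; ring
  rw [e2]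
  field_simp

end Crest.Agent.R213.ChartKA
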