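import Crest.Agent.R213.Rad
import Crest.Agent.R213.ChartKA

/-!
# Row 213: radial potentials in the other charts
-/

set_option autoImplicit false

noncomputable section

namespace Crest.Agent.R213

open Set Filter Topology
open scoped ContDiff

open Crest.GeometryTopology.ProjKahler
open scoped ComplexOrder

/-- The moment coordinate in the chart `k`. -/
def xk (k : Fin 10) (w : V 10) : ℝ := 1 - ‖w k‖ ^ 2 / (1 + ‖w‖ ^ 2)

theorem xk_mem (k : Fin 10) (w : V 10) : xk k w ∈ Ioc (0 : ℝ) 1 := by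
  exact ChartKA.X_mem k w

theorem contDiff_xk (k : Fin 10) : ContDiff ℝ ∞ (xk k) := by
  exact ChartKA.contDiff_X k

theorem xc_transition (k : Fin 10) (w : V 10) (h : w k ≠ 0) : xc (transition k w) = xk k w := by
  exact ChartKA.xc_trans k w h

theorem posDef_chartK {ψ : ℝ → ℝ} (h : ContDiffOn ℝ ∞ ψ (Icc 0 1))
    (ha : ∀ x ∈ Icc (0 : ℝ) 1, 0 < aa ψ x) (ht : ∀ x ∈ Icc (0 : ℝ) 1, 0 < tx ψ x) (k : Fin 10)
    (w : V 10) : (cHess (fun u : V 10 => fsPot u + ψ (xk k u)) w).PosDef := by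
  exact ChartKA.posDef_X h ha ht k w

end Crest.Agent.R213
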