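/-!
# Row 213: the checker for the soliton computation (definitions, no Mathlib import)

Fixed point numbers with `256` bits; polynomials are lists of integers; products of polynomials
are computed by Kronecker substitution at `RR = 2 ^ 576`.
-/

set_option autoImplicit false

namespace Crest.Agent.R213.Chk

/-- `k n`, with `n` evaluated first. -/
noncomputable def force {β : Type} (n : Nat) (k : Nat → β) : β :=
  Nat.rec (motive := fun _ => β) (k 0) (fun m _ => k (Nat.succ m)) n

/-- `k z`, with `z` evaluated first. -/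
noncomputable def forceI {β : Type} (z : Int) (k : Int → β) : β :=
  Int.rec (motive := fun _ => β) (fun n => force n fun n => k (Int.ofNat n))
    (fun n => force n fun n => k (Int.negSucc n)) z

noncomputable def band (a b : Bool) : Bool := Bool.rec (motive := fun _ => Bool) false b a

def ONE : Nat := Nat.pow 2 256
def RR : Nat := Nat.pow 2 576
def HH : Nat := Nat.pow 2 575

/-- Horner evaluation. -/
noncomputable def pz (l : List Int) (x : Int) : Int :=
  List.rec (motive := fun _ => Int) (Int.ofNat 0) (fun c _ ih => Int.add c (Int.mul x ih)) l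

/-- Sum of the coefficients. -/
noncomputable def ps (l : List Int) : Int :=
  List.rec (motive := fun _ => Int) (Int.ofNat 0) (fun c _ ih => Int.add c ih) l

/-- Constant coefficient. -/
noncomputable def hd (l : List Int) : Int :=
  List.rec (motive := fun _ => Int) (Int.ofNat 0) (fun c _ _ => c) l

/-- Sum of the absolute values of the coefficients. -/
noncomputable def nrm (l : List Int) : Nat :=
  List.rec (motive := fun _ => Nat) 0 (fun c _ ih => Nat.add (Int.natAbs c) ih) l

/-- The `k`-th coefficient is multiplied by `i + k`. -/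
noncomputable def aux (l : List Int) : Nat → List Int :=
  List.rec (motive := fun _ => Nat → List Int) (fun _ => [])
    (fun c _ ih i => Int.mul (Int.ofNat i) c :: ih (Nat.succ i)) l

/-- Derivative. -/
noncomputable def pder (l : List Int) : List Int :=
  List.rec (motive := fun _ => List Int) [] (fun _ t _ => aux t 1) l

/-- Scalar multiple. -/
noncomputable def psm (c : Int) (l : List Int) : List Int :=
  List.rec (motive := fun _ => List Int) [] (fun a _ ih => Int.mul c a :: ih) l

/-- The operator `-2 v d/dv`. -/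
noncomputable def pth (l : List Int) : List Int := psm (-2) (aux l 0)

/-- Sum of the absolute values of the signed digits in base `R`. -/
noncomputable def ubd (R h fuel : Nat) : Nat → Nat :=
  Nat.rec (motive := fun _ => Nat → Nat) (fun z => z)
    (fun _ ih z => Nat.rec (motive := fun _ => Nat) 0
      (fun m _ => (fun y : Nat => (fun r : Nat =>
        Nat.add (Nat.add (Nat.sub r h) (Nat.sub h r)) (ih (Nat.div y R))) (Nat.mod y R))
        (Nat.add (Nat.succ m) h)) z) fuel

/-- A polynomial given by its value at `RR` and a bound for its norm. -/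
structure PP where
  z : Int
  n : Nat

namespace PP

def add (a b : PP) : PP := ⟨Int.add a.1 b.1, Nat.add a.2 b.2⟩
def mul (a b : PP) : PP := ⟨Int.mul a.1 b.1, Nat.mul a.2 b.2⟩
def cst (c : Int) : PP := ⟨c, Int.natAbs c⟩
def X : PP := ⟨Int.ofNat RR, 1⟩
noncomputable def ofl (l : List Int) : PP := ⟨pz l (Int.ofNat RR), nrm l⟩

/-- A sharp bound for the norm. -/
noncomputable def bd (a : PP) : Nat :=
  force (ubd RR HH 250 (Int.natAbs a.1)) fun d =>
    Bool.rec (motive := fun _ => Nat) a.2 d (Nat.blt (Nat.add a.2 d) RR)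

end PP

open PP

/-- Bound for `(H0 + u H1 + v H2) (g0 + u g1 + v g2) - c`. -/
noncomputable def resid (H0 H1 H2 g0 g1 g2 : PP) (c : Int) : Nat :=
  bd (add (mul H0 g0) (cst (-c))) + bd (add (mul H0 g1) (mul H1 g0)) +
    bd (add (mul H0 g2) (mul H2 g0)) + (bd H1 + bd H2) * (bd g1 + bd g2)

/-- Bound for `g0 + u g1 + v g2 - c`. -/
noncomputable def dev (g0 g1 g2 : PP) (c : Int) : Nat := bd (add g0 (cst (-c))) + bd g1 + bd g2

/-- Affine forms in the two parameters. -/
structure T3 where
  x : Int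
  y : Int
  z : Int

/-- Bound for the difference of `A` and `B / d`. -/
def jmp (d : Nat) (A B : T3) : Nat :=
  (Int.natAbs (d * A.x - B.x) + Int.natAbs (d * A.y - B.y) + Int.natAbs (d * A.z - B.z)) / d + 1

def T3.div (A : T3) (d : Nat) : T3 := ⟨A.x / d, A.y / d, A.z / d⟩

noncomputable def forceT {β : Type} (A : T3) (k : T3 → β) : β :=
  forceI A.x fun x => forceI A.y fun y => forceI A.z fun z => k ⟨x, y, z⟩

/-- The state at `x = a / 16`: approximate values of `g`, `Q / x ^ 9`, `S` and error bounds. -/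
structure Node where
  a : Nat
  G : T3
  T : T3
  S : T3
  p : Nat
  q : Nat
  e : Nat

/-- One step: the length `b / 16` and the three polynomials approximating `K1 S`. -/
structure Dat where
  b : Nat
  k0 : List Int
  k1 : List Int
  k2 : List Int

def gI (o l f0 : Int) : Int := 16 * o - l * f0
def tI (o b l f0 f1 : Int) : Int := 160 * b * o - 11 * b * l * f0 - l * l * f1
def sI (b l f0 f1 f2 : Int) : Int := l * l * f2 + 22 * b * l * f1 + 110 * b * b * f0

noncomputable def gP (o : Int) (l : PP) (k : List Int) : PP :=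
  add (cst (16 * o)) (mul (cst (-1)) (mul l (ofl k)))

noncomputable def hP (b c : Int) (l : PP) (k : List Int) : PP :=
  add (cst (2 * b * b * b * c)) (mul (cst (-32))
    (add (mul l (add (mul l (ofl (pder (pder (pder k))))) (mul (cst (24 * b)) (ofl (pder (pder k))))))
      (mul (cst (132 * b * b)) (ofl (pder k)))))

/-- Values at a node (`ev = hd` or `ev = ps`). -/
noncomputable def gT (ev : List Int → Int) (l : Int) (d : Dat) : T3 :=
  ⟨gI ONE l (ev d.k0), gI 0 l (ev d.k1), gI 0 l (ev d.k2)⟩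

noncomputable def tT (ev : List Int → Int) (l : Int) (d : Dat) : T3 :=
  ⟨tI ONE d.b l (ev d.k0) (ev (pder d.k0)), tI 0 d.b l (ev d.k1) (ev (pder d.k1)),
    tI 0 d.b l (ev d.k2) (ev (pder d.k2))⟩

noncomputable def sT (ev : List Int → Int) (l : Int) (d : Dat) : T3 :=
  ⟨sI d.b l (ev d.k0) (ev (pder d.k0)) (ev (pder (pder d.k0))),
    sI d.b l (ev d.k1) (ev (pder d.k1)) (ev (pder (pder d.k1))),
    sI d.b l (ev d.k2) (ev (pder d.k2)) (ev (pder (pder d.k2)))⟩

/-- The bound for the error of `S` at the end of a substep. -/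
def eN (b L r e E : Nat) : Nat := e + b * (2147483648 * E + 32768 * L * r) / (256 * L * L) + 1

/-- `E b ^ 2 / (512 n)`, rounded up. -/
def c2 (b n E : Nat) : Nat := E * b * b / (512 * n) + 1

/-- One substep from `na / 256` to `(na + b) / 256`. -/
noncomputable def sub1 (b L r na p q e : Nat) (k : Nat → Nat → Nat → Nat → Bool) : Bool :=
  force (na + b) fun nb =>
  force (p + q * b / nb + 1) fun c1 =>
  force (eN b L r e c1) fun E0 =>
  force (eN b L r e (c1 + c2 b nb E0)) fun E1 =>
  force (E1 + (E1 - E0) / 8 + 4) fun ES =>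
  force (c2 b nb ES) fun cc =>
  force (eN b L r e (c1 + cc)) fun e' =>
  band (Nat.blt e' ES) (band (Nat.ble (c1 + cc) (Nat.pow 2 240))
    (force (Nat.pow na 9) fun n9 =>
     force (q * n9 / Nat.pow nb 9 + 1 + (ES * b / 256 + 1)) fun q' =>
     force ((p * na + b * q) * n9 / Nat.pow nb 10 + 1 + cc) fun p' =>
     k nb p' q' e'))

/-- `m` substeps. -/
noncomputable def subs (b L r : Nat) (k : Nat → Nat → Nat → Bool) (m : Nat) :
    Nat → Nat → Nat → Nat → Bool :=
  Nat.rec (motive := fun _ => Nat → Nat → Nat → Nat → Bool) (fun _ p q e => k p q e)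
    (fun _ ih na p q e => sub1 b L r na p q e ih) m

/-- One step. -/
noncomputable def step (C : T3) (nd : Node) (d : Dat) (k : Node → Bool) : Bool :=
  (fun l : PP => (fun g0 g1 g2 : PP =>
    force (resid (hP d.b C.x l d.k0) (hP d.b C.y l d.k1) (hP d.b C.z l d.k2) g0 g1 g2
      (16 * d.b * d.b * d.b * ONE * ONE) / (16 * d.b * d.b * d.b * ONE) + 1) fun r =>
    force ((Int.toNat (gI ONE nd.a (hd d.k0)) - dev g0 g1 g2 (gI ONE nd.a (hd d.k0))) /
      Nat.pow 2 244 - 1) fun L =>
    band (Nat.ble 6554 L) (band (Nat.blt 0 d.b)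
      (subs d.b L r (fun p q e =>
          forceT (gT ps (Int.ofNat (nd.a + d.b)) d) fun G =>
          forceT (tT ps (Int.ofNat (nd.a + d.b)) d) fun T =>
          forceT (sT ps (Int.ofNat (nd.a + d.b)) d) fun S =>
          forceT (G.div 16) fun G' =>
          forceT (T.div (16 * d.b)) fun T' =>
          forceT (S.div (d.b * d.b)) fun S' =>
          force (nd.a + d.b) fun a' =>
          force (p + jmp 16 G' G) fun p' =>
          force (q + jmp (16 * d.b) T' T) fun q' =>
          force (e + jmp (d.b * d.b) S' S) fun e' =>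
          k ⟨a', G', T', S', p', q', e'⟩)
        16 (16 * nd.a) (nd.p + jmp 16 nd.G (gT hd nd.a d))
        (nd.q + jmp (16 * d.b) nd.T (tT hd nd.a d))
        (nd.e + jmp (d.b * d.b) nd.S (sT hd nd.a d)))))
    (gP ONE l d.k0) (gP 0 l d.k1) (gP 0 l d.k2))
    (add (cst nd.a) (mul (cst d.b) X))

/-- A sequence of steps. -/
noncomputable def run (C : T3) (k : Node → Bool) (ds : List Dat) : Node → Bool :=
  List.rec (motive := fun _ => Node → Bool) k (fun d _ ih nd => step C nd d ih) ds

def T3.beq (A B : T3) : Bool := decide (A.x = B.x) && decide (A.y = B.y) && decide (A.z = B.z)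

def Node.beq (A B : Node) : Bool :=
  Nat.beq A.a B.a && A.G.beq B.G && A.T.beq B.T && A.S.beq B.S && Nat.beq A.p B.p &&
    Nat.beq A.q B.q && Nat.beq A.e B.e

/-- The state at `x = 0`. -/
def init (s : T3) : Node := ⟨0, ⟨ONE, 0, 0⟩, ⟨10 * ONE, 0, 0⟩, s, 0, 0, 0⟩

/-! ## The tail -/

/-- `512 ^ 2 h` for the tail. -/
noncomputable def hT (o c : Int) (t : List Int) : PP :=
  add (cst (524288 * c)) (mul (cst (-2)) (mul X
    (add (mul (cst (-1)) (ofl (pth (pth (pth t))))) (add (mul (cst (-18)) (ofl (pth (pth t))))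
      (add (mul (cst (-71)) (ofl (pth t))) (add (mul (cst 90) (ofl t)) (cst (-90 * o))))))))

noncomputable def mA (G : Int) (t : List Int) : Int := 4096 * (G - ps t)
noncomputable def mB (G T : Int) (t : List Int) : Int := 64 * (T - 10 * G - ps (pth t))
noncomputable def mC (o S : Int) (t : List Int) : Int :=
  512 * S - (90 * o - (ps (pth (pth t)) + 19 * ps (pth t) + 90 * ps t))

/-- The final check (`ρ = 2 ^ (-75)`, `α = a / 2 ^ 20`). -/
noncomputable def fin (s C : T3) (t0 t1 t2 : List Int) (a1 a2 : Int) (nd : Node) : Bool :=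
  (fun A0 A1 A2 B0 B1 B2 C0 C1 C2 : Int => (fun eA eB eC : Nat =>
    decide (nd.a = 8192) &&
    decide (Int.natAbs s.y + Int.natAbs s.z < s.x) &&
    decide (Int.natAbs (2000 * C.x - 1401 * ONE) + 2000 * Int.natAbs C.y +
      2000 * Int.natAbs C.z ≤ ONE) &&
    decide (0 ≤ a1 ∧ a1 ≤ 131072 ∧ 0 ≤ a2 ∧ a2 ≤ 32768) &&
    decide (dev (ofl t0) (ofl t1) (ofl t2) (183 * Nat.pow 2 248) ≤ Nat.pow 2 248) &&
    decide (dev (ofl (pth t0)) (ofl (pth t1)) (ofl (pth t2)) 0 ≤ ONE) &&
    decide (dev (ofl (pth (pth t0))) (ofl (pth (pth t1))) (ofl (pth (pth t2))) 0 ≤ ONE) &&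
    decide (100 * resid (hT ONE C.x t0) (hT 0 C.y t1) (hT 0 C.z t2) (ofl t0) (ofl t1) (ofl t2)
      (262144 * ONE * ONE) ≤ Nat.pow 2 455) &&
    decide (10 * (Int.natAbs (A0 + B0) + Int.natAbs (A1 + B1 - Nat.pow 2 194) +
      Int.natAbs (A2 + B2) + eA + eB) ≤ Nat.pow 2 193) &&
    decide (10 * (Int.natAbs (A0 + C0) + Int.natAbs (A1 + C1) +
      Int.natAbs (A2 + C2 - Nat.pow 2 194) + eA + eC) ≤ Nat.pow 2 193) &&
    decide (10 * (Int.natAbs (1048576 * (A0 - B0 - C0) - (a1 * (A0 + B0) + a2 * (A0 + C0))) +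
      Int.natAbs (1048576 * (A1 - B1 - C1) - (a1 * (A1 + B1) + a2 * (A1 + C1))) +
      Int.natAbs (1048576 * (A2 - B2 - C2) - (a1 * (A2 + B2) + a2 * (A2 + C2))) +
      1048576 * (eA + 2 * eB + 2 * eC)) ≤ Nat.pow 2 213))
    (4096 * nd.p) (64 * (nd.q + 10 * nd.p)) (512 * nd.e))
    (mA nd.G.x t0) (mA nd.G.y t1) (mA nd.G.z t2)
    (mB nd.G.x nd.T.x t0) (mB nd.G.y nd.T.y t1) (mB nd.G.z nd.T.z t2)
    (mC ONE nd.S.x t0) (mC 0 nd.S.y t1) (mC 0 nd.S.z t2)

end Crest.Agent.R213.Chk
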