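import Crest.Agent.R213.B1

/-!
# Row 213: propagation of the error along one substep
-/

set_option autoImplicit false

noncomputable section

namespace Crest.Agent.R213

open Set Filter Topology

/-- An approximate solution on `[lo, hi]`. -/
structure Apx (C lo hi glo η r : ℝ) (g T s h : ℝ → ℝ) : Prop where
  dP : ∀ x, HasDerivAt (fun y => y ^ 10 * g y) (x ^ 9 * T x) x
  dQ : ∀ x, HasDerivAt (fun y => y ^ 9 * T y) (90 * x ^ 8 - x ^ 9 * s x) x
  dS : ∀ x, HasDerivAt s (C - h x / 2) x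
  res : ∀ x ∈ Icc lo hi, |h x * g x - 1| ≤ r
  low : ∀ x ∈ Icc lo hi, glo + η ≤ g x

/-- Error bounds at `x`, and the truncation is inactive up to `x`. -/
structure Inv (S : ℝ → ℝ) (x G T s p q e : ℝ) : Prop where
  g : |gof S x - G| ≤ p
  q : |Qof S x - x ^ 9 * T| ≤ q * x ^ 9
  e : |S x - s| ≤ e
  lo : ∀ y ∈ Icc 0 x, 1 / 10 < gof S y

theorem Inv.mono {S : ℝ → ℝ} {x G T s p q e G' T' s' p' q' e' : ℝ} (hx : 0 ≤ x)
    (h : Inv S x G T s p q e) (h1 : p + |G - G'| ≤ p') (h2 : q + |T - T'| ≤ q')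
    (h3 : e + |s - s'| ≤ e') : Inv S x G' T' s' p' q' e' := by
  refine ⟨?_, ?_, ?_, h.lo⟩
  · exact (abs_sub_le _ G _).trans (by linarith [h.g])
  · refine (abs_sub_le _ (x ^ 9 * T) _).trans ?_
    have h9 : 0 ≤ x ^ 9 := by positivity
    rw [← mul_sub, abs_mul, abs_of_nonneg h9]
    nlinarith [h.q, mul_le_mul_of_nonneg_left h2 h9]
  · exact (abs_sub_le _ s _).trans (by linarith [h.e])

theorem bound_of_deriv {f f' B B' : ℝ → ℝ} {a b : ℝ} (hab : a ≤ b)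
    (hf : ∀ x, HasDerivAt f (f' x) x) (hB : ∀ x, HasDerivAt B (B' x) x) (ha : |f a| ≤ B a)
    (hb : ∀ x ∈ Ico a b, |f' x| ≤ B' x) : |f b| ≤ B b :=
  image_norm_le_of_norm_deriv_right_le_deriv_boundary (f := f) (f' := f')
    (fun x _ => (hf x).continuousAt.continuousWithinAt)
    (fun x _ => (hf x).hasDerivWithinAt) ha hB hb ⟨hab, le_rfl⟩

/-- The errors of `P` and `Q` in terms of the error of `S`. -/
theorem err_PQ {S : ℝ → ℝ} (hS : Continuous S) {C lo hi glo η r : ℝ} {g T s h : ℝ → ℝ}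
    (A : Apx C lo hi glo η r g T s h) {xa x p q e E : ℝ} (h0 : 0 ≤ xa) (hx : xa ≤ x)
    (hE : 0 ≤ E) (I : Inv S xa (g xa) (T xa) (s xa) p q e)
    (hb : ∀ z ∈ Ico xa x, |S z - s z| ≤ E) :
    |Qof S x - x ^ 9 * T x| ≤ q * xa ^ 9 + E * x ^ 9 * (x - xa) ∧
      |x ^ 10 * gof S x - x ^ 10 * g x| ≤
        p * xa ^ 10 + q * xa ^ 9 * (x - xa) + E * x ^ 9 * ((x - xa) ^ 2 / 2) := by
  have hQ : ∀ y ∈ Icc xa x, |Qof S y - y ^ 9 * T y| ≤ q * xa ^ 9 + E * x ^ 9 * (y - xa) := by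
    intro y hy
    refine bound_of_deriv (f := fun y => Qof S y - y ^ 9 * T y)
      (B := fun y => q * xa ^ 9 + E * x ^ 9 * (y - xa)) (B' := fun _ => E * x ^ 9) hy.1
      (fun z => (hasDerivAt_Q hS z).sub (A.dQ z)) (fun z => ?_) (by simpa using I.q)
      (fun z hz => ?_)
    · simpa using (((hasDerivAt_id z).sub_const xa).const_mul (E * x ^ 9)).const_add (q * xa ^ 9)
    · have hz0 : 0 ≤ z := h0.trans hz.1
      have h1 : z ^ 9 ≤ x ^ 9 := pow_le_pow_left₀ hz0 (hz.2.le.trans hy.2) 9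
      rw [show 90 * z ^ 8 - z ^ 9 * S z - (90 * z ^ 8 - z ^ 9 * s z) = -(z ^ 9 * (S z - s z)) by
        ring, abs_neg, abs_mul, abs_of_nonneg (pow_nonneg hz0 9), mul_comm]
      exact mul_le_mul (hb z ⟨hz.1, hz.2.trans_le hy.2⟩) h1 (pow_nonneg hz0 9) hE
  refine ⟨hQ x ⟨hx, le_rfl⟩, ?_⟩
  refine bound_of_deriv (f := fun y => y ^ 10 * gof S y - y ^ 10 * g y)
    (B := fun y => p * xa ^ 10 + q * xa ^ 9 * (y - xa) + E * x ^ 9 * ((y - xa) ^ 2 / 2))
    (B' := fun y => q * xa ^ 9 + E * x ^ 9 * (y - xa)) hx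
    (fun z => (hasDerivAt_P hS z).sub (A.dP z)) (fun z => ?_) ?_
    (fun z hz => hQ z ⟨hz.1, hz.2.le⟩)
  · have h1 := (hasDerivAt_id z).sub_const xa
    exact (((h1.const_mul (q * xa ^ 9)).const_add (p * xa ^ 10)).add
      (((h1.pow 2).div_const 2).const_mul (E * x ^ 9))).congr_deriv (by simp)
  · have h10 : 0 ≤ xa ^ 10 := by positivity
    simp only [sub_self, mul_zero, add_zero, ne_eq, OfNat.ofNat_ne_zero, not_false_eq_true,
      zero_pow, zero_div]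
    rw [← mul_sub, abs_mul, abs_of_nonneg h10, mul_comm]
    exact mul_le_mul_of_nonneg_right I.g h10

theorem err_g {S : ℝ → ℝ} (hS : Continuous S) {C lo hi glo η r : ℝ} {g T s h : ℝ → ℝ}
    (A : Apx C lo hi glo η r g T s h) {xa xb x p q e E : ℝ} (h0 : 0 ≤ xa) (hx : xa ≤ x)
    (hb' : x ≤ xb) (hq : 0 ≤ q) (hE : 0 ≤ E) (I : Inv S xa (g xa) (T xa) (s xa) p q e)
    (hb : ∀ z ∈ Ico xa x, |S z - s z| ≤ E) :
    |gof S x - g x| ≤ p + q * (xb - xa) / xb + E * (xb - xa) ^ 2 / (2 * xb) := by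
  have hp : 0 ≤ p := (abs_nonneg _).trans I.g
  have hxb : 0 ≤ xb := h0.trans (hx.trans hb')
  have hd : 0 ≤ xb - xa := by linarith
  rcases hx.eq_or_lt with rfl | hlt
  · have := I.g
    have : 0 ≤ q * (xb - xa) / xb := by positivity
    have : 0 ≤ E * (xb - xa) ^ 2 / (2 * xb) := by positivity
    linarith
  have hx0 : 0 < x := h0.trans_lt hlt
  have hxb0 : 0 < xb := hx0.trans_le hb'
  have h1 := (err_PQ hS A h0 hx hE I hb).2
  rw [← mul_sub, abs_mul, abs_of_pos (pow_pos hx0 10)] at h1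
  have h9 : xa ^ 9 ≤ x ^ 9 := pow_le_pow_left₀ h0 hx 9
  have h10 : xa ^ 10 ≤ x ^ 10 := pow_le_pow_left₀ h0 hx 10
  have hr : x - xa ≤ x * ((xb - xa) / xb) := by
    rw [← mul_div_assoc, le_div_iff₀ hxb0]; nlinarith
  have hr2 : (x - xa) ^ 2 ≤ x * ((xb - xa) ^ 2 / xb) := by
    have : (x - xa) * (x - xa) ≤ x * ((xb - xa) / xb) * (xb - xa) :=
      mul_le_mul hr (by linarith) (by linarith) (by positivity)
    calc (x - xa) ^ 2 = (x - xa) * (x - xa) := by ring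
      _ ≤ _ := this
      _ = _ := by ring
  refine le_of_mul_le_mul_left (h1.trans ?_) (pow_pos hx0 10)
  have a1 : p * xa ^ 10 ≤ p * x ^ 10 := mul_le_mul_of_nonneg_left h10 hp
  have a2 : q * xa ^ 9 * (x - xa) ≤ q * x ^ 9 * (x * ((xb - xa) / xb)) :=
    mul_le_mul (mul_le_mul_of_nonneg_left h9 hq) hr (by linarith) (by positivity)
  have a3 : E * x ^ 9 * ((x - xa) ^ 2 / 2) ≤ E * x ^ 9 * (x * ((xb - xa) ^ 2 / xb) / 2) :=
    mul_le_mul_of_nonneg_left (by linarith) (by positivity)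
  calc _ ≤ p * x ^ 10 + q * x ^ 9 * (x * ((xb - xa) / xb)) +
        E * x ^ 9 * (x * ((xb - xa) ^ 2 / xb) / 2) := by linarith
    _ = _ := by field_simp

theorem err_dS {G g h C glo η r Eg : ℝ} (hglo : 1 / 10 < glo) (hl : glo + η ≤ g) (hη : Eg ≤ η)
    (hG : |G - g| ≤ Eg) (hr : |h * g - 1| ≤ r) :
    1 / 10 < G ∧ |C - 1 / (2 * max G (1 / 10)) - (C - h / 2)| ≤
      Eg / (2 * glo ^ 2) + r / (2 * glo) := by
  have hE : 0 ≤ Eg := (abs_nonneg _).trans hG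
  have h1 : glo ≤ G := by linarith [(abs_le.1 hG).1]
  have h2 : glo ≤ g := by linarith
  have h0 : 0 < glo := by linarith
  have hG0 : 0 < G := by linarith
  have hg0 : 0 < g := by linarith
  refine ⟨by linarith, ?_⟩
  rw [max_eq_left (by linarith), show C - 1 / (2 * G) - (C - h / 2) =
    (G - g) / (2 * (G * g)) + (h * g - 1) / (2 * g) by field_simp; ring]
  refine (abs_add_le _ _).trans (add_le_add ?_ ?_)
  · rw [abs_div, abs_of_pos (by positivity : 0 < 2 * (G * g))]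
    exact div_le_div₀ hE hG (by positivity) (by nlinarith [mul_le_mul h1 h2 h0.le hG0.le])
  · rw [abs_div, abs_of_pos (by positivity : 0 < 2 * g)]
    exact div_le_div₀ ((abs_nonneg _).trans hr) hr (by positivity) (by linarith)

/-- One substep. -/
theorem sub_step {pp : ℝ × ℝ} {S : ℝ → ℝ} (hS : IsSol pp S) {lo hi glo η r : ℝ}
    {g T s h : ℝ → ℝ} (A : Apx pp.2 lo hi glo η r g T s h) (hglo : 1 / 10 < glo)
    {xa xb p q e ES Eg p' q' e' : ℝ} (h0 : 0 ≤ xa) (hlo : lo ≤ xa) (hab : xa < xb) (hhi : xb ≤ hi)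
    (hq : 0 ≤ q) (hE : 0 ≤ ES) (I : Inv S xa (g xa) (T xa) (s xa) p q e)
    (hEg : p + q * (xb - xa) / xb + ES * (xb - xa) ^ 2 / (2 * xb) ≤ Eg) (hη : Eg ≤ η)
    (he : e + (xb - xa) * (Eg / (2 * glo ^ 2) + r / (2 * glo)) ≤ e') (hlt : e' < ES)
    (hq' : q * xa ^ 9 / xb ^ 9 + ES * (xb - xa) ≤ q')
    (hp' : (p * xa + (xb - xa) * q) * xa ^ 9 / xb ^ 10 + ES * (xb - xa) ^ 2 / (2 * xb) ≤ p') :
    Inv S xb (g xb) (T xb) (s xb) p' q' e' := by
  have hc := hS.continuous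
  have hxb : 0 < xb := h0.trans_lt hab
  have he0 : 0 ≤ e := (abs_nonneg _).trans I.e
  have hr0 : 0 ≤ r := (abs_nonneg _).trans (A.res xa ⟨hlo, hab.le.trans hhi⟩)
  have hp : 0 ≤ p := (abs_nonneg _).trans I.g
  have hglo0 : 0 < glo := by linarith
  have hsc : Continuous s := continuous_iff_continuousAt.2 fun x => (A.dS x).continuousAt
  -- the estimate under the bootstrap assumption
  have key : ∀ y ∈ Icc xa xb, (∀ z ∈ Ico xa y, |S z - s z| ≤ ES) →
      (∀ z ∈ Icc xa y, 1 / 10 < gof S z) ∧ |S y - s y| ≤ e' := by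
    intro y hy hb
    have hg : ∀ z ∈ Icc xa y, 1 / 10 < gof S z ∧
        |pp.2 - 1 / (2 * max (gof S z) (1 / 10)) - (pp.2 - h z / 2)| ≤
          Eg / (2 * glo ^ 2) + r / (2 * glo) := fun z hz =>
      have hz' : z ∈ Icc lo hi := ⟨hlo.trans hz.1, hz.2.trans (hy.2.trans hhi)⟩
      err_dS hglo (A.low z hz') hη ((err_g hc A h0 hz.1 (hz.2.trans hy.2) hq hE I
        fun w hw => hb w ⟨hw.1, hw.2.trans_le hz.2⟩).trans hEg) (A.res z hz')
    refine ⟨fun z hz => (hg z hz).1, ?_⟩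
    have hK : 0 ≤ Eg / (2 * glo ^ 2) + r / (2 * glo) :=
      (abs_nonneg _).trans (hg xa ⟨le_rfl, hy.1⟩).2
    have h1 := bound_of_deriv (f := fun y => S y - s y)
      (B := fun y => e + (y - xa) * (Eg / (2 * glo ^ 2) + r / (2 * glo)))
      (B' := fun _ => Eg / (2 * glo ^ 2) + r / (2 * glo)) hy.1
      (fun z => (hS.2 z).sub (A.dS z)) (fun z => by
        simpa using (((hasDerivAt_id z).sub_const xa).mul_const
          (Eg / (2 * glo ^ 2) + r / (2 * glo))).const_add e) (by simpa using I.e)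
      (fun z hz => (hg z ⟨hz.1, hz.2.le⟩).2)
    have h2 := mul_le_mul_of_nonneg_right (show y - xa ≤ xb - xa by linarith [hy.2]) hK
    linarith
  have hall : ∀ z ∈ Ico xa xb, |S z - s z| ≤ ES := by
    by_contra hn
    push Not at hn
    obtain ⟨z, hz, hz2⟩ := hn
    have hcl : IsClosed {y ∈ Icc xa xb | ES ≤ |S y - s y|} :=
      isClosed_Icc.inter (isClosed_le continuous_const (hc.sub hsc).abs)
    have hne : {y ∈ Icc xa xb | ES ≤ |S y - s y|}.Nonempty := ⟨z, ⟨hz.1, hz.2.le⟩, hz2.le⟩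
    have hbd : BddBelow {y ∈ Icc xa xb | ES ≤ |S y - s y|} := ⟨xa, fun y hy => hy.1.1⟩
    have hm := hcl.csInf_mem hne hbd
    have h1 := (key _ hm.1 fun w hw => by
      by_contra hh
      exact absurd (csInf_le hbd ⟨⟨hw.1, hw.2.le.trans hm.1.2⟩, (not_le.1 hh).le⟩)
        (not_le.2 hw.2)).2
    linarith [hm.2]
  obtain ⟨k1, k2⟩ := key xb ⟨hab.le, le_rfl⟩ hall
  obtain ⟨k3, k4⟩ := err_PQ hc A h0 hab.le hE I hall
  refine ⟨?_, ?_, k2, fun y hy => ?_⟩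
  · rw [← mul_sub, abs_mul, abs_of_pos (pow_pos hxb 10)] at k4
    refine le_trans (le_of_mul_le_mul_left (k4.trans (le_of_eq ?_)) (pow_pos hxb 10)) hp'
    field_simp
  · refine k3.trans (le_trans (le_of_eq ?_) (mul_le_mul_of_nonneg_right hq' (pow_pos hxb 9).le))
    field_simp
  · rcases le_total y xa with h1 | h1
    · exact I.lo y ⟨hy.1, h1⟩
    · exact k1 y ⟨h1, hy.2⟩

end Crest.Agent.R213
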