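import Mathlib
import Crest.Agent.R213.Chk

/-!
# Row 213: soundness of the polynomial arithmetic of the checker
-/

set_option autoImplicit false

namespace Crest.Agent.R213.Chk

theorem force_eq {β : Type} (n : ℕ) (k : ℕ → β) : force n k = k n := by cases n <;> rfl

theorem forceI_eq {β : Type} (z : ℤ) (k : ℤ → β) : forceI z k = k z := by
  cases z with
  | ofNat n => exact force_eq n fun n => k (Int.ofNat n)
  | negSucc n => exact force_eq n fun n => k (Int.negSucc n)

theorem forceT_eq {β : Type} (A : T3) (k : T3 → β) : forceT A k = k A := by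
  simp only [forceT, forceI_eq]

theorem band_eq (a b : Bool) : band a b = (a && b) := by cases a <;> rfl

theorem ONE_eq : ONE = 2 ^ 256 := rfl

attribute [local irreducible] RR HH ONE

/-- Evaluation in a commutative ring. -/
def pev {α : Type} [CommRing α] : List ℤ → α → α
  | [], _ => 0
  | c :: l, x => (c : α) + x * pev l x

def padd : List ℤ → List ℤ → List ℤ
  | [], q => q
  | a :: p, [] => a :: p
  | a :: p, b :: q => (a + b) :: padd p q

noncomputable def pmul : List ℤ → List ℤ → List ℤ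
  | [], _ => []
  | a :: p, q => padd (psm a q) (0 :: pmul p q)

theorem psm_nil (c : ℤ) : psm c [] = [] := rfl
theorem psm_cons (c a : ℤ) (l : List ℤ) : psm c (a :: l) = (c * a) :: psm c l := rfl
theorem nrm_nil : nrm [] = 0 := rfl
theorem nrm_cons (a : ℤ) (l : List ℤ) : nrm (a :: l) = a.natAbs + nrm l := rfl
theorem aux_nil (i : ℕ) : aux [] i = [] := rfl
theorem aux_cons (a : ℤ) (l : List ℤ) (i : ℕ) : aux (a :: l) i = ((i : ℤ) * a) :: aux l (i + 1) :=
  rfl
theorem pder_nil : pder [] = [] := rfl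
theorem pder_cons (a : ℤ) (l : List ℤ) : pder (a :: l) = aux l 1 := rfl

theorem pz_eq (l : List ℤ) (x : ℤ) : pz l x = pev l x := by
  induction l with
  | nil => rfl
  | cons a l ih =>
    show a + x * pz l x = _
    rw [ih]; rfl

theorem ps_eq (l : List ℤ) : (ps l : ℝ) = pev l (1 : ℝ) := by
  induction l with
  | nil => simp [pev, show ps [] = 0 from rfl]
  | cons a l ih =>
    rw [show ps (a :: l) = a + ps l from rfl]
    simp [pev, ih]

theorem hd_eq (l : List ℤ) : (hd l : ℝ) = pev l (0 : ℝ) := by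
  cases l with
  | nil => simp [pev, show hd [] = 0 from rfl]
  | cons a l =>
    rw [show hd (a :: l) = a from rfl]
    simp [pev]

section ring
variable {α : Type} [CommRing α]

theorem pev_padd (p q : List ℤ) (x : α) : pev (padd p q) x = pev p x + pev q x := by
  induction p generalizing q with
  | nil => simp [padd, pev]
  | cons a p ih =>
    cases q with
    | nil => simp [padd, pev]
    | cons b q => simp only [padd, pev, ih]; push_cast; ring

theorem pev_psm (c : ℤ) (p : List ℤ) (x : α) : pev (psm c p) x = c * pev p x := by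
  induction p with
  | nil => simp [psm_nil, pev]
  | cons a p ih => simp only [psm_cons, pev, ih]; push_cast; ring

theorem pev_pmul (p q : List ℤ) (x : α) : pev (pmul p q) x = pev p x * pev q x := by
  induction p with
  | nil => simp [pmul, pev]
  | cons a p ih => simp only [pmul, pev_padd, pev_psm, pev, ih]; push_cast; ring

theorem pev_aux_succ (l : List ℤ) (i : ℕ) (x : α) :
    pev (aux l (i + 1)) x = pev (aux l i) x + pev l x := by
  induction l generalizing i with
  | nil => simp [aux_nil, pev]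
  | cons a l ih => simp only [aux_cons, pev, ih (i + 1)]; push_cast; ring

theorem pev_aux_zero (l : List ℤ) (x : α) : pev (aux l 0) x = x * pev (pder l) x := by
  cases l with
  | nil => simp [aux_nil, pder_nil, pev]
  | cons a l => simp [aux_cons, pder_cons, pev]

theorem pev_pth (l : List ℤ) (x : α) : pev (pth l) x = -2 * x * pev (pder l) x := by
  rw [pth, pev_psm, pev_aux_zero]; push_cast; ring

end ring

theorem hasDerivAt_pev (l : List ℤ) (x : ℝ) : HasDerivAt (pev l) (pev (pder l) x) x := by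
  induction l with
  | nil => exact hasDerivAt_const x (0 : ℝ)
  | cons a l ih =>
    have h := ((hasDerivAt_id x).mul ih).const_add (a : ℝ)
    rw [pder_cons, pev_aux_succ, pev_aux_zero]
    exact h.congr_deriv (by simp only [id]; ring)

theorem continuous_pev (l : List ℤ) : Continuous (pev l : ℝ → ℝ) :=
  continuous_iff_continuousAt.2 fun x => (hasDerivAt_pev l x).continuousAt

theorem nrm_padd (p q : List ℤ) : nrm (padd p q) ≤ nrm p + nrm q := by
  induction p generalizing q with
  | nil => simp [padd, nrm_nil]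
  | cons a p ih =>
    cases q with
    | nil => simp [padd, nrm_nil]
    | cons b q =>
      simp only [padd, nrm_cons]
      have := ih q
      have := Int.natAbs_add_le a b
      omega

theorem nrm_psm (c : ℤ) (p : List ℤ) : nrm (psm c p) = c.natAbs * nrm p := by
  induction p with
  | nil => simp [psm_nil, nrm_nil]
  | cons a p ih => simp only [psm_cons, nrm_cons, ih, Int.natAbs_mul]; ring

theorem nrm_pmul (p q : List ℤ) : nrm (pmul p q) ≤ nrm p * nrm q := by
  induction p with
  | nil => simp [pmul, nrm_nil]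
  | cons a p ih =>
    have := nrm_padd (psm a q) (0 :: pmul p q)
    simp only [pmul, nrm_cons, nrm_psm, Int.natAbs_zero, add_mul] at *
    omega

theorem abs_pev_le (l : List ℤ) {w : ℝ} (hw : |w| ≤ 1) : |pev l w| ≤ nrm l := by
  induction l with
  | nil => simp [pev]
  | cons a l ih =>
    simp only [pev, nrm_cons, Nat.cast_add, Nat.cast_natAbs, Int.cast_abs]
    refine (abs_add_le _ _).trans (add_le_add le_rfl ?_)
    rw [abs_mul]
    exact (mul_le_of_le_one_left (abs_nonneg _) hw).trans ih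

theorem pev_eq_zero (l : List ℤ) {R : ℕ} (h0 : pev l (R : ℤ) = 0) (hn : nrm l < R) (w : ℝ) :
    pev l w = 0 := by
  induction l with
  | nil => rfl
  | cons a l ih =>
    simp only [pev, nrm_cons, Int.cast_id] at *
    have ha : a = 0 := by
      apply Int.eq_zero_of_dvd_of_natAbs_lt_natAbs (d := (R : ℤ))
      · exact ⟨-pev l (R : ℤ), by linarith⟩
      · rw [Int.natAbs_natCast]; omega
    subst ha
    have hR : (R : ℤ) ≠ 0 := by omega
    have h1 : pev l (R : ℤ) = 0 := (mul_eq_zero.1 (by simpa using h0)).resolve_left hR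
    rw [ih h1 (by omega)]; simp

theorem ubd_succ_succ (R h n m : ℕ) : ubd R h (n + 1) (m + 1) =
    ((m + 1 + h) % R - h + (h - (m + 1 + h) % R)) + ubd R h n ((m + 1 + h) / R) := rfl

theorem ubd_spec (R h n z : ℕ) : ∃ d : List ℤ, pev d (R : ℤ) = z ∧ nrm d = ubd R h n z := by
  induction n generalizing z with
  | zero => exact ⟨[z], by simp [pev], by simp [nrm_cons, nrm_nil]; rfl⟩
  | succ n ih =>
    cases z with
    | zero => exact ⟨[], rfl, rfl⟩
    | succ m =>
      obtain ⟨d, h1, h2⟩ := ih ((m + 1 + h) / R)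
      refine ⟨(((m + 1 + h) % R : ℕ) - h : ℤ) :: d, ?_, ?_⟩
      · simp only [pev, h1, Int.cast_id]
        have := Nat.mod_add_div (m + 1 + h) R
        have h3 : (((m + 1 + h) % R : ℕ) : ℤ) + (R : ℤ) * ((m + 1 + h) / R : ℕ) =
          ((m + 1 + h : ℕ) : ℤ) := by exact_mod_cast this
        push_cast at h3 ⊢
        linarith
      · rw [nrm_cons, h2, ubd_succ_succ]
        generalize (m + 1 + h) % R = r
        omega

/-- `x` represents the polynomial function `f`. -/
def Rep (f : ℝ → ℝ) (x : PP) : Prop :=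
  ∃ l : List ℤ, (∀ w, pev l w = f w) ∧ pev l (RR : ℤ) = x.z ∧ nrm l ≤ x.n

theorem Rep.add {f g : ℝ → ℝ} {x y : PP} (h : Rep f x) (k : Rep g y) :
    Rep (fun w => f w + g w) (x.add y) := by
  obtain ⟨p, p1, p2, p3⟩ := h
  obtain ⟨q, q1, q2, q3⟩ := k
  refine ⟨padd p q, fun w => by rw [pev_padd, p1, q1], by rw [pev_padd, p2, q2]; rfl, ?_⟩
  exact (nrm_padd p q).trans (Nat.add_le_add p3 q3)

theorem Rep.mul {f g : ℝ → ℝ} {x y : PP} (h : Rep f x) (k : Rep g y) :
    Rep (fun w => f w * g w) (x.mul y) := by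
  obtain ⟨p, p1, p2, p3⟩ := h
  obtain ⟨q, q1, q2, q3⟩ := k
  refine ⟨pmul p q, fun w => by rw [pev_pmul, p1, q1], by rw [pev_pmul, p2, q2]; rfl, ?_⟩
  exact (nrm_pmul p q).trans (Nat.mul_le_mul p3 q3)

theorem Rep.cst (c : ℤ) : Rep (fun _ => (c : ℝ)) (PP.cst c) :=
  ⟨[c], fun w => by simp [pev], by simp [pev, PP.cst], by simp [nrm_cons, nrm_nil, PP.cst]⟩

theorem Rep.X : Rep (fun w => w) PP.X :=
  ⟨[0, 1], fun w => by simp [pev], by simp [pev, PP.X], by simp [nrm_cons, nrm_nil, PP.X]⟩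

theorem Rep.ofl (l : List ℤ) : Rep (pev l) (PP.ofl l) :=
  ⟨l, fun _ => rfl, (pz_eq l _).symm, le_rfl⟩

theorem Rep.congr {f g : ℝ → ℝ} {x : PP} (h : Rep f x) (e : ∀ w, f w = g w) : Rep g x := by
  rwa [← funext e]

theorem Rep.le_bd {f : ℝ → ℝ} {x : PP} (h : Rep f x) {w : ℝ} (hw : |w| ≤ 1) :
    |f w| ≤ x.bd := by
  obtain ⟨l, l1, l2, l3⟩ := h
  rw [PP.bd, force_eq]
  cases hb : Nat.blt (Nat.add x.n (ubd RR HH 250 x.z.natAbs)) RR with
  | false =>
    rw [← l1]
    exact (abs_pev_le l hw).trans (by exact_mod_cast l3)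
  | true =>
    have hlt : x.n + ubd RR HH 250 x.z.natAbs < RR := by simpa [Nat.blt_eq] using hb
    obtain ⟨d, d1, d2⟩ := ubd_spec RR HH 250 x.z.natAbs
    have key : ∀ s : ℤ, s.natAbs = 1 → x.z + s * x.z.natAbs = 0 →
        |f w| ≤ (ubd RR HH 250 x.z.natAbs : ℝ) := by
      intro s hs h0
      have e := pev_eq_zero (padd l (psm s d)) (R := RR)
        (by rw [pev_padd, pev_psm, l2, d1]; exact h0)
        ((nrm_padd _ _).trans_lt (by rw [nrm_psm, hs, d2]; omega)) w
      rw [pev_padd, pev_psm, l1] at e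
      have : f w = -(s * pev d w) := by linarith
      have hs' : |(s : ℝ)| = 1 := by
        rw [← Int.cast_abs, ← Int.natCast_natAbs, hs]; simp
      rw [this, abs_neg, abs_mul, hs', one_mul, ← d2]
      exact abs_pev_le d hw
    rcases le_total 0 x.z with hz | hz
    · exact key (-1) rfl (by omega)
    · exact key 1 rfl (by omega)

theorem abs_aff_le {x y z u v a b c : ℝ} (hu : |u| ≤ 1) (hv : |v| ≤ 1) (hx : |x| ≤ a)
    (hy : |y| ≤ b) (hz : |z| ≤ c) : |x + u * y + v * z| ≤ a + b + c := by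
  refine (abs_add_le _ _).trans (add_le_add ((abs_add_le _ _).trans (add_le_add hx ?_)) ?_)
  · rw [abs_mul]; exact (mul_le_of_le_one_left (abs_nonneg _) hu).trans hy
  · rw [abs_mul]; exact (mul_le_of_le_one_left (abs_nonneg _) hv).trans hz

theorem le_resid {H0 H1 H2 g0 g1 g2 : ℝ → ℝ} {A0 A1 A2 B0 B1 B2 : PP} (h0 : Rep H0 A0)
    (h1 : Rep H1 A1) (h2 : Rep H2 A2) (k0 : Rep g0 B0) (k1 : Rep g1 B1) (k2 : Rep g2 B2) (c : ℤ)
    {u v w : ℝ} (hu : |u| ≤ 1) (hv : |v| ≤ 1) (hw : |w| ≤ 1) :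
    |(H0 w + u * H1 w + v * H2 w) * (g0 w + u * g1 w + v * g2 w) - c| ≤
      resid A0 A1 A2 B0 B1 B2 c := by
  have t0 := ((h0.mul k0).add (Rep.cst (-c))).le_bd hw
  have t1 := ((h0.mul k1).add (h1.mul k0)).le_bd hw
  have t2 := ((h0.mul k2).add (h2.mul k0)).le_bd hw
  have a := abs_aff_le hu hv t0 t1 t2
  have b := abs_aff_le (x := 0) (a := 0) hu hv (by simp) (h1.le_bd hw) (h2.le_bd hw)
  have d := abs_aff_le (x := 0) (a := 0) hu hv (by simp) (k1.le_bd hw) (k2.le_bd hw)
  have e := mul_le_mul b d (abs_nonneg _) (by positivity)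
  rw [← abs_mul] at e
  have f := (abs_add_le _ _).trans (add_le_add a e)
  simp only [resid]
  push_cast at f ⊢
  rw [zero_add, zero_add, zero_add, zero_add] at f
  refine le_of_eq_of_le ?_ f
  congr 1
  ring

theorem le_dev {g0 g1 g2 : ℝ → ℝ} {B0 B1 B2 : PP} (k0 : Rep g0 B0) (k1 : Rep g1 B1)
    (k2 : Rep g2 B2) (c : ℤ) {u v w : ℝ} (hu : |u| ≤ 1) (hv : |v| ≤ 1) (hw : |w| ≤ 1) :
    |g0 w + u * g1 w + v * g2 w - c| ≤ dev B0 B1 B2 c := by
  have a := abs_aff_le hu hv ((k0.add (Rep.cst (-c))).le_bd hw) (k1.le_bd hw) (k2.le_bd hw)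
  simp only [dev]
  push_cast at a ⊢
  convert a using 2
  ring

/-- The value of an affine form. -/
def T3.ev (A : T3) (u v : ℝ) : ℝ := A.x + u * A.y + v * A.z

theorem div_le_succ (n : ℕ) {d : ℕ} (hd : 0 < d) : (n : ℝ) / d ≤ (n / d : ℕ) + 1 := by
  rw [div_le_iff₀ (by exact_mod_cast hd)]
  have := Nat.lt_div_mul_add (a := n) hd
  have h : (n : ℝ) ≤ (n / d : ℕ) * d + d := by exact_mod_cast this.le
  linarith

theorem abs_int_le (z : ℤ) : |(z : ℝ)| ≤ (z.natAbs : ℝ) := by simp

theorem le_jmp {d : ℕ} (hd : 0 < d) (A B : T3) {u v : ℝ} (hu : |u| ≤ 1) (hv : |v| ≤ 1) :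
    |A.ev u v - B.ev u v / d| ≤ jmp d A B := by
  have hd' : (0 : ℝ) < d := by exact_mod_cast hd
  have a := abs_aff_le hu hv (abs_int_le (d * A.x - B.x)) (abs_int_le (d * A.y - B.y))
    (abs_int_le (d * A.z - B.z))
  have b := div_le_succ ((d * A.x - B.x).natAbs + (d * A.y - B.y).natAbs +
    (d * A.z - B.z).natAbs) hd
  rw [jmp, Nat.cast_add, Nat.cast_one]
  refine le_trans ?_ b
  rw [le_div_iff₀ hd', ← abs_of_pos hd', ← abs_mul, abs_of_pos hd', Nat.cast_add, Nat.cast_add]
  refine le_of_eq_of_le ?_ a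
  congr 1
  simp only [T3.ev]
  push_cast
  field_simp
  ring

theorem T3.eq_of_beq {A B : T3} (h : A.beq B = true) : A = B := by
  cases A; cases B
  simp only [T3.beq, Bool.and_eq_true, decide_eq_true_eq] at h
  simp [h]

theorem Node.eq_of_beq {A B : Node} (h : A.beq B = true) : A = B := by
  cases A; cases B
  simp only [Node.beq, Bool.and_eq_true, Nat.beq_eq] at h
  obtain ⟨⟨⟨⟨⟨⟨h1, h2⟩, h3⟩, h4⟩, h5⟩, h6⟩, h7⟩ := h
  simp [h1, T3.eq_of_beq h2, T3.eq_of_beq h3, T3.eq_of_beq h4, h5, h6, h7]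

end Crest.Agent.R213.Chk
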