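import Crest.Agent.R213.ChkA
import Crest.Agent.R213.ChkP

/-!
# Row 213: soundness of the steps of the checker
-/

set_option autoImplicit false

noncomputable section

namespace Crest.Agent.R213.Chk

open Set

theorem ONE_240 : ONE = 65536 * Nat.pow 2 240 := by decide +kernel
theorem ONE_244 : 16 * ONE = 65536 * Nat.pow 2 244 := by decide +kernel
theorem ONE_pos : 0 < ONE := by decide +kernel

attribute [local irreducible] RR HH ONE resid dev jmp

theorem W_pos : (0 : ℝ) < ONE := by exact_mod_cast ONE_pos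

theorem c2_ge (b E : ℕ) {n : ℕ} (hn : 0 < n) : (E : ℝ) * b ^ 2 / (512 * n) ≤ c2 b n E := by
  have := div_le_succ (E * b * b) (d := 512 * n) (by omega)
  rw [c2, Nat.cast_add, Nat.cast_one]
  refine le_of_eq_of_le ?_ this
  push_cast; ring

theorem eN_ge (b r e E : ℕ) {L : ℕ} (hL : 0 < L) :
    (e : ℝ) + b / 256 * (E / (2 * ((L : ℝ) / 65536) ^ 2) + r / (2 * ((L : ℝ) / 65536))) ≤
      eN b L r e E := by
  have := div_le_succ (b * (2147483648 * E + 32768 * L * r)) (d := 256 * L * L) (by positivity)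
  rw [eN, Nat.cast_add, Nat.cast_add, Nat.cast_one, add_assoc]
  refine add_le_add le_rfl (le_of_eq_of_le ?_ this)
  have : (0 : ℝ) < L := by exact_mod_cast hL
  push_cast; field_simp; ring

/-- The invariant at `n / 256` relative to an approximate solution. -/
def InvN (S g T s : ℝ → ℝ) (n p q e : ℕ) : Prop :=
  Inv S (n / 256) (g (n / 256)) (T (n / 256)) (s (n / 256)) (p / ONE) (q / ONE) (e / ONE)

theorem sub1_sound {pp : ℝ × ℝ} {S : ℝ → ℝ} (hS : IsSol pp S) {lo hi : ℝ} {g T s h : ℝ → ℝ}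
    {b L r : ℕ} (hb : 0 < b) (hL : 6554 ≤ L)
    (A : Apx pp.2 lo hi (L / 65536) (1 / 65536) (r / ONE) g T s h) {na p q e : ℕ}
    {k : ℕ → ℕ → ℕ → ℕ → Bool} (hlo : lo ≤ na / 256) (hhi : ((na + b : ℕ) : ℝ) / 256 ≤ hi)
    (I : InvN S g T s na p q e) (hc : sub1 b L r na p q e k = true) :
    ∃ p' q' e', InvN S g T s (na + b) p' q' e' ∧ k (na + b) p' q' e' = true := by
  simp only [sub1, force_eq, band_eq, Bool.and_eq_true, Nat.blt_eq, Nat.ble_eq] at hc
  obtain ⟨h1, h2, h3⟩ := hc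
  refine ⟨_, _, _, ?_, h3⟩
  clear h3
  generalize eN b L r e (p + q * b / (na + b) + 1 + c2 b (na + b)
    (eN b L r e (p + q * b / (na + b) + 1))) + (eN b L r e (p + q * b / (na + b) + 1 +
    c2 b (na + b) (eN b L r e (p + q * b / (na + b) + 1))) -
    eN b L r e (p + q * b / (na + b) + 1)) / 8 + 4 = ES at *
  have hW := W_pos
  have hb' : (0 : ℝ) < b := by exact_mod_cast hb
  have hn : 0 < na + b := by omega
  have hn' : (0 : ℝ) < (na + b : ℕ) := by exact_mod_cast hn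
  have hd : ((na + b : ℕ) : ℝ) / 256 - na / 256 = b / 256 := by push_cast; ring
  have hL' : (6554 : ℝ) ≤ L := by exact_mod_cast hL
  have c := c2_ge b ES hn
  refine sub_step hS A (ES := ES / ONE)
    (Eg := (p + q * b / (na + b) + 1 + c2 b (na + b) ES : ℕ) / ONE) (by linarith)
    (by positivity) hlo (by linarith [show (0 : ℝ) < b / 256 by positivity]) hhi
    (by positivity) (by positivity) I ?_ ?_ ?_ ?_ ?_ ?_
  · have a := div_le_succ (q * b) hn
    rw [hd, le_div_iff₀ hW]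
    calc _ = (p : ℝ) + (q * b : ℕ) / (na + b : ℕ) + ES * b ^ 2 / (512 * (na + b : ℕ)) := by
          rw [Nat.cast_mul]; field_simp; ring
      _ ≤ _ := by
          rw [Nat.cast_add _ (c2 _ _ _), Nat.cast_add _ 1, Nat.cast_add p, Nat.cast_one]; linarith
  · rw [div_le_div_iff₀ hW (by norm_num), one_mul, ONE_240, mul_comm]
    exact_mod_cast Nat.mul_le_mul_left 65536 h2
  · have a := eN_ge b r e (p + q * b / (na + b) + 1 + c2 b (na + b) ES) (L := L) (by omega)
    rw [hd, le_div_iff₀ hW]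
    refine le_of_eq_of_le ?_ a
    field_simp
  · exact div_lt_div_of_pos_right (by exact_mod_cast h1) hW
  · have a := div_le_succ (q * Nat.pow na 9) (d := Nat.pow (na + b) 9) (Nat.pow_pos hn)
    have a' := div_le_succ (ES * b) (d := 256) (by norm_num)
    rw [hd, le_div_iff₀ hW]
    calc _ = ((q * Nat.pow na 9 : ℕ) : ℝ) / (Nat.pow (na + b) 9 : ℕ) +
          (ES * b : ℕ) / (256 : ℕ) := by
          simp only [Nat.pow_eq, Nat.cast_mul, Nat.cast_pow, Nat.cast_ofNat]; field_simp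
      _ ≤ _ := by
          rw [Nat.cast_add (_ / _ + 1), Nat.cast_add (_ / _) 1, Nat.cast_add (_ / _) 1,
            Nat.cast_one]
          linarith
  · have a := div_le_succ ((p * na + b * q) * Nat.pow na 9) (d := Nat.pow (na + b) 10)
      (Nat.pow_pos hn)
    rw [hd, le_div_iff₀ hW]
    calc _ = (((p * na + b * q) * Nat.pow na 9 : ℕ) : ℝ) / (Nat.pow (na + b) 10 : ℕ) +
          ES * b ^ 2 / (512 * (na + b : ℕ)) := by
          simp only [Nat.pow_eq, Nat.cast_mul, Nat.cast_pow, Nat.cast_add (p * na)]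
          field_simp; ring
      _ ≤ _ := by rw [Nat.cast_add (_ / _ + 1), Nat.cast_add (_ / _) 1, Nat.cast_one]; linarith

theorem subs_sound {pp : ℝ × ℝ} {S : ℝ → ℝ} (hS : IsSol pp S) {lo hi : ℝ} {g T s h : ℝ → ℝ}
    {b L r : ℕ} (hb : 0 < b) (hL : 6554 ≤ L)
    (A : Apx pp.2 lo hi (L / 65536) (1 / 65536) (r / ONE) g T s h) {k : ℕ → ℕ → ℕ → Bool}
    (m : ℕ) {na p q e : ℕ} (hlo : lo ≤ na / 256) (hhi : ((na + m * b : ℕ) : ℝ) / 256 ≤ hi)
    (I : InvN S g T s na p q e) (hc : subs b L r k m na p q e = true) :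
    ∃ p' q' e', InvN S g T s (na + m * b) p' q' e' ∧ k p' q' e' = true := by
  induction m generalizing na p q e with
  | zero => exact ⟨p, q, e, by simpa using I, hc⟩
  | succ m ih =>
    have e1 : na + (m + 1) * b = na + b + m * b := by ring
    rw [e1] at hhi ⊢
    obtain ⟨p', q', e', I', h'⟩ := sub1_sound hS hb hL A (k := subs b L r k m) hlo
      (le_trans (div_le_div_of_nonneg_right (Nat.cast_le.2 (by omega)) (by norm_num)) hhi) I hc
    exact ih (hlo.trans (by gcongr; omega)) hhi I' h'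

/-- The affine family of polynomials. -/
def fm (d : Dat) (u v : ℝ) (op : List ℤ → List ℤ) (w : ℝ) : ℝ :=
  pev (op d.k0) w + u * pev (op d.k1) w + v * pev (op d.k2) w

theorem hasDerivAt_fm (d : Dat) (u v : ℝ) (op : List ℤ → List ℤ) (w : ℝ) :
    HasDerivAt (fm d u v op) (fm d u v (fun l => pder (op l)) w) w :=
  ((hasDerivAt_pev _ w).add ((hasDerivAt_pev _ w).const_mul u)).add
    ((hasDerivAt_pev _ w).const_mul v)

/-- The same in the variable `x`. -/
def Fx (a : ℕ) (d : Dat) (u v : ℝ) (i : ℕ) (op : List ℤ → List ℤ) (x : ℝ) : ℝ :=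
  (16 / d.b) ^ i * fm d u v op ((16 * x - a) / d.b) / ONE

theorem hasDerivAt_Fx (a : ℕ) (d : Dat) (u v : ℝ) (i : ℕ) (op : List ℤ → List ℤ) (x : ℝ) :
    HasDerivAt (Fx a d u v i op) (Fx a d u v (i + 1) (fun l => pder (op l)) x) x := by
  have h1 : HasDerivAt (fun x : ℝ => (16 * x - a) / d.b) (16 / d.b) x := by
    simpa using (((hasDerivAt_id x).const_mul 16).sub_const (a : ℝ)).div_const (d.b : ℝ)
  exact ((((hasDerivAt_fm d u v op _).comp x h1).const_mul (((16 : ℝ) / d.b) ^ i)).div_const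
    (ONE : ℝ)).congr_deriv (by simp only [Fx]; ring)

def gF (a : ℕ) (d : Dat) (u v x : ℝ) : ℝ := 1 - x * Fx a d u v 0 (fun l => l) x

def tF (a : ℕ) (d : Dat) (u v x : ℝ) : ℝ :=
  10 - 11 * x * Fx a d u v 0 (fun l => l) x - x ^ 2 * Fx a d u v 1 (fun l => pder l) x

def sF (a : ℕ) (d : Dat) (u v x : ℝ) : ℝ :=
  x ^ 2 * Fx a d u v 2 (fun l => pder (pder l)) x + 22 * x * Fx a d u v 1 (fun l => pder l) x +
    110 * Fx a d u v 0 (fun l => l) x

def hF (C : ℝ) (a : ℕ) (d : Dat) (u v x : ℝ) : ℝ :=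
  2 * C - 2 * (x ^ 2 * Fx a d u v 3 (fun l => pder (pder (pder l))) x +
    24 * x * Fx a d u v 2 (fun l => pder (pder l)) x + 132 * Fx a d u v 1 (fun l => pder l) x)

theorem rep_l (a b : ℤ) : Rep (fun w => a + b * w) ((PP.cst a).add ((PP.cst b).mul PP.X)) :=
  (Rep.cst a).add ((Rep.cst b).mul Rep.X)

theorem rep_gP (o : ℤ) {f : ℝ → ℝ} {l : PP} (hl : Rep f l) (k : List ℤ) :
    Rep (fun w => 16 * o - f w * pev k w) (gP o l k) :=
  ((Rep.cst _).add ((Rep.cst _).mul (hl.mul (Rep.ofl k)))).congr fun w => by push_cast; ring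

theorem rep_hP (b c : ℤ) {f : ℝ → ℝ} {l : PP} (hl : Rep f l) (k : List ℤ) :
    Rep (fun w => 2 * b ^ 3 * c - 32 * (f w ^ 2 * pev (pder (pder (pder k))) w +
      24 * b * f w * pev (pder (pder k)) w + 132 * b ^ 2 * pev (pder k) w)) (hP b c l k) :=
  ((Rep.cst _).add ((Rep.cst _).mul ((hl.mul ((hl.mul (Rep.ofl _)).add
    ((Rep.cst _).mul (Rep.ofl _)))).add ((Rep.cst _).mul (Rep.ofl _))))).congr fun w => by
      push_cast; ring

theorem apx_of {C : T3} {a : ℕ} {d : Dat} (hb : 0 < d.b) {u v : ℝ} (hu : |u| ≤ 1) (hv : |v| ≤ 1)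
    {l : PP} (hl : Rep (fun w => ((a : ℤ) : ℝ) + ((d.b : ℤ) : ℝ) * w) l) {r L : ℕ}
    (hr : resid (hP d.b C.x l d.k0) (hP d.b C.y l d.k1) (hP d.b C.z l d.k2) (gP ONE l d.k0)
      (gP 0 l d.k1) (gP 0 l d.k2) (16 * d.b * d.b * d.b * ONE * ONE) /
      (16 * d.b * d.b * d.b * ONE) + 1 = r)
    (hL : (Int.toNat (gI ONE a (hd d.k0)) - dev (gP ONE l d.k0) (gP 0 l d.k1) (gP 0 l d.k2)
      (gI ONE a (hd d.k0))) / Nat.pow 2 244 - 1 = L) (hL0 : 0 < L) :
    Apx (C.ev u v / ONE) (a / 16) ((a + d.b) / 16) (L / 65536) (1 / 65536) (r / ONE)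
      (gF a d u v) (tF a d u v) (sF a d u v) (hF (C.ev u v / ONE) a d u v) := by
  have hW := W_pos
  have hb' : (0 : ℝ) < d.b := by exact_mod_cast hb
  have hw : ∀ x ∈ Icc ((a : ℝ) / 16) ((a + d.b) / 16), |(16 * x - a) / d.b| ≤ 1 := by
    intro x hx
    rw [abs_div, abs_of_pos hb', div_le_one hb', abs_le]
    constructor <;> linarith [hx.1, hx.2]
  have D0 := hasDerivAt_Fx a d u v 0 (fun l => l)
  have D1 := hasDerivAt_Fx a d u v 1 (fun l => pder l)
  have D2 := hasDerivAt_Fx a d u v 2 (fun l => pder (pder l))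
  refine ⟨fun x => ?_, fun x => ?_, fun x => ?_, fun x hx => ?_, fun x hx => ?_⟩
  · exact ((hasDerivAt_pow 10 x).mul (((hasDerivAt_id x).mul (D0 x)).const_sub 1)).congr_deriv
      (by simp [tF]; ring)
  · exact ((hasDerivAt_pow 9 x).mul ((((((hasDerivAt_id x).const_mul 11).mul
      (D0 x)).const_sub 10)).sub ((hasDerivAt_pow 2 x).mul (D1 x)))).congr_deriv
      (by simp [sF]; ring)
  · exact ((((hasDerivAt_pow 2 x).mul (D2 x)).add (((hasDerivAt_id x).const_mul 22).mul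
      (D1 x))).add ((D0 x).const_mul 110)).congr_deriv (by simp [hF]; ring)
  · have h1 := le_resid (rep_hP d.b C.x hl d.k0) (rep_hP d.b C.y hl d.k1) (rep_hP d.b C.z hl d.k2)
      (rep_gP ONE hl d.k0) (rep_gP 0 hl d.k1) (rep_gP 0 hl d.k2)
      (16 * d.b * d.b * d.b * ONE * ONE) hu hv (hw x hx)
    have h2 := div_le_succ (resid (hP d.b C.x l d.k0) (hP d.b C.y l d.k1) (hP d.b C.z l d.k2)
      (gP ONE l d.k0) (gP 0 l d.k1) (gP 0 l d.k2) (16 * d.b * d.b * d.b * ONE * ONE))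
      (d := 16 * d.b * d.b * d.b * ONE) (by have := ONE_pos; positivity)
    rw [← hr, Nat.cast_add, Nat.cast_one, le_div_iff₀ hW]
    refine le_trans ?_ h2
    have h3 : (0 : ℝ) < (16 * d.b * d.b * d.b * ONE : ℕ) := by have := ONE_pos; positivity
    rw [le_div_iff₀ h3, mul_assoc, ← abs_of_pos (mul_pos hW h3), ← abs_mul]
    refine le_of_eq_of_le ?_ h1
    congr 1
    simp only [hF, gF, Fx, fm, T3.ev]
    push_cast
    field_simp
    ring
  · have h1 := le_dev (rep_gP ONE hl d.k0) (rep_gP 0 hl d.k1) (rep_gP 0 hl d.k2)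
      (gI ONE a (hd d.k0)) hu hv (hw x hx)
    generalize dev (gP ONE l d.k0) (gP 0 l d.k1) (gP 0 l d.k2) (gI ONE a (hd d.k0)) = D at *
    generalize gI ONE a (hd d.k0) = c at *
    have h4 := ONE_244
    generalize Nat.pow 2 244 = M at *
    have h2 : (L + 1) * M ≤ c.toNat - D := by
      rw [show L + 1 = (c.toNat - D) / M by omega]
      exact Nat.div_mul_le_self _ _
    have hM : 0 < M := by have := ONE_pos; omega
    have h3 : (((L + 1) * M : ℕ) : ℤ) ≤ c - D := by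
      have : 0 < (L + 1) * M := by positivity
      omega
    have h3' : ((L : ℝ) + 1) * M ≤ c - D := by exact_mod_cast h3
    have h4' : 16 * (ONE : ℝ) = 65536 * M := by exact_mod_cast h4
    have h5 := (abs_le.1 h1).1
    refine le_of_mul_le_mul_left ?_ (show (0 : ℝ) < 16 * ONE by positivity)
    calc _ = ((L : ℝ) + 1) * M := by rw [h4']; ring
      _ ≤ c - D := h3'
      _ ≤ _ := by
        refine le_of_le_of_eq (le_of_sub_nonneg ?_ : _ ≤ _) (Eq.refl _)
        refine le_of_le_of_eq (sub_nonneg.2 h5) ?_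
        simp only [gF, Fx, fm]
        push_cast
        field_simp
        ring

theorem node_vals (ev : List ℤ → ℤ) (w : ℝ) (hev : ∀ l, (ev l : ℝ) = pev l w) (a : ℕ) {d : Dat}
    (hb : 0 < d.b) (u v : ℝ) {n : ℤ} {x : ℝ} (hn : (n : ℝ) = a + d.b * w) (hx : x = n / 16) :
    gF a d u v x = (gT ev n d).ev u v / (16 : ℕ) / ONE ∧
      tF a d u v x = (tT ev n d).ev u v / (16 * d.b : ℕ) / ONE ∧
      sF a d u v x = (sT ev n d).ev u v / (d.b * d.b : ℕ) / ONE := by
  have hW := W_pos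
  have hb' : (0 : ℝ) < d.b := by exact_mod_cast hb
  have hw : (16 * x - a) / d.b = w := by rw [hx, hn]; field_simp; ring
  simp only [gF, tF, sF, Fx, hw, fm, gT, tT, sT, gI, tI, sI, T3.ev]
  push_cast
  simp only [hev, hx]
  refine ⟨?_, ?_, ?_⟩ <;> field_simp <;> ring

/-- The invariant at a node. -/
def NInv (S : ℝ → ℝ) (u v : ℝ) (nd : Node) : Prop :=
  Inv S (nd.a / 16) (nd.G.ev u v / ONE) (nd.T.ev u v / ONE) (nd.S.ev u v / ONE) (nd.p / ONE)
    (nd.q / ONE) (nd.e / ONE)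

theorem jmp_le {d : ℕ} (hd : 0 < d) (A B : T3) {u v : ℝ} (hu : |u| ≤ 1) (hv : |v| ≤ 1) (p : ℕ) :
    (p : ℝ) / ONE + |A.ev u v / ONE - B.ev u v / d / ONE| ≤ (p + jmp d A B : ℕ) / ONE := by
  rw [← sub_div, abs_div, abs_of_pos W_pos, ← add_div, Nat.cast_add]
  exact div_le_div_of_nonneg_right (add_le_add le_rfl (le_jmp hd A B hu hv)) W_pos.le

theorem step_sound {C : T3} {s0 u v : ℝ} (hu : |u| ≤ 1) (hv : |v| ≤ 1) {S : ℝ → ℝ}
    (hS : IsSol (s0, C.ev u v / ONE) S) {nd : Node} {d : Dat} {k : Node → Bool}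
    (I : NInv S u v nd) (hc : step C nd d k = true) : ∃ nd', NInv S u v nd' ∧ k nd' = true := by
  simp only [step, force_eq, forceT_eq, band_eq, Bool.and_eq_true, Nat.blt_eq, Nat.ble_eq] at hc
  obtain ⟨hL, hb, hc⟩ := hc
  have A := apx_of (C := C) hb hu hv (rep_l nd.a d.b) rfl rfl (by omega)
  have e0 : ((16 * nd.a : ℕ) : ℝ) / 256 = nd.a / 16 := by push_cast; ring
  have e1 : ((16 * nd.a + 16 * d.b : ℕ) : ℝ) / 256 = (nd.a + d.b : ℕ) / 16 := by push_cast; ring
  obtain ⟨g0, t0, s0'⟩ := node_vals hd 0 hd_eq nd.a hb u v (n := nd.a) (x := nd.a / 16)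
    (by simp) (by simp)
  obtain ⟨g1, t1, s1⟩ := node_vals ps 1 ps_eq nd.a hb u v (n := Int.ofNat (nd.a + d.b))
    (x := (nd.a + d.b : ℕ) / 16) (by simp) (by simp)
  obtain ⟨p, q, e, I', hk⟩ := subs_sound hS hb hL A 16 e0.ge (by rw [e1]; push_cast; rfl)
    (by
      rw [InvN, e0, g0, t0, s0']
      exact I.mono (by positivity) (jmp_le (by norm_num) _ _ hu hv _)
        (jmp_le (by omega) _ _ hu hv _) (jmp_le (by positivity) _ _ hu hv _)) hc
  refine ⟨_, ?_, hk⟩
  rw [InvN, e1, g1, t1, s1] at I'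
  refine I'.mono (by positivity) ?_ ?_ ?_ <;> rw [abs_sub_comm]
  · exact jmp_le (by norm_num) _ _ hu hv _
  · exact jmp_le (by omega) _ _ hu hv _
  · exact jmp_le (by positivity) _ _ hu hv _

theorem run_sound {C : T3} {s0 u v : ℝ} (hu : |u| ≤ 1) (hv : |v| ≤ 1) {S : ℝ → ℝ}
    (hS : IsSol (s0, C.ev u v / ONE) S) {nd' : Node} (ds : List Dat) {nd : Node}
    (I : NInv S u v nd) (hc : run C (Node.beq nd') ds nd = true) : NInv S u v nd' := by
  induction ds generalizing nd with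
  | nil => exact Node.eq_of_beq hc ▸ I
  | cons d ds ih =>
    obtain ⟨n, I', h⟩ := step_sound hu hv hS (k := run C (Node.beq nd') ds) I hc
    exact ih I' h

theorem init_sound {s : T3} {c u v : ℝ} {S : ℝ → ℝ} (hS : IsSol (s.ev u v / ONE, c) S) :
    NInv S u v (init s) := by
  have hW := W_pos
  refine ⟨?_, ?_, ?_, fun y hy => ?_⟩
  · simp [init, T3.ev, gof, hW.ne']
  · simp [init, Qof]
  · simp [init, hS.1]
  · have : y = 0 := le_antisymm (by simpa [init] using hy.2) hy.1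
    rw [this, gof]; norm_num

end Crest.Agent.R213.Chk
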