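import Crest.Agent.R213.ChkS
import Crest.Agent.R213.Block

/-!
# Row 213: soundness of the final check
-/

set_option autoImplicit false

noncomputable section

namespace Crest.Agent.R213.Chk

open Set

theorem ONE_248 : ONE = 256 * Nat.pow 2 248 := by decide +kernel
theorem ONE_455 : 262144 * ONE * ONE = 2 ^ 75 * Nat.pow 2 455 := by decide +kernel
theorem ONE_193 : 4096 * ONE = 2 ^ 75 * Nat.pow 2 193 := by decide +kernel
theorem pow_194 : Nat.pow 2 194 = 2 * Nat.pow 2 193 := by decide +kernel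
theorem pow_213 : Nat.pow 2 213 = 1048576 * Nat.pow 2 193 := by decide +kernel

attribute [local irreducible] RR HH ONE resid dev jmp

/-- The approximate solution at infinity and its Euler derivatives. -/
def aT (t0 t1 t2 : List ℤ) (i : ℕ) (q : ℝ × ℝ) (x : ℝ) : ℝ :=
  (pev (pth^[i] t0) (262144 / x ^ 2) + q.1 * pev (pth^[i] t1) (262144 / x ^ 2) +
    q.2 * pev (pth^[i] t2) (262144 / x ^ 2)) / ONE

theorem hasDerivAt_tail (l : List ℤ) {x : ℝ} (hx : x ≠ 0) :
    HasDerivAt (fun x : ℝ => pev l (262144 / x ^ 2)) (pev (pth l) (262144 / x ^ 2) / x) x := by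
  have h1 := (hasDerivAt_const x (262144 : ℝ)).div (hasDerivAt_pow 2 x) (pow_ne_zero 2 hx)
  refine ((hasDerivAt_pev l _).comp x h1).congr_deriv ?_
  rw [pev_pth]
  simp only [Pi.div_apply]
  field_simp
  ring

theorem rep_hT (o c : ℤ) (t : List ℤ) :
    Rep (fun w => 524288 * c - 2 * w * (-pev (pth (pth (pth t))) w - 18 * pev (pth (pth t)) w -
      71 * pev (pth t) w + 90 * pev t w - 90 * o)) (hT o c t) :=
  ((Rep.cst _).add ((Rep.cst _).mul (Rep.X.mul (((Rep.cst _).mul (Rep.ofl _)).add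
    (((Rep.cst _).mul (Rep.ofl _)).add (((Rep.cst _).mul (Rep.ofl _)).add
      (((Rep.cst _).mul (Rep.ofl _)).add (Rep.cst _)))))))).congr fun w => by push_cast; ring

theorem abs_aff_int {u v : ℝ} (hu : |u| ≤ 1) (hv : |v| ≤ 1) (x y z : ℤ) :
    |(x : ℝ) + u * y + v * z| ≤ ((x.natAbs + y.natAbs + z.natAbs : ℕ) : ℝ) := by
  rw [Nat.cast_add, Nat.cast_add]
  exact abs_aff_le hu hv (abs_int_le x) (abs_int_le y) (abs_int_le z)

theorem cap_of_fin {s C : T3} {t0 t1 t2 : List ℤ} {a1 a2 : ℤ} {nd : Node}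
    (hf : fin s C t0 t1 t2 a1 a2 nd = true)
    (hN : ∀ u v : ℝ, |u| ≤ 1 → |v| ≤ 1 → ∀ S, IsSol (s.ev u v / ONE, C.ev u v / ONE) S →
      NInv S u v nd) : Nonempty Cap := by
  simp only [fin, Bool.and_eq_true, decide_eq_true_eq] at hf
  obtain ⟨⟨⟨⟨⟨⟨⟨⟨⟨⟨ha, hs⟩, hC⟩, hα⟩, hd0⟩, hd1⟩, hd2⟩, hres⟩, hm1⟩, hm2⟩, hm3⟩ := hf
  have hW := W_pos
  have hq : ∀ q : ℝ × ℝ, ‖q‖ ≤ 1 → |q.1| ≤ 1 ∧ |q.2| ≤ 1 := fun q h =>
    ⟨(norm_fst_le q).trans h, (norm_snd_le q).trans h⟩
  have hv : ∀ x : ℝ, 512 ≤ x → |262144 / x ^ 2| ≤ 1 := fun x hx => by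
    rw [abs_of_nonneg (by positivity), div_le_one (by positivity)]; nlinarith
  have hb0 : ∀ q : ℝ × ℝ, ‖q‖ ≤ 1 → ∀ x, 512 ≤ x →
      aT t0 t1 t2 0 q x ∈ Icc (71 / 100 : ℝ) (72 / 100) := fun q h x hx => by
    have h1 := (le_dev (Rep.ofl t0) (Rep.ofl t1) (Rep.ofl t2) (183 * Nat.pow 2 248) (hq q h).1
      (hq q h).2 (hv x hx)).trans (Nat.cast_le.2 hd0)
    have h2 : (ONE : ℝ) = 256 * (Nat.pow 2 248 : ℕ) := by exact_mod_cast ONE_248
    generalize Nat.pow 2 248 = M at *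
    push_cast at h1
    obtain ⟨h3, h4⟩ := abs_le.1 h1
    constructor
    · rw [aT, le_div_iff₀ hW]; simp only [Function.iterate_zero, id]; linarith
    · rw [aT, div_le_iff₀ hW]; simp only [Function.iterate_zero, id]; linarith
  have hx512 : ((nd.a : ℝ) / 16) = 512 := by rw [ha]; norm_num
  obtain ⟨α1, α2, α3, α4⟩ := hα
  have α1' : (0 : ℝ) ≤ a1 := by exact_mod_cast α1
  have α2' : (a1 : ℝ) ≤ 131072 := by exact_mod_cast α2
  have α3' : (0 : ℝ) ≤ a2 := by exact_mod_cast α3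
  have α4' : (a2 : ℝ) ≤ 32768 := by exact_mod_cast α4
  refine ⟨{
    pm := fun q => (s.ev q.1 q.2 / ONE, C.ev q.1 q.2 / ONE)
    a := aT t0 t1 t2
    ρ := 1 / 2 ^ 75
    α1 := a1 / 1048576
    α2 := a2 / 1048576
    ρ_pos := by positivity
    ρ_le := by norm_num
    α_le := by nlinarith
    pm_cont := by unfold T3.ev; fun_prop
    pm_mem := fun q h => ?_
    a_cont := fun i => ?_
    a_der := fun i q x hx => ?_
    a_bd := fun q h x hx => ⟨hb0 q h x hx, ?_, ?_⟩
    res := fun q h x hx => ?_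
    lo := fun q h S hS x hx => (hN _ _ (hq q h).1 (hq q h).2 S hS).lo x (by rwa [hx512])
    mat := fun q h S hS A B D hA hB hD => ?_ }⟩
  · obtain ⟨hu, hv⟩ := hq q h
    have h1 := abs_aff_int hu hv 0 s.y s.z
    have h2 := abs_aff_int hu hv (2000 * C.x - 1401 * ONE) (2000 * C.y) (2000 * C.z)
    have h3 : ((s.y.natAbs : ℝ) + s.z.natAbs) < s.x := by
      have := (Int.cast_lt (R := ℝ)).2 hs
      rwa [Int.cast_add, Int.cast_natCast, Int.cast_natCast] at this
    have h4 : (((2000 * C.x - 1401 * ONE).natAbs + (2000 * C.y).natAbs + (2000 * C.z).natAbs :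
        ℕ) : ℝ) ≤ ONE := by
      rw [Nat.cast_le, Int.natAbs_mul, Int.natAbs_mul]; exact hC
    obtain ⟨h5, h6⟩ := abs_le.1 (h2.trans h4)
    rw [Int.natAbs_zero, zero_add, Nat.cast_add] at h1
    have h7 := (abs_le.1 h1).1
    push_cast at h5 h6
    refine ⟨div_pos ?_ hW, ?_, ?_⟩
    · simp only [T3.ev, Int.cast_zero] at *; linarith
    · rw [le_div_iff₀ hW, T3.ev]; linarith
    · rw [div_le_iff₀ hW, T3.ev]; linarith
  · have h1 : ContinuousOn (fun p : (ℝ × ℝ) × ℝ => (262144 : ℝ) / p.2 ^ 2) (univ ×ˢ Ici 512) :=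
      continuousOn_const.div (by fun_prop) fun p hp =>
        pow_ne_zero 2 (by have : (512 : ℝ) ≤ p.2 := hp.2; linarith)
    have h2 := fun l => (continuous_pev l).comp_continuousOn h1
    exact (((h2 _).add ((continuous_fst.fst.continuousOn).mul (h2 _))).add
      ((continuous_fst.snd.continuousOn).mul (h2 _))).div_const _
  · have hx0 : x ≠ 0 := by linarith
    refine ((((hasDerivAt_tail _ hx0).add ((hasDerivAt_tail _ hx0).const_mul q.1)).add
      ((hasDerivAt_tail _ hx0).const_mul q.2)).div_const (ONE : ℝ)).congr_deriv ?_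
    simp only [aT, Function.iterate_succ_apply']
    ring
  · have h1 := (le_dev (Rep.ofl (pth t0)) (Rep.ofl (pth t1)) (Rep.ofl (pth t2)) 0 (hq q h).1
      (hq q h).2 (hv x hx)).trans (Nat.cast_le.2 hd1)
    rw [aT, abs_div, abs_of_pos hW, div_le_one hW]
    simpa using h1
  · have h1 := (le_dev (Rep.ofl (pth (pth t0))) (Rep.ofl (pth (pth t1))) (Rep.ofl (pth (pth t2)))
      0 (hq q h).1 (hq q h).2 (hv x hx)).trans (Nat.cast_le.2 hd2)
    rw [aT, abs_div, abs_of_pos hW, div_le_one hW]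
    simpa using h1
  · have h1 := le_resid (rep_hT ONE C.x t0) (rep_hT 0 C.y t1) (rep_hT 0 C.z t2) (Rep.ofl t0)
      (Rep.ofl t1) (Rep.ofl t2) (262144 * ONE * ONE) (hq q h).1 (hq q h).2 (hv x hx)
    have h2 : (100 : ℝ) * resid (hT ONE C.x t0) (hT 0 C.y t1) (hT 0 C.z t2) (PP.ofl t0)
      (PP.ofl t1) (PP.ofl t2) (262144 * ONE * ONE) ≤ (Nat.pow 2 455 : ℕ) := by exact_mod_cast hres
    have h3' := ONE_455
    generalize Nat.pow 2 455 = M at *
    have h3 : (262144 : ℝ) * ONE * ONE = 2 ^ 75 * M := by exact_mod_cast h3'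
    have h4 := (hb0 q h x hx).1
    have hx0 : x ≠ 0 := by linarith
    have h5 : 0 < aT t0 t1 t2 0 q x := by linarith
    refine le_of_mul_le_mul_right ?_
      (show 0 < 2 * aT t0 t1 t2 0 q x * (262144 * ONE * ONE) by positivity)
    rw [← abs_of_pos (show 0 < 2 * aT t0 t1 t2 0 q x * (262144 * ONE * ONE) by positivity),
      ← abs_mul, abs_of_pos (show 0 < 2 * aT t0 t1 t2 0 q x * (262144 * ONE * ONE) by positivity)]
    rw [abs_sub_comm] at h1
    refine (le_of_eq_of_le ?_ h1).trans ?_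
    · congr 1
      have h6 : 1 / (2 * aT t0 t1 t2 0 q x) * (2 * aT t0 t1 t2 0 q x) = 1 := by field_simp
      rw [← mul_assoc, sub_mul _ _ (2 * _), sub_mul _ _ (2 * _), h6]
      simp only [aT, T3.ev, Function.iterate_succ_apply', Function.iterate_zero, id]
      push_cast
      field_simp
      ring
    · rw [h3]
      have hM : (0 : ℝ) ≤ M := by positivity
      nlinarith [mul_le_mul_of_nonneg_right h4 hM]
  · obtain ⟨hu, hv⟩ := hq q h
    have I := hN _ _ hu hv S hS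
    rw [NInv, hx512] at I
    have hZ : (0 : ℝ) < 4096 * ONE := by positivity
    have e1 : (262144 : ℝ) / 512 ^ 2 = 1 := by norm_num
    have i1 : |(gof S 512 - nd.G.ev q.1 q.2 / ONE) * ONE| ≤ nd.p := by
      rw [abs_mul, abs_of_pos hW, ← le_div_iff₀ hW]; exact I.g
    have i2 : |(Qof S 512 / 512 ^ 9 - nd.T.ev q.1 q.2 / ONE) * ONE| ≤ (nd.q : ℝ) := by
      rw [abs_mul, abs_of_pos hW, ← le_div_iff₀ hW]
      have := I.q
      rw [← div_le_iff₀ (by positivity), ← abs_of_pos (show (0 : ℝ) < 512 ^ 9 by positivity),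
        ← abs_div, abs_of_pos (show (0 : ℝ) < 512 ^ 9 by positivity), sub_div,
        mul_div_cancel_left₀ _ (by positivity)] at this
      exact this
    have i3 : |(S 512 - nd.S.ev q.1 q.2 / ONE) * ONE| ≤ nd.e := by
      rw [abs_mul, abs_of_pos hW, ← le_div_iff₀ hW]; exact I.e
    have eA : A * (4096 * ONE) = mA nd.G.x t0 + q.1 * mA nd.G.y t1 + q.2 * mA nd.G.z t2 +
        4096 * ((gof S 512 - nd.G.ev q.1 q.2 / ONE) * ONE) := by
      simp only [hA, aT, e1, mA, T3.ev, Function.iterate_zero, id]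
      push_cast
      simp only [ps_eq]
      field_simp
      ring
    have eB : B * (4096 * ONE) = mB nd.G.x nd.T.x t0 + q.1 * mB nd.G.y nd.T.y t1 +
        q.2 * mB nd.G.z nd.T.z t2 + 64 * ((Qof S 512 / 512 ^ 9 - nd.T.ev q.1 q.2 / ONE) * ONE -
        10 * ((gof S 512 - nd.G.ev q.1 q.2 / ONE) * ONE)) := by
      simp only [hB, thof, aT, e1, mB, T3.ev, Function.iterate_succ_apply',
        Function.iterate_zero, id]
      push_cast
      simp only [ps_eq]
      field_simp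
      ring
    have eD : D * (4096 * ONE) = mC ONE nd.S.x t0 + q.1 * mC 0 nd.S.y t1 +
        q.2 * mC 0 nd.S.z t2 + 512 * ((S 512 - nd.S.ev q.1 q.2 / ONE) * ONE) := by
      simp only [hD, aT, e1, mC, T3.ev, Function.iterate_succ_apply', Function.iterate_zero, id]
      push_cast
      simp only [ps_eq]
      field_simp
      ring
    generalize (gof S 512 - nd.G.ev q.1 q.2 / ONE) * ONE = δ1 at *
    generalize (Qof S 512 / 512 ^ 9 - nd.T.ev q.1 q.2 / ONE) * ONE = δ2 at *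
    generalize (S 512 - nd.S.ev q.1 q.2 / ONE) * ONE = δ3 at *
    generalize mA nd.G.x t0 = A0 at *
    generalize mA nd.G.y t1 = A1 at *
    generalize mA nd.G.z t2 = A2 at *
    generalize mB nd.G.x nd.T.x t0 = B0 at *
    generalize mB nd.G.y nd.T.y t1 = B1 at *
    generalize mB nd.G.z nd.T.z t2 = B2 at *
    generalize mC ONE nd.S.x t0 = C0 at *
    generalize mC 0 nd.S.y t1 = C1 at *
    generalize mC 0 nd.S.z t2 = C2 at *
    rw [pow_194] at hm1 hm2
    rw [pow_213] at hm3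
    have h3 : (4096 : ℝ) * ONE = 2 ^ 75 * (Nat.pow 2 193 : ℕ) := by exact_mod_cast ONE_193
    generalize Nat.pow 2 193 = M at *
    have b1 := abs_aff_int hu hv (A0 + B0) (A1 + B1 - (2 * M : ℕ)) (A2 + B2)
    have b2 := abs_aff_int hu hv (A0 + C0) (A1 + C1) (A2 + C2 - (2 * M : ℕ))
    have b3 := abs_aff_int hu hv (1048576 * (A0 - B0 - C0) - (a1 * (A0 + B0) + a2 * (A0 + C0)))
      (1048576 * (A1 - B1 - C1) - (a1 * (A1 + B1) + a2 * (A1 + C1)))
      (1048576 * (A2 - B2 - C2) - (a1 * (A2 + B2) + a2 * (A2 + C2)))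
    generalize (A0 + B0).natAbs + (A1 + B1 - (2 * M : ℕ)).natAbs + (A2 + B2).natAbs = n1 at *
    generalize (A0 + C0).natAbs + (A1 + C1).natAbs + (A2 + C2 - (2 * M : ℕ)).natAbs = n2 at *
    generalize (1048576 * (A0 - B0 - C0) - (a1 * (A0 + B0) + a2 * (A0 + C0))).natAbs +
      (1048576 * (A1 - B1 - C1) - (a1 * (A1 + B1) + a2 * (A1 + C1))).natAbs +
      (1048576 * (A2 - B2 - C2) - (a1 * (A2 + B2) + a2 * (A2 + C2))).natAbs = n3 at *
    have m1 : (10 : ℝ) * (n1 + 4096 * nd.p + 64 * (nd.q + 10 * nd.p)) ≤ M := by exact_mod_cast hm1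
    have m2 : (10 : ℝ) * (n2 + 4096 * nd.p + 512 * nd.e) ≤ M := by exact_mod_cast hm2
    have m3 : (10 : ℝ) * (n3 + 1048576 * (4096 * nd.p + 2 * (64 * (nd.q + 10 * nd.p)) +
      2 * (512 * nd.e))) ≤ 1048576 * M := by exact_mod_cast hm3
    push_cast at b1 b2 b3
    have hM : 1 / 2 ^ 75 * (4096 * (ONE : ℝ)) = M := by rw [h3]; field_simp
    have jB : |δ2 - 10 * δ1| ≤ nd.q + 10 * nd.p := by
      rw [abs_le] at i1 i2 ⊢; constructor <;> linarith [i1.1, i1.2, i2.1, i2.2]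
    generalize δ2 - 10 * δ1 = δ4 at *
    have fin1 : ∀ y : ℝ, |y * (4096 * ONE)| ≤ M / 10 → |y| ≤ 1 / 2 ^ 75 / 10 := fun y hy => by
      rw [abs_mul, abs_of_pos hZ, ← hM] at hy
      exact le_of_mul_le_mul_right (by linarith) hZ
    refine ⟨fin1 _ ?_, fin1 _ ?_, fin1 _ ?_⟩
    · rw [show (A + B - 2 * (1 / 2 ^ 75) * q.1) * (4096 * ONE) = A * (4096 * ONE) +
        B * (4096 * ONE) - 2 * (1 / 2 ^ 75 * (4096 * ONE)) * q.1 by ring, eA, eB, hM]
      rw [abs_le] at i1 jB b1 ⊢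
      constructor <;> linarith [i1.1, i1.2, jB.1, jB.2, b1.1, b1.2]
    · rw [show (A + D - 2 * (1 / 2 ^ 75) * q.2) * (4096 * ONE) = A * (4096 * ONE) +
        D * (4096 * ONE) - 2 * (1 / 2 ^ 75 * (4096 * ONE)) * q.2 by ring, eA, eD, hM]
      rw [abs_le] at i1 i3 b2 ⊢
      constructor <;> linarith [i1.1, i1.2, i3.1, i3.2, b2.1, b2.2]
    · have c1 : |(1048576 - a1 - a2) * δ1| ≤ 1048576 * nd.p := by
        rw [abs_mul, abs_of_nonneg (by linarith)]
        exact mul_le_mul (by linarith) i1 (abs_nonneg _) (by norm_num)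
      have c2 : |(1048576 + a1) * δ4| ≤ 2 * 1048576 * (nd.q + 10 * nd.p) := by
        rw [abs_mul, abs_of_nonneg (by linarith)]
        exact mul_le_mul (by linarith) jB (abs_nonneg _) (by norm_num)
      have c3 : |(1048576 + a2) * δ3| ≤ 2 * 1048576 * nd.e := by
        rw [abs_mul, abs_of_nonneg (by linarith)]
        exact mul_le_mul (by linarith) i3 (abs_nonneg _) (by norm_num)
      rw [show (A - B - D - (a1 / 1048576 * (A + B) + a2 / 1048576 * (A + D))) * (4096 * ONE) =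
        A * (4096 * ONE) - B * (4096 * ONE) - D * (4096 * ONE) -
          (a1 / 1048576 * (A * (4096 * ONE) + B * (4096 * ONE)) +
            a2 / 1048576 * (A * (4096 * ONE) + D * (4096 * ONE))) by ring, eA, eB, eD]
      rw [abs_le] at c1 c2 c3 b3 ⊢
      constructor <;> linarith [c1.1, c1.2, c2.1, c2.2, c3.1, c3.2, b3.1, b3.2]

end Crest.Agent.R213.Chk
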