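import Crest.Agent.R213.NA
import Crest.Agent.R213.C5

/-!
# Row 213: continuity in the parameter (proofs)
-/

set_option autoImplicit false

noncomputable section

namespace Crest.Agent.R213.ContA

open Set Filter Topology
open scoped ContDiff

variable {b : BG} {R0 C0 : ℝ}

theorem solN_mono {l : LD b R0} {N : ℕ} {v : Fin l.d → ℝ} {T T' : ℝ} {F F1 F2 ζ : Fn}
    (h : SolN l N v T F F1 F2 ζ) (hT : T' ≤ T) : SolN l N v T' F F1 F2 ζ :=
  ⟨h.1.mono (Iio_subset_Iio hT), fun t h1 h2 x hx => h.2 t h1 (h2.trans_le hT) x hx⟩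

theorem boot_mono {l : LD b R0} {K η : ℝ} {N : ℕ} {T T' : ℝ} {F ζ : Fn}
    (h : Boot l K η N T F ζ) (hT : T' ≤ T) : Boot l K η N T' F ζ :=
  fun t ht x hx => h t (ht.trans_le hT) x hx

theorem nu_pos {μ : ℝ} (hμ : 1 < μ) (k : ℕ) : 0 < (μ ^ k)⁻¹ :=
  inv_pos.2 (pow_pos (by linarith) k)

theorem nu_le {μ : ℝ} (hμ : 1 < μ) (k : ℕ) : (μ ^ k)⁻¹ ≤ 1 :=
  inv_le_one_of_one_le₀ (one_le_pow₀ hμ.le)

theorem sk_neg {μ : ℝ} (hμ : 1 < μ) (k : ℕ) : sk μ k < 0 := by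
  unfold sk
  have := pow_pos (nu_pos hμ k) 2
  linarith

theorem sk_strictMono {μ : ℝ} (hμ : 1 < μ) : StrictMono (sk μ) := by
  intro i j hij
  unfold sk
  have h1 : (μ ^ j)⁻¹ < (μ ^ i)⁻¹ :=
    inv_strictAnti₀ (pow_pos (by linarith) i) (pow_lt_pow_right₀ hμ hij)
  have h2 := pow_lt_pow_left₀ h1 (nu_pos hμ j).le (n := 2) (by norm_num)
  linarith

theorem tendsto_sk {μ : ℝ} (hμ : 1 < μ) : Tendsto (sk μ) atTop (𝓝 0) := by
  have h1 : Tendsto (fun k : ℕ => (μ ^ k)⁻¹) atTop (𝓝 0) :=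
    tendsto_inv_atTop_zero.comp (tendsto_pow_atTop_atTop_of_one_lt hμ)
  have h2 := (h1.pow 2).neg
  rw [zero_pow two_ne_zero, neg_zero] at h2
  exact h2

theorem lam_sk {μ : ℝ} (hμ : 1 < μ) (k : ℕ) : lam (sk μ k) = (μ ^ k)⁻¹ := by
  unfold lam sk
  rw [neg_neg, Real.sqrt_sq (nu_pos hμ k).le]

theorem one_le_N (l : LD b R0) {N : ℕ} (hN : 2 - 2 * l.tm ≤ N) : 1 ≤ N := by
  have h1 := l.tm_lt
  have : (1 : ℝ) ≤ N := by linarith
  exact_mod_cast this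

theorem time_lt (l : LD b R0) (k : ℕ) (i : Fin l.d) :
    (l.μ ^ k)⁻¹ ^ 2 * l.pt i < sk l.μ k := by
  unfold sk
  have h1 := pow_pos (nu_pos l.one_lt k) 2
  have h2 := (l.pt_mem i).2
  nlinarith

theorem time_ge (l : LD b R0) (k : ℕ) (i : Fin l.d) : l.tm ≤ (l.μ ^ k)⁻¹ ^ 2 * l.pt i := by
  have h1 : (l.μ ^ k)⁻¹ ^ 2 ≤ 1 := pow_le_one₀ (nu_pos l.one_lt k).le (nu_le l.one_lt k)
  have h2 := (l.pt_mem i).2
  have h3 := (l.pt_mem i).1
  nlinarith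

theorem pt_mem (l : LD b R0) (k : ℕ) (i : Fin l.d) :
    (l.μ ^ k)⁻¹ * l.px i ∈ Icc 0 (R0 * lam ((l.μ ^ k)⁻¹ ^ 2 * l.pt i)) := by
  have h0 := nu_pos l.one_lt k
  rw [lam_scale h0.le]
  refine ⟨mul_nonneg h0.le (l.px_mem i).1, ?_⟩
  have := mul_le_mul_of_nonneg_left (l.px_mem i).2 h0.le
  linarith

theorem gk_eq (l : LD b R0) {N : ℕ} (hN : 2 - 2 * l.tm ≤ N)
    (hR : 8 * kap N * (R0 * lam l.tm) ≤ 1) {k : ℕ} {v : Fin l.d → ℝ} {T : ℝ}
    {F F1 F2 ζ : Fn} (h : SolN l N v T F F1 F2 ζ) (hT : sk l.μ k ≤ T) (i : Fin l.d) :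
    gk l N k v i = ((l.μ ^ k)⁻¹) ^ (-(1 + l.σ)) *
      F ((l.μ ^ k)⁻¹ ^ 2 * l.pt i) ((l.μ ^ k)⁻¹ * l.px i) := by
  have h' := solN_mono h hT
  have hex : ∃ F, ∃ F1 F2 ζ, SolN l N v (sk l.μ k) F F1 F2 ζ := ⟨F, F1, F2, ζ, h'⟩
  have hκ := kap_pos (one_le_N l hN)
  unfold gk
  rw [dif_pos hex]
  obtain ⟨G1, G2, Z, hG⟩ := hex.choose_spec
  have hx := pt_mem l k i
  have hlam : lam ((l.μ ^ k)⁻¹ ^ 2 * l.pt i) ≤ lam l.tm := lam_anti (time_ge l k i)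
  have hlp : 0 < lam ((l.μ ^ k)⁻¹ ^ 2 * l.pt i) :=
    lam_pos ((time_lt l k i).trans (sk_neg l.one_lt k))
  have hR0 : 0 ≤ R0 := by
    by_contra hneg
    have := mul_neg_of_neg_of_pos (not_le.1 hneg) hlp
    linarith [hx.1, hx.2]
  have hdom : (l.μ ^ k)⁻¹ * l.px i ∈ dom (kap N) := by
    refine ⟨hx.1, ?_⟩
    have h1 : (l.μ ^ k)⁻¹ * l.px i ≤ R0 * lam l.tm :=
      hx.2.trans (mul_le_mul_of_nonneg_left hlam hR0)
    have h2 := mul_le_mul_of_nonneg_left h1 hκ.le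
    have h3 : 0 ≤ kap N * (R0 * lam l.tm) := by
      have : 0 ≤ lam l.tm := hlp.le.trans hlam
      positivity
    linarith
  rw [(uniq hκ hG.1 h'.1 hG.2 h'.2 _ (time_lt l k i) _ hdom).1]

theorem lip_of_sp {L M : ℝ} {F F1 F2 : ℝ → ℝ} (h : Sp L F F1 F2)
    (hM : ∀ x ∈ Icc 0 L, |F1 x| ≤ M) :
    ∀ x ∈ Icc 0 L, ∀ y ∈ Icc 0 L, |F x - F y| ≤ M * |x - y| := by
  have key : ∀ x ∈ Icc 0 L, ∀ y ∈ Icc 0 L, x < y → |F x - F y| ≤ M * |x - y| := by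
    intro x hx y hy hxy
    obtain ⟨c, hc, hc'⟩ := exists_hasDerivAt_eq_slope F F1 hxy
      (h.c0.mono (Icc_subset_Icc hx.1 hy.2))
      fun z hz => h.d1 z ⟨hx.1.trans_lt hz.1, hz.2.trans_le hy.2⟩
    have h1 : F x - F y = F1 c * (x - y) := by
      rw [hc']
      field_simp [sub_ne_zero.2 hxy.ne']
      ring
    rw [h1, abs_mul]
    exact mul_le_mul_of_nonneg_right (hM c ⟨hx.1.trans hc.1.le, hc.2.le.trans hy.2⟩) (abs_nonneg _)
  intro x hx y hy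
  rcases lt_trichotomy x y with h1 | h1 | h1
  · exact key x hx y hy h1
  · simp [h1]
  · rw [abs_sub_comm, abs_sub_comm x]
    exact key y hy x hx h1

theorem gk_continuousOn (h0 : H0P b.B0 R0 C0) (l : LD b R0) (K : ℝ) : ∀ᶠ N : ℕ in atTop,
    ∀ (k : ℕ) (s : Set (Fin l.d → ℝ)), (∀ v ∈ s, ‖v‖ ≤ 3 ∧ ∃ F F1 F2 ζ,
      SolN l N v (sk l.μ k) F F1 F2 ζ ∧ Boot l K (1 / b.B0) N (sk l.μ k) F ζ) →
      ContinuousOn (gk l N k) s := by
  obtain ⟨R, hR1, hR0⟩ : ∃ R : ℝ, 1 ≤ R ∧ R0 ≤ R := ⟨max R0 1, le_max_right _ _, le_max_left _ _⟩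
  obtain ⟨C, hC, hpt⟩ := na_pt h0 l K 0 R hR1
  have e1 : ∀ᶠ N : ℕ in atTop, 2 - 2 * l.tm ≤ N :=
    tendsto_natCast_atTop_atTop.eventually_ge_atTop _
  have e2 : ∀ᶠ N : ℕ in atTop, 8 * kap N * (R * lam l.tm) ≤ 1 := by
    have h1 : Tendsto (fun N : ℕ => 8 * kap N * (R * lam l.tm)) atTop (𝓝 (8 * 0 * (R * lam l.tm))) :=
      (tendsto_kap.const_mul 8).mul_const _
    refine h1.eventually_le_const ?_
    norm_num
  filter_upwards [e1, e2] with N hN hR k s hs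
  have hN1 := one_le_N l hN
  have hκ := kap_pos hN1
  have hκL := kap_mul hN1
  have hL : (0 : ℝ) < (N : ℝ) ^ 4 := by
    have : (0 : ℝ) < N := by exact_mod_cast hN1
    positivity
  have hlm : 0 < lam l.tm := lam_pos (by linarith [l.tm_lt])
  have hR' : 8 * kap N * (R0 * lam l.tm) ≤ 1 := by
    refine le_trans ?_ hR
    exact mul_le_mul_of_nonneg_left (mul_le_mul_of_nonneg_right hR0 hlm.le) (by positivity)
  obtain ⟨Cl, hCl⟩ := eN_lip l hN1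
  refine continuousOn_pi.2 fun i v hv => ?_
  set t := (l.μ ^ k)⁻¹ ^ 2 * l.pt i with ht
  set x0 := (l.μ ^ k)⁻¹ * l.px i with hx0
  set c := ((l.μ ^ k)⁻¹) ^ (-(1 + l.σ)) with hc
  have hcpos : 0 < c := Real.rpow_pos_of_pos (nu_pos l.one_lt k) _
  have htT : t < sk l.μ k := time_lt l k i
  have ht0 : t < 0 := htT.trans (sk_neg l.one_lt k)
  have htm : l.tm ≤ t := time_ge l k i
  have hlp : 0 < lam t := lam_pos ht0
  have hlam : lam t ≤ lam l.tm := lam_anti htm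
  have hr : 0 < R * lam t := by positivity
  have hr8 : 8 * kap N * (R * lam t) ≤ 1 := by
    refine le_trans ?_ hR
    exact mul_le_mul_of_nonneg_left (mul_le_mul_of_nonneg_left hlam (by linarith)) (by positivity)
  have hr1 : kap N * (R * lam t) ≤ 1 := by
    have : 0 < kap N * (R * lam t) := by positivity
    linarith
  have hrL : R * lam t ≤ (N : ℝ) ^ 4 := by
    rw [← hκL] at hr1
    exact le_of_mul_le_mul_left hr1 hκ
  have hx : x0 ∈ Icc 0 (R * lam t) :=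
    ⟨(pt_mem l k i).1, (pt_mem l k i).2.trans (mul_le_mul_of_nonneg_right hR0 hlp.le)⟩
  set M := C * lam t ^ (1 + l.σ) / lam t with hM
  have hlip : ∀ w ∈ s, ∀ F F1 F2 ζ, SolN l N w (sk l.μ k) F F1 F2 ζ →
      Boot l K (1 / b.B0) N (sk l.μ k) F ζ →
      ∀ x ∈ Icc 0 (R * lam t), ∀ y ∈ Icc 0 (R * lam t), |F t x - F t y| ≤ M * |x - y| := by
    intro w hw F F1 F2 ζ hS hB
    refine lip_of_sp (hS.1.sp isOpen_Iio hr1 0 htT) fun x hx => ?_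
    have := (hpt N hN w (hs w hw).1 _ (sk_neg l.one_lt k).le F F1 F2 ζ hS hB t htT hr8 x hx).2.1
    rw [pow_zero, one_mul] at this
    rw [hM, le_div_iff₀ hlp, mul_comm]
    exact this
  obtain ⟨F, F1, F2, ζ, hS, hB⟩ := (hs v hv).2
  refine Metric.tendsto_nhds.2 fun ε hε => ?_
  obtain ⟨δ, hδ, hsm⟩ := small_of_sq (C := 2 * M) hr (ε / (2 * c)) (by positivity)
  have hev : ∀ᶠ w in 𝓝 v, Cl * ‖w - v‖ ^ 2 * Real.exp (t - 2 * l.tm) ≤ δ := by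
    have h1 : Continuous fun w : Fin l.d → ℝ => Cl * ‖w - v‖ ^ 2 * Real.exp (t - 2 * l.tm) := by
      fun_prop
    refine (h1.tendsto v).eventually_le_const ?_
    simpa using hδ
  filter_upwards [nhdsWithin_le_nhds hev, self_mem_nhdsWithin] with w hw hws
  obtain ⟨G, G1, G2, Z, hS', hB'⟩ := (hs w hws).2
  have hst := stab hL hκL hS'.1 hS.1 hS'.2 hS.2 (t := t) (δ := Cl * ‖w - v‖ ^ 2)
    (by linarith [l.tm_lt]) htT fun u hu => hCl w v u (hu.2.trans_lt ht0)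
  have hcG : ContinuousOn (G t) (Icc 0 ((N : ℝ) ^ 4)) := (hS'.1.sp isOpen_Iio hκL.le 0 htT).c0
  have hcF : ContinuousOn (F t) (Icc 0 ((N : ℝ) ^ 4)) := (hS.1.sp isOpen_Iio hκL.le 0 htT).c0
  have hcont : ContinuousOn (fun x => x ^ 9 * (G t x - F t x) ^ 2) (Icc 0 ((N : ℝ) ^ 4)) :=
    (continuousOn_id.pow 9).mul ((hcG.sub hcF).pow 2)
  have hmono : (∫ x in (0 : ℝ)..(R * lam t), x ^ 9 * (G t x - F t x) ^ 2) ≤
      ∫ x in (0 : ℝ)..((N : ℝ) ^ 4), x ^ 9 * (G t x - F t x) ^ 2 := by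
    refine intervalIntegral.integral_mono_interval le_rfl hr.le hrL ?_
      (hcont.intervalIntegrable_of_Icc hL.le)
    filter_upwards [MeasureTheory.ae_restrict_mem measurableSet_Ioc] with x hx
    have := hx.1
    positivity
  have hsmall := hsm (fun x => G t x - F t x) ((hcG.sub hcF).mono (Icc_subset_Icc le_rfl hrL))
    (fun x hx y hy => by
      have h1 := hlip w hws G G1 G2 Z hS' hB' x hx y hy
      have h2 := hlip v hv F F1 F2 ζ hS hB x hx y hy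
      have h3 : G t x - F t x - (G t y - F t y) = (G t x - G t y) - (F t x - F t y) := by ring
      rw [h3]
      have h4 := abs_sub (G t x - G t y) (F t x - F t y)
      linarith) (hmono.trans (hst.trans hw)) x0 hx
  show dist (gk l N k w i) (gk l N k v i) < ε
  rw [gk_eq l hN hR' hS' le_rfl i, gk_eq l hN hR' hS le_rfl i, Real.dist_eq, ← mul_sub, abs_mul,
    abs_of_pos hcpos]
  have h5 := mul_le_mul_of_nonneg_left hsmall hcpos.le
  have h6 : c * (ε / (2 * c)) = ε / 2 := by field_simp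
  rw [h6] at h5
  exact h5.trans_lt (by linarith)

end Crest.Agent.R213.ContA
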