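import Crest.Agent.R213.NA
import Crest.Agent.R213.C5

/-!
# Row 213: the continuity argument
-/

set_option autoImplicit false

noncomputable section

namespace Crest.Agent.R213.ContB

open Set Filter Topology
open scoped ContDiff

variable {b : BG} {R0 : ℝ}

theorem sol_mono {l : LD b R0} {N : ℕ} {v : Fin l.d → ℝ} {T T' : ℝ} {F F1 F2 ζ : Fn}
    (h : SolN l N v T F F1 F2 ζ) (hT : T' ≤ T) : SolN l N v T' F F1 F2 ζ :=
  ⟨h.1.mono (Iio_subset_Iio hT), fun t ht ht' x hx => h.2 t ht (ht'.trans_le hT) x hx⟩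

/-- The bootstrap bounds do not depend on the solution. -/
theorem transfer {l : LD b R0} {N : ℕ} (hN : 1 ≤ N) {v : Fin l.d → ℝ} {T T' K η : ℝ}
    {F F1 F2 ζ G G1 G2 Z : Fn} (h : SolN l N v T F F1 F2 ζ) (h' : SolN l N v T' G G1 G2 Z)
    (hT : T ≤ T') (hb : Boot l K η N T F ζ) : Boot l K η N T G Z := by
  have h'' := sol_mono h' hT
  have hu := uniq (kap_pos hN) h.1 h''.1 h.2 h''.2
  intro t ht x hx
  obtain ⟨a1, a2⟩ := hb t ht x hx
  refine ⟨fun hxR => ?_, fun a ha => ?_⟩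
  · rw [← (hu t ht x hx).1]
    exact a1 hxR
  · rw [← DT_congr (u := ζ) (v := Z) isOpen_Iio (fun s hs => (hu s hs x hx).2.2.2) a t ht]
    exact a2 a ha

theorem ev_le {D : Set ℝ} {T T' : ℝ} (hT : T < T') {u w w' : ℝ × ℝ → ℝ}
    (hu : ContinuousOn u (Iio T' ×ˢ D)) (hw : Continuous w) (hw' : Continuous w') {x : ℝ}
    (hx : x ∈ D) (h : ∀ t < T, u (t, x) ≤ w (t, x)) (hlt : w (T, x) < w' (T, x)) :
    ∀ᶠ z in 𝓝 (T, x), z.2 ∈ D → u z ≤ w' z := by
  have h1 : u (T, x) ≤ w (T, x) := by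
    have hc : ContinuousOn (fun t => u (t, x)) (Iio T') :=
      hu.comp (Continuous.prodMk_left x).continuousOn fun _ ht => ⟨ht, hx⟩
    have t1 : Tendsto (fun t => u (t, x)) (𝓝[<] T) (𝓝 (u (T, x))) :=
      (hc.continuousAt (Iio_mem_nhds hT)).tendsto.mono_left nhdsWithin_le_nhds
    have t2 : Tendsto (fun t => w (t, x)) (𝓝[<] T) (𝓝 (w (T, x))) :=
      (hw.comp (Continuous.prodMk_left x)).continuousAt.tendsto.mono_left nhdsWithin_le_nhds
    exact le_of_tendsto_of_tendsto t1 t2 (eventually_nhdsWithin_of_forall h)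
  have h2 : ∀ᶠ z in 𝓝[Iio T' ×ˢ D] (T, x), u z < w' z :=
    (hu (T, x) ⟨hT, hx⟩).tendsto.eventually_lt
      (hw'.continuousAt.tendsto.mono_left nhdsWithin_le_nhds) (h1.trans_lt hlt)
  rw [eventually_nhdsWithin_iff] at h2
  have h3 : ∀ᶠ z : ℝ × ℝ in 𝓝 (T, x), z.1 < T' :=
    continuous_fst.continuousAt.eventually_lt continuousAt_const hT
  filter_upwards [h2, h3] with z a c d using (a ⟨c, d⟩).le

theorem continuous_lam : Continuous lam := Real.continuous_sqrt.comp continuous_neg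

/-- Improved bounds persist for a short time in the weaker form. -/
theorem opn {l : LD b R0} {N : ℕ} (hN : 1 ≤ N) {v : Fin l.d → ℝ} {T T' K η η' : ℝ}
    {G G1 G2 Z : Fn} (h : SolN l N v T' G G1 G2 Z) (hT : T < T') (hT0 : T < 0) (hη : η < η')
    (hb : Boot l (K - 1) η N T G Z) : ∃ T'', T < T'' ∧ Boot l K η' N T'' G Z := by
  have hσ : 0 ≤ 1 + l.σ := by linarith [l.σ_pos]
  have hl : Continuous fun z : ℝ × ℝ => lam z.1 ^ (1 + l.σ) :=
    (continuous_lam.comp continuous_fst).rpow_const fun _ => Or.inr hσ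
  have key : ∀ᶠ t in 𝓝 T, ∀ x ∈ dom (kap N), x ∈ dom (kap N) →
      (x ≤ R0 * lam t → |G t x| ≤ K * lam t ^ (1 + l.σ)) ∧
      ∀ a ∈ Iic 4, (-t) ^ a * |kap N * ph (kap N) x * DT a Z t x| ≤ η' := by
    refine (C5B.isCompact_dom (kap_pos hN)).eventually_forall_of_forall_eventually
      fun x hx => ?_
    have e1 : ∀ᶠ z : ℝ × ℝ in 𝓝 (T, x), z.2 ∈ dom (kap N) →
        z.2 ≤ R0 * lam z.1 → |G z.1 z.2| ≤ K * lam z.1 ^ (1 + l.σ) := by
      by_cases hxR : x ≤ R0 * lam T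
      · have hR : 0 ≤ R0 := nonneg_of_mul_nonneg_left (hx.1.trans hxR) (lam_pos hT0)
        have := ev_le (u := fun z => |G z.1 z.2|) (w := fun z => (K - 1) * lam z.1 ^ (1 + l.σ))
          (w' := fun z => K * lam z.1 ^ (1 + l.σ)) hT (h.1.tF 0).1.abs (continuous_const.mul hl)
          (continuous_const.mul hl) hx
          (fun t ht => (hb t ht x hx).1
            (hxR.trans (mul_le_mul_of_nonneg_left (lam_anti ht.le) hR)))
          (mul_lt_mul_of_pos_right (sub_one_lt K) (Real.rpow_pos_of_pos (lam_pos hT0) _))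
        filter_upwards [this] with z hz a _ using hz a
      · have : ∀ᶠ z : ℝ × ℝ in 𝓝 (T, x), R0 * lam z.1 < z.2 :=
          (continuous_const.mul (continuous_lam.comp continuous_fst)).continuousAt.eventually_lt
            continuous_snd.continuousAt (not_le.1 hxR)
        filter_upwards [this] with z hz _ a using absurd a (not_le.2 hz)
    have e2 : ∀ᶠ z : ℝ × ℝ in 𝓝 (T, x), ∀ a ∈ Iic 4, z.2 ∈ dom (kap N) →
        (-z.1) ^ a * |kap N * ph (kap N) z.2 * DT a Z z.1 z.2| ≤ η' := by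
      refine (eventually_all_finite (finite_Iic 4)).2 fun a ha => ?_
      have hph : Continuous fun z : ℝ × ℝ => kap N * ph (kap N) z.2 := by
        unfold ph
        fun_prop
      exact ev_le (u := fun z => (-z.1) ^ a * |kap N * ph (kap N) z.2 * DT a Z z.1 z.2|)
        (w := fun _ => η) (w' := fun _ => η') hT
        ((continuous_fst.neg.pow a).continuousOn.mul (hph.continuousOn.mul (h.1.tζ a).1).abs)
        continuous_const continuous_const hx (fun t ht => (hb t ht x hx).2 a ha) hη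
    filter_upwards [e1, e2] with z a c d using ⟨a d, fun i hi => c i hi d⟩
  obtain ⟨δ, hδ, hk⟩ := Metric.eventually_nhds_iff.1 key
  refine ⟨T + δ, by linarith, fun t ht x hx => ?_⟩
  rcases lt_or_ge t T with htT | htT
  · obtain ⟨a1, a2⟩ := hb t htT x hx
    refine ⟨fun hxR => (a1 hxR).trans (mul_le_mul_of_nonneg_right (sub_one_lt K).le
      (Real.rpow_nonneg (Real.sqrt_nonneg _) _)), fun a ha => (a2 a ha).trans hη.le⟩
  · exact hk (y := t) (by rw [Real.dist_eq, abs_of_nonneg (by linarith)]; linarith) x hx hx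

/-- A solution with the bootstrap bounds can be continued. -/
theorem extend {l : LD b R0} {N : ℕ} (hN : 1 ≤ N) {v : Fin l.d → ℝ} {T K : ℝ}
    {F F1 F2 ζ : Fn} (h : SolN l N v T F F1 F2 ζ) (hb : Boot l K (1 / b.B0) N T F ζ)
    (hT : 2 * l.tm ≤ T) (hT0 : T < 0) :
    ∃ T' G G1 G2 Z, T < T' ∧ SolN l N v T' G G1 G2 Z := by
  have htm : l.tm < 0 := l.tm_lt.trans (by norm_num)
  have hB0 : 0 < b.B0 := one_pos.trans_le b.one_le
  have hnT : 0 < -T := neg_pos.2 hT0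
  have hS : 0 ≤ ∑ a ∈ Finset.range 5, ((-T) ^ a)⁻¹ := Finset.sum_nonneg fun a _ => by positivity
  obtain ⟨T', G, G1, G2, Z, h1, -, h2, h3⟩ := continuation (b := 0)
    (B := b.B0 + ∑ a ∈ Finset.range 5, ((-T) ^ a)⁻¹) (kap_pos hN) hT hT0
    (by linarith [b.one_le]) (gN_ts b hN) (dN_ts b htm hN) (eN_ts l hN v)
    (fun t ht x hx => lt_of_lt_of_le (by positivity) (gN_bd b hN t ht x hx).1)
    (fun t ht x hx => ⟨dN_zero b htm N t ht x, eN_zero l hN v 0 t (by linarith) (Or.inl ht) x hx⟩)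
    h.1 h.2 (fun t ht x hx => by
      have a2 := (hb t ht.2 x hx).2
      refine ⟨?_, fun a ha => ?_⟩
      · have a0 : |kap N * ph (kap N) x * ζ t x| ≤ 1 / b.B0 := by
          simpa only [pow_zero, one_mul, DT] using a2 0 (by norm_num)
        have g := (gN_bd b hN t (ht.2.trans hT0) x hx).1
        have : 1 / (b.B0 + ∑ a ∈ Finset.range 5, ((-T) ^ a)⁻¹) ≤ 1 / b.B0 :=
          one_div_le_one_div_of_le hB0 (by linarith)
        have e : 2 / b.B0 = 1 / b.B0 + 1 / b.B0 := by ring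
        linarith [(abs_le.1 a0).1]
      · have hp : (-T) ^ a ≤ (-t) ^ a := pow_le_pow_left₀ hnT.le (by linarith [ht.2]) a
        have hp0 : 0 < (-T) ^ a := by positivity
        have a3 : (-T) ^ a * |kap N * ph (kap N) x * DT a ζ t x| ≤ 1 :=
          ((mul_le_mul_of_nonneg_right hp (abs_nonneg _)).trans (a2 a ha)).trans
            ((div_le_one hB0).2 b.one_le)
        have a4 : |kap N * ph (kap N) x * DT a ζ t x| ≤ ((-T) ^ a)⁻¹ := by
          rw [← one_div, le_div_iff₀' hp0]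
          exact a3
        have a5 : ((-T) ^ a)⁻¹ ≤ ∑ a ∈ Finset.range 5, ((-T) ^ a)⁻¹ :=
          Finset.single_le_sum (f := fun a => ((-T) ^ a)⁻¹) (fun a _ => by positivity)
            (Finset.mem_range.2 (by omega))
        linarith)
  exact ⟨T', G, G1, G2, Z, h1, h2, h3⟩

theorem start (l : LD b R0) {N : ℕ} (hN : 1 ≤ N) (v : Fin l.d → ℝ) {K η T : ℝ} (hK : 0 ≤ K)
    (hη : 0 ≤ η) (hT : T ≤ 2 * l.tm) : SolN l N v T 0 0 0 0 ∧ Boot l K η N T 0 0 := by
  have htm : l.tm < 0 := l.tm_lt.trans (by norm_num)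
  have hB0 : 0 < b.B0 := one_pos.trans_le b.one_le
  have h0 : ∀ t ∈ Iio T, t < 0 := fun t ht => by linarith [mem_Iio.1 ht]
  refine ⟨⟨Sys.zero isOpen_Iio (kap_pos hN).le ((gN_ts b hN).mono h0 Subset.rfl)
    (fun t ht x hx => lt_of_lt_of_le (by positivity) (gN_bd b hN t (h0 t ht) x hx).1)
    (fun t ht x _ => dN_zero b htm N t (ht.le.trans hT) x)
    (fun t ht x hx => eN_zero l hN v 0 t (h0 t ht) (Or.inl (ht.le.trans hT)) x hx),
    fun _ _ _ _ _ => rfl⟩, fun t _ x _ => ⟨fun _ => ?_, fun a _ => ?_⟩⟩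
  · simp only [Pi.zero_apply, abs_zero]
    exact mul_nonneg hK (Real.rpow_nonneg (Real.sqrt_nonneg _) _)
  · simp only [DT_zero, Pi.zero_apply, mul_zero, abs_zero, hη]

theorem cont_arg (l : LD b R0) {N : ℕ} (hN : 1 ≤ N) (v : Fin l.d → ℝ) {K Tt : ℝ} (hK : 1 ≤ K)
    (hT : Tt ≤ 0)
    (himp : ∀ T ≤ Tt, ∀ F F1 F2 ζ, SolN l N v T F F1 F2 ζ → Boot l K (1 / b.B0) N T F ζ →
      Boot l (K - 1) (1 / (2 * b.B0)) N T F ζ) :
    ∃ F F1 F2 ζ, SolN l N v Tt F F1 F2 ζ ∧ Boot l K (1 / b.B0) N Tt F ζ := by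
  have hB0 : 0 < b.B0 := one_pos.trans_le b.one_le
  let S : Set ℝ := {T | T ≤ Tt ∧ ∃ F F1 F2 ζ, SolN l N v T F F1 F2 ζ ∧
    Boot l K (1 / b.B0) N T F ζ}
  have h0 : min Tt (2 * l.tm) ∈ S :=
    ⟨min_le_left _ _, 0, 0, 0, 0, start l hN v (by linarith) (by positivity) (min_le_right _ _)⟩
  have hne : S.Nonempty := ⟨_, h0⟩
  have hbd : BddAbove S := ⟨Tt, fun _ h => h.1⟩
  have hle : sSup S ≤ Tt := csSup_le hne fun _ h => h.1
  obtain ⟨F, F1, F2, ζ, hF⟩ : ∃ F F1 F2 ζ, SolN l N v (sSup S) F F1 F2 ζ := by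
    refine glue (kap_pos hN) fun T' hT' => ?_
    obtain ⟨T, ⟨-, F, F1, F2, ζ, h, -⟩, hT⟩ := exists_lt_of_lt_csSup hne hT'
    exact ⟨F, F1, F2, ζ, sol_mono h hT.le⟩
  have hb : Boot l K (1 / b.B0) N (sSup S) F ζ := by
    intro t ht
    obtain ⟨T, hTS, htT⟩ := exists_lt_of_lt_csSup hne ht
    obtain ⟨-, G, G1, G2, Z, h, h'⟩ := id hTS
    exact transfer hN h hF (le_csSup hbd hTS) h' t htT
  rcases hle.eq_or_lt with he | hlt
  · exact ⟨F, F1, F2, ζ, he ▸ hF, he ▸ hb⟩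
  exfalso
  have h2 : 2 * l.tm ≤ sSup S := by
    rcases min_le_iff.1 (le_csSup hbd h0) with h | h
    · exact absurd h (not_le.2 hlt)
    · exact h
  have hT0 : sSup S < 0 := hlt.trans_le hT
  obtain ⟨T', G, G1, G2, Z, h1, hG⟩ := extend hN hF hb h2 hT0
  obtain ⟨T'', h3, h4⟩ := opn (η' := 1 / b.B0) hN hG h1 hT0
    (one_div_lt_one_div_of_lt hB0 (by linarith))
    (transfer hN hF hG h1.le (himp _ hle F F1 F2 ζ hF hb))
  have : min Tt (min T' T'') ∈ S :=
    ⟨min_le_left _ _, G, G1, G2, Z, sol_mono hG ((min_le_right _ _).trans (min_le_left _ _)),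
      fun t ht => h4 t (ht.trans_le ((min_le_right _ _).trans (min_le_right _ _)))⟩
  exact absurd (le_csSup hbd this) (not_le.2 (lt_min hlt (lt_min h1 h3)))

end Crest.Agent.R213.ContB
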