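import Crest.Agent.R213.NA
import Crest.Agent.R213.C5
import Crest.Agent.R213.ContA
import Crest.Agent.R213.ContB

/-!
# Row 213: the continuity argument and continuity in the parameter
-/

set_option autoImplicit false

noncomputable section

namespace Crest.Agent.R213

open Set Filter Topology
open scoped ContDiff

variable {b : BG} {R0 C0 : ℝ}

theorem SolN.mono {l : LD b R0} {N : ℕ} {v : Fin l.d → ℝ} {T T' : ℝ} {F F1 F2 ζ : Fn}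
    (h : SolN l N v T F F1 F2 ζ) (hT : T' ≤ T) : SolN l N v T' F F1 F2 ζ :=
  ContA.solN_mono h hT

theorem Boot.mono {l : LD b R0} {K η : ℝ} {N : ℕ} {T T' : ℝ} {F ζ : Fn}
    (h : Boot l K η N T F ζ) (hT : T' ≤ T) : Boot l K η N T' F ζ :=
  ContA.boot_mono h hT

theorem sk_neg {μ : ℝ} (hμ : 1 < μ) (k : ℕ) : sk μ k < 0 :=
  ContA.sk_neg hμ k

theorem sk_strictMono {μ : ℝ} (hμ : 1 < μ) : StrictMono (sk μ) :=
  ContA.sk_strictMono hμ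

theorem tendsto_sk {μ : ℝ} (hμ : 1 < μ) : Tendsto (sk μ) atTop (𝓝 0) :=
  ContA.tendsto_sk hμ

theorem lam_sk {μ : ℝ} (hμ : 1 < μ) (k : ℕ) : lam (sk μ k) = (μ ^ k)⁻¹ :=
  ContA.lam_sk hμ k

/-- The coordinates can be read from any solution that lives long enough. -/
theorem gk_eq (l : LD b R0) {N : ℕ} (hN : 2 - 2 * l.tm ≤ N)
    (hR : 8 * kap N * (R0 * lam l.tm) ≤ 1) {k : ℕ} {v : Fin l.d → ℝ} {T : ℝ}
    {F F1 F2 ζ : Fn} (h : SolN l N v T F F1 F2 ζ) (hT : sk l.μ k ≤ T) (i : Fin l.d) :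
    gk l N k v i = ((l.μ ^ k)⁻¹) ^ (-(1 + l.σ)) *
      F ((l.μ ^ k)⁻¹ ^ 2 * l.pt i) ((l.μ ^ k)⁻¹ * l.px i) :=
  ContA.gk_eq l hN hR h hT i

/-- If the bootstrap bounds improve themselves, the solution exists. -/
theorem cont_arg (l : LD b R0) {N : ℕ} (hN : 1 ≤ N) (v : Fin l.d → ℝ) {K Tt : ℝ} (hK : 1 ≤ K)
    (hT : Tt ≤ 0)
    (himp : ∀ T ≤ Tt, ∀ F F1 F2 ζ, SolN l N v T F F1 F2 ζ → Boot l K (1 / b.B0) N T F ζ →
      Boot l (K - 1) (1 / (2 * b.B0)) N T F ζ) :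
    ∃ F F1 F2 ζ, SolN l N v Tt F F1 F2 ζ ∧ Boot l K (1 / b.B0) N Tt F ζ :=
  ContB.cont_arg l hN v hK hT himp

/-- Continuity of the coordinates in the shooting parameter. -/
theorem gk_continuousOn (h0 : H0P b.B0 R0 C0) (l : LD b R0) (K : ℝ) : ∀ᶠ N : ℕ in atTop,
    ∀ (k : ℕ) (s : Set (Fin l.d → ℝ)), (∀ v ∈ s, ‖v‖ ≤ 3 ∧ ∃ F F1 F2 ζ,
      SolN l N v (sk l.μ k) F F1 F2 ζ ∧ Boot l K (1 / b.B0) N (sk l.μ k) F ζ) →
      ContinuousOn (gk l N k) s :=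
  ContA.gk_continuousOn h0 l K

end Crest.Agent.R213
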