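import Crest.Agent.R213.SysB
import Crest.Agent.R213.Alg
import Crest.Agent.R213.D1

/-!
# Row 213: the energy inequality at one level (proof of `d2`)
-/

set_option autoImplicit false

noncomputable section

namespace Crest.Agent.R213.D2A

open Set Filter Topology
open scoped ContDiff

/-- Normal form of the weights. -/
theorem wt_form (q : Bool) (m j : ℕ) (hm : 4 ≤ m) : ∃ n m' : ℕ, (m' = m ∨ m' = m - 4) ∧
    ∀ (p : ℕ) (s x : ℝ), s < 0 → 0 ≤ x →
      wt q (m + p) j s x = (-s) ^ n / (x + lam s) ^ (m' + p) := by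
  by_cases hj : j = 0
  · exact ⟨0, m, Or.inl rfl, fun p s x _ _ => by simp [wt, om, hj]⟩
  · cases q with
    | false =>
      refine ⟨2 * j, m, Or.inl rfl, fun p s x _ _ => ?_⟩
      simp only [wt, om, hj, if_false, Bool.false_eq_true]
      rw [← pow_mul, mul_comm j 2]
    | true =>
      refine ⟨2 * (j - 1), m - 4, Or.inr rfl, fun p s x hs hx => ?_⟩
      have hl : 0 < x + lam s := by have := lam_pos hs; linarith
      obtain ⟨k, rfl⟩ := Nat.exists_eq_add_of_le hm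
      simp only [wt, om, hj, if_false, if_true, Nat.add_sub_cancel_left]
      rw [show 4 + k + p = (k + p) + 4 by ring, pow_add _ (k + p) 4, mul_comm 2 (j - 1), pow_mul]
      field_simp

/-- The commutator estimate in the weights of the levels. -/
theorem crossW (m : ℕ) (hm : 4 ≤ m) : ∃ C, 0 < C ∧
    ∀ (q : Bool) (j : ℕ) (κ θ L t s δ : ℝ) (F F1 F2 Z k : ℝ → ℝ), Geo κ θ L → t < 0 → lam t ≤ L →
      0 < s → 0 < δ → δ ≤ 1 → Sp L F F1 F2 → VolOn κ L Z k →
      ∫ x in (0 : ℝ)..L, x ^ 9 * (1 - θ * x) ^ 4 * wt q m j t x * (k x * F x) ≤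
        (∫ x in (0 : ℝ)..L, x ^ 9 * (1 - θ * x) ^ 4 * wt q m j t x *
          (ph κ x * Z x * (ph κ x * F2 x))) +
        s * Iw L θ q m j t (fun x => ph κ x * Z x) +
        C / s * (δ * Iw L θ q m j t (fun x => ph κ x * F2 x) + δ⁻¹ * Iw L 0 q (m + 2) j t F) := by
  obtain ⟨C1, hC1, h1⟩ := cross m 0
  obtain ⟨C2, hC2, h2⟩ := cross (m - 4) 0
  refine ⟨C1 + C2, by positivity, ?_⟩
  intro q j κ θ L t s δ F F1 F2 Z k hG ht hlL hs hδ hδ1 hF hZ
  obtain ⟨n, m', hm', hw⟩ := wt_form q m j hm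
  have hl := lam_pos ht
  have hL := hG.hL
  have hT : 0 < (-t) ^ n := pow_pos (by linarith) n
  have key : ∀ (p : ℕ) (θ' : ℝ) (g g' : ℝ → ℝ),
      (∀ x, x ^ 9 * (1 - θ' * x) ^ 4 * g x = g' x) →
      ∫ x in (0 : ℝ)..L, x ^ 9 * (1 - θ' * x) ^ 4 * wt q (m + p) j t x * g x =
        (-t) ^ n * ∫ x in (0 : ℝ)..L, g' x / (x + lam t) ^ (m' + p) := by
    intro p θ' g g' hg
    rw [← intervalIntegral.integral_const_mul]
    refine intervalIntegral.integral_congr fun x hx => ?_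
    rw [uIcc_of_le hL.le] at hx
    rw [hw p t x ht hx.1, ← hg]
    ring
  have e1 := key 0 θ (fun x => k x * F x) (fun x => x ^ 9 * (1 - θ * x) ^ 4 * (k x * F x))
    fun x => rfl
  have e2 := key 0 θ (fun x => ph κ x * Z x * (ph κ x * F2 x))
    (fun x => x ^ 9 * ph κ x ^ 2 * (1 - θ * x) ^ 4 * (Z x * F2 x)) fun x => by ring
  have e3 := key 0 θ (fun x => (ph κ x * Z x) ^ 2)
    (fun x => x ^ 9 * ph κ x ^ 2 * (1 - θ * x) ^ 4 * Z x ^ 2) fun x => by ring
  have e4 := key 0 θ (fun x => (ph κ x * F2 x) ^ 2)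
    (fun x => x ^ 9 * ph κ x ^ 2 * (1 - θ * x) ^ 4 * F2 x ^ 2) fun x => by ring
  have e5 := key 2 0 (fun x => F x ^ 2) (fun x => x ^ 9 * F x ^ 2) fun x => by ring
  have n4 := Iw_nonneg (θ := θ) hL.le q m j t (fun x => ph κ x * F2 x)
  have n5 := Iw_nonneg (θ := 0) hL.le q (m + 2) j t F
  simp only [add_zero] at e1 e2 e3 e4
  obtain ⟨C, hC0, hCle, hc⟩ : ∃ C, 0 < C ∧ C ≤ C1 + C2 ∧
      |(∫ x in (0 : ℝ)..L, x ^ 9 * (1 - θ * x) ^ 4 * (k x * F x) / (x + lam t) ^ m') -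
        ∫ x in (0 : ℝ)..L,
          x ^ 9 * ph κ x ^ 2 * (1 - θ * x) ^ 4 * (Z x * F2 x) / (x + lam t) ^ m'| ≤
      s * (∫ x in (0 : ℝ)..L,
          x ^ 9 * ph κ x ^ 2 * (1 - θ * x) ^ 4 * Z x ^ 2 / (x + lam t) ^ m') +
        C / s * (δ * (∫ x in (0 : ℝ)..L,
            x ^ 9 * ph κ x ^ 2 * (1 - θ * x) ^ 4 * F2 x ^ 2 / (x + lam t) ^ m') +
          δ⁻¹ * ∫ x in (0 : ℝ)..L, x ^ 9 * F x ^ 2 / (x + lam t) ^ (m' + 2)) := by
    rcases hm' with rfl | rfl
    · exact ⟨C1, hC1, by linarith,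
        by simpa using h1 κ θ L (lam t) s δ F F1 F2 Z k hG hl hlL hs hδ hδ1 hF hZ⟩
    · exact ⟨C2, hC2, by linarith,
        by simpa using h2 κ θ L (lam t) s δ F F1 F2 Z k hG hl hlL hs hδ hδ1 hF hZ⟩
  have hmono : C / s * (δ * Iw L θ q m j t (fun x => ph κ x * F2 x) +
      δ⁻¹ * Iw L 0 q (m + 2) j t F) ≤ (C1 + C2) / s * (δ * Iw L θ q m j t (fun x => ph κ x * F2 x) +
      δ⁻¹ * Iw L 0 q (m + 2) j t F) :=
    mul_le_mul_of_nonneg_right (div_le_div_of_nonneg_right hCle hs.le) (by positivity)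
  refine le_trans ?_ (add_le_add_right hmono _)
  unfold Iw
  rw [e1, e2, e3, e4, e5]
  have := mul_le_mul_of_nonneg_left ((le_abs_self _).trans hc) hT.le
  linarith

/-- The time derivative of the weighted energy. -/
theorem hasDerivAt_Iw {I D : Set ℝ} {F : Fn} {L t : ℝ} (θ : ℝ) (q : Bool) {m : ℕ} (j : ℕ)
    (hm : 4 ≤ m) (hI : IsOpen I) (hF : TS I D F) (hL : 0 ≤ L) (hD : Icc 0 L ⊆ D) (ht : t ∈ I)
    (ht0 : t < 0) :
    ∃ E', HasDerivAt (fun s => Iw L θ q m j s (DT j F s)) E' t ∧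
      E' ≤ m / (2 * lam t) * Iw L θ q (m + 1) j t (DT j F t) +
        2 * ∫ x in (0 : ℝ)..L,
          x ^ 9 * (1 - θ * x) ^ 4 * wt q m j t x * (DT j F t x * DT (j + 1) F t x) := by
  obtain ⟨n, m', hm', hw⟩ := wt_form q m j hm
  have hm'le : m' ≤ m := by omega
  have hl := lam_pos ht0
  have hI' : IsOpen (I ∩ Iio 0) := hI.inter isOpen_Iio
  have hsub : (I ∩ Iio 0) ×ˢ uIcc 0 L ⊆ I ×ˢ D := by
    rw [uIcc_of_le hL]
    exact prod_mono inter_subset_left hD
  have c0 := (hF j).1.mono hsub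
  have c1 := (hF (j + 1)).1.mono hsub
  have clam : Continuous lam := by unfold lam; fun_prop
  have hne : ∀ p ∈ (I ∩ Iio 0) ×ˢ uIcc 0 L, 0 < p.2 + lam p.1 := by
    intro p hp
    have h1 := lam_pos hp.1.2
    have h2 := hp.2
    rw [uIcc_of_le hL] at h2
    linarith [h2.1]
  set W : Fn := fun s x => (-s) ^ n / (x + lam s) ^ m' with hW
  set W' : Fn := fun s x => -(n * (-s) ^ (n - 1) / (x + lam s) ^ m') +
    m' / (2 * lam s) * ((-s) ^ n / (x + lam s) ^ (m' + 1)) with hW'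
  have cW : ContinuousOn (fun p : ℝ × ℝ => W p.1 p.2) ((I ∩ Iio 0) ×ˢ uIcc 0 L) := by
    refine ContinuousOn.div (by fun_prop) (by fun_prop) fun p hp => (pow_pos (hne p hp) _).ne'
  have cW' : ContinuousOn (fun p : ℝ × ℝ => W' p.1 p.2) ((I ∩ Iio 0) ×ˢ uIcc 0 L) := by
    refine ContinuousOn.add (ContinuousOn.neg ?_) (ContinuousOn.mul ?_ ?_)
    · exact ContinuousOn.div (by fun_prop) (by fun_prop) fun p hp => (pow_pos (hne p hp) _).ne'
    · exact ContinuousOn.div (by fun_prop) (by fun_prop)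
        fun p hp => (mul_pos two_pos (lam_pos hp.1.2)).ne'
    · exact ContinuousOn.div (by fun_prop) (by fun_prop) fun p hp => (pow_pos (hne p hp) _).ne'
  have dW : ∀ s ∈ I ∩ Iio 0, ∀ x ∈ uIcc 0 L, HasDerivAt (fun r => W r x) (W' s x) s := by
    intro s hs x hx
    have h0 : 0 < x + lam s := hne (s, x) ⟨hs, hx⟩
    have hls := lam_pos hs.2
    have a1 : HasDerivAt (fun r : ℝ => (-r) ^ n) (n * (-s) ^ (n - 1) * (-1)) s :=
      (hasDerivAt_neg s).pow n
    have a2 : HasDerivAt (fun r : ℝ => (x + lam r) ^ m')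
        (m' * (x + lam s) ^ (m' - 1) * (-(1 / (2 * lam s)))) s :=
      ((hasDerivAt_lam hs.2).const_add x).pow m'
    refine (a1.fun_div a2 (pow_pos h0 _).ne').congr_deriv ?_
    simp only [hW']
    rcases Nat.eq_zero_or_pos m' with h | h
    · subst h
      simp
    · obtain ⟨k, rfl⟩ := Nat.exists_eq_add_of_le' h
      simp only [Nat.add_sub_cancel]
      field_simp
      ring
  have main := hasDerivAt_int (I := I ∩ Iio 0) hI' (a := 0) (b := L)
    (w := fun s x => x ^ 9 * (1 - θ * x) ^ 4 * W s x * DT j F s x ^ 2)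
    (w' := fun s x => x ^ 9 * (1 - θ * x) ^ 4 * W' s x * DT j F s x ^ 2 +
      2 * (x ^ 9 * (1 - θ * x) ^ 4 * W s x * (DT j F s x * DT (j + 1) F s x)))
    (((by fun_prop : ContinuousOn (fun p : ℝ × ℝ => p.2 ^ 9 * (1 - θ * p.2) ^ 4) _).mul cW).mul
      (c0.pow 2))
    ((((by fun_prop : ContinuousOn (fun p : ℝ × ℝ => p.2 ^ 9 * (1 - θ * p.2) ^ 4) _).mul cW').mul
      (c0.pow 2)).add (continuousOn_const.mul
      (((by fun_prop : ContinuousOn (fun p : ℝ × ℝ => p.2 ^ 9 * (1 - θ * p.2) ^ 4) _).mul cW).mul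
        (c0.mul c1))))
    (fun s hs x hx => by
      have hx' : x ∈ D := (hsub (mk_mem_prod hs hx)).2
      refine ((((dW s hs x hx).const_mul (x ^ 9 * (1 - θ * x) ^ 4))).fun_mul
        (((hF j).2 s hs.1 x hx').fun_pow 2)).congr_deriv ?_
      simp only [Nat.cast_ofNat, Nat.add_one_sub_one, pow_one]
      ring)
    (t := t) ⟨ht, ht0⟩
  have ht' : t ∈ I ∩ Iio 0 := ⟨ht, ht0⟩
  have sl : ∀ {g : ℝ × ℝ → ℝ}, ContinuousOn g ((I ∩ Iio 0) ×ˢ uIcc 0 L) →
      ContinuousOn (fun x => g (t, x)) (uIcc 0 L) := fun hg =>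
    hg.comp (by fun_prop) fun x hx => mk_mem_prod ht' hx
  have cx : ContinuousOn (fun x : ℝ => x ^ 9 * (1 - θ * x) ^ 4) (uIcc 0 L) := by fun_prop
  have i1 : IntervalIntegrable (fun x => x ^ 9 * (1 - θ * x) ^ 4 * W' t x * DT j F t x ^ 2)
      MeasureTheory.volume 0 L := ((cx.mul (sl cW')).mul ((sl c0).pow 2)).intervalIntegrable
  have i2 : IntervalIntegrable
      (fun x => x ^ 9 * (1 - θ * x) ^ 4 * W t x * (DT j F t x * DT (j + 1) F t x))
      MeasureTheory.volume 0 L := ((cx.mul (sl cW)).mul ((sl c0).mul (sl c1))).intervalIntegrable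
  refine ⟨_, main.congr_of_eventuallyEq ?_, ?_⟩
  · filter_upwards [Iio_mem_nhds ht0] with s hs
    refine intervalIntegral.integral_congr fun x hx => ?_
    rw [uIcc_of_le hL] at hx
    have := hw 0 s x hs hx.1
    simp only [add_zero] at this
    simp only [this, hW]
  · rw [intervalIntegral.integral_add i1 (i2.const_mul 2), intervalIntegral.integral_const_mul]
    refine add_le_add ?_ (le_of_eq ?_)
    · unfold Iw
      rw [← intervalIntegral.integral_const_mul]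
      have cw : ContinuousOn (wt q (m + 1) j t) (uIcc 0 L) := by
        refine (continuousOn_wt q (m + 1) j ht0).mono ?_
        rw [uIcc_of_le hL]
        exact Icc_subset_Ici_self
      refine intervalIntegral.integral_mono_on hL i1
        (((cx.mul cw).mul ((sl c0).pow 2)).intervalIntegrable.const_mul _) fun x hx => ?_
      have h0 : 0 < x + lam t := by linarith [hx.1]
      have hT : 0 < -t := by linarith
      have hle : W' t x ≤ m / (2 * lam t) * wt q (m + 1) j t x := by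
        rw [hw 1 t x ht0 hx.1]
        have b1 : 0 ≤ n * (-t) ^ (n - 1) / (x + lam t) ^ m' := by positivity
        have b2 : (m' : ℝ) / (2 * lam t) * ((-t) ^ n / (x + lam t) ^ (m' + 1)) ≤
            m / (2 * lam t) * ((-t) ^ n / (x + lam t) ^ (m' + 1)) := by
          have : (m' : ℝ) ≤ m := by exact_mod_cast hm'le
          gcongr
        simp only [hW']
        linarith
      have hx0 := hx.1
      have b3 : 0 ≤ x ^ 9 * (1 - θ * x) ^ 4 * DT j F t x ^ 2 := by positivity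
      have := mul_le_mul_of_nonneg_left hle b3
      linarith
    · congr 1
      refine intervalIntegral.integral_congr fun x hx => ?_
      rw [uIcc_of_le hL] at hx
      have := hw 0 t x ht0 hx.1
      simp only [add_zero] at this
      simp only [this, hW]

/-- Removing the cut-off. -/
theorem tail {κ θ L t : ℝ} (hG : Geo κ θ L) (ht : t < 0) (q : Bool) {m : ℕ} (j : ℕ) (hm : 4 ≤ m)
    {u : ℝ → ℝ} (hu : ContinuousOn u (Icc 0 L)) :
    Iw L 0 q (m + 2) j t u ≤ (lam t)⁻¹ * Iw L θ q (m + 1) j t u +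
      4 * (θ * (lam t)⁻¹ * Iw L 0 q m j t u) := by
  obtain ⟨n, m', -, hw⟩ := wt_form q m j hm
  have hL := hG.hL.le
  have hl := lam_pos ht
  have hθ := hG.hθ
  have ii : ∀ (θ' : ℝ) (k : ℕ), IntervalIntegrable
      (fun x => x ^ 9 * (1 - θ' * x) ^ 4 * wt q k j t x * u x ^ 2) MeasureTheory.volume 0 L := by
    intro θ' k
    refine ContinuousOn.intervalIntegrable ?_
    rw [uIcc_of_le hL]
    exact (((by fun_prop : ContinuousOn (fun x : ℝ => x ^ 9 * (1 - θ' * x) ^ 4) _).mul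
      ((continuousOn_wt q k j ht).mono Icc_subset_Ici_self)).mul (hu.pow 2))
  unfold Iw
  rw [← intervalIntegral.integral_const_mul, ← mul_assoc, ← intervalIntegral.integral_const_mul,
    ← intervalIntegral.integral_add ((ii θ (m + 1)).const_mul _) ((ii 0 m).const_mul _)]
  refine intervalIntegral.integral_mono_on hL (ii 0 (m + 2))
    (((ii θ (m + 1)).const_mul _).add ((ii 0 m).const_mul _)) fun x hx => ?_
  have hx0 := hx.1
  have h0 : 0 < x + lam t := by linarith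
  have hT : 0 < -t := by linarith
  have e0 := hw 0 t x ht hx0
  simp only [add_zero] at e0
  have w0 := wt_pos q m j ht hx0
  have e1 : wt q (m + 1) j t x = wt q m j t x * (x + lam t)⁻¹ := by
    rw [hw 1 t x ht hx0, e0, pow_succ]; field_simp
  have e2 : wt q (m + 2) j t x = wt q m j t x * (x + lam t)⁻¹ ^ 2 := by
    rw [hw 2 t x ht hx0, e0, pow_add]; field_simp
  have hχ0 : 0 ≤ θ * x := by positivity
  have hχ1 : θ * x ≤ 1 := (mul_le_mul_of_nonneg_left hx.2 hθ).trans hG.θL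
  have hb : 1 ≤ (1 - θ * x) ^ 4 + 4 * (θ * x) := by
    have := one_add_mul_le_pow (a := -(θ * x)) (by linarith) 4
    push_cast at this
    rw [← sub_eq_add_neg] at this
    linarith
  have hi : (x + lam t)⁻¹ ≤ (lam t)⁻¹ := inv_anti₀ hl (by linarith)
  have hi0 : 0 < (x + lam t)⁻¹ := inv_pos.2 h0
  have hxi : x * (x + lam t)⁻¹ ≤ 1 := by
    rw [← div_eq_mul_inv, div_le_one h0]; linarith
  have hk : (x + lam t)⁻¹ ^ 2 ≤
      (lam t)⁻¹ * ((1 - θ * x) ^ 4 * (x + lam t)⁻¹) + 4 * (θ * (lam t)⁻¹) := by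
    have a1 : (x + lam t)⁻¹ ^ 2 ≤ ((1 - θ * x) ^ 4 + 4 * (θ * x)) * (x + lam t)⁻¹ ^ 2 :=
      le_mul_of_one_le_left (by positivity) hb
    have a2 : (1 - θ * x) ^ 4 * (x + lam t)⁻¹ * (x + lam t)⁻¹ ≤
        (1 - θ * x) ^ 4 * (x + lam t)⁻¹ * (lam t)⁻¹ :=
      mul_le_mul_of_nonneg_left hi (by positivity)
    have a3 : θ * (x * (x + lam t)⁻¹ * (x + lam t)⁻¹) ≤ θ * (1 * (lam t)⁻¹) :=
      mul_le_mul_of_nonneg_left (mul_le_mul hxi hi hi0.le zero_le_one) hθ
    nlinarith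
  have b3 : 0 ≤ x ^ 9 * wt q m j t x * u x ^ 2 := by positivity
  have := mul_le_mul_of_nonneg_left hk b3
  rw [e1, e2]
  linarith

/-- The main term is negative up to lower order terms. -/
theorem main_le {L θ t B : ℝ} {q : Bool} {m j : ℕ} {z u dd A : ℝ → ℝ} (ht : t < 0) (hL : 0 ≤ L)
    (hB : 1 ≤ B) (hz : ContinuousOn z (Icc 0 L)) (hu : ContinuousOn u (Icc 0 L))
    (hd : ContinuousOn dd (Icc 0 L)) (hA : ContinuousOn A (Icc 0 L))
    (hA1 : ∀ x ∈ Icc 0 L, 1 / B ^ 2 ≤ A x ∧ A x ≤ 4 * B ^ 2) :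
    ∫ x in (0 : ℝ)..L, x ^ 9 * (1 - θ * x) ^ 4 * wt q m j t x * (z x * u x) ≤
      -(1 / (4 * B ^ 2)) * Iw L θ q m j t u + 2 * B ^ 2 * Iw L θ q m j t dd +
        B ^ 2 * Iw L θ q m j t fun x => z x + A x * (u x + dd x) := by
  have ii : ∀ g : ℝ → ℝ, ContinuousOn g (Icc 0 L) → IntervalIntegrable
      (fun x => x ^ 9 * (1 - θ * x) ^ 4 * wt q m j t x * g x) MeasureTheory.volume 0 L := by
    intro g hg
    refine ContinuousOn.intervalIntegrable ?_
    rw [uIcc_of_le hL]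
    exact (((by fun_prop : ContinuousOn (fun x : ℝ => x ^ 9 * (1 - θ * x) ^ 4) _).mul
      ((continuousOn_wt q m j ht).mono Icc_subset_Ici_self)).mul hg)
  have i1 := (ii (fun x => u x ^ 2) (hu.pow 2)).const_mul (-(1 / (4 * B ^ 2)))
  have i2 := (ii (fun x => dd x ^ 2) (hd.pow 2)).const_mul (2 * B ^ 2)
  have i3 := (ii (fun x => (z x + A x * (u x + dd x)) ^ 2)
    ((hz.add (hA.mul (hu.add hd))).pow 2)).const_mul (B ^ 2)
  unfold Iw
  beta_reduce
  rw [← intervalIntegral.integral_const_mul, ← intervalIntegral.integral_const_mul,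
    ← intervalIntegral.integral_const_mul, ← intervalIntegral.integral_add i1 i2,
    ← intervalIntegral.integral_add (i1.add i2) i3]
  refine intervalIntegral.integral_mono_on hL (ii (fun x => z x * u x) (hz.mul hu))
    ((i1.add i2).add i3)
    fun x hx => ?_
  have hx0 := hx.1
  have w0 := wt_pos q m j ht hx0
  have b3 : 0 ≤ x ^ 9 * (1 - θ * x) ^ 4 * wt q m j t x := by positivity
  obtain ⟨a1, a2⟩ := hA1 x hx
  have hB0 : 0 < B := by linarith
  set b := 1 / B ^ 2 with hb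
  have hb0 : 0 < b := by positivity
  have hbB : b * B ^ 2 = 1 := by rw [hb]; field_simp
  have hb4 : 1 / (4 * B ^ 2) = b / 4 := by rw [hb]; field_simp
  have key : z x * u x ≤ -(b / 4) * u x ^ 2 + 2 * B ^ 2 * dd x ^ 2 +
      B ^ 2 * (z x + A x * (u x + dd x)) ^ 2 := by
    set r := z x + A x * (u x + dd x) with hr
    have e : z x * u x = r * u x - A x * u x ^ 2 - A x * (dd x * u x) := by rw [hr]; ring
    have k1 : -(A x * (dd x * u x)) ≤ A x * (u x ^ 2 / 2) + A x * (dd x ^ 2 / 2) := by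
      have := mul_nonneg (hb0.le.trans a1) (sq_nonneg (u x + dd x))
      nlinarith
    have k2 : b * (u x ^ 2 / 2) ≤ A x * (u x ^ 2 / 2) :=
      mul_le_mul_of_nonneg_right a1 (by positivity)
    have k3 : A x * (dd x ^ 2 / 2) ≤ 4 * B ^ 2 * (dd x ^ 2 / 2) :=
      mul_le_mul_of_nonneg_right a2 (by positivity)
    have k4 : r * u x ≤ b / 4 * u x ^ 2 + B ^ 2 * r ^ 2 := by
      have h1 := mul_nonneg hb0.le (sq_nonneg (u x / 2 - B ^ 2 * r))
      have h2 : b * (u x / 2 - B ^ 2 * r) ^ 2 =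
          b / 4 * u x ^ 2 - (b * B ^ 2) * (r * u x) + (b * B ^ 2) * (B ^ 2 * r ^ 2) := by ring
      rw [h2, hbB] at h1
      linarith
    rw [e]
    linarith
  have := mul_le_mul_of_nonneg_left key b3
  rw [hb4]
  linarith

theorem d2 (j m : ℕ) (B : ℝ) (hm : 4 ≤ m) (hB : 1 ≤ B) : ∃ c C, 0 < c ∧ 0 < C ∧
    ∀ (q : Bool) (κ ε θ L t : ℝ) (I : Set ℝ) (γ d e F F1 F2 ζ : Fn), IsOpen I →
      Sys κ ε 0 I γ d e F F1 F2 ζ → Geo κ θ L → t ∈ I → t < 0 → lam t ≤ L → AB κ ε γ ζ j B t →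
      ∃ E', HasDerivAt (fun s => Iw L θ q m j s (DT j F s)) E' t ∧
        E' ≤ -c * Dq κ L θ q m j t F2 +
          C * (∑ i ∈ Finset.range j, Dq κ L θ q m i t F2 +
            ∑ i ∈ Finset.range (j + 1), Dq κ L θ q m i t d +
            (lam t)⁻¹ * Iw L θ q (m + 1) j t (DT j F t) +
            θ * (lam t)⁻¹ * Iw L 0 q m j t (DT j F t)) +
          2 * ∫ x in (0 : ℝ)..L,
            x ^ 9 * (1 - θ * x) ^ 4 * wt q m j t x * (DT j F t x * DT j e t x) := by
  obtain ⟨Ca, hCa, halg⟩ := alg j B hB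
  obtain ⟨Cc, hCc, hcross⟩ := crossW m hm
  have hB0 : 0 < B := by linarith
  set b : ℝ := 1 / (4 * B ^ 2) with hb
  have hb0 : 0 < b := by positivity
  set K : ℝ := 2 * (Ca ^ 2 * (j + 1)) with hK
  have hK0 : 0 < K := by positivity
  set s : ℝ := b / 4 / K with hs
  have hs0 : 0 < s := by positivity
  have hsK : s * K = b / 4 := by rw [hs]; field_simp
  set δ : ℝ := min 1 (b / 4 / (Cc / s)) with hδ
  have hδ0 : 0 < δ := lt_min one_pos (by positivity)
  have hδ1 : δ ≤ 1 := min_le_left _ _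
  have hδ2 : Cc / s * δ ≤ b / 4 := by
    have : δ ≤ b / 4 / (Cc / s) := min_le_right _ _
    rw [le_div_iff₀ (by positivity)] at this
    linarith
  set M : ℝ := Cc / s * δ⁻¹ with hM
  have hM0 : 0 < M := by positivity
  refine ⟨b, m + 2 * (B ^ 2 * K) + b + 4 * B ^ 2 + 8 * M, hb0, by positivity, ?_⟩
  intro q κ ε θ L t I γ d e F F1 F2 ζ hI hS hG htI ht hlL hAB
  have hL := hG.hL.le
  have hl := lam_pos ht
  have hθ := hG.hθ
  have hD : Icc 0 L ⊆ dom κ := Icc_subset_dom hG.hκ hG.κL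
  obtain ⟨E', hE, hE'⟩ := hasDerivAt_Iw θ q j hm hI hS.tF hL hD htI ht
  refine ⟨E', hE, hE'.trans ?_⟩
  have cph : ContinuousOn (ph κ) (Icc 0 L) := by unfold ph; fun_prop
  have cF : ∀ i, ContinuousOn (DT i F t) (Icc 0 L) := fun i => (hS.tF.cont_x i htI).mono hD
  have cF2 : ∀ i, ContinuousOn (DT i F2 t) (Icc 0 L) := fun i => (hS.tF2.cont_x i htI).mono hD
  have cd : ∀ i, ContinuousOn (DT i d t) (Icc 0 L) := fun i => (hS.td.cont_x i htI).mono hD
  have ce : ∀ i, ContinuousOn (DT i e t) (Icc 0 L) := fun i => (hS.te.cont_x i htI).mono hD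
  have cζ : ∀ i, ContinuousOn (DT i ζ t) (Icc 0 L) := fun i => (hS.tζ.cont_x i htI).mono hD
  have cγ : ContinuousOn (γ t) (Icc 0 L) := (hS.tγ.cont_x 0 htI).mono hD
  have cζ0 : ContinuousOn (ζ t) (Icc 0 L) := cζ 0
  have ii : ∀ g : ℝ → ℝ, ContinuousOn g (Icc 0 L) → IntervalIntegrable
      (fun x => x ^ 9 * (1 - θ * x) ^ 4 * wt q m j t x * g x) MeasureTheory.volume 0 L := by
    intro g hg
    refine ContinuousOn.intervalIntegrable ?_
    rw [uIcc_of_le hL]
    exact (((by fun_prop : ContinuousOn (fun x : ℝ => x ^ 9 * (1 - θ * x) ^ 4) _).mul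
      ((continuousOn_wt q m j ht).mono Icc_subset_Ici_self)).mul hg)
  -- splitting `F_{j+1} = k + e`
  have split : ∫ x in (0 : ℝ)..L,
      x ^ 9 * (1 - θ * x) ^ 4 * wt q m j t x * (DT j F t x * DT (j + 1) F t x) =
      (∫ x in (0 : ℝ)..L, x ^ 9 * (1 - θ * x) ^ 4 * wt q m j t x *
        ((DT (j + 1) F t x - DT j e t x) * DT j F t x)) +
      ∫ x in (0 : ℝ)..L,
        x ^ 9 * (1 - θ * x) ^ 4 * wt q m j t x * (DT j F t x * DT j e t x) := by
    rw [← intervalIntegral.integral_add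
      (ii (fun x => (DT (j + 1) F t x - DT j e t x) * DT j F t x)
        (((cF (j + 1)).sub (ce j)).mul (cF j)))
      (ii (fun x => DT j F t x * DT j e t x) ((cF j).mul (ce j)))]
    refine intervalIntegral.integral_congr fun x _ => ?_
    ring
  have hV : VolOn κ L (DT j ζ t) fun x => DT (j + 1) F t x - DT j e t x := by
    simpa using hS.volOn hI hG.κL j htI
  have hc := hcross q j κ θ L t s δ _ _ _ _ _ hG ht hlL hs0 hδ0 hδ1 (hS.sp hI hG.κL j htI) hV
  -- the coefficient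
  set A : ℝ → ℝ := fun x => (γ t x + ε * ph κ x * ζ t x) *
    (if j = 0 then γ t x else γ t x + ε * ph κ x * ζ t x) with hA
  have cΓ : ContinuousOn (fun x => γ t x + ε * ph κ x * ζ t x) (Icc 0 L) :=
    cγ.add ((continuousOn_const.mul cph).mul cζ0)
  have cA : ContinuousOn A (Icc 0 L) := by
    by_cases hj : j = 0
    · simp only [hA, hj, if_true]
      exact cΓ.mul cγ
    · simp only [hA, hj, if_false]
      exact cΓ.mul cΓ
  have hA1 : ∀ x ∈ Icc 0 L, 1 / B ^ 2 ≤ A x ∧ A x ≤ 4 * B ^ 2 := by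
    intro x hx
    obtain ⟨a1, a2, a3, -, a5⟩ := hAB x (hD hx)
    have a6 := a5 0 (by omega)
    simp only [pow_zero, one_mul, DT] at a6
    have a7 := (le_abs_self _).trans a6
    have hib : 0 < 1 / B := by positivity
    have e1 : 1 / B ^ 2 = 1 / B * (1 / B) := by field_simp
    have e2 : 4 * B ^ 2 = 2 * B * (2 * B) := by ring
    have a8 : 1 / B ≤ (if j = 0 then γ t x else γ t x + ε * ph κ x * ζ t x) ∧
        (if j = 0 then γ t x else γ t x + ε * ph κ x * ζ t x) ≤ 2 * B := by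
      split_ifs
      · exact ⟨a1, by linarith⟩
      · exact ⟨a3, by linarith⟩
    rw [e1, e2]
    exact ⟨mul_le_mul a3 a8.1 hib.le (hib.le.trans a3),
      mul_le_mul (by linarith) a8.2 (hib.le.trans a8.1) (by positivity)⟩
  have hmain := main_le (θ := θ) (q := q) (m := m) (j := j) ht hL hB (cph.mul (cζ j))
    (cph.mul (cF2 j)) (cph.mul (cd j)) cA hA1
  -- the pointwise bounds
  have hpt : ∀ x ∈ Icc 0 L,
      om q (-t) ((x + lam t) ^ 2) j * |DT j ζ t x + A x * (DT j F2 t x + DT j d t x)| ≤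
        Ca * ∑ i ∈ Finset.range j, om q (-t) ((x + lam t) ^ 2) i * |DT i F2 t x + DT i d t x| ∧
      om q (-t) ((x + lam t) ^ 2) j * |DT j ζ t x| ≤
        Ca * ∑ i ∈ Finset.range (j + 1),
          om q (-t) ((x + lam t) ^ 2) i * |DT i F2 t x + DT i d t x| := by
    intro x hx
    obtain ⟨a1, a2, a3, a4, a5⟩ := hAB x (hD hx)
    have hT : 0 < -t := by linarith
    have hρ : -t ≤ (x + lam t) ^ 2 := by
      rw [← lam_sq ht.le]
      have := hx.1
      gcongr
      linarith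
    have := halg q (-t) ((x + lam t) ^ 2) (ε * ph κ x) (fun j => DT j γ t x) (fun j => DT j ζ t x)
      (fun j => DT j F2 t x + DT j d t x) hT hρ (fun l _ => hS.leib hI htI (hD hx) l) a1 a2 a3
      (fun c h1 h2 => (mul_le_mul_of_nonneg_right (om_false_le q hT hρ c).2 (abs_nonneg _)).trans
        (a4 c h1 h2)) a5
    exact ⟨this.1, this.2.2⟩
  have cv : ∀ i, ContinuousOn (fun x => ph κ x * DT i F2 t x + ph κ x * DT i d t x) (Icc 0 L) :=
    fun i => (cph.mul (cF2 i)).add (cph.mul (cd i))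
  have hmul : ∀ (x o a : ℝ) (n : ℕ) (w : ℕ → ℝ),
      o * |a| ≤ Ca * ∑ i ∈ Finset.range n, w i * |DT i F2 t x + DT i d t x| →
      o * |ph κ x * a| ≤
        Ca * ∑ i ∈ Finset.range n, w i * |ph κ x * DT i F2 t x + ph κ x * DT i d t x| := by
    intro x o a n w h
    have e : ∑ i ∈ Finset.range n, w i * |ph κ x * DT i F2 t x + ph κ x * DT i d t x| =
        |ph κ x| * ∑ i ∈ Finset.range n, w i * |DT i F2 t x + DT i d t x| := by
      rw [Finset.mul_sum]
      refine Finset.sum_congr rfl fun i _ => ?_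
      rw [← mul_add, abs_mul]
      ring
    have := mul_le_mul_of_nonneg_left h (abs_nonneg (ph κ x))
    rw [e, abs_mul]
    linarith
  have hsum : ∀ n : ℕ, ∑ i ∈ Finset.range n,
      Iw L θ q m i t (fun x => ph κ x * DT i F2 t x + ph κ x * DT i d t x) ≤
      2 * (∑ i ∈ Finset.range n, Dq κ L θ q m i t F2 + ∑ i ∈ Finset.range n, Dq κ L θ q m i t d) := by
    intro n
    rw [← Finset.sum_add_distrib, Finset.mul_sum]
    refine Finset.sum_le_sum fun i _ => ?_
    rw [mul_add]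
    exact Iw_add_le ht hL (cph.mul (cF2 i)) (cph.mul (cd i))
  have hr := Iw_le_sum (θ := θ) (m := m) (C := Ca) (q := q) (j := j) (n := j)
    (u := fun x => ph κ x * DT j ζ t x + A x * (ph κ x * DT j F2 t x + ph κ x * DT j d t x))
    (v := fun i x => ph κ x * DT i F2 t x + ph κ x * DT i d t x) ht hL
    ((cph.mul (cζ j)).add (cA.mul (cv j))) cv fun x hx => by
      have := hmul x _ _ j _ (hpt x hx).1
      rwa [show ph κ x * (DT j ζ t x + A x * (DT j F2 t x + DT j d t x)) =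
        ph κ x * DT j ζ t x + A x * (ph κ x * DT j F2 t x + ph κ x * DT j d t x) by ring] at this
  have hz := Iw_le_sum (θ := θ) (m := m) (C := Ca) (q := q) (j := j) (n := j + 1)
    (u := fun x => ph κ x * DT j ζ t x)
    (v := fun i x => ph κ x * DT i F2 t x + ph κ x * DT i d t x) ht hL
    (cph.mul (cζ j)) cv fun x hx => hmul x _ _ (j + 1) _ (hpt x hx).2
  have htail := tail hG ht q j hm (cF j)
  have nD : ∀ (i : ℕ) (u : Fn), 0 ≤ Dq κ L θ q m i t u := fun i u => Iw_nonneg hL _ _ _ _ _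
  have s1 := hsum j
  have s2 := hsum (j + 1)
  rw [Finset.sum_range_succ (fun i => Dq κ L θ q m i t F2)] at s2
  have hdj : Dq κ L θ q m j t d + ∑ i ∈ Finset.range j, Dq κ L θ q m i t d =
      ∑ i ∈ Finset.range (j + 1), Dq κ L θ q m i t d := by
    rw [Finset.sum_range_succ]; ring
  set P := ∑ i ∈ Finset.range j, Dq κ L θ q m i t F2 with hP
  set Q := ∑ i ∈ Finset.range (j + 1), Dq κ L θ q m i t d with hQ
  set Q' := ∑ i ∈ Finset.range j, Dq κ L θ q m i t d with hQ'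
  have nP : 0 ≤ P := Finset.sum_nonneg fun i _ => nD i F2
  have nQ' : 0 ≤ Q' := Finset.sum_nonneg fun i _ => nD i d
  have nDd := nD j d
  have nDF := nD j F2
  set U := (lam t)⁻¹ * Iw L θ q (m + 1) j t (DT j F t) with hU
  set V := θ * (lam t)⁻¹ * Iw L 0 q m j t (DT j F t) with hVV
  have nU : 0 ≤ U := mul_nonneg (by positivity) (Iw_nonneg hL _ _ _ _ _)
  have nV : 0 ≤ V := mul_nonneg (by positivity) (Iw_nonneg hL _ _ _ _ _)
  have eU : (m : ℝ) / (2 * lam t) * Iw L θ q (m + 1) j t (DT j F t) = m / 2 * U := by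
    rw [hU]; field_simp
  have hr' : Iw L θ q m j t (fun x => ph κ x * DT j ζ t x +
      A x * (ph κ x * DT j F2 t x + ph κ x * DT j d t x)) ≤ K * (P + Q) := by
    refine hr.trans ((mul_le_mul_of_nonneg_left s1 (by positivity)).trans ?_)
    have : Ca ^ 2 * j * (2 * (P + Q')) ≤ Ca ^ 2 * (j + 1) * (2 * (P + Q)) := by
      have : Q' ≤ Q := by linarith
      gcongr
      linarith
    rw [hK]
    linarith
  have hz' : Iw L θ q m j t (fun x => ph κ x * DT j ζ t x) ≤ K * (P + Dq κ L θ q m j t F2 + Q) := by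
    refine hz.trans ((mul_le_mul_of_nonneg_left s2 (by positivity)).trans (le_of_eq ?_))
    rw [hK]
    push_cast
    ring
  have f1 := mul_le_mul_of_nonneg_left hr' (sq_nonneg B)
  have f2 := mul_le_mul_of_nonneg_left hz' hs0.le
  have f3 := mul_le_mul_of_nonneg_left htail hM0.le
  have f4 := mul_le_mul_of_nonneg_right hδ2 nDF
  rw [← mul_assoc, hsK] at f2
  have hmain' : ∫ x in (0 : ℝ)..L, x ^ 9 * (1 - θ * x) ^ 4 * wt q m j t x *
      (ph κ x * DT j ζ t x * (ph κ x * DT j F2 t x)) ≤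
      -b * Dq κ L θ q m j t F2 + 2 * B ^ 2 * Dq κ L θ q m j t d +
        B ^ 2 * Iw L θ q m j t (fun x => ph κ x * DT j ζ t x +
          A x * (ph κ x * DT j F2 t x + ph κ x * DT j d t x)) := hmain
  have hc' : ∫ x in (0 : ℝ)..L, x ^ 9 * (1 - θ * x) ^ 4 * wt q m j t x *
      ((DT (j + 1) F t x - DT j e t x) * DT j F t x) ≤
      (∫ x in (0 : ℝ)..L, x ^ 9 * (1 - θ * x) ^ 4 * wt q m j t x *
        (ph κ x * DT j ζ t x * (ph κ x * DT j F2 t x))) +
      s * Iw L θ q m j t (fun x => ph κ x * DT j ζ t x) +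
      (Cc / s * δ * Dq κ L θ q m j t F2 + M * Iw L 0 q (m + 2) j t (DT j F t)) := by
    refine hc.trans (le_of_eq ?_)
    rw [hM]
    unfold Dq
    ring
  rw [split, eU]
  have hm0 : (0 : ℝ) ≤ m := Nat.cast_nonneg m
  have nQ : 0 ≤ Q := by linarith
  have hdQ : Dq κ L θ q m j t d ≤ Q := by linarith
  have g1 := mul_le_mul_of_nonneg_left hdQ (sq_nonneg B)
  have hBK : 0 ≤ B ^ 2 * K := by positivity
  have hB2 : 0 ≤ B ^ 2 := by positivity
  have p1 := mul_nonneg hm0 nP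
  have p2 := mul_nonneg hm0 nQ
  have p3 := mul_nonneg hm0 nU
  have p4 := mul_nonneg hm0 nV
  have p5 := mul_nonneg hBK nU
  have p6 := mul_nonneg hBK nV
  have p7 := mul_nonneg hb0.le nP
  have p8 := mul_nonneg hb0.le nQ
  have p9 := mul_nonneg hb0.le nU
  have p10 := mul_nonneg hb0.le nV
  have p11 := mul_nonneg hB2 nP
  have p12 := mul_nonneg hB2 nU
  have p13 := mul_nonneg hB2 nV
  have p14 := mul_nonneg hM0.le nP
  have p15 := mul_nonneg hM0.le nQ
  have p16 := mul_nonneg hM0.le nU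
  linarith

end Crest.Agent.R213.D2A
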