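import Crest.Agent.R213.SysB
import Crest.Agent.R213.Alg
import Crest.Agent.R213.D1

/-!
# Row 213: the energy at level `j + 1` is controlled by the dissipation (proof of `d3`)
-/

set_option autoImplicit false

noncomputable section

namespace Crest.Agent.R213.D2B

open Set Filter Topology
open scoped ContDiff

theorem int_le {L a b : ℝ} {f g h : ℝ → ℝ} (hL : 0 ≤ L) (hf : ContinuousOn f (Icc 0 L))
    (hg : ContinuousOn g (Icc 0 L)) (hh : ContinuousOn h (Icc 0 L))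
    (H : ∀ x ∈ Icc 0 L, f x ≤ a * g x + b * h x) :
    ∫ x in (0 : ℝ)..L, f x ≤ a * (∫ x in (0 : ℝ)..L, g x) + b * ∫ x in (0 : ℝ)..L, h x := by
  have ig := (hg.intervalIntegrable_of_Icc (μ := MeasureTheory.volume) hL).const_mul a
  have ih := (hh.intervalIntegrable_of_Icc (μ := MeasureTheory.volume) hL).const_mul b
  rw [← intervalIntegral.integral_const_mul, ← intervalIntegral.integral_const_mul,
    ← intervalIntegral.integral_add ig ih]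
  exact intervalIntegral.integral_mono_on hL (hf.intervalIntegrable_of_Icc hL) (ig.add ih) H

theorem cont_div {L l : ℝ} {f : ℝ → ℝ} (hl : 0 < l) (hf : ContinuousOn f (Icc 0 L)) (n : ℕ) :
    ContinuousOn (fun x => f x / (x + l) ^ n) (Icc 0 L) :=
  hf.div (by fun_prop) fun x hx => (pow_pos (by linarith [hx.1]) n).ne'

theorem cont_ph (κ : ℝ) : Continuous (ph κ) := by
  unfold ph; fun_prop

theorem core (m : ℕ) {δ : ℝ} (hδ : 0 < δ) : ∃ C, 0 < C ∧ ∀ (κ θ L l : ℝ) (G G1 G2 Z e : ℝ → ℝ),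
    Geo κ θ L → 0 < l → l ≤ L → Sp L G G1 G2 → VolOn κ L Z (fun x => G x - e x) →
    ContinuousOn e (Icc 0 L) →
    ∫ x in (0 : ℝ)..L, x ^ 9 * (1 - θ * x) ^ 4 * G x ^ 2 / (x + l) ^ (m + 2) ≤
      δ * (∫ x in (0 : ℝ)..L, x ^ 9 * (1 - θ * x) ^ 4 * (ph κ x * G2 x) ^ 2 / (x + l) ^ m) +
      C * ((∫ x in (0 : ℝ)..L, x ^ 9 * (1 - θ * x) ^ 4 * (ph κ x * Z x) ^ 2 / (x + l) ^ (m + 4)) +
        (∫ x in (0 : ℝ)..L, x ^ 9 * (1 - θ * x) ^ 4 * e x ^ 2 / (x + l) ^ (m + 2)) +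
        θ * l⁻¹ * ∫ x in (0 : ℝ)..L, x ^ 9 * (1 - 0 * x) ^ 4 * G x ^ 2 / (x + l) ^ m) := by
  obtain ⟨C, hC, hc⟩ := cross m 2
  set s := C * (4 + 4 / δ) with hs
  have hs0 : 0 < s := by positivity
  have hs1 : C / s ≤ 1 / 4 := by
    rw [div_le_iff₀ hs0, hs]
    have : 0 < C * (1 / δ) := by positivity
    linarith [show 1 / 4 * (C * (4 + 4 / δ)) = C + C * (1 / δ) by ring]
  have hs2 : C / s ≤ δ / 4 := by
    rw [div_le_iff₀ hs0, hs, show δ / 4 * (C * (4 + 4 / δ)) = C + C * δ by field_simp; ring]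
    linarith [mul_pos hC hδ]
  refine ⟨2 * (1 / δ + s + 1), by positivity, fun κ θ L l G G1 G2 Z e hg hl hlL hG hZ he => ?_⟩
  have hL := hg.hL.le
  have h0 := hG.c0
  have h2 := hG.c2
  have hz := hZ.cZ
  have hp := (cont_ph κ).continuousOn (s := Icc 0 L)
  have h := (abs_le.1 (hc κ θ L l s 1 G G1 G2 Z _ hg hl hlL hs0 one_pos le_rfl hG hZ)).2
  rw [inv_one, one_mul, one_mul] at h
  have e1 : ∀ (u : ℝ → ℝ) (n : ℕ),
      ∫ x in (0 : ℝ)..L, x ^ 9 * ph κ x ^ 2 * (1 - θ * x) ^ 4 * u x ^ 2 / (x + l) ^ n =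
      ∫ x in (0 : ℝ)..L, x ^ 9 * (1 - θ * x) ^ 4 * (ph κ x * u x) ^ 2 / (x + l) ^ n :=
    fun u n => by congr 1; funext x; ring
  rw [e1, e1] at h
  have ka := int_le (a := 4 / 3) (b := 4 / 3) hL
    (cont_div (f := fun x => x ^ 9 * (1 - θ * x) ^ 4 * G x ^ 2) hl (by fun_prop) (m + 2))
    (cont_div (f := fun x => x ^ 9 * (1 - θ * x) ^ 4 * ((G x - e x) * G x)) hl (by fun_prop) (m + 2))
    (cont_div (f := fun x => x ^ 9 * (1 - θ * x) ^ 4 * e x ^ 2) hl (by fun_prop) (m + 2))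
    fun x hx => by
      have h1 : 0 ≤ x ^ 9 * (1 - θ * x) ^ 4 / (x + l) ^ (m + 2) * (G x / 2 - e x) ^ 2 := by
        have := hx.1
        positivity
      linarith [show 4 / 3 * (x ^ 9 * (1 - θ * x) ^ 4 * ((G x - e x) * G x) / (x + l) ^ (m + 2)) +
        4 / 3 * (x ^ 9 * (1 - θ * x) ^ 4 * e x ^ 2 / (x + l) ^ (m + 2)) -
        x ^ 9 * (1 - θ * x) ^ 4 * G x ^ 2 / (x + l) ^ (m + 2) =
        4 / 3 * (x ^ 9 * (1 - θ * x) ^ 4 / (x + l) ^ (m + 2) * (G x / 2 - e x) ^ 2) by ring]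
  have kb := int_le (a := δ / 4) (b := 1 / δ) hL
    (cont_div (f := fun x => x ^ 9 * ph κ x ^ 2 * (1 - θ * x) ^ 4 * (Z x * G2 x)) hl (by fun_prop)
      (m + 2))
    (cont_div (f := fun x => x ^ 9 * (1 - θ * x) ^ 4 * (ph κ x * G2 x) ^ 2) hl (by fun_prop) m)
    (cont_div (f := fun x => x ^ 9 * (1 - θ * x) ^ 4 * (ph κ x * Z x) ^ 2) hl (by fun_prop) (m + 4))
    fun x hx => by
      have hx0 := hx.1
      have hr : 0 < x + l := by linarith
      have h1 : 0 ≤ x ^ 9 * (1 - θ * x) ^ 4 * ph κ x ^ 2 / (x + l) ^ m / δ *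
          (δ * G2 x / 2 - Z x / (x + l) ^ 2) ^ 2 := by positivity
      linarith [show δ / 4 * (x ^ 9 * (1 - θ * x) ^ 4 * (ph κ x * G2 x) ^ 2 / (x + l) ^ m) +
        1 / δ * (x ^ 9 * (1 - θ * x) ^ 4 * (ph κ x * Z x) ^ 2 / (x + l) ^ (m + 4)) -
        x ^ 9 * ph κ x ^ 2 * (1 - θ * x) ^ 4 * (Z x * G2 x) / (x + l) ^ (m + 2) =
        x ^ 9 * (1 - θ * x) ^ 4 * ph κ x ^ 2 / (x + l) ^ m / δ *
          (δ * G2 x / 2 - Z x / (x + l) ^ 2) ^ 2 by field_simp; ring]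
  have kc := int_le (a := 1) (b := 4 * (θ * l⁻¹)) hL
    (cont_div (f := fun x => x ^ 9 * G x ^ 2) hl (by fun_prop) (m + 2))
    (cont_div (f := fun x => x ^ 9 * (1 - θ * x) ^ 4 * G x ^ 2) hl (by fun_prop) (m + 2))
    (cont_div (f := fun x => x ^ 9 * (1 - 0 * x) ^ 4 * G x ^ 2) hl (by fun_prop) m)
    fun x hx => by
      have hx0 := hx.1
      have hr : 0 < x + l := by linarith
      have ha0 : 0 ≤ θ * x := mul_nonneg hg.hθ hx0
      have ha1 : θ * x ≤ 1 := (mul_le_mul_of_nonneg_left hx.2 hg.hθ).trans hg.θL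
      have h1 : 1 - 4 * (θ * x) ≤ (1 - θ * x) ^ 4 := by
        have := one_add_mul_le_pow (a := -(θ * x)) (by linarith) 4
        rw [← sub_eq_add_neg] at this
        push_cast at this
        linarith
      have h3 : x ≤ l⁻¹ * (x + l) ^ 2 := by
        rw [inv_mul_eq_div, le_div_iff₀ hl]; nlinarith
      have h4 : 0 ≤ x ^ 9 * G x ^ 2 / (x + l) ^ (m + 2) *
          ((1 - θ * x) ^ 4 + 4 * θ * (l⁻¹ * (x + l) ^ 2) - 1) := by
        refine mul_nonneg (by positivity) ?_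
        nlinarith [mul_le_mul_of_nonneg_left h3 hg.hθ]
      linarith [show 1 * (x ^ 9 * (1 - θ * x) ^ 4 * G x ^ 2 / (x + l) ^ (m + 2)) +
        4 * (θ * l⁻¹) * (x ^ 9 * (1 - 0 * x) ^ 4 * G x ^ 2 / (x + l) ^ m) -
        x ^ 9 * G x ^ 2 / (x + l) ^ (m + 2) = x ^ 9 * G x ^ 2 / (x + l) ^ (m + 2) *
          ((1 - θ * x) ^ 4 + 4 * θ * (l⁻¹ * (x + l) ^ 2) - 1) by field_simp; ring]
  have nn : ∀ (τ : ℝ) (u : ℝ → ℝ) (n : ℕ),
      0 ≤ ∫ x in (0 : ℝ)..L, x ^ 9 * (1 - τ * x) ^ 4 * u x ^ 2 / (x + l) ^ n := fun τ u n =>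
    intervalIntegral.integral_nonneg hL fun x hx => by have := hx.1; positivity
  have nA := nn θ G (m + 2)
  have nE := nn θ e (m + 2)
  have nD := nn θ (fun x => ph κ x * G2 x) m
  have nY := nn θ (fun x => ph κ x * Z x) (m + 4)
  have nR := mul_nonneg (mul_nonneg hg.hθ (inv_pos.2 hl).le) (nn 0 G m)
  rw [mul_assoc] at kc
  generalize (∫ x in (0 : ℝ)..L, x ^ 9 * (1 - θ * x) ^ 4 * G x ^ 2 / (x + l) ^ (m + 2)) = A at *
  generalize (∫ x in (0 : ℝ)..L, x ^ 9 * (1 - θ * x) ^ 4 * e x ^ 2 / (x + l) ^ (m + 2)) = E at *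
  generalize (∫ x in (0 : ℝ)..L,
    x ^ 9 * (1 - θ * x) ^ 4 * (ph κ x * G2 x) ^ 2 / (x + l) ^ m) = D at *
  generalize (∫ x in (0 : ℝ)..L,
    x ^ 9 * (1 - θ * x) ^ 4 * (ph κ x * Z x) ^ 2 / (x + l) ^ (m + 4)) = Y at *
  generalize θ * l⁻¹ * (∫ x in (0 : ℝ)..L,
    x ^ 9 * (1 - 0 * x) ^ 4 * G x ^ 2 / (x + l) ^ m) = R at *
  have hCs : 0 ≤ C / s := by positivity
  have hδ' : 0 < 1 / δ := by positivity
  have k1 := mul_le_mul_of_nonneg_left kc hCs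
  have k2 := mul_le_mul_of_nonneg_right hs1 nA
  have k3 := mul_le_mul_of_nonneg_right hs1 nR
  have k4 := mul_le_mul_of_nonneg_right hs2 nD
  nlinarith [mul_nonneg hδ'.le nE, mul_nonneg hδ'.le nR, mul_nonneg hs0.le nE,
    mul_nonneg hs0.le nR]

theorem lam_pos {t : ℝ} (ht : t < 0) : 0 < lam t := Real.sqrt_pos.2 (by linarith)

theorem le_rho {t x : ℝ} (ht : t < 0) (hx : 0 ≤ x) : -t ≤ (x + lam t) ^ 2 := by
  have h : lam t ^ 2 = -t := Real.sq_sqrt (by linarith)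
  nlinarith [lam_pos ht]

theorem Iw_form (q : Bool) (n j : ℕ) {t : ℝ} (ht : t < 0) : ∃ c : ℝ, 0 ≤ c ∧
    ∀ (L θ : ℝ) (p : ℕ) (u : ℝ → ℝ), 0 ≤ L → Iw L θ q (n + 4 + p) (j + 1) t u =
      c * ∫ x in (0 : ℝ)..L,
        x ^ 9 * (1 - θ * x) ^ 4 * u x ^ 2 / (x + lam t) ^ ((if q = true then n else n + 4) + p) := by
  refine ⟨(if q = true then (-t) ^ j else (-t) ^ (j + 1)) ^ 2, sq_nonneg _, fun L θ p u hL => ?_⟩
  rw [← intervalIntegral.integral_const_mul]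
  refine intervalIntegral.integral_congr fun x hx => ?_
  rw [uIcc_of_le hL] at hx
  have hr : x + lam t ≠ 0 := by linarith [hx.1, lam_pos ht]
  simp only [wt, om, Nat.succ_ne_zero, if_false, Nat.add_sub_cancel]
  split_ifs
  · field_simp
    ring
  · ring

theorem d3 (j m : ℕ) (B δ : ℝ) (hm : 4 ≤ m) (hB : 1 ≤ B) (hδ : 0 < δ) : ∃ C, 0 < C ∧
    ∀ (q : Bool) (κ ε θ L t : ℝ) (I : Set ℝ) (γ d e F F1 F2 ζ : Fn), IsOpen I →
      Sys κ ε 0 I γ d e F F1 F2 ζ → Geo κ θ L → t ∈ I → t < 0 → lam t ≤ L → AB κ ε γ ζ j B t →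
      Iw L θ q (m + 2) (j + 1) t (DT (j + 1) F t) ≤ δ * Dq κ L θ q m (j + 1) t F2 +
        C * (∑ i ∈ Finset.range (j + 1), (Dq κ L θ q m i t F2 + Dq κ L θ q m i t d) +
          Iw L θ q (m + 2) (j + 1) t (DT j e t) +
          θ * (lam t)⁻¹ * Iw L 0 q m (j + 1) t (DT (j + 1) F t)) := by
  obtain ⟨n, rfl⟩ := Nat.exists_eq_add_of_le' hm
  obtain ⟨C₁, hC₁, h₁⟩ := core n hδ
  obtain ⟨C₂, hC₂, h₂⟩ := core (n + 4) hδ
  obtain ⟨Ca, hCa, ha⟩ := alg j B hB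
  set K := 2 * (Ca ^ 2 * ((j + 1 : ℕ) : ℝ)) + 1 with hK
  have hK1 : 1 ≤ K := le_add_of_nonneg_left (by positivity)
  refine ⟨(C₁ + C₂) * K, by positivity,
    fun q κ ε θ L t I γ d e F F1 F2 ζ hI hS hg htI ht hl hAB => ?_⟩
  have hL := hg.hL.le
  have hl0 := lam_pos ht
  have hT : 0 < -t := by linarith
  have hsub : Icc 0 L ⊆ dom κ := fun x hx =>
    ⟨hx.1, (mul_le_mul_of_nonneg_left hx.2 hg.hκ).trans hg.κL⟩
  have hc : ∀ {u : Fn}, TS I (dom κ) u → ∀ i, ContinuousOn (DT i u t) (Icc 0 L) :=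
    fun hu i => (hu.cont_x i htI).mono hsub
  have hcp : ∀ {u : Fn}, TS I (dom κ) u → ∀ i,
      ContinuousOn (fun x => ph κ x * DT i u t x) (Icc 0 L) :=
    fun hu i => (cont_ph κ).continuousOn.mul (hc hu i)
  have hV : VolOn κ L (DT j ζ t) fun x => DT (j + 1) F t x - DT j e t x := by
    simpa only [zero_mul, sub_zero] using hS.volOn hI hg.κL j htI
  have k1 : Iw L θ q (n + 4 + 2) (j + 1) t (DT (j + 1) F t) ≤ δ * Dq κ L θ q (n + 4) (j + 1) t F2 +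
      (C₁ + C₂) * (Iw L θ q (n + 4 + 4) (j + 1) t (fun x => ph κ x * DT j ζ t x) +
        Iw L θ q (n + 4 + 2) (j + 1) t (DT j e t) +
        θ * (lam t)⁻¹ * Iw L 0 q (n + 4) (j + 1) t (DT (j + 1) F t)) := by
    have nn : 0 ≤ Iw L θ q (n + 4 + 4) (j + 1) t (fun x => ph κ x * DT j ζ t x) +
        Iw L θ q (n + 4 + 2) (j + 1) t (DT j e t) +
        θ * (lam t)⁻¹ * Iw L 0 q (n + 4) (j + 1) t (DT (j + 1) F t) :=
      add_nonneg (add_nonneg (Iw_nonneg hL _ _ _ _ _) (Iw_nonneg hL _ _ _ _ _))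
        (mul_nonneg (mul_nonneg hg.hθ (inv_pos.2 hl0).le) (Iw_nonneg hL _ _ _ _ _))
    obtain ⟨c, hc0, hf⟩ := Iw_form q n j ht
    have hf0 := fun τ u => hf L τ 0 u hL
    simp only [add_zero] at hf0
    have g1 := mul_le_mul_of_nonneg_left (h₁ κ θ L _ _ _ _ _ _ hg hl0 hl
      (hS.sp hI hg.κL (j + 1) htI) hV (hc hS.te j)) hc0
    have g2 := mul_le_mul_of_nonneg_left (h₂ κ θ L _ _ _ _ _ _ hg hl0 hl
      (hS.sp hI hg.κL (j + 1) htI) hV (hc hS.te j)) hc0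
    have g3 := mul_nonneg hC₁.le nn
    have g4 := mul_nonneg hC₂.le nn
    rw [Dq]
    rw [hf L θ 2 _ hL, hf L θ 4 _ hL, hf0 0] at g3 g4 ⊢
    rw [hf L θ 2 _ hL, hf0 θ]
    cases q
    · simp only [Bool.false_eq_true, if_false] at g3 ⊢
      linarith
    · simp only [if_true] at g4 ⊢
      linarith
  have k2 : Iw L θ q (n + 4 + 4) (j + 1) t (fun x => ph κ x * DT j ζ t x) ≤
      1 * Iw L θ q (n + 4) j t (fun x => ph κ x * DT j ζ t x) := by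
    refine Iw_le_Iw ht hL le_rfl zero_le_one (hcp hS.tζ j) (hcp hS.tζ j) fun x hx => ?_
    rw [one_mul]
    refine mul_le_mul_of_nonneg_right (mul_le_mul_of_nonneg_left ?_ (by positivity)) (sq_nonneg _)
    have hr : 0 < x + lam t := by linarith [hx.1]
    have h1 := pow_le_pow_left₀ (om_pos q hT (le_rho ht hx.1) _).le
      (om_succ q hT (le_rho ht hx.1) j).2 2
    unfold wt
    rw [div_le_div_iff₀ (by positivity) (by positivity)]
    refine (mul_le_mul_of_nonneg_right h1 (by positivity)).trans_eq (by ring)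
  have k3 : Iw L θ q (n + 4) j t (fun x => ph κ x * DT j ζ t x) ≤ Ca ^ 2 * ((j + 1 : ℕ) : ℝ) *
      ∑ i ∈ Finset.range (j + 1), Iw L θ q (n + 4) i t
        (fun x => ph κ x * DT i F2 t x + ph κ x * DT i d t x) := by
    refine Iw_le_sum ht hL (hcp hS.tζ j) (fun i => (hcp hS.tF2 i).add (hcp hS.td i)) fun x hx => ?_
    obtain ⟨a1, a2, a3, a4, a5⟩ := hAB x (hsub hx)
    have h1 := (ha q (-t) ((x + lam t) ^ 2) (ε * ph κ x) (fun j => DT j γ t x) (fun j => DT j ζ t x)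
      (fun j => DT j F2 t x + DT j d t x) hT (le_rho ht hx.1)
      (fun l _ => hS.leib hI htI (hsub hx) l) a1 a2 a3
      (fun c h1 h2 => (mul_le_mul_of_nonneg_right (om_false_le q hT (le_rho ht hx.1) c).2
        (abs_nonneg _)).trans (a4 c h1 h2)) a5).2.2
    have h2 := mul_le_mul_of_nonneg_left h1 (abs_nonneg (ph κ x))
    rw [mul_left_comm, ← abs_mul, mul_left_comm, Finset.mul_sum] at h2
    refine h2.trans_eq ?_
    congr 1
    exact Finset.sum_congr rfl fun i _ => by rw [← mul_add, abs_mul]; ring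
  have k4 : ∑ i ∈ Finset.range (j + 1), Iw L θ q (n + 4) i t
        (fun x => ph κ x * DT i F2 t x + ph κ x * DT i d t x) ≤
      2 * ∑ i ∈ Finset.range (j + 1), (Dq κ L θ q (n + 4) i t F2 + Dq κ L θ q (n + 4) i t d) := by
    rw [Finset.mul_sum]
    exact Finset.sum_le_sum fun i _ =>
      (Iw_add_le ht hL (hcp hS.tF2 i) (hcp hS.td i)).trans_eq (mul_add _ _ _).symm
  have n1 : 0 ≤ ∑ i ∈ Finset.range (j + 1),
      (Dq κ L θ q (n + 4) i t F2 + Dq κ L θ q (n + 4) i t d) :=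
    Finset.sum_nonneg fun i _ => add_nonneg (Iw_nonneg hL _ _ _ _ _) (Iw_nonneg hL _ _ _ _ _)
  have n2 := Iw_nonneg (θ := θ) hL q (n + 4 + 2) (j + 1) t (DT j e t)
  have n3 := mul_nonneg (mul_nonneg hg.hθ (inv_pos.2 hl0).le)
    (Iw_nonneg (θ := 0) hL q (n + 4) (j + 1) t (DT (j + 1) F t))
  refine k1.trans (add_le_add le_rfl ?_)
  rw [mul_assoc (C₁ + C₂)]
  refine mul_le_mul_of_nonneg_left ?_ (by positivity)
  have k5 := mul_le_mul_of_nonneg_left k4 (show 0 ≤ Ca ^ 2 * ((j + 1 : ℕ) : ℝ) by positivity)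
  nlinarith [mul_le_mul_of_nonneg_right hK1 n2, mul_le_mul_of_nonneg_right hK1 n3]

end Crest.Agent.R213.D2B
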