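import Crest.Agent.R213.SysB
import Crest.Agent.R213.Alg
import Crest.Agent.R213.D1
import Crest.Agent.R213.D2A
import Crest.Agent.R213.D2B

/-!
# Row 213: the energy inequality at one level
-/

set_option autoImplicit false

noncomputable section

namespace Crest.Agent.R213

open Set Filter Topology
open scoped ContDiff

/-- The energy inequality at level `j`. -/
theorem d2 (j m : ℕ) (B : ℝ) (hm : 4 ≤ m) (hB : 1 ≤ B) : ∃ c C, 0 < c ∧ 0 < C ∧
    ∀ (q : Bool) (κ ε θ L t : ℝ) (I : Set ℝ) (γ d e F F1 F2 ζ : Fn), IsOpen I →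
      Sys κ ε 0 I γ d e F F1 F2 ζ → Geo κ θ L → t ∈ I → t < 0 → lam t ≤ L → AB κ ε γ ζ j B t →
      ∃ E', HasDerivAt (fun s => Iw L θ q m j s (DT j F s)) E' t ∧
        E' ≤ -c * Dq κ L θ q m j t F2 +
          C * (∑ i ∈ Finset.range j, Dq κ L θ q m i t F2 +
            ∑ i ∈ Finset.range (j + 1), Dq κ L θ q m i t d +
            (lam t)⁻¹ * Iw L θ q (m + 1) j t (DT j F t) +
            θ * (lam t)⁻¹ * Iw L 0 q m j t (DT j F t)) +
          2 * ∫ x in (0 : ℝ)..L,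
            x ^ 9 * (1 - θ * x) ^ 4 * wt q m j t x * (DT j F t x * DT j e t x) :=
  D2A.d2 j m B hm hB

/-- The energy at level `j + 1` is controlled by the dissipation. -/
theorem d3 (j m : ℕ) (B δ : ℝ) (hm : 4 ≤ m) (hB : 1 ≤ B) (hδ : 0 < δ) : ∃ C, 0 < C ∧
    ∀ (q : Bool) (κ ε θ L t : ℝ) (I : Set ℝ) (γ d e F F1 F2 ζ : Fn), IsOpen I →
      Sys κ ε 0 I γ d e F F1 F2 ζ → Geo κ θ L → t ∈ I → t < 0 → lam t ≤ L → AB κ ε γ ζ j B t →
      Iw L θ q (m + 2) (j + 1) t (DT (j + 1) F t) ≤ δ * Dq κ L θ q m (j + 1) t F2 +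
        C * (∑ i ∈ Finset.range (j + 1), (Dq κ L θ q m i t F2 + Dq κ L θ q m i t d) +
          Iw L θ q (m + 2) (j + 1) t (DT j e t) +
          θ * (lam t)⁻¹ * Iw L 0 q m (j + 1) t (DT (j + 1) F t)) :=
  D2B.d3 j m B δ hm hB hδ

end Crest.Agent.R213
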