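import Mathlib

/-!
# Row 213 (Calabi flow blow-up on `ℂP¹⁰`): definitions

`U(10)`-invariant metrics in the momentum coordinate `x` (`φ(x) = ph κ x * Γ`, domain
`dom κ = [0, 1/κ]`), time `t < 0`, `lam t = √(-t)`.  All functions are `Fn = ℝ → ℝ → ℝ`
(first argument time, second argument space).
-/

set_option autoImplicit false

noncomputable section

namespace Crest.Agent.R213

open Set Filter Topology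
open scoped ContDiff

/-- Functions of time and space. -/
abbrev Fn := ℝ → ℝ → ℝ

/-- Time derivative. -/
def Dt (u : Fn) : Fn := fun t x => deriv (fun s => u s x) t

/-- Iterated time derivative. -/
def DT : ℕ → Fn → Fn
  | 0, u => u
  | j + 1, u => Dt (DT j u)

/-- All time derivatives exist and are jointly continuous on `I × D`. -/
def TS (I D : Set ℝ) (u : Fn) : Prop :=
  ∀ j : ℕ, ContinuousOn (fun p : ℝ × ℝ => DT j u p.1 p.2) (I ×ˢ D) ∧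
    ∀ t ∈ I, ∀ x ∈ D, HasDerivAt (fun s => DT j u s x) (DT (j + 1) u t x) t

/-- The spatial domain `[0, 1/κ]` (`[0, ∞)` for `κ = 0`). -/
def dom (κ : ℝ) : Set ℝ := {x | 0 ≤ x ∧ κ * x ≤ 1}

/-- The Fubini–Study profile. -/
def ph (κ x : ℝ) : ℝ := x * (1 - κ * x)

/-- The parabolic length scale. -/
def lam (t : ℝ) : ℝ := √(-t)

/-- The Volterra operator: the solution of `P'' = x ^ 9 k`, `P 0 = P' 0 = 0`. -/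
def Vol (k : ℝ → ℝ) (x : ℝ) : ℝ := ∫ y in (0 : ℝ)..x, (x - y) * y ^ 9 * k y

/-- `Vol k x = x ^ 11 * K1 k x`. -/
def K1 (k : ℝ → ℝ) (x : ℝ) : ℝ := ∫ θ in (0 : ℝ)..1, (1 - θ) * θ ^ 9 * k (θ * x)

/-- `F1 = F'`, `F2 = F''` on `[0, L]`, all continuous up to the boundary. -/
structure Sp (L : ℝ) (F F1 F2 : ℝ → ℝ) : Prop where
  c0 : ContinuousOn F (Icc 0 L)
  c1 : ContinuousOn F1 (Icc 0 L)
  c2 : ContinuousOn F2 (Icc 0 L)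
  d1 : ∀ x ∈ Ioo 0 L, HasDerivAt F (F1 x) x
  d2 : ∀ x ∈ Ioo 0 L, HasDerivAt F1 (F2 x) x

/-- `(x ^ 9 ph ^ 2 Z)'' = x ^ 9 k` on `[0, L]` in integrated form. -/
structure VolOn (κ L : ℝ) (Z k : ℝ → ℝ) : Prop where
  cZ : ContinuousOn Z (Icc 0 L)
  ck : ContinuousOn k (Icc 0 L)
  eq : ∀ x ∈ Icc 0 L, x ^ 9 * ph κ x ^ 2 * Z x = Vol k x

/-- The perturbation system.  Background profile `ph * γ`, true profile `ph * Γ` with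
`Γ = γ + ε ph ζ`, `1 / (ph Γ) = 1 / (ph γ) + ε (F'' + d)`, and
`x ^ 9 (F_t - e) = (x ^ 9 ph ^ 2 ζ)''` (`ϵ` is a regularisation parameter, `0` for the true system). -/
structure Sys (κ ε ϵ : ℝ) (I : Set ℝ) (γ d e F F1 F2 ζ : Fn) : Prop where
  hκ : 0 ≤ κ
  tγ : TS I (dom κ) γ
  td : TS I (dom κ) d
  te : TS I (dom κ) e
  tF : TS I (dom κ) F
  tF1 : TS I (dom κ) F1
  tF2 : TS I (dom κ) F2
  tζ : TS I (dom κ) ζ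
  d1 : ∀ t ∈ I, ∀ x, 0 < x → κ * x < 1 → HasDerivAt (F t) (F1 t x) x
  d2 : ∀ t ∈ I, ∀ x, 0 < x → κ * x < 1 → HasDerivAt (F1 t) (F2 t x) x
  vol : ∀ t ∈ I, ∀ x ∈ dom κ, x ^ 9 * ph κ x ^ 2 * (ζ t x - ϵ * Dt F2 t x) =
    Vol (fun y => Dt F t y - e t y) x
  nl : ∀ t ∈ I, ∀ x ∈ dom κ,
    ζ t x = -((γ t x + ε * ph κ x * ζ t x) * γ t x * (F2 t x + d t x))
  gpos : ∀ t ∈ I, ∀ x ∈ dom κ, 0 < γ t x
  pos : ∀ t ∈ I, ∀ x ∈ dom κ, 0 < γ t x + ε * ph κ x * ζ t x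

/-- The solution vanishes up to time `t0`. -/
def Zero (κ t0 T : ℝ) (F : Fn) : Prop := ∀ t, t ≤ t0 → t < T → ∀ x ∈ dom κ, F t x = 0

/-- Scale of the `j`-th time derivative (`q = true`: sharp, `q = false`: weak). -/
def om (q : Bool) (T ρ : ℝ) (j : ℕ) : ℝ :=
  if j = 0 then 1 else if q = true then ρ * T ^ (j - 1) else T ^ j

/-- The `j`-fold differentiated relation `ζ = -(γ + x ζ) γ y`. -/
def Leib (x : ℝ) (g z y : ℕ → ℝ) (l : ℕ) : Prop :=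
  z l = -∑ i ∈ Finset.range (l + 1), (l.choose i : ℝ) *
    (∑ a ∈ Finset.range (l - i + 1), ((l - i).choose a : ℝ) * (g a + x * z a) * g (l - i - a)) * y i

/-- Pointwise bounds at time `t` under which the level-`J` estimates hold. -/
def AB (κ ε : ℝ) (γ ζ : Fn) (J : ℕ) (B t : ℝ) : Prop :=
  ∀ x ∈ dom κ, 1 / B ≤ γ t x ∧ γ t x ≤ B ∧ 1 / B ≤ γ t x + ε * ph κ x * ζ t x ∧
    (∀ c, 1 ≤ c → c ≤ J → om true (-t) ((x + lam t) ^ 2) c * |DT c γ t x| ≤ B) ∧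
    ∀ a, 2 * a ≤ J → (-t) ^ a * |ε * ph κ x * DT a ζ t x| ≤ B

/-- The weight at level `j`. -/
def wt (q : Bool) (m j : ℕ) (t x : ℝ) : ℝ :=
  om q (-t) ((x + lam t) ^ 2) j ^ 2 / (x + lam t) ^ m

/-- Weighted square integral on `[0, L]` with cut-off `(1 - θ x) ^ 4`. -/
def Iw (L θ : ℝ) (q : Bool) (m j : ℕ) (t : ℝ) (u : ℝ → ℝ) : ℝ :=
  ∫ x in (0 : ℝ)..L, x ^ 9 * (1 - θ * x) ^ 4 * wt q m j t x * u x ^ 2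

/-- Either `L` is the natural boundary or the cut-off vanishes at `L`. -/
structure Geo (κ θ L : ℝ) : Prop where
  hκ : 0 ≤ κ
  hθ : 0 ≤ θ
  hL : 0 < L
  κL : κ * L ≤ 1
  θL : θ * L ≤ 1
  bd : κ * L = 1 ∨ θ * L = 1

/-- Dissipation-type integral of `ph * DT j u`. -/
def Dq (κ L θ : ℝ) (q : Bool) (m j : ℕ) (t : ℝ) (u : Fn) : ℝ :=
  Iw L θ q m j t fun x => ph κ x * DT j u t x

/-- Scaled energy. -/
def Et (L θ : ℝ) (q : Bool) (j : ℕ) (t : ℝ) (F : Fn) : ℝ := lam t * Iw L θ q 13 j t (DT j F t)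

/-- Scaled size of the forcing `e`. -/
def Fe (L θ : ℝ) (q : Bool) (j : ℕ) (t : ℝ) (e : Fn) : ℝ :=
  lam t * Iw L θ q 13 (j + 1) t (DT j e t)

/-- Scaled size of the forcing `d`. -/
def Fd (κ L θ : ℝ) (q : Bool) (j : ℕ) (t : ℝ) (d : Fn) : ℝ := lam t ^ 3 * Dq κ L θ q 13 j t d

/-- Scaled cut-off error. -/
def Er (L θ : ℝ) (q : Bool) (j : ℕ) (t : ℝ) (F : Fn) : ℝ :=
  θ * lam t * Et L 0 q j t F

/-- The level-zero estimate in terms of the local supremum, with constants `R`, `C`. -/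
def H0P (B R C : ℝ) : Prop :=
  0 < R ∧ 0 < C ∧ ∀ (κ ε θ L : ℝ) (I : Set ℝ) (γ d e F F1 F2 ζ : Fn) (ta tb σ M : ℝ), IsOpen I →
    Sys κ ε 0 I γ d e F F1 F2 ζ → Geo κ θ L → ta ≤ tb → tb < 0 → Icc ta tb ⊆ I → lam ta ≤ L →
    0 ≤ σ → σ ≤ 1 / 4 → 0 ≤ M →
    (∀ t ∈ Icc ta tb, AB κ ε γ ζ 0 B t ∧
      (∀ x ∈ Icc 0 L, x ≤ R * lam t → F t x ^ 2 ≤ M * (-t) ^ (1 + σ)) ∧
      Fe L θ false 0 t e ≤ M * (-t) ^ σ ∧ Fd κ L θ false 0 t d ≤ M * (-t) ^ σ ∧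
      Er L θ false 0 t F ≤ M * (-t) ^ σ) →
    Et L θ false 0 tb F ≤ (-tb / -ta) ^ (3 / 8 : ℝ) * Et L θ false 0 ta F + C * M * (-tb) ^ σ

/-! ## The soliton and the background -/

/-- Iterates of the Euler operator `x d/dx`. -/
def Th : ℕ → (ℝ → ℝ) → ℝ → ℝ
  | 0, g => g
  | k + 1, g => fun x => x * deriv (Th k g) x

/-- The profile `g = Φ / x` of a scalar curvature function `S`. -/
def gof (S : ℝ → ℝ) (x : ℝ) : ℝ := 1 - x * K1 S x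

/-- `(x ^ 10 g)'`. -/
def Qof (S : ℝ → ℝ) (x : ℝ) : ℝ := 10 * x ^ 9 - ∫ y in (0 : ℝ)..x, y ^ 9 * S y

/-- `x g'` for `x ≠ 0`. -/
def thof (S : ℝ → ℝ) (x : ℝ) : ℝ := Qof S x / x ^ 9 - 10 * gof S x

/-- Solutions of the truncated soliton equation with `S 0 = p.1` and constant `p.2`. -/
def IsSol (p : ℝ × ℝ) (S : ℝ → ℝ) : Prop :=
  S 0 = p.1 ∧ ∀ x, HasDerivAt S (p.2 - 1 / (2 * max (gof S x) (1 / 10))) x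

/-- The shrinking soliton. -/
structure Sol where
  S : ℝ → ℝ
  x0 : ℝ
  C : ℝ
  hx0 : 0 < x0
  sS : ContDiffOn ℝ ∞ S (Ioi (-x0))
  sG : ContDiffOn ℝ ∞ (K1 S) (Ioi (-x0))
  ode : ∀ x ∈ Ioi (-x0), HasDerivAt S (C - 1 / (2 * gof S x)) x
  lo : ∀ x ∈ Ioi (-x0), 1 / 10 ≤ gof S x
  hi : ∃ B, ∀ x, 0 ≤ x → gof S x ≤ B
  sym : ∀ k, 1 ≤ k → ∃ B, ∀ x, 1 ≤ x → x ^ 2 * |Th k (gof S) x| ≤ B
  s0 : 0 < S 0

/-- The backgrounds: `gs` (soliton on the half line) and `g1` (soliton glued to Fubini–Study on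
`[0, 1]`), with `1 / (ph g1) = 1 / ph + q1`, scalar curvature `S1` and error `D1`. -/
structure BG where
  gs : Fn
  g1 : Fn
  q1 : Fn
  S1 : Fn
  S11 : Fn
  S12 : Fn
  D1 : Fn
  B0 : ℝ
  s0 : ℝ
  one_le : 1 ≤ B0
  s0_pos : 0 < s0
  gs_ts : TS (Iio 0) (dom 0) gs
  gs_scale : ∀ μ t x, 0 < μ → gs (μ ^ 2 * t) (μ * x) = gs t x
  gs_bd : ∀ t < 0, ∀ x ∈ dom 0, 2 / B0 ≤ gs t x ∧ gs t x ≤ B0
  gs_sym : ∀ c, 1 ≤ c → ∃ B, ∀ t < 0, ∀ x ∈ dom 0,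
    om true (-t) ((x + lam t) ^ 2) c * |DT c gs t x| ≤ B
  g1_ts : TS (Iio 0) (dom 1) g1
  g1_bd : ∀ t < 0, ∀ x ∈ dom 1, 2 / B0 ≤ g1 t x ∧ g1 t x ≤ B0
  g1_sym : ∀ c, 1 ≤ c → ∃ B, ∀ t < 0, ∀ x ∈ dom 1,
    om true (-t) ((x + lam t) ^ 2) c * |DT c g1 t x| ≤ B
  g1_eq : ∀ t < 0, ∀ x ∈ Icc (0 : ℝ) (1 / 4), (1 - x) * g1 t x = gs t x
  g1_sm : ContDiffOn ℝ ∞ (fun p : ℝ × ℝ => g1 p.1 p.2) (Iio 0 ×ˢ Icc 0 1)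
  q1_sm : ContDiffOn ℝ ∞ (fun p : ℝ × ℝ => q1 p.1 p.2) (Iio 0 ×ˢ Icc 0 1)
  S1_sm : ContDiffOn ℝ ∞ (fun p : ℝ × ℝ => S1 p.1 p.2) (Iio 0 ×ˢ Icc 0 1)
  S11_sm : ContDiffOn ℝ ∞ (fun p : ℝ × ℝ => S11 p.1 p.2) (Iio 0 ×ˢ Icc 0 1)
  S12_sm : ContDiffOn ℝ ∞ (fun p : ℝ × ℝ => S12 p.1 p.2) (Iio 0 ×ˢ Icc 0 1)
  D1_sm : ContDiffOn ℝ ∞ (fun p : ℝ × ℝ => D1 p.1 p.2) (Iio 0 ×ˢ Icc 0 1)
  D1_ts : TS (Iio 0) (dom 1) D1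
  q1_eq : ∀ t < 0, ∀ x ∈ Icc (0 : ℝ) 1, 1 - g1 t x = ph 1 x * g1 t x * q1 t x
  S1_eq : ∀ t < 0, ∀ x ∈ Icc (0 : ℝ) 1, x ^ 9 * ph 1 x * g1 t x = x ^ 10 - Vol (S1 t) x
  S1_sp : ∀ t < 0, Sp 1 (S1 t) (S11 t) (S12 t)
  D1_eq : ∀ t < 0, ∀ x ∈ Icc (0 : ℝ) 1, HasDerivAt (fun s => q1 s x) (D1 t x - S12 t x) t
  D1_zero : ∀ t < 0, ∀ x ∈ Icc (0 : ℝ) 1, x ≤ 1 / 4 ∨ 1 / 2 ≤ x → D1 t x = 0
  D1_bd : ∀ j, ∃ B, ∀ t ∈ Ico (-1 : ℝ) 0, ∀ x ∈ dom 1, (-t) ^ j * |DT j D1 t x| ≤ B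
  S1_zero : ∀ t < 0, S1 t 0 = s0 / lam t

/-! ## The linearised equation at the soliton -/

/-- Solutions of the linearised equation on `t < T`, `x ≥ 0`. -/
def IsLin (b : BG) (T : ℝ) (F F1 F2 : Fn) : Prop :=
  Sys 0 0 0 (Iio T) b.gs 0 0 F F1 F2 fun t x => -(b.gs t x ^ 2 * F2 t x)

/-- All scaled energies are `O((-t) ^ σ)` on `t < -1`. -/
def EB (σ : ℝ) (F : Fn) : Prop :=
  ∀ j, ∃ C, ∀ t < -1, ∀ R, 0 < R → Et R 0 false j t F ≤ C * (-t) ^ σ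

/-- Ancient solutions of the linearised equation with growth exponent `σ`. -/
def IsAnc (b : BG) (σ : ℝ) (F : Fn) : Prop :=
  (∀ t x, ¬(t < -1 ∧ 0 ≤ x) → F t x = 0) ∧ (∃ F1 F2, IsLin b (-1) F F1 F2) ∧ EB σ F

/-- Local supremum bound for times `t < t1`. -/
def NB (σ R M t1 : ℝ) (F : Fn) : Prop :=
  ∀ t < t1, ∀ x ∈ Icc 0 (R * lam t), |F t x| ≤ M * lam t ^ (1 + σ)

/-- Parabolic rescaling towards the past (`μ ≥ 1`), cut to `t < -1`, `x ≥ 0`. -/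
def sc (σ μ : ℝ) (F : Fn) : Fn := fun t x =>
  if t < -1 ∧ 0 ≤ x then μ ^ (-(1 + σ)) * F (μ ^ 2 * t) (μ * x) else 0

/-- The finite-dimensional space of ancient solutions with its coordinates and dynamics. -/
structure LD (b : BG) (R0 : ℝ) where
  σ : ℝ
  d : ℕ
  pt : Fin d → ℝ
  px : Fin d → ℝ
  H : (Fin d → ℝ) →ₗ[ℝ] Fn
  tm : ℝ
  μ : ℝ
  A : (Fin d → ℝ) ≃L[ℝ] (Fin d → ℝ)
  C1 : ℝ
  σ_pos : 0 < σ
  σ_le : σ ≤ 1 / 4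
  tm_lt : tm < -1
  pt_mem : ∀ l, pt l ∈ Ico tm (-1)
  px_mem : ∀ l, px l ∈ Icc 0 (R0 * lam (pt l))
  mem : ∀ v, IsAnc b σ (H v)
  co_H : ∀ v l, H v (pt l) (px l) = v l
  surj : ∀ G, IsAnc b σ G → ∃ v, G = H v
  one_lt : 1 < μ
  μ_big : -(2 * tm) ≤ μ ^ 2
  A_inv : ∀ v, ‖A.symm v‖ ≤ ‖v‖ / 4
  co_sc : ∀ v l, sc σ μ (H v) (pt l) (px l) = A.symm v l
  C1_ge : 1 ≤ C1
  nb : ∀ v, NB σ R0 (C1 * ‖v‖) (-1) (H v)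
  lower : ∀ ν ∈ Icc 1 μ, ∀ v, ‖v‖ ≤ C1 * ‖fun l => sc σ ν (H v) (pt l) (px l)‖
  upper : ∀ ν, 1 ≤ ν → ∀ v, ‖fun l => sc σ ν (H v) (pt l) (px l)‖ ≤ C1 * ‖v‖

/-! ## The nonlinear problems -/

/-- Time cut-off, `0` before `2 tm`, `1` after `tm`. -/
def eta (tm t : ℝ) : ℝ := Real.smoothTransition ((t - 2 * tm) / -tm)

/-- The small parameter. -/
def kap (N : ℕ) : ℝ := 1 / (N : ℝ) ^ 4

/-- The background on `[0, 1 / kap N]`. -/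
def gN (b : BG) (N : ℕ) : Fn := fun t x => b.g1 (kap N ^ 2 * t) (kap N * x)

/-- The forcing that compensates the gluing error. -/
def dN (b : BG) (tm : ℝ) (N : ℕ) : Fn := fun t x =>
  -(kap N ^ 2 * ∫ s in (2 * tm)..t, eta tm s * b.D1 (kap N ^ 2 * s) (kap N * x))

/-- The forcing that creates the shooting parameter. -/
def eN {b : BG} {R0 : ℝ} (l : LD b R0) (N : ℕ) (v : Fin l.d → ℝ) : Fn := fun t x =>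
  deriv (eta l.tm) t * l.H v t x / (1 + x / N) ^ 3

/-- Solutions of the nonlinear problem on `t < T`. -/
def SolN {b : BG} {R0 : ℝ} (l : LD b R0) (N : ℕ) (v : Fin l.d → ℝ) (T : ℝ) (F F1 F2 ζ : Fn) :
    Prop :=
  Sys (kap N) (kap N) 0 (Iio T) (gN b N) (dN b l.tm N) (eN l N v) F F1 F2 ζ ∧
    Zero (kap N) (2 * l.tm) T F

/-- The bootstrap bounds. -/
def Boot {b : BG} {R0 : ℝ} (l : LD b R0) (K η : ℝ) (N : ℕ) (T : ℝ) (F ζ : Fn) : Prop :=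
  ∀ t < T, ∀ x ∈ dom (kap N), (x ≤ R0 * lam t → |F t x| ≤ K * lam t ^ (1 + l.σ)) ∧
    ∀ a ≤ 4, (-t) ^ a * |kap N * ph (kap N) x * DT a ζ t x| ≤ η

/-- The checkpoints. -/
def sk (μ : ℝ) (k : ℕ) : ℝ := -((μ ^ k)⁻¹ ^ 2)

open Classical in
/-- The coordinates of the rescaled solution at the `k`-th checkpoint. -/
def gk {b : BG} {R0 : ℝ} (l : LD b R0) (N k : ℕ) (v : Fin l.d → ℝ) : Fin l.d → ℝ := fun i =>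
  if h : ∃ F, ∃ F1 F2 ζ, SolN l N v (sk l.μ k) F F1 F2 ζ then
    ((l.μ ^ k)⁻¹) ^ (-(1 + l.σ)) *
      h.choose ((l.μ ^ k)⁻¹ ^ 2 * l.pt i) ((l.μ ^ k)⁻¹ * l.px i)
  else 0

/-! ## The geometric side -/

/-- The blowing-up solution in the momentum coordinate. -/
structure GD where
  a : ℝ
  s0 : ℝ
  Γ : Fn
  q : Fn
  S : Fn
  S1 : Fn
  S2 : Fn
  ha : a < 0
  s0_pos : 0 < s0
  Γ_sm : ContDiffOn ℝ ∞ (fun p : ℝ × ℝ => Γ p.1 p.2) (Ioo a 0 ×ˢ Icc 0 1)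
  q_sm : ContDiffOn ℝ ∞ (fun p : ℝ × ℝ => q p.1 p.2) (Ioo a 0 ×ˢ Icc 0 1)
  S_sm : ContDiffOn ℝ ∞ (fun p : ℝ × ℝ => S p.1 p.2) (Ioo a 0 ×ˢ Icc 0 1)
  S1_sm : ContDiffOn ℝ ∞ (fun p : ℝ × ℝ => S1 p.1 p.2) (Ioo a 0 ×ˢ Icc 0 1)
  S2_sm : ContDiffOn ℝ ∞ (fun p : ℝ × ℝ => S2 p.1 p.2) (Ioo a 0 ×ˢ Icc 0 1)
  pos : ∀ t ∈ Ioo a 0, ∀ x ∈ Icc (0 : ℝ) 1, 0 < Γ t x
  q_eq : ∀ t ∈ Ioo a 0, ∀ x ∈ Icc (0 : ℝ) 1, 1 - Γ t x = ph 1 x * Γ t x * q t x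
  S_eq : ∀ t ∈ Ioo a 0, ∀ x ∈ Icc (0 : ℝ) 1, x ^ 9 * ph 1 x * Γ t x = x ^ 10 - Vol (S t) x
  sp : ∀ t ∈ Ioo a 0, Sp 1 (S t) (S1 t) (S2 t)
  flow : ∀ t ∈ Ioo a 0, ∀ x ∈ Icc (0 : ℝ) 1, HasDerivAt (fun s => q s x) (-S2 t x) t
  lim : Tendsto (fun t => S t 0 * lam t) (𝓝[<] 0) (𝓝 s0)

/-- Derivative within `[0, 1]`. -/
def dw (f : ℝ → ℝ) (x : ℝ) : ℝ := derivWithin f (Icc 0 1) x

/-- `τ / x` for the potential `log (1 + s) + ψ (x)`, `x = s / (1 + s)`, `s = |z| ^ 2`. -/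
def aa (ψ : ℝ → ℝ) (x : ℝ) : ℝ := 1 + (1 - x) * dw ψ x

/-- `dτ / dx`. -/
def tx (ψ : ℝ → ℝ) (x : ℝ) : ℝ := 1 + (1 - 2 * x) * dw ψ x + x * (1 - x) * dw (dw ψ) x

/-- The smooth part of the logarithm of the volume form. -/
def mm (ψ : ℝ → ℝ) (x : ℝ) : ℝ := 9 * Real.log (aa ψ x) + Real.log (tx ψ x)

/-- The scalar curvature of the radial potential. -/
def curv (ψ : ℝ → ℝ) (x : ℝ) : ℝ :=
  9 * (11 - (1 - x) * dw (mm ψ) x) / aa ψ x +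
    dw (fun y => 11 * y - y * (1 - y) * dw (mm ψ) y) x / tx ψ x

/-- The blowing-up solution as a radial Kähler potential. -/
structure Pot where
  a : ℝ
  s0 : ℝ
  ψ : Fn
  ha : a < 0
  s0_pos : 0 < s0
  sm : ContDiffOn ℝ ∞ (fun p : ℝ × ℝ => ψ p.1 p.2) (Ioo a 0 ×ˢ Icc 0 1)
  aa_pos : ∀ t ∈ Ioo a 0, ∀ x ∈ Icc (0 : ℝ) 1, 0 < aa (ψ t) x
  tx_pos : ∀ t ∈ Ioo a 0, ∀ x ∈ Icc (0 : ℝ) 1, 0 < tx (ψ t) x
  flow : ∀ t ∈ Ioo a 0, ∀ x ∈ Ico (0 : ℝ) 1,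
    HasDerivAt (fun s => ψ s x) (curv (ψ t) x - 110) t
  lim : Tendsto (fun t => curv (ψ t) 0 * lam t) (𝓝[<] 0) (𝓝 s0)

end Crest.Agent.R213
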