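import Crest.Agent.R213.Force

/-!
# Row 213: the correction `(1 - η) H`
-/

set_option autoImplicit false

noncomputable section

namespace Crest.Agent.R213.F1A

open Set Filter Topology
open scoped ContDiff

variable {b : BG} {R0 C0 tm : ℝ} {u : Fn}

/-- switching off -/
def cut (tm : ℝ) (u : Fn) : Fn := fun t x => (1 - eta tm t) * u t x

theorem one_sub_ts (tm : ℝ) : TS (Iio (-1)) (dom 0) fun s _ => 1 - eta tm s :=
  TS.time (f := fun s => 1 - eta tm s) isOpen_Iio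
    (contDiff_const.sub (contDiff_eta tm)).contDiffOn

theorem cut_zero (h : tm < -1) (u : Fn) {t : ℝ} (ht : tm < t) (x : ℝ) :
    cut tm u t x = (0 : Fn) t x := by
  simp [cut, eta_one (by linarith : tm < 0) ht.le]

theorem cut_ts (h : tm < -1) (hu : TS (Iio (-1)) (dom 0) u) : TS (Iio 0) (dom 0) (cut tm u) := by
  refine TS.of_local fun t ht => ?_
  rcases lt_or_ge t (-1) with h1 | h1
  · exact ⟨Iio (-1), isOpen_Iio, h1, Iio_subset_Iio (by norm_num),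
      (one_sub_ts tm).mul isOpen_Iio hu⟩
  · exact ⟨Ioo tm 0, isOpen_Ioo, ⟨h.trans_le h1, ht⟩, Ioo_subset_Iio_self,
      TS.zero.congr isOpen_Ioo fun s hs x _ => cut_zero h u hs.1 x⟩

theorem DT_cut_zero (h : tm < -1) (u : Fn) (j : ℕ) {t : ℝ} (ht : -1 ≤ t) (x : ℝ) :
    DT j (cut tm u) t x = 0 := by
  rw [DT_congr isOpen_Ioi (fun s hs => cut_zero h u hs x) j t (h.trans_le ht), DT_zero]
  rfl

theorem deriv_eta_zero (h : tm < -1) {t : ℝ} (ht : -1 ≤ t) : deriv (eta tm) t = 0 := by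
  simpa using iteratedDeriv_eta_zero (by linarith : tm < 0) (.inr (h.le.trans ht)) 0

theorem cut_bd (h : tm < -1) (j : ℕ) : ∃ A, 0 < A ∧ ∀ u : Fn, TS (Iio (-1)) (dom 0) u →
    ∀ t < -1, ∀ x, 0 ≤ x → (-t) ^ j * |DT j (cut tm u) t x| ≤
      A * ∑ i ∈ Finset.range (j + 1), (-t) ^ i * |DT i u t x| := by
  choose C hC hb using eta_bd (by linarith : tm < 0)
  have hS : 0 ≤ ∑ i ∈ Finset.range (j + 1), C i := Finset.sum_nonneg fun i _ => (hC i).le
  refine ⟨2 ^ j * (1 + ∑ i ∈ Finset.range (j + 1), C i), by positivity, fun u hu t ht x hx => ?_⟩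
  have h0 : 0 < -t := by linarith
  refine bd_mul isOpen_Iio (one_sub_ts tm) hu ht (dom_zero ▸ hx) h0.le (fun i hi => ?_)
    fun i hi => Finset.single_le_sum (f := fun i => (-t) ^ i * |DT i u t x|)
      (fun i _ => by positivity) (Finset.mem_range.2 (Nat.lt_succ_of_le hi))
  rw [DT_time (fun s => 1 - eta tm s)]
  rcases i.eq_zero_or_pos with rfl | hi0
  · have := eta_mem tm t
    rw [pow_zero, one_mul, iteratedDeriv_zero, abs_of_nonneg (by linarith [this.2])]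
    linarith [this.1]
  · rw [iteratedDeriv_const_sub hi0, iteratedDeriv_neg, abs_neg]
    linarith [hb i t (by linarith), Finset.single_le_sum (fun i _ => (hC i).le)
      (Finset.mem_range.2 (Nat.lt_succ_of_le hi))]

theorem sys_cut (l : LD b R0) (v : Fin l.d → ℝ) {H1 H2 : Fn} (h : IsLin b (-1) (l.H v) H1 H2) :
    Sys 0 0 0 (Iio 0) b.gs 0 (fun t x => -(deriv (eta l.tm) t * l.H v t x)) (cut l.tm (l.H v))
      (cut l.tm H1) (cut l.tm H2) (cut l.tm fun t x => -(b.gs t x ^ 2 * H2 t x)) := by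
  have hm := l.tm_lt
  have hp : ∀ t ∈ Iio (0 : ℝ), ∀ x ∈ dom 0, 0 < b.gs t x := fun t ht x hx =>
    (div_pos two_pos (one_pos.trans_le b.one_le)).trans_le (b.gs_bd t ht x hx).1
  have hd : ∀ {u u1 : Fn}, (∀ t ∈ Iio (-1 : ℝ), ∀ x, 0 < x → 0 * x < 1 →
      HasDerivAt (u t) (u1 t x) x) → ∀ t ∈ Iio (0 : ℝ), ∀ x, 0 < x → 0 * x < 1 →
      HasDerivAt (cut l.tm u t) (cut l.tm u1 t x) x := by
    intro u u1 hu t _ x h1 h2
    rcases lt_or_ge t (-1) with ht | ht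
    · exact (hu t ht x h1 h2).const_mul _
    · rw [funext (cut_zero hm u (hm.trans_le ht)), cut_zero hm u1 (hm.trans_le ht)]
      exact hasDerivAt_const _ _
  refine ⟨le_rfl, b.gs_ts, TS.zero, (FC.PP_ts (eta_ep l) v).neg.congr isOpen_Iio
    fun t _ x _ => by rw [FC.PP, mul_comm], cut_ts hm h.tF, cut_ts hm h.tF1, cut_ts hm h.tF2,
    cut_ts hm h.tζ, hd h.d1, hd h.d2, fun t _ x hx => ?_, fun t _ x _ => ?_, hp,
    fun t ht x hx => by simpa using hp t ht x hx⟩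
  · rcases lt_or_ge t (-1) with ht | ht
    · rw [vol_congr hx.1 (k' := fun y => (1 - eta l.tm t) * (Dt (l.H v) t y - (0 : Fn) t y))
        fun y hy => ?_, vol_cmul, ← h.vol t ht x hx]
      · simp only [cut]
        ring
      · have h1 : HasDerivAt (fun s => cut l.tm (l.H v) s y) _ t :=
          (((contDiff_eta l.tm).differentiable (by simp) t).hasDerivAt.const_sub 1).mul
            ((h.tF 0).2 t ht y (dom_zero ▸ hy.1))
        rw [Dt, h1.deriv]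
        simp only [DT, Pi.zero_apply]
        ring
    · rw [vol_congr hx.1 (k' := fun _ => 0) fun y _ => ?_, cut_zero hm _ (hm.trans_le ht)]
      · simp [Vol]
      · rw [deriv_eta_zero hm ht, show Dt (cut l.tm (l.H v)) t y = 0 from DT_cut_zero hm _ 1 ht y]
        simp
  · simp only [cut, Pi.zero_apply]
    ring

theorem energy (h0 : H0P b.B0 R0 C0) (l : LD b R0) (j : ℕ) : ∃ C, ∀ v, ‖v‖ ≤ 3 → ∀ t < 0,
    ∀ R, 0 < R → Et R 0 false j t (cut l.tm (l.H v)) ≤ C * (-t) ^ l.σ := by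
  obtain ⟨A, hA, hb⟩ := cut_bd l.tm_lt j
  choose C hC hl using fun i => la1 b h0 i 1
  have hM : 0 < l.C1 * 3 := by linarith [l.C1_ge]
  have hK : 0 ≤ ∑ i ∈ Finset.range (j + 1), C i * (l.C1 * 3) ^ 2 :=
    Finset.sum_nonneg fun i _ => mul_nonneg (hC i).le (by positivity)
  refine ⟨A ^ 2 * (j + 1 : ℕ) * ∑ i ∈ Finset.range (j + 1), C i * (l.C1 * 3) ^ 2,
    fun v hv t ht0 L hL => ?_⟩
  rcases lt_or_ge t (-1) with ht | ht
  · have hD : Icc 0 L ⊆ dom 0 := fun x hx => dom_zero ▸ hx.1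
    refine (mul_le_mul_of_nonneg_left (Iw_le_sum (C := A) (n := j + 1)
      (v := fun i => DT i (l.H v) t) ht0 hL.le
      (((cut_ts l.tm_lt (FC.H_ts v)).cont_x j ht0).mono hD)
      (fun i => ((FC.H_ts v).cont_x i ht).mono hD) fun x hx => by
        simpa only [om_false] using hb _ (FC.H_ts v) t ht x hx.1) (lam_pos ht0).le).trans ?_
    rw [mul_left_comm, mul_assoc (A ^ 2 * _), Finset.mul_sum, Finset.sum_mul]
    exact mul_le_mul_of_nonneg_left (Finset.sum_le_sum fun i _ => hl i _ _ _ _ l.σ_pos.le l.σ_le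
      hM.le le_rfl le_rfl (l.mem v) (FC.nb3 hv) t ht L hL) (by positivity)
  · rw [Et, funext (DT_cut_zero l.tm_lt _ j ht), FC.Iw_zero, mul_zero]
    exact mul_nonneg (by positivity) (Real.rpow_nonneg (by linarith) _)

theorem pointwise (h0 : H0P b.B0 R0 C0) (l : LD b R0) (j : ℕ) (R : ℝ) : ∃ C, ∀ v, ‖v‖ ≤ 3 →
    ∀ H1 H2 : Fn, IsLin b (-1) (l.H v) H1 H2 → ∀ t < 0, ∀ x ∈ Icc 0 (R * lam t),
      (-t) ^ j * |DT j (cut l.tm (l.H v)) t x| ≤ C * lam t ^ (1 + l.σ) ∧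
      (-t) ^ j * lam t * |DT j (cut l.tm H1) t x| ≤ C * lam t ^ (1 + l.σ) ∧
      (-t) ^ (j + 1) * |DT j (cut l.tm H2) t x| ≤ C * lam t ^ (1 + l.σ) ∧
      -t * |deriv (eta l.tm) t * l.H v t x| ≤ C * lam t ^ (1 + l.σ) := by
  have hm := l.tm_lt
  obtain ⟨A, hA, hb⟩ := cut_bd hm j
  obtain ⟨D, hD, hd⟩ := eta_bd (by linarith : l.tm < 0) 1
  choose C hC hl using fun i => la2 b h0 i R 1
  have hM : 0 < l.C1 * 3 := by linarith [l.C1_ge]
  have hK : 0 ≤ A * ∑ i ∈ Finset.range (j + 1), C i * (l.C1 * 3) :=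
    mul_nonneg hA.le (Finset.sum_nonneg fun i _ => (mul_pos (hC i) hM).le)
  have hK' : 0 ≤ D * (C 0 * (l.C1 * 3)) := (mul_pos hD (mul_pos (hC 0) hM)).le
  refine ⟨A * ∑ i ∈ Finset.range (j + 1), C i * (l.C1 * 3) + D * (C 0 * (l.C1 * 3)),
    fun v hv H1 H2 h t ht0 x hx => ?_⟩
  have hE : 0 ≤ lam t ^ (1 + l.σ) := Real.rpow_nonneg (lam_pos ht0).le _
  rcases lt_or_ge t (-1) with ht | ht
  · have h1 := fun i => hl i _ _ _ _ _ _ l.σ_pos.le l.σ_le hM.le le_rfl le_rfl (l.mem v) h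
      (FC.nb3 hv) t ht x hx
    have key : ∀ (u : Fn) (w : ℝ), TS (Iio (-1)) (dom 0) u → 0 ≤ w →
        (∀ i, (-t) ^ i * w * |DT i u t x| ≤ C i * (l.C1 * 3) * lam t ^ (1 + l.σ)) →
        (-t) ^ j * w * |DT j (cut l.tm u) t x| ≤
          (A * ∑ i ∈ Finset.range (j + 1), C i * (l.C1 * 3) + D * (C 0 * (l.C1 * 3))) *
            lam t ^ (1 + l.σ) := by
      intro u w hu hw hi
      refine le_trans ?_ (mul_le_mul_of_nonneg_right (le_add_of_nonneg_right hK') hE)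
      rw [mul_right_comm, mul_assoc A, Finset.sum_mul]
      refine (mul_le_mul_of_nonneg_right (hb u hu t ht x hx.1) hw).trans ?_
      rw [mul_assoc, Finset.sum_mul]
      exact mul_le_mul_of_nonneg_left (Finset.sum_le_sum fun i _ =>
        (mul_right_comm _ _ _).trans_le (hi i)) hA.le
    refine ⟨by simpa using key _ 1 h.tF zero_le_one fun i => by simpa using (h1 i).1,
      key _ _ h.tF1 (lam_pos ht0).le fun i => (h1 i).2.1,
      key _ (-t) h.tF2 (by linarith) fun i => (h1 i).2.2, ?_⟩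
    refine le_trans ?_ (mul_le_mul_of_nonneg_right (le_add_of_nonneg_left hK) hE)
    have h2 := hd t ht0
    have h3 := (h1 0).1
    rw [pow_one, iteratedDeriv_one] at h2
    rw [pow_zero, one_mul] at h3
    rw [abs_mul, ← mul_assoc, mul_assoc D]
    exact mul_le_mul h2 h3 (abs_nonneg _) hD.le
  · simp only [DT_cut_zero hm _ j ht, deriv_eta_zero hm ht, zero_mul, abs_zero, mul_zero, and_self]
    positivity

theorem corr (h0 : H0P b.B0 R0 C0) (l : LD b R0) :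
    (∀ v, ∃ G1 G2 Z : Fn, Sys 0 0 0 (Iio 0) b.gs 0
        (fun t x => -(deriv (eta l.tm) t * l.H v t x))
        (fun t x => (1 - eta l.tm t) * l.H v t x) G1 G2 Z) ∧
    (∀ j, ∃ C, ∀ v, ‖v‖ ≤ 3 → ∀ t < 0, ∀ R, 0 < R →
        Et R 0 false j t (fun t x => (1 - eta l.tm t) * l.H v t x) ≤ C * (-t) ^ l.σ) ∧
    ∀ (j : ℕ) (R : ℝ), ∃ C, ∀ v, ‖v‖ ≤ 3 → ∀ G1 G2 Z : Fn, Sys 0 0 0 (Iio 0) b.gs 0
        (fun t x => -(deriv (eta l.tm) t * l.H v t x))
        (fun t x => (1 - eta l.tm t) * l.H v t x) G1 G2 Z → ∀ t < 0, ∀ x ∈ Icc 0 (R * lam t),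
      (-t) ^ j * |DT j (fun t x => (1 - eta l.tm t) * l.H v t x) t x| ≤ C * lam t ^ (1 + l.σ) ∧
      (-t) ^ j * lam t * |DT j G1 t x| ≤ C * lam t ^ (1 + l.σ) ∧
      (-t) ^ (j + 1) * |DT j G2 t x| ≤ C * lam t ^ (1 + l.σ) ∧
      -t * |deriv (eta l.tm) t * l.H v t x| ≤ C * lam t ^ (1 + l.σ) := by
  refine ⟨fun v => ?_, energy h0 l, fun j R => (pointwise h0 l j R).imp
    fun C hC v hv G1 G2 Z hG t ht x hx => ?_⟩
  · obtain ⟨H1, H2, h⟩ := (l.mem v).2.1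
    exact ⟨_, _, _, sys_cut l v h⟩
  · obtain ⟨H1, H2, h⟩ := (l.mem v).2.1
    have e := fun s (hs : s ∈ Iio (0 : ℝ)) =>
      hG.eq_of_eq (sys_cut l v h) hs (fun _ _ => rfl) x (dom_zero ▸ hx.1)
    rw [DT_congr isOpen_Iio (fun s hs => (e s hs).1) j t ht,
      DT_congr isOpen_Iio (fun s hs => (e s hs).2) j t ht]
    exact hC v hv H1 H2 h t ht x hx

end Crest.Agent.R213.F1A
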