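import Crest.Agent.R213.AA
import Crest.Agent.R213.SysB

/-!
# Row 213: lemmas for `limLin`
-/

set_option autoImplicit false

noncomputable section

namespace Crest.Agent.R213

open Set Filter Topology MeasureTheory
open scoped ContDiff

theorem LLA_lip {f f1 : ℝ → ℝ} {a b C : ℝ} (hc : ContinuousOn f (Icc a b))
    (hd : ∀ x ∈ Ioo a b, HasDerivAt f (f1 x) x) (hb : ∀ x ∈ Ioo a b, |f1 x| ≤ C) {x y : ℝ}
    (hx : x ∈ Icc a b) (hy : y ∈ Icc a b) : |f x - f y| ≤ C * |x - y| := by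
  wlog h : y < x generalizing x y
  · rcases (not_lt.1 h).eq_or_lt with h | h
    · simp [h]
    · rw [abs_sub_comm, abs_sub_comm x]
      exact this hy hx h
  have hs : Ioo y x ⊆ Ioo a b := Ioo_subset_Ioo hy.1 hx.2
  obtain ⟨c, h1, h2⟩ := exists_hasDerivAt_eq_slope f f1 h (hc.mono (Icc_subset_Icc hy.1 hx.2))
    fun z hz => hd z (hs hz)
  rw [eq_div_iff (by linarith)] at h2
  rw [← h2, abs_mul]
  exact mul_le_mul_of_nonneg_right (hb c (hs h1)) (abs_nonneg _)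

theorem LLA_tendsto {f : ℕ → ℝ} {a : ℝ} (h : ∀ η, 0 < η → ∀ᶠ k in atTop, |f k - a| ≤ η) :
    Tendsto f atTop (𝓝 a) :=
  Metric.tendsto_nhds.2 fun η hη => (h (η / 2) (by linarith)).mono fun k hk => by
    rw [Real.dist_eq]
    linarith

theorem LLA_aa (u u1 : ℕ → Fn)
    (hs : ∀ R, 0 < R → ∀ᶠ k in atTop, TS (Iio (-1)) (Icc 0 R) (u k) ∧
      TS (Iio (-1)) (Icc 0 R) (u1 k) ∧ ∀ t < -1, ∀ x ∈ Ioo 0 R, HasDerivAt (u k t) (u1 k t x) x)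
    (hb : ∀ (j : ℕ) (ta R : ℝ), ∃ C, ∀ᶠ k in atTop, ∀ t ∈ Ico ta (-1), ∀ x ∈ Icc 0 R,
      |DT j (u k) t x| ≤ C ∧ |DT j (u1 k) t x| ≤ C) :
    ∃ φ : ℕ → ℕ, StrictMono φ ∧ ∃ v : Fn, TS (Iio (-1)) (dom 0) v ∧
      ∀ (j : ℕ) (ta : ℝ), ∀ tb < -1, ∀ R η, 0 < η → ∀ᶠ k in atTop, ∀ t ∈ Icc ta tb,
        ∀ x ∈ Icc 0 R, |DT j (u (φ k)) t x - DT j v t x| ≤ η := by
  have hD : ∀ R : ℝ, dom 0 ∩ Iic R ⊆ Icc 0 (max R 1) := fun R x hx =>
    ⟨hx.1.1, le_max_of_le_left hx.2⟩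
  have hR : ∀ R : ℝ, 0 < max R 1 := fun R => lt_max_of_lt_right one_pos
  obtain ⟨φ, hφ, v, hv, h⟩ := aa_ts (-1) 0 le_rfl u
    (fun tb htb R => (hs _ (hR R)).mono fun k hk => hk.1.mono (Iio_subset_Iio htb.le) (hD R))
    fun j ta tb htb R => by
      obtain ⟨C, hC⟩ := hb j ta (max R 1)
      refine ⟨C, ?_⟩
      filter_upwards [hC, hs _ (hR R)] with k h1 ⟨h2, h3, h4⟩ t ht x hx
      have ht' : t < -1 := ht.2.trans_lt htb
      exact ⟨(h1 t ⟨ht.1, ht'⟩ x (hD R hx)).1, fun y hy => LLA_lip (h2.cont_x j ht')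
        (sp_level isOpen_Iio h2 h3 h4 j t ht')
        (fun z hz => (h1 t ⟨ht.1, ht'⟩ z (Ioo_subset_Icc_self hz)).2) (hD R hx) (hD R hy)⟩
  exact ⟨φ, hφ, v, hv, fun j ta tb htb R η hη => (h j ta tb htb R η hη).mono
    fun k hk t ht x hx => hk t ht x ⟨⟨hx.1, by simp⟩, hx.2⟩⟩

theorem LLA_int {f : ℕ → ℝ → ℝ} {g B : ℝ → ℝ} {R : ℝ} (hR : 0 ≤ R) (hB : ContinuousOn B (Icc 0 R))
    (h : ∀ᶠ k in atTop, ContinuousOn (f k) (Icc 0 R) ∧ ∀ x ∈ Icc 0 R, |f k x| ≤ B x)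
    (hf : ∀ x ∈ Ioc 0 R, Tendsto (fun k => f k x) atTop (𝓝 (g x))) :
    Tendsto (fun k => ∫ x in (0 : ℝ)..R, f k x) atTop (𝓝 (∫ x in (0 : ℝ)..R, g x)) := by
  refine intervalIntegral.tendsto_integral_filter_of_dominated_convergence B ?_ ?_
    (hB.intervalIntegrable_of_Icc hR) ?_ <;> rw [uIoc_of_le hR]
  · exact h.mono fun k hk => (hk.1.mono Ioc_subset_Icc_self).aestronglyMeasurable measurableSet_Ioc
  · exact h.mono fun k hk => Eventually.of_forall fun x hx => hk.2 x (Ioc_subset_Icc_self hx)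
  · exact Eventually.of_forall hf

theorem LLA_deriv {f f1 : ℕ → ℝ → ℝ} {g g1 : ℝ → ℝ} {R C : ℝ}
    (h : ∀ᶠ k in atTop, ContinuousOn (f k) (Icc 0 R) ∧ ContinuousOn (f1 k) (Icc 0 R) ∧
      (∀ x ∈ Ioo 0 R, HasDerivAt (f k) (f1 k x) x) ∧ ∀ x ∈ Icc 0 R, |f1 k x| ≤ C)
    (hf : ∀ x ∈ Icc 0 R, Tendsto (fun k => f k x) atTop (𝓝 (g x)))
    (hf1 : ∀ x ∈ Ioc 0 R, Tendsto (fun k => f1 k x) atTop (𝓝 (g1 x)))
    (hg : ContinuousOn g1 (Icc 0 R)) {x : ℝ} (hx : x ∈ Ioo 0 R) : HasDerivAt g (g1 x) x := by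
  have key : ∀ y ∈ Ioo 0 R, g y = (∫ z in (0 : ℝ)..y, g1 z) + g 0 := fun y hy => by
    have hs : Icc 0 y ⊆ Icc 0 R := Icc_subset_Icc_right hy.2.le
    have h1 := LLA_int hy.1.le (B := fun _ => C) continuousOn_const
      (h.mono fun k hk => ⟨hk.2.1.mono hs, fun z hz => hk.2.2.2 z (hs hz)⟩)
      fun z hz => hf1 z ⟨hz.1, hz.2.trans hy.2.le⟩
    refine tendsto_nhds_unique (hf y (Ioo_subset_Icc_self hy))
      ((h1.add (hf 0 ⟨le_rfl, (hy.1.trans hy.2).le⟩)).congr' (h.mono fun k hk => ?_))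
    simp only
    rw [intervalIntegral.integral_eq_sub_of_hasDerivAt_of_le hy.1.le (hk.1.mono hs)
      (fun z hz => hk.2.2.1 z ⟨hz.1, hz.2.trans hy.2⟩)
      ((hk.2.1.mono hs).intervalIntegrable_of_Icc hy.1.le), sub_add_cancel]
  have h1 := hg.mono Ioo_subset_Icc_self
  exact ((intervalIntegral.integral_hasDerivAt_right
    ((hg.mono (Icc_subset_Icc_right hx.2.le)).intervalIntegrable_of_Icc hx.1.le)
    (h1.stronglyMeasurableAtFilter isOpen_Ioo x hx)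
    (h1.continuousAt (isOpen_Ioo.mem_nhds hx))).add_const (g 0)).congr_of_eventuallyEq
    (eventually_of_mem (isOpen_Ioo.mem_nhds hx) key)

/-- The limit solves the linearised equation. -/
theorem LLA_lin (b : BG) (G G1 G2 Z : ℕ → Fn) (v v1 : Fn)
    (hs : ∀ R, 0 < R → ∀ᶠ k in atTop, TS (Iio (-1)) (Icc 0 R) (G k) ∧
      TS (Iio (-1)) (Icc 0 R) (G1 k) ∧ TS (Iio (-1)) (Icc 0 R) (G2 k) ∧
      ∀ t < -1, Sp R (G k t) (G1 k t) (G2 k t) ∧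
        ∀ x ∈ Icc 0 R, x ^ 11 * Z k t x = Vol (Dt (G k) t) x)
    (hb : ∀ (j : ℕ) (ta R : ℝ), ∃ C, ∀ᶠ k in atTop, ∀ t ∈ Ico ta (-1), ∀ x ∈ Icc 0 R,
      |DT j (G k) t x| ≤ C ∧ |DT j (G1 k) t x| ≤ C ∧ |DT j (G2 k) t x| ≤ C)
    (hZ : ∀ t < -1, ∀ x, 0 < x →
      Tendsto (fun k => Z k t x + b.gs t x ^ 2 * G2 k t x) atTop (𝓝 0))
    (hv : TS (Iio (-1)) (dom 0) v) (hv1 : TS (Iio (-1)) (dom 0) v1)
    (c0 : ∀ j, ∀ t < -1, ∀ R η, 0 < η → ∀ᶠ k in atTop, ∀ x ∈ Icc 0 R,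
      |DT j (G k) t x - DT j v t x| ≤ η)
    (c1 : ∀ t < -1, ∀ x, 0 ≤ x → Tendsto (fun k => G1 k t x) atTop (𝓝 (v1 t x))) :
    ∃ v2, IsLin b (-1) v v1 v2 := by
  have hI : IsOpen (Iio (-1 : ℝ)) := isOpen_Iio
  have hg : TS (Iio (-1)) (dom 0) b.gs := b.gs_ts.mono (Iio_subset_Iio (by norm_num)) le_rfl
  have gp : ∀ t < -1, ∀ x ∈ dom 0, 0 < b.gs t x := fun t ht x hx =>
    lt_of_lt_of_le (div_pos two_pos (by linarith [b.one_le])) (b.gs_bd t (by linarith) x hx).1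
  have hD : ∀ R : ℝ, Icc 0 R ⊆ dom 0 := fun R => Icc_subset_dom le_rfl (by simp)
  have hK : TS (Iio (-1)) (dom 0) fun t x => K1 (Dt v t) x :=
    (TS.int_param hI (hv.dt 1) (c := fun θ _ => (1 - θ) * θ ^ 9) (m := fun θ x => θ * x)
      (by fun_prop) (by fun_prop) fun θ hθ x hx => ⟨mul_nonneg hθ.1 hx.1, by simp⟩).1
  have hi := hg.inv hI fun t ht x hx => (gp t ht x hx).ne'
  have h2 := (hK.mul hI (hi.mul hI hi)).neg
  have c2 : ∀ t < -1, ∀ x, 0 < x → Tendsto (fun k => G2 k t x) atTop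
      (𝓝 (-(K1 (Dt v t) x * ((b.gs t x)⁻¹ * (b.gs t x)⁻¹)))) := fun t ht x hx => by
    have h1 : Tendsto (fun k => Z k t x) atTop (𝓝 (K1 (Dt v t) x)) := LLA_tendsto fun η hη => by
      filter_upwards [hs x hx, c0 1 t ht x η hη] with k ⟨k0, _, _, k1⟩ k2
      have k3 := vol_sub hx.le (k0.cont_x 1 ht) ((hv.cont_x 1 ht).mono (hD x))
      have k4 := (k1 t ht).2 x ⟨hx.le, le_rfl⟩
      have k5 := abs_K1_le hx.le k2
      have k6 : K1 (fun y => DT 1 (G k) t y - DT 1 v t y) x = Z k t x - K1 (Dt v t) x := by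
        refine mul_left_cancel₀ (pow_pos hx 11).ne' ?_
        rw [← vol_eq_K1, k3, mul_sub, k4, ← vol_eq_K1]
        rfl
      rw [← k6]
      linarith
    have h3 := (gp t ht x ⟨hx.le, by simp⟩).ne'
    have h4 := ((hZ t ht x hx).sub h1).mul_const ((b.gs t x)⁻¹ * (b.gs t x)⁻¹)
    rw [zero_sub, neg_mul] at h4
    refine h4.congr fun k => ?_
    field_simp
    ring
  refine ⟨_, le_rfl, hg, TS.zero, TS.zero, hv, hv1, h2, ?_, fun t ht x hx _ => ?_,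
    fun t ht x hx _ => ?_, fun t ht x hx => ?_, fun t ht x hx => ?_, gp, fun t ht x hx => ?_⟩
  · simpa only [sq] using ((hg.mul hI hg).mul hI h2).neg
  · obtain ⟨C, hC⟩ := hb 0 t (x + 1)
    refine LLA_deriv (f := fun k => G k t) (f1 := fun k => G1 k t) (R := x + 1) (C := C) ?_
      (fun y hy => LLA_tendsto fun η hη => (c0 0 t ht _ η hη).mono fun k hk => hk y hy)
      (fun y hy => c1 t ht y hy.1.le) ((hv1.cont_x 0 ht).mono (hD _)) ⟨hx, by linarith⟩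
    filter_upwards [hs (x + 1) (by linarith), hC] with k ⟨_, _, _, k1⟩ k2
    exact ⟨(k1 t ht).1.c0, (k1 t ht).1.c1, (k1 t ht).1.d1, fun y hy => (k2 t ⟨le_rfl, ht⟩ y hy).2.1⟩
  · obtain ⟨C, hC⟩ := hb 0 t (x + 1)
    refine LLA_deriv (f := fun k => G1 k t) (f1 := fun k => G2 k t) (R := x + 1) (C := C) ?_
      (fun y hy => c1 t ht y hy.1) (fun y hy => c2 t ht y hy.1) ((h2.cont_x 0 ht).mono (hD _))
      ⟨hx, by linarith⟩
    filter_upwards [hs (x + 1) (by linarith), hC] with k ⟨_, _, _, k1⟩ k2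
    exact ⟨(k1 t ht).1.c1, (k1 t ht).1.c2, (k1 t ht).1.d2, fun y hy => (k2 t ⟨le_rfl, ht⟩ y hy).2.2⟩
  · have h3 := (gp t ht x hx).ne'
    simp only [Pi.zero_apply, sub_zero, zero_mul, ph, vol_eq_K1]
    field_simp
  · simp only [Pi.zero_apply]
    ring
  · simpa using gp t ht x hx

/-- The energies pass to the limit. -/
theorem LLA_Et {G : ℕ → Fn} {v : Fn} {R t C : ℝ} {j : ℕ} (hR : 0 ≤ R) (ht : t < 0)
    (h : ∀ᶠ k in atTop, ContinuousOn (DT j (G k) t) (Icc 0 R) ∧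
      ∀ x ∈ Icc 0 R, |DT j (G k) t x| ≤ C)
    (hf : ∀ x ∈ Icc 0 R, Tendsto (fun k => DT j (G k) t x) atTop (𝓝 (DT j v t x))) :
    Tendsto (fun k => Et R 0 false j t (G k)) atTop (𝓝 (Et R 0 false j t v)) := by
  have hw : ContinuousOn (fun x => x ^ 9 * (1 - 0 * x) ^ 4 * wt false 13 j t x) (Icc 0 R) :=
    ContinuousOn.mul (by fun_prop) ((continuousOn_wt false 13 j ht).mono Icc_subset_Ici_self)
  refine Tendsto.const_mul _ (LLA_int hR (hw.abs.mul (continuousOn_const (c := C ^ 2)))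
    (h.mono fun k hk => ⟨hw.mul (hk.1.pow 2), fun x hx => ?_⟩)
    fun x hx => ((hf x (Ioc_subset_Icc_self hx)).pow 2).const_mul _)
  rw [abs_mul, abs_pow (DT _ _ _ _)]
  exact mul_le_mul_of_nonneg_left (pow_le_pow_left₀ (abs_nonneg _) (hk.2 x hx) 2) (abs_nonneg _)

/-- Uniform convergence up to the final time. -/
theorem LLA_unif {G : ℕ → Fn} {v : Fn} {ta R C η : ℝ} (hη : 0 < η) (hv : TS (Iio (-1)) (dom 0) v)
    (h : ∀ᶠ k in atTop, TS (Iio (-1)) (Icc 0 R) (G k) ∧ ∀ t ∈ Ico ta (-1), ∀ x ∈ Icc 0 R,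
      |DT 1 (G k) t x| ≤ C)
    (c : ∀ j ta, ∀ tb < -1, ∀ η, 0 < η → ∀ᶠ k in atTop, ∀ t ∈ Icc ta tb, ∀ x ∈ Icc 0 R,
      |DT j (G k) t x - DT j v t x| ≤ η) :
    ∀ᶠ k in atTop, ∀ t ∈ Ico ta (-1), ∀ x ∈ Icc 0 R, |G k t x - v t x| ≤ η := by
  rcases le_or_gt (-1) ta with h0 | h0
  · exact Eventually.of_forall fun k t ht => absurd (ht.1.trans_lt ht.2) (not_lt.2 h0)
  have hC : ∀ t ∈ Ico ta (-1), ∀ x ∈ Icc 0 R, |DT 1 v t x| ≤ C := fun t ht x hx =>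
    le_of_tendsto (LLA_tendsto fun η hη => (c 1 t t ht.2 η hη).mono fun k hk =>
      hk t ⟨le_rfl, le_rfl⟩ x hx).abs (h.mono fun k hk => hk.2 t ht x hx)
  have hδ : 0 < η / (4 * (|C| + 1)) := by positivity
  have hb : max ta (-1 - η / (4 * (|C| + 1))) < -1 := max_lt h0 (by linarith)
  filter_upwards [h, c 0 ta _ hb (η / 2) (by linarith)] with k ⟨k1, k2⟩ k3 t ht x hx
  rcases le_or_gt t (max ta (-1 - η / (4 * (|C| + 1)))) with h1 | h1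
  · exact (k3 t ⟨ht.1, h1⟩ x hx).trans (by linarith)
  set s := max ta (-1 - η / (4 * (|C| + 1)))
  have hs : Icc s t ⊆ Ico ta (-1) := fun z hz => ⟨(le_max_left _ _).trans hz.1, hz.2.trans_lt ht.2⟩
  have hd : ∀ z ∈ Icc s t, HasDerivAt (fun s => G k s x - v s x) (DT 1 (G k) z x - DT 1 v z x) z :=
    fun z hz => ((k1 0).2 z (hs hz).2 x hx).sub ((hv 0).2 z (hs hz).2 x ⟨hx.1, by simp⟩)
  have h2 := LLA_lip (C := 2 * (|C| + 1)) (fun z hz => (hd z hz).continuousAt.continuousWithinAt)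
    (fun z hz => hd z (Ioo_subset_Icc_self hz)) (fun z hz => (abs_sub _ _).trans (by
      linarith [k2 z (hs (Ioo_subset_Icc_self hz)) x hx, hC z (hs (Ioo_subset_Icc_self hz)) x hx,
        le_abs_self C])) ⟨h1.le, le_rfl⟩ ⟨le_rfl, h1.le⟩
  have h3 : |G k s x - v s x| ≤ η / 2 := k3 s ⟨le_max_left _ _, le_rfl⟩ x hx
  have h4 : |t - s| ≤ η / (4 * (|C| + 1)) := by
    rw [abs_of_pos (by linarith)]
    linarith [le_max_right ta (-1 - η / (4 * (|C| + 1))), ht.2]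
  have h5 : 2 * (|C| + 1) * |t - s| ≤ η / 2 :=
    (mul_le_mul_of_nonneg_left h4 (by positivity)).trans_eq (by field_simp; ring)
  linarith [abs_sub_abs_le_abs_sub (G k t x - v t x) (G k s x - v s x)]

end Crest.Agent.R213
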