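import Crest.Agent.R213.AA
import Crest.Agent.R213.SysB
import Crest.Agent.R213.LimLinA

/-!
# Row 213: limits of approximate solutions of the linearised equation
-/

set_option autoImplicit false

noncomputable section

namespace Crest.Agent.R213

open Set Filter Topology
open scoped ContDiff

theorem limLin (b : BG) (σ : ℝ) (G G1 G2 Z : ℕ → Fn)
    (hs : ∀ R, 0 < R → ∀ᶠ k in atTop, TS (Iio (-1)) (Icc 0 R) (G k) ∧
      TS (Iio (-1)) (Icc 0 R) (G1 k) ∧ TS (Iio (-1)) (Icc 0 R) (G2 k) ∧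
      ∀ t < -1, Sp R (G k t) (G1 k t) (G2 k t) ∧
        ∀ x ∈ Icc 0 R, x ^ 11 * Z k t x = Vol (Dt (G k) t) x)
    (hb : ∀ (j : ℕ) (ta R : ℝ), ∃ C, ∀ᶠ k in atTop, ∀ t ∈ Ico ta (-1), ∀ x ∈ Icc 0 R,
      |DT j (G k) t x| ≤ C ∧ |DT j (G1 k) t x| ≤ C ∧ |DT j (G2 k) t x| ≤ C)
    (hZ : ∀ t < -1, ∀ x, 0 < x →
      Tendsto (fun k => Z k t x + b.gs t x ^ 2 * G2 k t x) atTop (𝓝 0))
    (hE : ∀ j, ∃ C, ∀ t < -1, ∀ R, 0 < R → ∀ᶠ k in atTop,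
      Et R 0 false j t (G k) ≤ C * (-t) ^ σ) :
    ∃ φ : ℕ → ℕ, StrictMono φ ∧ ∃ H, IsAnc b σ H ∧ ∀ (ta R η : ℝ), 0 < η → ∀ᶠ k in atTop,
      ∀ t ∈ Ico ta (-1), ∀ x ∈ Icc 0 R, |G (φ k) t x - H t x| ≤ η := by
  obtain ⟨φ₁, hφ₁, v, hv, c0⟩ := LLA_aa G G1
    (fun R hR => (hs R hR).mono fun k hk => ⟨hk.1, hk.2.1, fun t ht => (hk.2.2.2 t ht).1.d1⟩)
    fun j ta R => (hb j ta R).imp fun C hC => hC.mono fun k hk t ht x hx =>
      ⟨(hk t ht x hx).1, (hk t ht x hx).2.1⟩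
  obtain ⟨φ₂, hφ₂, v1, hv1, c1⟩ := LLA_aa (fun k => G1 (φ₁ k)) (fun k => G2 (φ₁ k))
    (fun R hR => (hφ₁.tendsto_atTop.eventually (hs R hR)).mono fun k hk =>
      ⟨hk.2.1, hk.2.2.1, fun t ht => (hk.2.2.2 t ht).1.d2⟩)
    fun j ta R => (hb j ta R).imp fun C hC => (hφ₁.tendsto_atTop.eventually hC).mono
      fun k hk t ht x hx => (hk t ht x hx).2
  have hφ := hφ₁.comp hφ₂
  have hs' := fun R hR => hφ.tendsto_atTop.eventually (hs R hR)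
  have hb' := fun j ta R => (hb j ta R).imp fun C hC => hφ.tendsto_atTop.eventually hC
  have c0' := fun j ta tb htb R η hη => hφ₂.tendsto_atTop.eventually (c0 j ta tb htb R η hη)
  obtain ⟨v2, hl⟩ := LLA_lin b _ _ _ _ v v1 hs' hb'
    (fun t ht x hx => (hZ t ht x hx).comp hφ.tendsto_atTop) hv hv1
    (fun j t ht R η hη => (c0' j t t ht R η hη).mono fun k hk => hk t ⟨le_rfl, le_rfl⟩)
    fun t ht x hx => LLA_tendsto fun η hη => (c1 0 t t ht x η hη).mono fun k hk =>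
      hk t ⟨le_rfl, le_rfl⟩ x ⟨hx, le_rfl⟩
  refine ⟨_, hφ, fun t x => if t < -1 ∧ 0 ≤ x then v t x else 0, ⟨fun t x h => if_neg h,
    ⟨v1, v2, Sys.congr isOpen_Iio hl fun t ht x hx =>
      ⟨rfl, rfl, rfl, if_pos ⟨ht, hx.1⟩, rfl, rfl, rfl⟩⟩, fun j => ?_⟩, fun ta R η hη => ?_⟩
  · obtain ⟨C, hC⟩ := hE j
    refine ⟨C, fun t ht R hR => ?_⟩
    obtain ⟨B, hB⟩ := hb' j t R
    have h1 := LLA_Et (G := fun k => G (φ₁ (φ₂ k))) (v := v) (C := B) (j := j) hR.le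
      (by linarith : t < 0) (((hs' R hR).and hB).mono fun k hk =>
        ⟨hk.1.1.cont_x j ht, fun x hx => (hk.2 t ⟨le_rfl, ht⟩ x hx).1⟩)
      fun x hx => LLA_tendsto fun η hη => (c0' j t t ht R η hη).mono fun k hk =>
        hk t ⟨le_rfl, le_rfl⟩ x hx
    refine le_of_eq_of_le ?_ (le_of_tendsto h1 (hφ.tendsto_atTop.eventually (hC t ht R hR)))
    unfold Et
    rw [Iw_congr hR.le _ _ _ _ fun x hx => DT_congr (v := v) isOpen_Iio (fun s hs => ?_) j t ht]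
    exact if_pos ⟨hs, hx.1⟩
  · obtain ⟨C, hC⟩ := hb' 1 ta R
    have hR : Icc 0 R ⊆ Icc 0 (max R 1) := Icc_subset_Icc_right (le_max_left _ _)
    filter_upwards [LLA_unif (G := fun k => G (φ₁ (φ₂ k))) (C := C) hη hv
      (((hs' _ (lt_max_of_lt_right one_pos)).and hC).mono fun k hk =>
        ⟨hk.1.1.mono le_rfl hR, fun t ht x hx => (hk.2 t ht x hx).1⟩)
      fun j ta tb htb => c0' j ta tb htb R] with k hk t ht x hx
    rw [if_pos ⟨ht.2, hx.1⟩]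
    exact hk t ht x hx

end Crest.Agent.R213
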