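import Crest.Agent.R213.Force

/-!
# Row 213: the energy estimates for the nonlinear problems
-/

set_option autoImplicit false

noncomputable section

namespace Crest.Agent.R213.NAA

open Set Filter Topology
open scoped ContDiff

variable {b : BG} {R0 C0 : ℝ}

theorem unif {P : ℕ → ℝ → Prop} (hP : ∀ j C C', C ≤ C' → P j C → P j C')
    (h : ∀ j, ∃ C, 0 < C ∧ P j C) (J : ℕ) : ∃ C, 0 < C ∧ ∀ j ≤ J, P j C := by
  choose C hC hP' using h
  refine ⟨∑ j ∈ Finset.range (J + 1), C j, Finset.sum_pos (fun j _ => hC j) ⟨0, by simp⟩,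
    fun j hj => hP j _ _ ?_ (hP' j)⟩
  exact Finset.single_le_sum (f := C) (fun j _ => (hC j).le) (Finset.mem_range.2 (by omega))

theorem lam_cube {a σ t : ℝ} (ha : 1 ≤ a) (hσ : 0 ≤ σ) (hσ' : σ ≤ 1) (h1 : -a ≤ t) (h2 : t < 0) :
    lam t ^ 3 ≤ a ^ 2 * (-t) ^ σ := by
  have ht : 0 < -t := by linarith
  have e1 : lam t ≤ a := Real.sqrt_le_iff.2 ⟨by linarith, by nlinarith⟩
  have e2 : (-t) ^ (1 - σ) ≤ a :=
    (Real.rpow_le_rpow ht.le (by linarith) (by linarith)).trans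
      ((Real.rpow_le_rpow_of_exponent_le ha (by linarith)).trans_eq (Real.rpow_one a))
  have e3 : -t = (-t) ^ (1 - σ) * (-t) ^ σ := by
    rw [← Real.rpow_add ht, sub_add_cancel, Real.rpow_one]
  have e4 : 0 ≤ (-t) ^ σ := Real.rpow_nonneg ht.le _
  have e5 : -t ≤ a * (-t) ^ σ := e3.trans_le (mul_le_mul_of_nonneg_right e2 e4)
  calc lam t ^ 3 = lam t * -t := by rw [← lam_sq h2.le]; ring
    _ ≤ a * (a * (-t) ^ σ) := mul_le_mul e1 e5 ht.le (by linarith)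
    _ = a ^ 2 * (-t) ^ σ := by ring

theorem sq_loc {K σ t u : ℝ} (ht : t < 0) (h : |u| ≤ K * lam t ^ (1 + σ)) :
    u ^ 2 ≤ K ^ 2 * (-t) ^ (1 + σ) := by
  have h1 := pow_le_pow_left₀ (abs_nonneg u) h 2
  rw [sq_abs, mul_pow, ← Real.rpow_natCast (lam t ^ (1 + σ)), ← Real.rpow_mul (lam_pos ht).le,
    mul_comm (1 + σ), Real.rpow_mul (lam_pos ht).le, Real.rpow_natCast, lam_sq ht.le] at h1
  exact h1

theorem Et_zero (L : ℝ) (t : ℝ) (F : Fn) : Et L 0 true 0 t F = Et L 0 false 0 t F := by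
  simp [Et, Iw, wt, om]

theorem energy (h0 : H0P b.B0 R0 C0) (l : LD b R0) (K A : ℝ) (J : ℕ) : ∃ C, 0 < C ∧
    ∀ N : ℕ, 2 - 2 * l.tm ≤ N → ∀ v, ‖v‖ ≤ 3 → ∀ T ≤ 0, ∀ F F1 F2 ζ, SolN l N v T F F1 F2 ζ →
      Boot l K (1 / b.B0) N T F ζ →
      (∀ t < T, ∀ x ∈ dom (kap N), ∀ a, 2 * a ≤ J →
        (-t) ^ a * |kap N * ph (kap N) x * DT a ζ t x| ≤ A) →
      ∀ t < T, ∀ j ≤ J, Et ((N : ℝ) ^ 4) 0 false j t F ≤ C * (-t) ^ l.σ ∧
        Iw ((N : ℝ) ^ 4) 0 true 12 j t (DT j F t) ≤ C * (N : ℝ) ^ 6 := by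
  have htm1 := l.tm_lt
  have htm : l.tm < 0 := by linarith
  have hσ := l.σ_pos
  have hσ' := l.σ_le
  obtain ⟨Ce, hCe, he⟩ := unif (P := fun j C => ∀ N : ℕ, 1 ≤ N → ∀ v, ‖v‖ ≤ 3 → ∀ t < 0,
      Fe ((N : ℝ) ^ 4) 0 false j t (eN l N v) ≤ C * (-t) ^ l.σ ∧
      Fe ((N : ℝ) ^ 4) 0 true j t (eN l N v) ≤ C * (N : ℝ) ^ 6 * (-t) ^ l.σ ∧
      lam t * Iw ((N : ℝ) ^ 4) 0 true 11 j t (DT j (eN l N v) t) ≤ C * (N : ℝ) ^ 6)
    (fun j C C' hC h N hN v hv t ht => by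
      obtain ⟨h1, h2, h3⟩ := h N hN v hv t ht
      have : 0 ≤ (-t) ^ l.σ := Real.rpow_nonneg (by linarith) _
      exact ⟨h1.trans (by gcongr), h2.trans (by gcongr), h3.trans (by gcongr)⟩)
    (fun j => (eN_bd h0 l j).imp fun C h => ⟨h.1, fun N hN v hv t ht =>
      ⟨(h.2 N hN v hv t ht).1, (h.2 N hN v hv t ht).2.1, (h.2 N hN v hv t ht).2.2.1⟩⟩) J
  obtain ⟨Cd, hCd, hd⟩ := unif (P := fun j C => ∀ N : ℕ, 1 ≤ N →
      kap N ^ 2 * -(2 * l.tm) ≤ 1 → ∀ t < 0, ∀ q : Bool,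
      Fd (kap N) ((N : ℝ) ^ 4) 0 q j t (dN b l.tm N) ≤ C * lam t ^ 3 ∧
      Dq (kap N) ((N : ℝ) ^ 4) 0 true 12 j t (dN b l.tm N) ≤ C)
    (fun j C C' hC h N hN hk t ht q => by
      obtain ⟨h1, h2⟩ := h N hN hk t ht q
      have := (lam_pos ht).le
      exact ⟨h1.trans (by gcongr), h2.trans hC⟩) (dN_bd b htm) J
  obtain ⟨B, hB, hab⟩ := gN_ab b J A
  obtain ⟨CJ, hCJ, hhJ⟩ := hJ J B hB
  obtain ⟨C12, hC12, hh12⟩ := h12 J B hB
  obtain ⟨-, hC0, hh0⟩ := h0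
  obtain ⟨a, ha⟩ : ∃ a : ℝ, a = 1 - 2 * l.tm := ⟨_, rfl⟩
  have ha1 : 1 ≤ a := by linarith
  obtain ⟨M0, hM0⟩ : ∃ M : ℝ, M = K ^ 2 + Ce + Cd * a ^ 2 := ⟨_, rfl⟩
  have hKM : K ^ 2 ≤ M0 := by rw [hM0]; have : 0 ≤ Cd * a ^ 2 := by positivity
                              linarith
  have heM : Ce ≤ M0 := by rw [hM0]; have : 0 ≤ Cd * a ^ 2 := by positivity
                           nlinarith [sq_nonneg K]
  have hdM : Cd * a ^ 2 ≤ M0 := by rw [hM0]; nlinarith [sq_nonneg K]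
  have hdM' : Cd ≤ M0 := le_trans (le_mul_of_one_le_right hCd.le (one_le_pow₀ ha1)) hdM
  have hM0p : 0 < M0 := hCe.trans_le heM
  obtain ⟨M1, hM1⟩ : ∃ M : ℝ, M = C0 * M0 + M0 := ⟨_, rfl⟩
  have hM01 : M0 ≤ M1 := by rw [hM1]; nlinarith
  have hM01' : C0 * M0 ≤ M1 := by rw [hM1]; linarith
  have hM1p : 0 < M1 := hM0p.trans_le hM01
  have hS : 0 < a ^ l.σ / l.σ + a := by positivity
  refine ⟨CJ * M1 + C12 * ((CJ * M1 + M1) * (a ^ l.σ / l.σ + a)), by positivity, ?_⟩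
  intro N hN v hv T hT F F1 F2 ζ hsol hboot hA
  have hNa : a ≤ N := by linarith
  have hN1 : (1 : ℝ) ≤ N := ha1.trans hNa
  have hN1' : 1 ≤ N := by exact_mod_cast hN1
  have hN6 : (1 : ℝ) ≤ (N : ℝ) ^ 6 := one_le_pow₀ hN1
  have hL : (0 : ℝ) < (N : ℝ) ^ 4 := by positivity
  have hG : Geo (kap N) 0 ((N : ℝ) ^ 4) :=
    ⟨(kap_pos hN1').le, le_rfl, hL, (kap_mul hN1').le, by simp, Or.inl (kap_mul hN1')⟩
  have hdom := dom_eq_Icc hL (kap_mul hN1')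
  have hlam : lam (-a) ≤ (N : ℝ) ^ 4 := by
    have h1 : lam (-a) ≤ a := Real.sqrt_le_iff.2 ⟨by linarith, by nlinarith⟩
    exact h1.trans (hNa.trans (le_self_pow₀ hN1 (by norm_num)))
  have hk : kap N ^ 2 * -(2 * l.tm) ≤ 1 := by
    have h1 : -(2 * l.tm) ≤ ((N : ℝ) ^ 4) ^ 2 := by
      rw [← pow_mul]
      exact le_trans (by linarith) (le_self_pow₀ hN1 (by norm_num))
    calc kap N ^ 2 * -(2 * l.tm) ≤ kap N ^ 2 * ((N : ℝ) ^ 4) ^ 2 := by gcongr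
      _ = 1 := by rw [← mul_pow, kap_mul hN1', one_pow]
  -- vanishing at early times
  have hz : ∀ t ≤ 2 * l.tm, t < T → ∀ q m j i, Iw ((N : ℝ) ^ 4) 0 q m j t (DT i F t) = 0 := by
    intro t ht ht' q m j i
    rw [Iw_congr hL.le q m j t (v := fun _ => 0) fun x hx =>
      (hsol.1.dt_eq_zero hsol.2 (fun s hs y _ => dN_zero b htm N s hs y) i t ht ht' x
        (hdom ▸ hx)).1]
    simp [Iw]
  have hz' : ∀ t ≤ 2 * l.tm, t < T → ∀ q j, Et ((N : ℝ) ^ 4) 0 q j t F = 0 := by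
    intro t ht ht' q j
    rw [Et, hz t ht ht', mul_zero]
  have hEr : ∀ q j t, Er ((N : ℝ) ^ 4) 0 q j t F = 0 := fun q j t => by simp [Er]
  have hb0 : ∀ t < T, ∀ x ∈ dom (kap N), |kap N * ph (kap N) x * ζ t x| ≤ 1 / b.B0 := by
    intro t ht x hx
    simpa [DT] using (hboot t ht x hx).2 0 (by norm_num)
  have hAB : ∀ t < T, AB (kap N) (kap N) (gN b N) ζ J B t := fun t ht =>
    hab N hN1' ζ t (ht.trans_le hT) fun x hx => ⟨hb0 t ht x hx, hA t ht x hx⟩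
  have hI : ∀ t < T, Icc (-a) t ⊆ Iio T := fun t ht s hs => hs.2.trans_lt ht
  have hr : ∀ t < T, 0 ≤ (-t) ^ l.σ := fun t ht => Real.rpow_nonneg (by linarith) _
  have hFd : ∀ t < T, -a ≤ t → ∀ j ≤ J, ∀ q,
      Fd (kap N) ((N : ℝ) ^ 4) 0 q j t (dN b l.tm N) ≤ M0 * (-t) ^ l.σ := by
    intro t ht hta j hj q
    have h1 := lam_cube ha1 hσ.le (by linarith) hta (ht.trans_le hT)
    calc _ ≤ Cd * lam t ^ 3 := (hd j hj N hN1' hk t (ht.trans_le hT) q).1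
      _ ≤ Cd * (a ^ 2 * (-t) ^ l.σ) := by gcongr
      _ = Cd * a ^ 2 * (-t) ^ l.σ := by ring
      _ ≤ _ := mul_le_mul_of_nonneg_right hdM (hr t ht)
  -- level zero
  have l0 : ∀ t < T, -a ≤ t → Et ((N : ℝ) ^ 4) 0 false 0 t F ≤ M1 * (-t) ^ l.σ := by
    intro t ht hta
    have h1 := hh0 _ _ _ _ _ _ _ _ _ _ _ _ (-a) t l.σ M0 isOpen_Iio hsol.1 hG hta
      (ht.trans_le hT) (hI t ht) hlam hσ.le hσ' hM0p.le fun s hs => by
        have hs' : s < T := hI t ht hs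
        have hs0 : s < 0 := hs'.trans_le hT
        refine ⟨gN_ab0 b hN1' ζ s hs0 (hb0 s hs'), fun x hx hxR => ?_, ?_,
          hFd s hs' hs.1 0 J.zero_le false, ?_⟩
        · exact (sq_loc hs0 ((hboot s hs' x (hdom ▸ hx)).1 hxR)).trans
            (mul_le_mul_of_nonneg_right hKM (Real.rpow_nonneg (by linarith) _))
        · exact (he 0 J.zero_le N hN1' v hv s hs0).1.trans
            (mul_le_mul_of_nonneg_right heM (hr s hs'))
        · rw [hEr]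
          exact mul_nonneg hM0p.le (hr s hs')
    rw [hz' (-a) (by linarith) (hta.trans_lt ht), mul_zero, zero_add] at h1
    exact h1.trans (mul_le_mul_of_nonneg_right hM01' (hr t ht))
  -- the hierarchy
  have l1 : ∀ (q : Bool) (M : ℝ), M1 ≤ M → (∀ t < 0, ∀ j ≤ J,
      Fe ((N : ℝ) ^ 4) 0 q j t (eN l N v) ≤ M * (-t) ^ l.σ) → ∀ t < T, -a ≤ t → ∀ j ≤ J,
      Et ((N : ℝ) ^ 4) 0 q j t F ≤ CJ * M * (-t) ^ l.σ := by
    intro q M hM hF t ht hta j hj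
    have h1 := hhJ q _ _ _ _ _ _ _ _ _ _ _ _ (-a) t l.σ M isOpen_Iio hsol.1 hG hta
      (ht.trans_le hT) (hI t ht) hlam hσ.le hσ' (hM1p.le.trans hM) (fun s hs => by
        have hs' : s < T := hI t ht hs
        have hs0 : s < 0 := hs'.trans_le hT
        refine ⟨hAB s hs', ?_, fun i hi => ⟨hF s hs0 i hi, (hFd s hs' hs.1 i hi q).trans
          (mul_le_mul_of_nonneg_right (hM01.trans hM) (hr s hs')), ?_⟩⟩
        · have h2 := (l0 s hs' hs.1).trans (mul_le_mul_of_nonneg_right hM (hr s hs'))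
          cases q
          · exact h2
          · rwa [Et_zero]
        · rw [hEr]
          exact mul_nonneg (hM1p.le.trans hM) (hr s hs')) j hj
    rw [Finset.sum_eq_zero fun i _ => hz' (-a) (by linarith) (hta.trans_lt ht) q i, mul_zero,
      zero_add, ← mul_assoc] at h1
    exact h1
  have lf := l1 false M1 le_rfl fun t ht j hj => (he j hj N hN1' v hv t ht).1.trans
    (mul_le_mul_of_nonneg_right (heM.trans hM01) (Real.rpow_nonneg (by linarith) _))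
  have lt := l1 true (M1 * (N : ℝ) ^ 6) (le_mul_of_one_le_right hM1p.le hN6) fun t ht j hj =>
    (he j hj N hN1' v hv t ht).2.1.trans (mul_le_mul_of_nonneg_right
      (mul_le_mul_of_nonneg_right (heM.trans hM01) (by positivity))
      (Real.rpow_nonneg (by linarith) _))
  intro t ht j hj
  have hp1 : 0 ≤ CJ * M1 := by positivity
  have hp2 : 0 ≤ C12 * ((CJ * M1 + M1) * (a ^ l.σ / l.σ + a)) := by positivity
  rcases le_total t (-a) with hta | hta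
  · rw [hz' t (by linarith) ht, hz t (by linarith) ht]
    exact ⟨mul_nonneg (by positivity) (hr t ht), by positivity⟩
  refine ⟨(lf t ht hta j hj).trans (mul_le_mul_of_nonneg_right (by linarith) (hr t ht)), ?_⟩
  have h1 := hh12 _ _ _ _ _ _ _ _ _ _ _ (-a) t l.σ ((CJ * M1 + M1) * (N : ℝ) ^ 6) isOpen_Iio hsol.1 hG
    hta (ht.trans_le hT) (hI t ht) hlam hσ (by positivity) (fun s hs => by
      have hs' : s < T := hI t ht hs
      have hs0 : s < 0 := hs'.trans_le hT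
      refine ⟨hAB s hs', fun i hi => ⟨(lt s hs' hs.1 i hi).trans
        (mul_le_mul_of_nonneg_right ?_ (hr s hs')), (he i hi N hN1' v hv s hs0).2.2.trans
        (mul_le_mul_of_nonneg_right (by linarith) (by positivity)),
        (hd i hi N hN1' hk s hs0 true).2.trans
          (le_trans (by linarith) (le_mul_of_one_le_right (by positivity) hN6))⟩⟩
      rw [← mul_assoc]
      exact mul_le_mul_of_nonneg_right (by linarith) (by positivity)) j hj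
  rw [Finset.sum_eq_zero fun i _ => hz (-a) (by linarith) (hta.trans_lt ht) true 12 i i, zero_add,
    neg_neg] at h1
  calc _ ≤ _ := h1
    _ = C12 * ((CJ * M1 + M1) * (a ^ l.σ / l.σ + a)) * (N : ℝ) ^ 6 := by ring
    _ ≤ _ := mul_le_mul_of_nonneg_right (by linarith) (by positivity)

end Crest.Agent.R213.NAA
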