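import Crest.Agent.R213.Force

/-!
# Row 213: pointwise a priori estimates for the nonlinear problems (auxiliary file of `NA`)
-/

set_option autoImplicit false

noncomputable section

namespace Crest.Agent.R213.NAB

open Set Filter Topology

variable {b : BG} {R0 C0 : ℝ}

/-- Bounds on `ζ` at the levels `≤ J / 2`. -/
def ZB (N : ℕ) (T : ℝ) (ζ : Fn) (A : ℝ) (J : ℕ) : Prop :=
  ∀ t < T, ∀ x ∈ dom (kap N), ∀ a, 2 * a ≤ J →
    (-t) ^ a * |kap N * ph (kap N) x * DT a ζ t x| ≤ A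

/-- The statement of the energy estimate. -/
def En (l : LD b R0) (K : ℝ) : Prop := ∀ (A : ℝ) (J : ℕ), ∃ C, 0 < C ∧
  ∀ N : ℕ, 2 - 2 * l.tm ≤ N → ∀ v, ‖v‖ ≤ 3 → ∀ T ≤ 0, ∀ F F1 F2 ζ, SolN l N v T F F1 F2 ζ →
    Boot l K (1 / b.B0) N T F ζ → ZB N T ζ A J →
    ∀ t < T, ∀ j ≤ J, Et ((N : ℝ) ^ 4) 0 false j t F ≤ C * (-t) ^ l.σ ∧
      Iw ((N : ℝ) ^ 4) 0 true 12 j t (DT j F t) ≤ C * (N : ℝ) ^ 6

theorem four_lt (l : LD b R0) {N : ℕ} (hN : 2 - 2 * l.tm ≤ N) : (4 : ℝ) < N := by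
  have := l.tm_lt
  linarith

theorem one_le (l : LD b R0) {N : ℕ} (hN : 2 - 2 * l.tm ≤ N) : 1 ≤ N := by
  have h := four_lt l hN
  have : (1 : ℝ) ≤ N := by linarith
  exact_mod_cast this

theorem Et_mono {N j : ℕ} (hN : 1 ≤ N) {t R : ℝ} {F : Fn} (ht : t < 0) (hR : 0 ≤ R)
    (hR' : R ≤ (N : ℝ) ^ 4) (hF : ContinuousOn (DT j F t) (dom (kap N))) :
    Et R 0 false j t F ≤ Et ((N : ℝ) ^ 4) 0 false j t F := by
  rw [FC.dom_eq hN] at hF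
  have h := Iw_le_Iw (θ := 0) (θ' := 0) (q := false) (q' := false) (m := 13) (m' := 13) (j := j)
    (j' := j) (c := 1) ht hR hR' zero_le_one (hF.mono (Icc_subset_Icc_right hR')) hF
    fun x _ => (one_mul _).ge
  rw [one_mul] at h
  exact mul_le_mul_of_nonneg_left h (lam_pos ht).le

/-- Local pointwise bounds under a bound on `ζ`. -/
theorem loc (h0 : H0P b.B0 R0 C0) (l : LD b R0) {K : ℝ} (hE : En l K) (A : ℝ) (i J : ℕ)
    (hJ : i + 4 ≤ J) (R : ℝ) (hR : 1 ≤ R) : ∃ C, 0 < C ∧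
    ∀ N : ℕ, 2 - 2 * l.tm ≤ N → ∀ v, ‖v‖ ≤ 3 → ∀ T ≤ 0, ∀ F F1 F2 ζ, SolN l N v T F F1 F2 ζ →
      Boot l K (1 / b.B0) N T F ζ → ZB N T ζ A J → ∀ t < T, 8 * kap N * (R * lam t) ≤ 1 →
        ∀ x ∈ Icc 0 (R * lam t), (-t) ^ i * |DT i F t x| ≤ C * lam t ^ (1 + l.σ) ∧
          (-t) ^ i * lam t * |DT i F1 t x| ≤ C * lam t ^ (1 + l.σ) ∧
          (-t) ^ (i + 1) * |DT i F2 t x| ≤ C * lam t ^ (1 + l.σ) ∧
          (-t) ^ (i + 1) * |DT i ζ t x| ≤ C * lam t ^ (1 + l.σ) := by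
  obtain ⟨C₁, hC₁, h₁⟩ := hE A J
  obtain ⟨B, hB, h₂⟩ := gN_ab b (i + 3) A
  obtain ⟨C₃, hC₃, h₃⟩ := ptloc i B R hB hR
  choose E hE0 h₄ using fun j => eN_pt h0 l j (2 * R)
  obtain ⟨C₄, hC₄, h₅⟩ := HJB.exists_hi E hE0 (i + 3)
  set M := C₁ + C₄ + 1 with hM
  have hM1 : 1 ≤ M := by linarith
  refine ⟨C₃ * M, by positivity, fun N hN v hv T hT F F1 F2 ζ hS hBo hZ t ht hκ x hx => ?_⟩
  have hN1 := one_le l hN
  have ht0 : t < 0 := ht.trans_le hT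
  have hl := lam_pos ht0
  have hk := kap_pos hN1
  have hRl : 0 < R * lam t := by positivity
  have hlσ : 0 < lam t ^ l.σ := Real.rpow_pos_of_pos hl _
  have e1 : lam t ^ (1 + l.σ) = lam t ^ l.σ * lam t := by
    rw [Real.rpow_add hl, Real.rpow_one, mul_comm]
  have hL : 2 * (R * lam t) ≤ (N : ℝ) ^ 4 := by
    refine le_of_mul_le_mul_left ?_ hk
    rw [kap_mul hN1]
    nlinarith [mul_pos hk hRl]
  have hab := h₂ N hN1 ζ t ht0 fun y hy => ⟨by simpa [DT] using (hBo t ht y hy).2 0 (by norm_num),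
    fun a ha => hZ t ht y hy a (by omega)⟩
  have h6 := h₃ (kap N) (kap N) t (M * lam t ^ l.σ) _ _ _ _ _ _ _ _ isOpen_Iio hS.1 ht ht0 hab
    (by nlinarith [mul_pos hk hRl]) (by positivity)
    (fun j hj => by
      refine (Et_mono hN1 ht0 (by positivity) hL (hS.1.tF.cont_x j ht)).trans
        ((h₁ N hN v hv T hT F F1 F2 ζ hS hBo hZ t ht j (by omega)).1.trans ?_)
      rw [mul_pow, LAA.rpow_sq ht0]
      exact mul_le_mul_of_nonneg_right (by nlinarith) (Real.rpow_nonneg (by linarith) _))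
    (fun j hj y hy => by
      have hy' : y ∈ dom (kap N) := by
        rw [FC.dom_eq hN1]
        exact ⟨hy.1, hy.2.trans hL⟩
      refine ⟨(h₄ j N hN1 v hv t ht0 y hy' (by linarith [hy.2])).trans ?_, ?_⟩
      · rw [e1, mul_assoc]
        exact mul_le_mul_of_nonneg_right (by linarith [h₅ j hj]) (by positivity)
      · rw [dN_inner b (l.tm_lt.trans (by norm_num)) hN1 j t ht0 y hy.1
          (by nlinarith [mul_le_mul_of_nonneg_left hy.2 hk.le]), abs_zero, mul_zero]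
        positivity)
    i le_rfl x ⟨hx.1, by linarith [hx.2]⟩
  rwa [show C₃ * M * lam t ^ (1 + l.σ) = C₃ * (M * lam t ^ l.σ) * lam t by rw [e1]; ring]

theorem Iw_twelve {L t : ℝ} (ht : t < 0) (hL : 0 ≤ L) (i : ℕ) (k : ℝ → ℝ) :
    Iw L 0 true 12 (i + 1) t k =
      ((-t) ^ i) ^ 2 * ∫ y in (0 : ℝ)..L, y ^ 9 * k y ^ 2 / (y + lam t) ^ 8 := by
  rw [Iw, ← intervalIntegral.integral_const_mul]
  refine intervalIntegral.integral_congr fun y hy => ?_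
  rw [uIcc_of_le hL] at hy
  have h1 := add_pos_of_nonneg_of_pos hy.1 (lam_pos ht)
  simp only [wt, om, Nat.succ_ne_zero, if_false, if_true, Nat.add_sub_cancel]
  field_simp
  ring

theorem Iw_sub_le {L θ t : ℝ} {q : Bool} {m j : ℕ} {u v : ℝ → ℝ} (ht : t < 0) (hL : 0 ≤ L)
    (hu : ContinuousOn u (Icc 0 L)) (hv : ContinuousOn v (Icc 0 L)) :
    Iw L θ q m j t (fun x => u x - v x) ≤ 2 * Iw L θ q m j t u + 2 * Iw L θ q m j t v := by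
  have h := Iw_add_le (θ := θ) (q := q) (m := m) (j := j) ht hL hu hv.neg
  simpa only [Iw, Pi.neg_apply, neg_sq, ← sub_eq_add_neg] using h

theorem zeta (h0 : H0P b.B0 R0 C0) (l : LD b R0) {K : ℝ} (hE : En l K) (A : ℝ) (i J : ℕ)
    (hJ : i + 4 ≤ J) : ∃ C, 0 < C ∧
    ∀ N : ℕ, 2 - 2 * l.tm ≤ N → ∀ v, ‖v‖ ≤ 3 → ∀ T ≤ 0, ∀ F F1 F2 ζ, SolN l N v T F F1 F2 ζ →
      Boot l K (1 / b.B0) N T F ζ → ZB N T ζ A J →
      ∀ t < T, ∀ x ∈ dom (kap N), (-t) ^ i * |kap N * ph (kap N) x * DT i ζ t x| ≤ C / N := by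
  obtain ⟨C₁, hC₁, h₁⟩ := hE A J
  obtain ⟨C₂, hC₂, h₂⟩ := loc h0 l hE A i J hJ 1 le_rfl
  obtain ⟨C₃, hC₃, h₃⟩ := pt2
  obtain ⟨C₄, hC₄, h₄⟩ := eN_bd h0 l i
  set C := C₂ + C₃ * (2 * C₁ + 2 * C₄) + 1 with hC
  have hC5 : 0 < C₃ * (2 * C₁ + 2 * C₄) := by positivity
  have hC0 : 0 < C := by positivity
  refine ⟨C, hC0, fun N hN v hv T hT F F1 F2 ζ hS hBo hZ t ht x hx => ?_⟩
  have hN1 := one_le l hN
  have hN4 := four_lt l hN
  have hN0 : (0 : ℝ) < N := by linarith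
  have ht0 : t < 0 := ht.trans_le hT
  have hl := lam_pos ht0
  have hk := kap_pos hN1
  have hkN := kap_mul hN1
  have htm : l.tm < 0 := l.tm_lt.trans (by norm_num)
  rcases le_or_gt t (2 * l.tm) with h | h
  · rw [(hS.1.dt_eq_zero hS.2 (fun s hs y _ => dN_zero b htm N s hs y) i t h ht x hx).2.2.2,
      mul_zero, abs_zero, mul_zero]
    positivity
  have hl2 := lam_sq ht0.le
  have hlN : lam t ≤ N := by nlinarith
  have hN3 : (8 : ℝ) ≤ (N : ℝ) ^ 3 := by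
    have := pow_le_pow_left₀ (by norm_num : (0 : ℝ) ≤ 2) (by linarith : (2 : ℝ) ≤ N) 3
    linarith
  have hlL : 8 * lam t ≤ (N : ℝ) ^ 4 := by
    rw [pow_succ]
    exact mul_le_mul hN3 hlN hl.le (by positivity)
  have hph : 0 ≤ ph (kap N) x := mul_nonneg hx.1 (sub_nonneg.2 hx.2)
  have hp : 0 < (-t) ^ i := pow_pos (by linarith) i
  rw [le_div_iff₀ hN0]
  rcases le_total x (lam t) with hxl | hxl
  · have h5 := (h₂ N hN v hv T hT F F1 F2 ζ hS hBo hZ t ht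
      (by nlinarith [mul_le_mul_of_nonneg_left hlL hk.le]) x ⟨hx.1, by linarith⟩).2.2.2
    have h6 : lam t ^ l.σ ≤ N := by
      refine (Real.rpow_le_rpow hl.le hlN l.σ_pos.le).trans ?_
      exact Real.rpow_le_self_of_one_le (by linarith) (by linarith [l.σ_le])
    have h7 : ph (kap N) x ≤ lam t := by
      have : 0 ≤ x * (kap N * x) := mul_nonneg hx.1 (mul_nonneg hk.le hx.1)
      rw [ph]
      linarith
    have h8 : lam t * ((-t) ^ i * |DT i ζ t x|) ≤ C₂ * N := by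
      refine le_of_mul_le_mul_left ?_ hl
      rw [Real.rpow_add hl, Real.rpow_one, pow_succ, ← hl2] at h5
      rw [← hl2]
      have := mul_le_mul_of_nonneg_left h6 (mul_pos hC₂ hl).le
      nlinarith
    have h9 : kap N * N * N ≤ 1 := by
      rw [← hkN, mul_assoc, ← sq]
      exact mul_le_mul_of_nonneg_left (pow_le_pow_right₀ (by linarith) (by norm_num)) hk.le
    rw [abs_mul, abs_of_nonneg (mul_nonneg hk.le hph)]
    calc (-t) ^ i * (kap N * ph (kap N) x * |DT i ζ t x|) * N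
        = kap N * N * (ph (kap N) x * ((-t) ^ i * |DT i ζ t x|)) := by ring
      _ ≤ kap N * N * (lam t * ((-t) ^ i * |DT i ζ t x|)) := by gcongr
      _ ≤ kap N * N * (C₂ * N) := by gcongr
      _ = C₂ * (kap N * N * N) := by ring
      _ ≤ C₂ * 1 := by gcongr
      _ ≤ C := by linarith
  · have hL0 : (0 : ℝ) ≤ (N : ℝ) ^ 4 := by positivity
    have hdom := FC.dom_eq hN1
    have h5 := h₃ _ _ _ _ _ hkN hl (by linarith) (hS.1.volOn isOpen_Iio hkN.le i ht) x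
      ⟨hxl, (hdom ▸ hx).2⟩
    have h6 := Iw_sub_le (θ := 0) (q := true) (m := 12) (j := i + 1) ht0 hL0
      (hdom ▸ hS.1.tF.cont_x (i + 1) ht) (hdom ▸ hS.1.te.cont_x i ht)
    have h7 := (h₁ N hN v hv T hT F F1 F2 ζ hS hBo hZ t ht (i + 1) (by omega)).2
    have h8 := (h₄ N hN1 v hv t ht0).2.2.2
    rw [Iw_twelve ht0 hL0] at h6
    simp only [zero_mul, sub_zero] at h5
    have h9 : ((-t) ^ i * |ph (kap N) x * DT i ζ t x|) ^ 2 ≤ (C * (N : ℝ) ^ 3) ^ 2 := by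
      have h10 := mul_le_mul_of_nonneg_left h5 (sq_nonneg ((-t) ^ i))
      have h11 := mul_le_mul_of_nonneg_left
        (h6.trans (add_le_add (mul_le_mul_of_nonneg_left h7 zero_le_two)
          (mul_le_mul_of_nonneg_left h8 zero_le_two))) hC₃.le
      have h12 : C₃ * (2 * C₁ + 2 * C₄) ≤ C ^ 2 := by nlinarith
      have h13 := mul_le_mul_of_nonneg_right h12 (by positivity : (0 : ℝ) ≤ (N : ℝ) ^ 6)
      rw [mul_pow, sq_abs, mul_pow C, (by ring : ((N : ℝ) ^ 3) ^ 2 = (N : ℝ) ^ 6)]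
      linarith
    have h10 := (pow_le_pow_iff_left₀ (by positivity) (by positivity) two_ne_zero).1 h9
    rw [mul_assoc (kap N), abs_mul, abs_of_pos hk]
    calc (-t) ^ i * (kap N * |ph (kap N) x * DT i ζ t x|) * N
        = kap N * N * ((-t) ^ i * |ph (kap N) x * DT i ζ t x|) := by ring
      _ ≤ kap N * N * (C * (N : ℝ) ^ 3) := by gcongr
      _ = C * (kap N * (N : ℝ) ^ 4) := by ring
      _ = C := by rw [hkN, mul_one]

theorem step (h0 : H0P b.B0 R0 C0) (l : LD b R0) {K : ℝ} (hE : En l K) (A : ℝ) (n : ℕ) :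
    ∃ C, 0 < C ∧
    ∀ N : ℕ, 2 - 2 * l.tm ≤ N → ∀ v, ‖v‖ ≤ 3 → ∀ T ≤ 0, ∀ F F1 F2 ζ, SolN l N v T F F1 F2 ζ →
      Boot l K (1 / b.B0) N T F ζ → ZB N T ζ A (2 * (n + 4) + 1) →
      ∀ t < T, ∀ x ∈ dom (kap N), ∀ a ≤ n + 5,
        (-t) ^ a * |kap N * ph (kap N) x * DT a ζ t x| ≤ C / N := by
  choose E hE0 h using fun a =>
    zeta h0 l hE A (min a (n + 5)) (2 * (n + 4) + 1) (by omega)
  obtain ⟨C, hC, h1⟩ := HJB.exists_hi E hE0 (n + 5)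
  refine ⟨C, hC, fun N hN v hv T hT F F1 F2 ζ hS hBo hZ t ht x hx a ha => ?_⟩
  have h2 := h a N hN v hv T hT F F1 F2 ζ hS hBo hZ t ht x hx
  rw [min_eq_left ha] at h2
  exact h2.trans (div_le_div_of_nonneg_right (h1 a ha) (Nat.cast_nonneg N))

theorem zb (h0 : H0P b.B0 R0 C0) (l : LD b R0) {K : ℝ} (hE : En l K) (n : ℕ) : ∃ A,
    ∀ N : ℕ, 2 - 2 * l.tm ≤ N → ∀ v, ‖v‖ ≤ 3 → ∀ T ≤ 0, ∀ F F1 F2 ζ, SolN l N v T F F1 F2 ζ →
      Boot l K (1 / b.B0) N T F ζ → ZB N T ζ A (2 * (n + 4) + 1) := by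
  induction n with
  | zero =>
    exact ⟨1 / b.B0, fun N _ v _ T _ F F1 F2 ζ _ hBo t ht x hx a ha =>
      (hBo t ht x hx).2 a (by omega)⟩
  | succ n ih =>
    obtain ⟨A, hA⟩ := ih
    obtain ⟨C, hC, h⟩ := step h0 l hE A n
    refine ⟨C, fun N hN v hv T hT F F1 F2 ζ hS hBo t ht x hx a ha => ?_⟩
    exact (h N hN v hv T hT F F1 F2 ζ hS hBo (hA N hN v hv T hT F F1 F2 ζ hS hBo) t ht x hx a
      (by omega)).trans (div_le_self hC.le (by linarith [four_lt l hN]))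

theorem all (h0 : H0P b.B0 R0 C0) (l : LD b R0) {K : ℝ} (hE : En l K) (i : ℕ) : ∃ C, 0 < C ∧
    ∀ N : ℕ, 2 - 2 * l.tm ≤ N → ∀ v, ‖v‖ ≤ 3 → ∀ T ≤ 0, ∀ F F1 F2 ζ, SolN l N v T F F1 F2 ζ →
      Boot l K (1 / b.B0) N T F ζ →
      ∀ t < T, ∀ x ∈ dom (kap N), ∀ a ≤ i,
        (-t) ^ a * |kap N * ph (kap N) x * DT a ζ t x| ≤ C / N := by
  obtain ⟨A, hA⟩ := zb h0 l hE i
  obtain ⟨C, hC, h⟩ := step h0 l hE A i
  exact ⟨C, hC, fun N hN v hv T hT F F1 F2 ζ hS hBo t ht x hx a ha =>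
    h N hN v hv T hT F F1 F2 ζ hS hBo (hA N hN v hv T hT F F1 F2 ζ hS hBo) t ht x hx a (by omega)⟩

theorem en (h0 : H0P b.B0 R0 C0) (l : LD b R0) {K : ℝ} (hE : En l K) (j : ℕ) : ∃ C, 0 < C ∧
    ∀ N : ℕ, 2 - 2 * l.tm ≤ N → ∀ v, ‖v‖ ≤ 3 → ∀ T ≤ 0, ∀ F F1 F2 ζ, SolN l N v T F F1 F2 ζ →
      Boot l K (1 / b.B0) N T F ζ → ∀ t < T, ∀ R, 0 < R → R ≤ (N : ℝ) ^ 4 →
        Et R 0 false j t F ≤ C * (-t) ^ l.σ := by
  obtain ⟨A, hA⟩ := zb h0 l hE j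
  obtain ⟨C, hC, h⟩ := hE A (2 * (j + 4) + 1)
  exact ⟨C, hC, fun N hN v hv T hT F F1 F2 ζ hS hBo t ht R hR hR' =>
    (Et_mono (one_le l hN) (ht.trans_le hT) hR.le hR' (hS.1.tF.cont_x j ht)).trans
      (h N hN v hv T hT F F1 F2 ζ hS hBo (hA N hN v hv T hT F F1 F2 ζ hS hBo) t ht j
        (by omega)).1⟩

theorem pt (h0 : H0P b.B0 R0 C0) (l : LD b R0) {K : ℝ} (hE : En l K) (j : ℕ) (R : ℝ)
    (hR : 1 ≤ R) : ∃ C, 0 < C ∧
    ∀ N : ℕ, 2 - 2 * l.tm ≤ N → ∀ v, ‖v‖ ≤ 3 → ∀ T ≤ 0, ∀ F F1 F2 ζ, SolN l N v T F F1 F2 ζ →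
      Boot l K (1 / b.B0) N T F ζ → ∀ t < T, 8 * kap N * (R * lam t) ≤ 1 →
        ∀ x ∈ Icc 0 (R * lam t), (-t) ^ j * |DT j F t x| ≤ C * lam t ^ (1 + l.σ) ∧
          (-t) ^ j * lam t * |DT j F1 t x| ≤ C * lam t ^ (1 + l.σ) ∧
          (-t) ^ (j + 1) * |DT j F2 t x| ≤ C * lam t ^ (1 + l.σ) ∧
          (-t) ^ (j + 1) * |DT j ζ t x| ≤ C * lam t ^ (1 + l.σ) := by
  obtain ⟨A, hA⟩ := zb h0 l hE j
  obtain ⟨C, hC, h⟩ := loc h0 l hE A j (2 * (j + 4) + 1) (by omega) R hR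
  exact ⟨C, hC, fun N hN v hv T hT F F1 F2 ζ hS hBo =>
    h N hN v hv T hT F F1 F2 ζ hS hBo (hA N hN v hv T hT F F1 F2 ζ hS hBo)⟩

end Crest.Agent.R213.NAB
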