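import Crest.Agent.R213.Force
import Crest.Agent.R213.NAA
import Crest.Agent.R213.NAB

/-!
# Row 213: a priori estimates for the nonlinear problems
-/

set_option autoImplicit false

noncomputable section

namespace Crest.Agent.R213

open Set Filter Topology
open scoped ContDiff

variable {b : BG} {R0 C0 : ℝ}

/-- Energy estimates at the levels `≤ J` given pointwise bounds on `ζ` at the levels `≤ J / 2`. -/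
theorem na_energy (h0 : H0P b.B0 R0 C0) (l : LD b R0) (K A : ℝ) (J : ℕ) : ∃ C, 0 < C ∧
    ∀ N : ℕ, 2 - 2 * l.tm ≤ N → ∀ v, ‖v‖ ≤ 3 → ∀ T ≤ 0, ∀ F F1 F2 ζ, SolN l N v T F F1 F2 ζ →
      Boot l K (1 / b.B0) N T F ζ →
      (∀ t < T, ∀ x ∈ dom (kap N), ∀ a, 2 * a ≤ J →
        (-t) ^ a * |kap N * ph (kap N) x * DT a ζ t x| ≤ A) →
      ∀ t < T, ∀ j ≤ J, Et ((N : ℝ) ^ 4) 0 false j t F ≤ C * (-t) ^ l.σ ∧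
        Iw ((N : ℝ) ^ 4) 0 true 12 j t (DT j F t) ≤ C * (N : ℝ) ^ 6 :=
  NAA.energy h0 l K A J

/-- The improved pointwise bound on `ζ`. -/
theorem na_zeta (h0 : H0P b.B0 R0 C0) (l : LD b R0) (K A : ℝ) (i J : ℕ) (hJ : i + 4 ≤ J) :
    ∃ C, 0 < C ∧
    ∀ N : ℕ, 2 - 2 * l.tm ≤ N → ∀ v, ‖v‖ ≤ 3 → ∀ T ≤ 0, ∀ F F1 F2 ζ, SolN l N v T F F1 F2 ζ →
      Boot l K (1 / b.B0) N T F ζ →
      (∀ t < T, ∀ x ∈ dom (kap N), ∀ a, 2 * a ≤ J →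
        (-t) ^ a * |kap N * ph (kap N) x * DT a ζ t x| ≤ A) →
      ∀ t < T, ∀ x ∈ dom (kap N), (-t) ^ i * |kap N * ph (kap N) x * DT i ζ t x| ≤ C / N :=
  NAB.zeta h0 l (na_energy h0 l K) A i J hJ

/-- All levels of `ζ` are small. -/
theorem na_all (h0 : H0P b.B0 R0 C0) (l : LD b R0) (K : ℝ) (i : ℕ) : ∃ C, 0 < C ∧
    ∀ N : ℕ, 2 - 2 * l.tm ≤ N → ∀ v, ‖v‖ ≤ 3 → ∀ T ≤ 0, ∀ F F1 F2 ζ, SolN l N v T F F1 F2 ζ →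
      Boot l K (1 / b.B0) N T F ζ →
      ∀ t < T, ∀ x ∈ dom (kap N), ∀ a ≤ i,
        (-t) ^ a * |kap N * ph (kap N) x * DT a ζ t x| ≤ C / N :=
  NAB.all h0 l (na_energy h0 l K) i

/-- All energies are bounded. -/
theorem na_en (h0 : H0P b.B0 R0 C0) (l : LD b R0) (K : ℝ) (j : ℕ) : ∃ C, 0 < C ∧
    ∀ N : ℕ, 2 - 2 * l.tm ≤ N → ∀ v, ‖v‖ ≤ 3 → ∀ T ≤ 0, ∀ F F1 F2 ζ, SolN l N v T F F1 F2 ζ →
      Boot l K (1 / b.B0) N T F ζ → ∀ t < T, ∀ R, 0 < R → R ≤ (N : ℝ) ^ 4 →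
        Et R 0 false j t F ≤ C * (-t) ^ l.σ :=
  NAB.en h0 l (na_energy h0 l K) j

/-- Local pointwise bounds. -/
theorem na_pt (h0 : H0P b.B0 R0 C0) (l : LD b R0) (K : ℝ) (j : ℕ) (R : ℝ) (hR : 1 ≤ R) :
    ∃ C, 0 < C ∧
    ∀ N : ℕ, 2 - 2 * l.tm ≤ N → ∀ v, ‖v‖ ≤ 3 → ∀ T ≤ 0, ∀ F F1 F2 ζ, SolN l N v T F F1 F2 ζ →
      Boot l K (1 / b.B0) N T F ζ → ∀ t < T, 8 * kap N * (R * lam t) ≤ 1 →
        ∀ x ∈ Icc 0 (R * lam t), (-t) ^ j * |DT j F t x| ≤ C * lam t ^ (1 + l.σ) ∧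
          (-t) ^ j * lam t * |DT j F1 t x| ≤ C * lam t ^ (1 + l.σ) ∧
          (-t) ^ (j + 1) * |DT j F2 t x| ≤ C * lam t ^ (1 + l.σ) ∧
          (-t) ^ (j + 1) * |DT j ζ t x| ≤ C * lam t ^ (1 + l.σ) :=
  NAB.pt h0 l (na_energy h0 l K) j R hR

end Crest.Agent.R213
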