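import Crest.Agent.R213.F1B
import Crest.Agent.R213.NA
import Crest.Agent.R213.LimLin
import Crest.Agent.R213.F1A

/-!
# Row 213: approximation by ancient solutions
-/

set_option autoImplicit false

noncomputable section

namespace Crest.Agent.R213

open Set Filter Topology
open scoped ContDiff

variable {b : BG} {R0 C0 : ℝ}

/-- The rescaled solution corrected by the part of the ancient solution that is switched off. -/
def resc (l : LD b R0) (v : Fin l.d → ℝ) (ν : ℝ) (F : Fn) : Fn := fun t x =>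
  ν ^ (-(1 + l.σ)) * (F (ν ^ 2 * t) (ν * x) +
    (1 - eta l.tm (ν ^ 2 * t)) * l.H v (ν ^ 2 * t) (ν * x))

/-- Bounds for the correction `(1 - η) H`, an exact solution with forcing `-η' H`. -/
theorem corr (h0 : H0P b.B0 R0 C0) (l : LD b R0) :
    (∀ v, ∃ G1 G2 Z : Fn, Sys 0 0 0 (Iio 0) b.gs 0
        (fun t x => -(deriv (eta l.tm) t * l.H v t x))
        (fun t x => (1 - eta l.tm t) * l.H v t x) G1 G2 Z) ∧
    (∀ j, ∃ C, ∀ v, ‖v‖ ≤ 3 → ∀ t < 0, ∀ R, 0 < R →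
        Et R 0 false j t (fun t x => (1 - eta l.tm t) * l.H v t x) ≤ C * (-t) ^ l.σ) ∧
    ∀ (j : ℕ) (R : ℝ), ∃ C, ∀ v, ‖v‖ ≤ 3 → ∀ G1 G2 Z : Fn, Sys 0 0 0 (Iio 0) b.gs 0
        (fun t x => -(deriv (eta l.tm) t * l.H v t x))
        (fun t x => (1 - eta l.tm t) * l.H v t x) G1 G2 Z → ∀ t < 0, ∀ x ∈ Icc 0 (R * lam t),
      (-t) ^ j * |DT j (fun t x => (1 - eta l.tm t) * l.H v t x) t x| ≤ C * lam t ^ (1 + l.σ) ∧
      (-t) ^ j * lam t * |DT j G1 t x| ≤ C * lam t ^ (1 + l.σ) ∧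
      (-t) ^ (j + 1) * |DT j G2 t x| ≤ C * lam t ^ (1 + l.σ) ∧
      -t * |deriv (eta l.tm) t * l.H v t x| ≤ C * lam t ^ (1 + l.σ) :=
  F1A.corr h0 l

/-- Rescaled solutions are uniformly close to ancient solutions. -/
theorem approx (h0 : H0P b.B0 R0 C0) (l : LD b R0) (K ta R η : ℝ) (hη : 0 < η) :
    ∀ᶠ N : ℕ in atTop, ∀ v, ‖v‖ ≤ 3 → ∀ T ≤ 0, ∀ F F1 F2 ζ, SolN l N v T F F1 F2 ζ →
      Boot l K (1 / b.B0) N T F ζ → ∀ T' ∈ Ico (2 * l.tm) 0, T' ≤ T → ∃ w, ∀ t ∈ Ico ta (-1),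
        ∀ x ∈ Icc 0 R, |resc l v (lam T') F t x - l.H w t x| ≤ η :=
  F1B.approx h0 l (corr h0 l).1 (corr h0 l).2.1 (corr h0 l).2.2 K ta R η hη

end Crest.Agent.R213
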