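import Crest.Agent.R213.NA
import Crest.Agent.R213.LimLin

/-!
# Row 213: approximation by ancient solutions (auxiliary file of `F1`)
-/

set_option autoImplicit false

noncomputable section

namespace Crest.Agent.R213
namespace F1B

open Set Filter Topology

variable {b : BG} {R0 C0 : ℝ}

/-- parabolic rescaling -/
def rs (c ν : ℝ) (u : Fn) : Fn := fun t x => c * u (ν ^ 2 * t) (ν * x)

/-- the correction -/
def Hc (l : LD b R0) (v : Fin l.d → ℝ) : Fn := fun t x => (1 - eta l.tm t) * l.H v t x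

/-- the forcing of the correction -/
def ec (l : LD b R0) (v : Fin l.d → ℝ) : Fn := fun t x => -(deriv (eta l.tm) t * l.H v t x)

theorem DT_rs (c ν : ℝ) (u : Fn) (j : ℕ) (t x : ℝ) :
    DT j (rs c ν u) t x = c * (ν ^ 2) ^ j * DT j u (ν ^ 2 * t) (ν * x) := DT_scale u c _ _ j t x

theorem sp_add {L : ℝ} {F F1 F2 G G1 G2 : ℝ → ℝ} (h : Sp L F F1 F2) (h' : Sp L G G1 G2) :
    Sp L (fun x => F x + G x) (fun x => F1 x + G1 x) fun x => F2 x + G2 x :=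
  ⟨h.c0.add h'.c0, h.c1.add h'.c1, h.c2.add h'.c2, fun x hx => (h.d1 x hx).add (h'.d1 x hx),
    fun x hx => (h.d2 x hx).add (h'.d2 x hx)⟩

theorem one_le_lam {t : ℝ} (ht : t < -1) : 1 ≤ lam t := Real.one_le_sqrt.2 (by linarith)

theorem lam_nonneg (t : ℝ) : 0 ≤ lam t := Real.sqrt_nonneg _

theorem sbd {ν σ t a a' X C : ℝ} (hν : 0 < ν) (ha : 0 ≤ a) (haa : a ≤ a')
    (h : a' * |X| ≤ C * lam (ν ^ 2 * t) ^ (1 + σ)) :
    |ν ^ (-(1 + σ)) * a * X| ≤ C * lam t ^ (1 + σ) := by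
  have hc : 0 < ν ^ (-(1 + σ)) := Real.rpow_pos_of_pos hν _
  have h1 : ν ^ (-(1 + σ)) * ν ^ (1 + σ) = 1 := by
    rw [← Real.rpow_add hν, neg_add_cancel, Real.rpow_zero]
  rw [lam_scale hν.le, Real.mul_rpow hν.le (lam_nonneg t)] at h
  rw [abs_mul, abs_of_nonneg (mul_nonneg hc.le ha), mul_assoc]
  calc _ ≤ ν ^ (-(1 + σ)) * (C * (ν ^ (1 + σ) * lam t ^ (1 + σ))) :=
        mul_le_mul_of_nonneg_left ((mul_le_mul_of_nonneg_right haa (abs_nonneg _)).trans h) hc.le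
    _ = ν ^ (-(1 + σ)) * ν ^ (1 + σ) * (C * lam t ^ (1 + σ)) := by ring
    _ = _ := by rw [h1, one_mul]

theorem sq_le_neg {ν t : ℝ} (ht : t < -1) : ν ^ 2 ≤ -(ν ^ 2 * t) := by
  nlinarith [sq_nonneg ν]

theorem three {ν σ t x C : ℝ} {u u1 u2 : Fn} {j : ℕ} (hν : 0 < ν) (ht : t < -1)
    (h0 : (-(ν ^ 2 * t)) ^ j * |DT j u (ν ^ 2 * t) (ν * x)| ≤ C * lam (ν ^ 2 * t) ^ (1 + σ))
    (h1 : (-(ν ^ 2 * t)) ^ j * lam (ν ^ 2 * t) * |DT j u1 (ν ^ 2 * t) (ν * x)| ≤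
      C * lam (ν ^ 2 * t) ^ (1 + σ))
    (h2 : (-(ν ^ 2 * t)) ^ (j + 1) * |DT j u2 (ν ^ 2 * t) (ν * x)| ≤
      C * lam (ν ^ 2 * t) ^ (1 + σ)) :
    |DT j (rs (ν ^ (-(1 + σ))) ν u) t x| ≤ C * lam t ^ (1 + σ) ∧
      |DT j (rs (ν ^ (-(1 + σ)) * ν) ν u1) t x| ≤ C * lam t ^ (1 + σ) ∧
      |DT j (rs (ν ^ (-(1 + σ)) * ν ^ 2) ν u2) t x| ≤ C * lam t ^ (1 + σ) := by
  have e0 : ∀ i : ℕ, (ν ^ 2) ^ i ≤ (-(ν ^ 2 * t)) ^ i := fun i =>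
    pow_le_pow_left₀ (sq_nonneg ν) (sq_le_neg ht) i
  have e1 : ν ≤ lam (ν ^ 2 * t) := by
    rw [lam_scale hν.le]
    exact le_mul_of_one_le_right hν.le (one_le_lam ht)
  simp only [DT_rs]
  refine ⟨sbd hν (by positivity) (e0 j) h0, ?_, ?_⟩
  · rw [mul_assoc _ ν, mul_comm ν]
    exact sbd hν (by positivity) (mul_le_mul (e0 j) e1 hν.le ((by positivity : 0 ≤ (ν ^ 2) ^ j).trans
      (e0 j))) h1
  · rw [mul_assoc _ (ν ^ 2), ← pow_succ']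
    exact sbd hν (by positivity) (e0 (j + 1)) h2

theorem Et_rs {ν σ t C R : ℝ} {u : Fn} {j : ℕ} (hν : 0 < ν) (ht : t < 0)
    (h : Et (ν * R) 0 false j (ν ^ 2 * t) u ≤ C * (-(ν ^ 2 * t)) ^ σ) :
    Et R 0 false j t (rs (ν ^ (-(1 + σ))) ν u) ≤ C * (-t) ^ σ := by
  have h1 : (ν ^ (-(1 + σ))) ^ 2 * ν ^ 2 * (ν ^ 2) ^ σ = 1 := by
    rw [← Real.rpow_natCast, ← Real.rpow_natCast, ← Real.rpow_mul hν.le, ← Real.rpow_mul hν.le,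
      ← Real.rpow_add hν, ← Real.rpow_add hν]
    convert Real.rpow_zero ν using 2
    push_cast
    ring
  rw [← mul_neg, Real.mul_rpow (sq_nonneg ν) (by linarith)] at h
  refine (Et_scale hν ht _ R false j u).trans_le ?_
  calc _ ≤ (ν ^ (-(1 + σ))) ^ 2 * ν ^ 2 * (C * ((ν ^ 2) ^ σ * (-t) ^ σ)) :=
        mul_le_mul_of_nonneg_left h (by positivity)
    _ = (ν ^ (-(1 + σ))) ^ 2 * ν ^ 2 * (ν ^ 2) ^ σ * (C * (-t) ^ σ) := by ring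
    _ = _ := by rw [h1, one_mul]

theorem abs_cube {u : ℝ} (hu : 0 ≤ u) : |1 / (1 + u) ^ 3 - 1| ≤ 3 * u := by
  have h1 : 0 < (1 + u) ^ 3 := by positivity
  have h2 : 1 ≤ (1 + u) ^ 3 := one_le_pow₀ (by linarith)
  rw [abs_sub_comm, abs_of_nonneg (sub_nonneg.2 ((div_le_one h1).2 h2)), sub_le_iff_le_add,
    ← sub_le_iff_le_add', le_div_iff₀ h1]
  have : 0 ≤ u ^ 2 * (6 + 8 * u + 3 * u ^ 2) := by positivity
  nlinarith

/-- A solution, a rescaling factor and the correction. -/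
structure Dat (l : LD b R0) (K : ℝ) where
  N : ℕ
  v : Fin l.d → ℝ
  T : ℝ
  ν : ℝ
  (F F1 F2 ζ G1 G2 Z : Fn)
  hN : 2 - 2 * l.tm ≤ N
  hv : ‖v‖ ≤ 3
  hT : T ≤ 0
  sol : SolN l N v T F F1 F2 ζ
  boot : Boot l K (1 / b.B0) N T F ζ
  pos : 0 < ν
  le : ν ≤ lam (2 * l.tm)
  lt : ∀ t < -1, ν ^ 2 * t < T
  cor : Sys 0 0 0 (Iio 0) b.gs 0 (ec l v) (Hc l v) G1 G2 Z

namespace Dat
variable {l : LD b R0} {K : ℝ} (D : Dat l K)

/-- the amplitude -/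
def c : ℝ := D.ν ^ (-(1 + l.σ))
/-- the rescaled and corrected solution -/
def G : Fn := fun t x => rs D.c D.ν D.F t x + rs D.c D.ν (Hc l D.v) t x
/-- its first derivative -/
def P1 : Fn := fun t x => rs (D.c * D.ν) D.ν D.F1 t x + rs (D.c * D.ν) D.ν D.G1 t x
/-- its second derivative -/
def P2 : Fn := fun t x => rs (D.c * D.ν ^ 2) D.ν D.F2 t x + rs (D.c * D.ν ^ 2) D.ν D.G2 t x

theorem one_le : 1 ≤ D.N := by
  have h1 := D.hN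
  have h2 := l.tm_lt
  exact_mod_cast (by linarith : (1 : ℝ) ≤ D.N)

theorem c_pos : 0 < D.c := Real.rpow_pos_of_pos D.pos _

theorem neg {t : ℝ} (ht : t < -1) : D.ν ^ 2 * t < 0 := (D.lt t ht).trans_le D.hT

theorem S1 : Sys (kap D.N * D.ν) (kap D.N / (D.ν * D.c)) 0 (Iio (-1))
    (fun t x => gN b D.N (D.ν ^ 2 * t) (D.ν * x)) (rs (D.c * D.ν ^ 2) D.ν (dN b l.tm D.N))
    (rs (D.c * D.ν ^ 2) D.ν (eN l D.N D.v)) (rs D.c D.ν D.F) (rs (D.c * D.ν) D.ν D.F1)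
    (rs (D.c * D.ν ^ 2) D.ν D.F2) (rs (D.c * D.ν ^ 2) D.ν D.ζ) :=
  D.sol.1.scale D.pos D.c_pos.ne' D.lt

theorem S2 : Sys (0 * D.ν) (0 / (D.ν * D.c)) 0 (Iio (-1))
    (fun t x => b.gs (D.ν ^ 2 * t) (D.ν * x)) (rs (D.c * D.ν ^ 2) D.ν 0)
    (rs (D.c * D.ν ^ 2) D.ν (ec l D.v)) (rs D.c D.ν (Hc l D.v)) (rs (D.c * D.ν) D.ν D.G1)
    (rs (D.c * D.ν ^ 2) D.ν D.G2) (rs (D.c * D.ν ^ 2) D.ν D.Z) :=
  D.cor.scale D.pos D.c_pos.ne' fun _ ht => D.neg ht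

theorem small {R : ℝ} (hR : 0 ≤ R) (h : kap D.N * (lam (2 * l.tm) * R) ≤ 1) :
    kap D.N * D.ν * R ≤ 1 := by
  rw [mul_assoc]
  exact (mul_le_mul_of_nonneg_left (mul_le_mul_of_nonneg_right D.le hR)
    (kap_pos D.one_le).le).trans h

theorem sub1 {R : ℝ} (h : kap D.N * D.ν * R ≤ 1) : Icc 0 R ⊆ dom (kap D.N * D.ν) :=
  Icc_subset_dom D.S1.hκ h

theorem sub2 (R : ℝ) : Icc 0 R ⊆ dom (0 * D.ν) := Icc_subset_dom (by simp) (by simp)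

theorem hs {R : ℝ} (h : kap D.N * D.ν * R ≤ 1) :
    TS (Iio (-1)) (Icc 0 R) D.G ∧ TS (Iio (-1)) (Icc 0 R) D.P1 ∧ TS (Iio (-1)) (Icc 0 R) D.P2 ∧
      ∀ t < -1, Sp R (D.G t) (D.P1 t) (D.P2 t) :=
  ⟨(D.S1.tF.mono le_rfl (D.sub1 h)).add isOpen_Iio (D.S2.tF.mono le_rfl (D.sub2 R)),
    (D.S1.tF1.mono le_rfl (D.sub1 h)).add isOpen_Iio (D.S2.tF1.mono le_rfl (D.sub2 R)),
    (D.S1.tF2.mono le_rfl (D.sub1 h)).add isOpen_Iio (D.S2.tF2.mono le_rfl (D.sub2 R)),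
    fun _ ht => sp_add (D.S1.sp isOpen_Iio h 0 ht) (D.S2.sp isOpen_Iio (by simp) 0 ht)⟩

theorem mem {R R' t x : ℝ} (ht : t < -1) (hx : x ∈ Icc 0 R) (hR : R ≤ R') :
    D.ν * x ∈ Icc 0 (R' * lam (D.ν ^ 2 * t)) := by
  refine ⟨mul_nonneg D.pos.le hx.1, ?_⟩
  rw [lam_scale D.pos.le, mul_comm]
  exact mul_le_mul (hx.2.trans hR) (le_mul_of_one_le_right D.pos.le (one_le_lam ht)) D.pos.le
    (hx.1.trans (hx.2.trans hR))

end Dat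

/-- the pointwise bounds of the correction -/
def CorPt (l : LD b R0) : Prop :=
  ∀ (j : ℕ) (R : ℝ), ∃ C, ∀ v, ‖v‖ ≤ 3 → ∀ G1 G2 Z : Fn,
    Sys 0 0 0 (Iio 0) b.gs 0 (ec l v) (Hc l v) G1 G2 Z → ∀ t < 0, ∀ x ∈ Icc 0 (R * lam t),
      (-t) ^ j * |DT j (Hc l v) t x| ≤ C * lam t ^ (1 + l.σ) ∧
      (-t) ^ j * lam t * |DT j G1 t x| ≤ C * lam t ^ (1 + l.σ) ∧
      (-t) ^ (j + 1) * |DT j G2 t x| ≤ C * lam t ^ (1 + l.σ) ∧
      -t * |deriv (eta l.tm) t * l.H v t x| ≤ C * lam t ^ (1 + l.σ)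

theorem ptF (h0 : H0P b.B0 R0 C0) (l : LD b R0) (K : ℝ) (j : ℕ) (ta R : ℝ) : ∃ C A : ℝ,
    ∀ D : Dat l K, kap D.N * A ≤ 1 → ∀ t ∈ Ico ta (-1), ∀ x ∈ Icc 0 R,
      kap D.N * D.ν * R ≤ 1 ∧ |DT j (rs D.c D.ν D.F) t x| ≤ C ∧
      |DT j (rs (D.c * D.ν) D.ν D.F1) t x| ≤ C ∧ |DT j (rs (D.c * D.ν ^ 2) D.ν D.F2) t x| ≤ C := by
  obtain ⟨C, hC, h⟩ := na_pt h0 l K j (max R 1) (le_max_right _ _)
  refine ⟨C * lam ta ^ (1 + l.σ), lam (2 * l.tm) * (8 * (max R 1 * lam ta)),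
    fun D hD t ht x hx => ?_⟩
  have hR : 0 < max R 1 := lt_max_of_lt_right one_pos
  have h1 := one_le_lam ht.2
  have h2 := lam_anti ht.1
  have h0' := lam_nonneg ta
  have h3 := D.small (by positivity) hD
  have h4 : 0 < kap D.N * D.ν := mul_pos (kap_pos D.one_le) D.pos
  have h5 : 8 * kap D.N * (max R 1 * lam (D.ν ^ 2 * t)) ≤ 1 := by
    rw [lam_scale D.pos.le]
    calc _ = kap D.N * D.ν * (8 * (max R 1 * lam t)) := by ring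
      _ ≤ kap D.N * D.ν * (8 * (max R 1 * lam ta)) := by gcongr
      _ ≤ 1 := h3
  obtain ⟨a0, a1, a2, -⟩ := h D.N D.hN D.v D.hv D.T D.hT D.F D.F1 D.F2 D.ζ D.sol D.boot _
    (D.lt t ht.2) h5 _ (D.mem ht.2 hx (le_max_left _ _))
  obtain ⟨b0, b1, b2⟩ := three D.pos ht.2 a0 a1 a2
  have h6 : C * lam t ^ (1 + l.σ) ≤ C * lam ta ^ (1 + l.σ) :=
    mul_le_mul_of_nonneg_left (Real.rpow_le_rpow (by linarith) h2 (by linarith [l.σ_pos])) hC.le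
  refine ⟨le_trans (mul_le_mul_of_nonneg_left ?_ h4.le) h3, b0.trans h6, b1.trans h6, b2.trans h6⟩
  nlinarith [le_max_left R 1, mul_le_mul_of_nonneg_left (h1.trans h2) hR.le]

theorem ptG (h0 : H0P b.B0 R0 C0) {l : LD b R0} (hc : CorPt l) (K : ℝ) (j : ℕ) (ta R : ℝ) :
    ∃ C A : ℝ, ∀ D : Dat l K, kap D.N * A ≤ 1 → ∀ t ∈ Ico ta (-1), ∀ x ∈ Icc 0 R,
      |DT j D.G t x| ≤ C ∧ |DT j D.P1 t x| ≤ C ∧ |DT j D.P2 t x| ≤ C := by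
  obtain ⟨C, A, h⟩ := ptF h0 l K j ta R
  obtain ⟨C', h'⟩ := hc j R
  refine ⟨C + |C'| * lam ta ^ (1 + l.σ), A, fun D hD t ht x hx => ?_⟩
  obtain ⟨h1, a0, a1, a2⟩ := h D hD t ht x hx
  obtain ⟨b0, b1, b2, -⟩ := h' D.v D.hv D.G1 D.G2 D.Z D.cor _ (D.neg ht.2) _ (D.mem ht.2 hx le_rfl)
  obtain ⟨c0, c1, c2⟩ := three D.pos ht.2 b0 b1 b2
  have h2 := one_le_lam ht.2
  have h6 : C' * lam t ^ (1 + l.σ) ≤ |C'| * lam ta ^ (1 + l.σ) :=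
    mul_le_mul (le_abs_self _) (Real.rpow_le_rpow (by linarith) (lam_anti ht.1)
      (by linarith [l.σ_pos])) (by positivity) (abs_nonneg _)
  refine ⟨?_, ?_, ?_⟩
  · unfold Dat.G
    rw [DT_add isOpen_Iio (D.S1.tF.mono le_rfl (D.sub1 h1))
      (D.S2.tF.mono le_rfl (D.sub2 R)) j t ht.2 x hx]
    exact (abs_add_le _ _).trans (add_le_add a0 (c0.trans h6))
  · unfold Dat.P1
    rw [DT_add isOpen_Iio (D.S1.tF1.mono le_rfl (D.sub1 h1))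
      (D.S2.tF1.mono le_rfl (D.sub2 R)) j t ht.2 x hx]
    exact (abs_add_le _ _).trans (add_le_add a1 (c1.trans h6))
  · unfold Dat.P2
    rw [DT_add isOpen_Iio (D.S1.tF2.mono le_rfl (D.sub1 h1))
      (D.S2.tF2.mono le_rfl (D.sub2 R)) j t ht.2 x hx]
    exact (abs_add_le _ _).trans (add_le_add a2 (c2.trans h6))

theorem enG (h0 : H0P b.B0 R0 C0) {l : LD b R0} (K : ℝ) (j : ℕ)
    (hc : ∃ C, ∀ v, ‖v‖ ≤ 3 → ∀ t < 0, ∀ R, 0 < R →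
      Et R 0 false j t (Hc l v) ≤ C * (-t) ^ l.σ) :
    ∃ C, ∀ t < -1, ∀ R, 0 < R → ∀ D : Dat l K, kap D.N * (lam (2 * l.tm) * R) ≤ 1 →
      Et R 0 false j t D.G ≤ C * (-t) ^ l.σ := by
  obtain ⟨C, -, h⟩ := na_en h0 l K j
  obtain ⟨C', h'⟩ := hc
  refine ⟨2 * C + 2 * C', fun t ht R hR D hD => ?_⟩
  have ht0 : t < 0 := by linarith
  have h1 := D.small hR.le hD
  have h2 : D.ν * R ≤ (D.N : ℝ) ^ 4 := by
    refine le_of_mul_le_mul_left ?_ (kap_pos D.one_le)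
    rw [kap_mul D.one_le, ← mul_assoc]
    exact h1
  have a1 : Et R 0 false j t (rs D.c D.ν D.F) ≤ C * (-t) ^ l.σ :=
    Et_rs D.pos ht0 (h D.N D.hN D.v D.hv D.T D.hT D.F D.F1 D.F2 D.ζ D.sol D.boot _ (D.lt t ht) _
      (mul_pos D.pos hR) h2)
  have a2 : Et R 0 false j t (rs D.c D.ν (Hc l D.v)) ≤ C' * (-t) ^ l.σ :=
    Et_rs D.pos ht0 (h' D.v D.hv _ (D.neg ht) _ (mul_pos D.pos hR))
  have t1 := D.S1.tF.mono le_rfl (D.sub1 h1)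
  have t2 := D.S2.tF.mono le_rfl (D.sub2 R)
  unfold Et at a1 a2 ⊢
  unfold Dat.G
  rw [Iw_congr hR.le _ _ _ _ (DT_add isOpen_Iio t1 t2 j t ht)]
  have a3 := mul_le_mul_of_nonneg_left (Iw_add_le (θ := 0) (q := false) (m := 13) (j := j) ht0 hR.le
    (t1.cont_x j ht) (t2.cont_x j ht)) (lam_pos ht0).le
  linarith

theorem split {l : LD b R0} {K : ℝ} (D : Dat l K) {t x : ℝ} (ht : t < -1) (hx : 0 < x)
    (h : 4 * kap D.N * (D.ν * x) ≤ 1) :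
    K1 (Dt D.G t) x + b.gs t x ^ 2 * D.P2 t x =
      K1 (fun y => rs (D.c * D.ν ^ 2) D.ν (eN l D.N D.v) t y +
          rs (D.c * D.ν ^ 2) D.ν (ec l D.v) t y) x -
        (1 - kap D.N * (D.ν * x)) * b.gs t x * rs (D.c * D.ν ^ 2) D.ν D.F2 t x *
          (kap D.N * ph (kap D.N) (D.ν * x) * D.ζ (D.ν ^ 2 * t) (D.ν * x)) := by
  have hk := kap_pos D.one_le
  have hy : 0 < D.ν * x := mul_pos D.pos hx
  have h1 : kap D.N * D.ν * x ≤ 1 := by nlinarith [mul_pos hk hy]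
  have hm : x ∈ Icc 0 x := ⟨hx.le, le_rfl⟩
  have t1 := D.S1.tF.mono le_rfl (D.sub1 h1)
  have t2 := D.S2.tF.mono le_rfl (D.sub2 x)
  have c1 : ContinuousOn (rs (D.c * D.ν ^ 2) D.ν (eN l D.N D.v) t) (Icc 0 x) :=
    (D.S1.te.mono le_rfl (D.sub1 h1)).cont_x 0 ht
  have c2 : ContinuousOn (rs (D.c * D.ν ^ 2) D.ν (ec l D.v) t) (Icc 0 x) :=
    (D.S2.te.mono le_rfl (D.sub2 x)).cont_x 0 ht
  have c3 : ContinuousOn (Dt (rs D.c D.ν D.F) t) (Icc 0 x) := t1.cont_x 1 ht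
  have c4 : ContinuousOn (Dt (rs D.c D.ν (Hc l D.v)) t) (Icc 0 x) := t2.cont_x 1 ht
  have v1 := D.S1.vol t ht x (D.sub1 h1 hm)
  have v2 := D.S2.vol t ht x (D.sub2 x hm)
  have v3 : Vol (Dt D.G t) x =
      Vol (fun y => Dt (rs D.c D.ν D.F) t y - rs (D.c * D.ν ^ 2) D.ν (eN l D.N D.v) t y) x +
      (Vol (fun y => Dt (rs D.c D.ν (Hc l D.v)) t y - rs (D.c * D.ν ^ 2) D.ν (ec l D.v) t y) x +
      Vol (fun y => rs (D.c * D.ν ^ 2) D.ν (eN l D.N D.v) t y +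
        rs (D.c * D.ν ^ 2) D.ν (ec l D.v) t y) x) := by
    rw [← vol_add hx.le (c4.fun_sub c2) (c1.fun_add c2),
      ← vol_add hx.le (c3.fun_sub c1) ((c4.fun_sub c2).fun_add (c1.fun_add c2))]
    refine vol_congr hx.le fun y hy => ?_
    have e : Dt D.G t y = Dt (rs D.c D.ν D.F) t y + Dt (rs D.c D.ν (Hc l D.v)) t y :=
      DT_add isOpen_Iio t1 t2 1 t ht y hy
    rw [e]
    ring
  rw [← v1, ← v2, vol_eq_K1, vol_eq_K1] at v3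
  have n2 := D.S2.nl t ht x (D.sub2 x hm)
  have n1 := D.sol.1.nl _ (D.lt t ht) (D.ν * x) ⟨hy.le, by nlinarith [mul_pos hk hy]⟩
  have d0 : dN b l.tm D.N (D.ν ^ 2 * t) (D.ν * x) = 0 :=
    dN_inner b (by linarith [l.tm_lt]) D.one_le 0 _ (D.neg ht) _ hy.le h
  have g1 := gN_eq b D.one_le _ (D.neg ht) _ hy.le h
  have g2 := b.gs_scale D.ν t x D.pos
  rw [g2] at g1
  rw [d0] at n1
  simp only [g2, zero_div, zero_mul, add_zero, rs, Pi.zero_apply, mul_zero] at n2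
  have v4 : K1 (Dt D.G t) x = (1 - kap D.N * (D.ν * x)) ^ 2 * rs (D.c * D.ν ^ 2) D.ν D.ζ t x +
      (rs (D.c * D.ν ^ 2) D.ν D.Z t x + K1 (fun y => rs (D.c * D.ν ^ 2) D.ν (eN l D.N D.v) t y +
        rs (D.c * D.ν ^ 2) D.ν (ec l D.v) t y) x) := by
    refine mul_left_cancel₀ (pow_ne_zero 11 hx.ne') ?_
    rw [v3]
    unfold ph
    ring
  rw [v4, Dat.P2]
  simp only [rs]
  rw [n2, ← g1]
  set p := kap D.N * ph (kap D.N) (D.ν * x) * D.ζ (D.ν ^ 2 * t) (D.ν * x)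
  rw [n1]
  ring

theorem zb (h0 : H0P b.B0 R0 C0) {l : LD b R0} (hc : CorPt l) (K : ℝ) {t x : ℝ} (ht : t < -1)
    (hx : 0 < x) : ∃ C A : ℝ, ∀ D : Dat l K, kap D.N * A ≤ 1 →
      kap D.N * (lam (2 * l.tm) * (4 * x)) ≤ 1 →
      |K1 (Dt D.G t) x + b.gs t x ^ 2 * D.P2 t x| ≤ C / D.N := by
  obtain ⟨C₁, A, h1⟩ := ptF h0 l K 0 t x
  obtain ⟨C₂, hC₂, h2⟩ := na_all h0 l K 0
  obtain ⟨C₃, h3⟩ := hc 0 x
  refine ⟨|C₃| * lam t ^ (1 + l.σ) * (3 * (lam (2 * l.tm) * x)) / 110 + |b.gs t x| * C₁ * C₂, A,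
    fun D hD hD' => ?_⟩
  have hk := kap_pos D.one_le
  have hN : (0 : ℝ) < D.N := by exact_mod_cast D.one_le
  have hy : 0 < D.ν * x := mul_pos D.pos hx
  have hl := one_le_lam ht
  have h4 : 4 * kap D.N * (D.ν * x) ≤ 1 := by
    have := D.small (by positivity) hD'
    linarith
  have h5 : 0 < kap D.N * (D.ν * x) := mul_pos hk hy
  rw [split D ht hx h4, add_div]
  refine (abs_sub _ _).trans (add_le_add ?_ ?_)
  · rw [div_right_comm]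
    refine abs_K1_le hx.le fun y hy => ?_
    have a1 := (h3 D.v D.hv D.G1 D.G2 D.Z D.cor _ (D.neg ht) _ (D.mem ht hy le_rfl)).2.2.2
    have a2 := sbd D.pos (sq_nonneg D.ν) (sq_le_neg ht) a1
    have hu : 0 ≤ D.ν * y / D.N := div_nonneg (mul_nonneg D.pos.le hy.1) hN.le
    have a3 : rs (D.c * D.ν ^ 2) D.ν (eN l D.N D.v) t y + rs (D.c * D.ν ^ 2) D.ν (ec l D.v) t y =
        D.ν ^ (-(1 + l.σ)) * D.ν ^ 2 *
          (deriv (eta l.tm) (D.ν ^ 2 * t) * l.H D.v (D.ν ^ 2 * t) (D.ν * y)) *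
          (1 / (1 + D.ν * y / D.N) ^ 3 - 1) := by
      simp only [rs, eN, ec, Dat.c]
      ring
    have a4 : 0 ≤ lam t ^ (1 + l.σ) := Real.rpow_nonneg (lam_nonneg t) _
    rw [a3, abs_mul, mul_div_assoc (|C₃| * _)]
    refine mul_le_mul (a2.trans (mul_le_mul_of_nonneg_right (le_abs_self _) a4))
      ((abs_cube hu).trans ?_) (abs_nonneg _) (by positivity)
    rw [mul_div_assoc 3]
    exact mul_le_mul_of_nonneg_left (div_le_div_of_nonneg_right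
      (mul_le_mul D.le hy.2 hy.1 (lam_nonneg _)) hN.le) (by norm_num)
  · have a1 : |rs (D.c * D.ν ^ 2) D.ν D.F2 t x| ≤ C₁ :=
      (h1 D hD t ⟨le_rfl, ht⟩ x ⟨hx.le, le_rfl⟩).2.2.2
    have a2 := h2 D.N D.hN D.v D.hv D.T D.hT D.F D.F1 D.F2 D.ζ D.sol D.boot _ (D.lt t ht)
      (D.ν * x) ⟨hy.le, by linarith⟩ 0 le_rfl
    rw [pow_zero, one_mul] at a2
    have a3 : |1 - kap D.N * (D.ν * x)| ≤ 1 := abs_le.2 ⟨by linarith, by linarith⟩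
    have a4 := (abs_nonneg _).trans a1
    rw [abs_mul, abs_mul, abs_mul, mul_div_assoc]
    exact mul_le_mul (mul_le_mul (mul_le_of_le_one_left (abs_nonneg _) a3) a1 (abs_nonneg _)
      (abs_nonneg _)) a2 (abs_nonneg _) (by positivity)

theorem approx (h0 : H0P b.B0 R0 C0) (l : LD b R0)
    (hc1 : ∀ v, ∃ G1 G2 Z : Fn, Sys 0 0 0 (Iio 0) b.gs 0 (ec l v) (Hc l v) G1 G2 Z)
    (hc2 : ∀ j, ∃ C, ∀ v, ‖v‖ ≤ 3 → ∀ t < 0, ∀ R, 0 < R →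
      Et R 0 false j t (Hc l v) ≤ C * (-t) ^ l.σ)
    (hc3 : CorPt l) (K ta R η : ℝ) (hη : 0 < η) :
    ∀ᶠ N : ℕ in atTop, ∀ v, ‖v‖ ≤ 3 → ∀ T ≤ 0, ∀ F F1 F2 ζ, SolN l N v T F F1 F2 ζ →
      Boot l K (1 / b.B0) N T F ζ → ∀ T' ∈ Ico (2 * l.tm) 0, T' ≤ T → ∃ w, ∀ t ∈ Ico ta (-1),
        ∀ x ∈ Icc 0 R, |lam T' ^ (-(1 + l.σ)) * (F (lam T' ^ 2 * t) (lam T' * x) +
          Hc l v (lam T' ^ 2 * t) (lam T' * x)) - l.H w t x| ≤ η := by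
  by_contra hn
  obtain ⟨φ, hφ, h⟩ := extraction_of_frequently_atTop ((not_eventually.1 hn).and_eventually
    (tendsto_natCast_atTop_atTop.eventually_ge_atTop (2 - 2 * l.tm)))
  have h1 : ∀ k, ∃ D : Dat l K, D.N = φ k ∧
      ∀ w, ¬∀ t ∈ Ico ta (-1), ∀ x ∈ Icc 0 R, |D.G t x - l.H w t x| ≤ η := by
    intro k
    obtain ⟨h2, h3⟩ := h k
    simp only [not_forall, not_exists] at h2
    obtain ⟨v, hv, T, hT, F, F1, F2, ζ, hs, hb, T', hT', hTT, h2⟩ := h2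
    obtain ⟨G1, G2, Z, hG⟩ := hc1 v
    refine ⟨⟨φ k, v, T, lam T', F, F1, F2, ζ, G1, G2, Z, h3, hv, hT, hs, hb, lam_pos hT'.2,
      lam_anti hT'.1, fun t ht => ?_, hG⟩, rfl, fun w hw => ?_⟩
    · rw [lam_sq hT'.2.le]
      nlinarith [hT'.2]
    · obtain ⟨t, ht, x, hx, h4⟩ := h2 w
      refine h4 ?_
      rw [mul_add]
      exact hw t ht x hx
  choose D hD hw using h1
  have hN : Tendsto (fun k => (D k).N) atTop atTop := by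
    rw [funext hD]
    exact hφ.tendsto_atTop
  have hk : ∀ A : ℝ, ∀ᶠ k in atTop, kap (D k).N * A ≤ 1 := fun A => by
    have := (tendsto_kap.comp hN).mul_const A
    rw [zero_mul] at this
    exact this.eventually (eventually_le_nhds one_pos)
  obtain ⟨ψ, -, H, hH, h2⟩ := limLin b l.σ (fun k => (D k).G) (fun k => (D k).P1)
    (fun k => (D k).P2) (fun k t x => K1 (Dt (D k).G t) x)
    (fun R hR => (hk (lam (2 * l.tm) * R)).mono fun k hk => by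
      obtain ⟨a1, a2, a3, a4⟩ := (D k).hs ((D k).small hR.le hk)
      exact ⟨a1, a2, a3, fun t ht => ⟨a4 t ht, fun x _ => (vol_eq_K1 _ x).symm⟩⟩)
    (fun j ta R => by
      obtain ⟨C, A, h⟩ := ptG h0 hc3 K j ta R
      exact ⟨C, (hk A).mono fun k hk => h _ hk⟩)
    (fun t ht x hx => by
      obtain ⟨C, A, h⟩ := zb h0 hc3 K ht hx
      refine squeeze_zero_norm' (((hk A).and (hk _)).mono fun k hk => h _ hk.1 hk.2) ?_
      exact (tendsto_const_div_atTop_nhds_zero_nat C).comp hN)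
    fun j => by
      obtain ⟨C, h⟩ := enG h0 K j (hc2 j)
      exact ⟨C, fun t ht R hR => (hk _).mono fun k hk => h t ht R hR _ hk⟩
  obtain ⟨w, rfl⟩ := l.surj H hH
  obtain ⟨k, h3⟩ := (h2 ta R η hη).exists
  exact hw _ w h3

end F1B
end Crest.Agent.R213
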