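import Crest.Agent.R213.F1
import Crest.Agent.R213.Cont

/-!
# Row 213: the bootstrap bounds improve
-/

set_option autoImplicit false

noncomputable section

namespace Crest.Agent.R213.F2A

open Set Filter Topology
open scoped ContDiff

variable {b : BG} {R0 C0 : ℝ}

theorem one_le_lam {t : ℝ} (ht : t ≤ -1) : 1 ≤ lam t := by
  unfold lam
  exact Real.one_le_sqrt.2 (by linarith)

theorem lam_nonneg (t : ℝ) : 0 ≤ lam t := Real.sqrt_nonneg _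

theorem lam_le {t μ : ℝ} (hμ : 0 ≤ μ) (h : -t ≤ μ ^ 2) : lam t ≤ μ := by
  unfold lam
  exact Real.sqrt_le_iff.2 ⟨hμ, h⟩

/-- The ancient solution that approximates is bounded through its values at the rescaled points. -/
theorem w_bound (hR0 : 0 < R0) (l : LD b R0) (G : Fn) (w : Fin l.d → ℝ) {ν M : ℝ}
    (hν : ν ∈ Icc 1 l.μ) (hM : 0 ≤ M)
    (hw : ∀ t ∈ Ico (l.μ ^ 2 * l.tm) (-1), ∀ x ∈ Icc 0 (R0 * l.μ * lam l.tm),
      |G t x - l.H w t x| ≤ 1)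
    (hG : ∀ i, |ν ^ (-(1 + l.σ)) * G (ν ^ 2 * l.pt i) (ν * l.px i)| ≤ M) :
    ‖w‖ ≤ l.C1 * (M + 1) := by
  have hC := l.C1_ge
  refine (l.lower ν hν w).trans (mul_le_mul_of_nonneg_left ?_ (by linarith))
  refine (pi_norm_le_iff_of_nonneg (by linarith)).2 fun i => ?_
  have hp := l.pt_mem i
  have hx := l.px_mem i
  have htm := l.tm_lt
  have hν0 : 0 < ν := by linarith [hν.1]
  have hsq : ν ^ 2 ≤ l.μ ^ 2 := pow_le_pow_left₀ hν0.le hν.2 2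
  have h1 : 1 ≤ ν ^ 2 := one_le_pow₀ hν.1
  have hl : lam (l.pt i) ≤ lam l.tm := lam_anti hp.1
  have h2 := hw (ν ^ 2 * l.pt i) ⟨by nlinarith [hp.1, hp.2], by nlinarith [hp.1, hp.2]⟩
    (ν * l.px i) ⟨mul_nonneg hν0.le hx.1, by
      have h3 : l.px i ≤ R0 * lam l.tm := hx.2.trans (mul_le_mul_of_nonneg_left hl hR0.le)
      calc ν * l.px i ≤ l.μ * (R0 * lam l.tm) :=
            mul_le_mul hν.2 h3 hx.1 (by linarith [hν.1, hν.2])
        _ = R0 * l.μ * lam l.tm := by ring⟩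
  have hc0 : 0 < ν ^ (-(1 + l.σ)) := Real.rpow_pos_of_pos hν0 _
  have hc1 : ν ^ (-(1 + l.σ)) ≤ 1 :=
    Real.rpow_le_one_of_one_le_of_nonpos hν.1 (by linarith [l.σ_pos])
  have h4 := hG i
  rw [Real.norm_eq_abs]
  unfold sc
  rw [if_pos ⟨hp.2, hx.1⟩]
  set c := ν ^ (-(1 + l.σ))
  set A := G (ν ^ 2 * l.pt i) (ν * l.px i)
  set B := l.H w (ν ^ 2 * l.pt i) (ν * l.px i)
  have h5 : |c * (A - B)| ≤ 1 := by
    rw [abs_mul, abs_of_pos hc0]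
    exact mul_le_one₀ hc1 (abs_nonneg _) h2
  calc |c * B| = |c * A - c * (A - B)| := by congr 1; ring
    _ ≤ |c * A| + |c * (A - B)| := abs_sub _ _
    _ ≤ M + 1 := add_le_add h4 h5

/-- The switched-off part of the ancient solution is bounded. -/
theorem corr_bound (l : LD b R0) {v : Fin l.d → ℝ} (hv : ‖v‖ ≤ 3) {t x : ℝ}
    (hx : x ∈ Icc 0 (R0 * lam t)) :
    |(1 - eta l.tm t) * l.H v t x| ≤ 3 * l.C1 * lam t ^ (1 + l.σ) := by
  have hC := l.C1_ge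
  have hl : 0 ≤ lam t ^ (1 + l.σ) := Real.rpow_nonneg (lam_nonneg t) _
  by_cases ht : t < -1
  · have h1 := l.nb v t ht x hx
    have h2 := eta_mem l.tm t
    rw [abs_mul, abs_of_nonneg (by linarith [h2.2] : 0 ≤ 1 - eta l.tm t)]
    calc (1 - eta l.tm t) * |l.H v t x| ≤ 1 * |l.H v t x| :=
          mul_le_mul_of_nonneg_right (by linarith [h2.1]) (abs_nonneg _)
      _ ≤ l.C1 * ‖v‖ * lam t ^ (1 + l.σ) := by rw [one_mul]; exact h1
      _ ≤ 3 * l.C1 * lam t ^ (1 + l.σ) :=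
          mul_le_mul_of_nonneg_right (by nlinarith [norm_nonneg v]) hl
  · rw [(l.mem v).1 t x fun h => ht h.1, mul_zero, abs_zero]
    positivity

/-- Evaluation of the approximation at the rescaled point. -/
theorem eval_bound (hR0 : 0 < R0) (l : LD b R0) {v w : Fin l.d → ℝ} (hv : ‖v‖ ≤ 3) (F : Fn)
    {T' t x W : ℝ} (hT' : T' < 0) (ht : t < T') (hx : x ∈ Icc 0 (R0 * lam t))
    (hμ : lam t ≤ l.μ * lam T') (hW : ‖w‖ ≤ W)
    (hw : ∀ s ∈ Ico (l.μ ^ 2 * l.tm) (-1), ∀ y ∈ Icc 0 (R0 * l.μ * lam l.tm),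
      |resc l v (lam T') F s y - l.H w s y| ≤ 1) :
    |F t x| ≤ (1 + l.C1 * W + 3 * l.C1) * lam t ^ (1 + l.σ) := by
  have hC := l.C1_ge
  have htm := l.tm_lt
  have hμ1 := l.one_lt
  set ν := lam T' with hνdef
  have hν0 : 0 < ν := lam_pos hT'
  have hνsq : ν ^ 2 = -T' := lam_sq hT'.le
  have ht0 : t < 0 := ht.trans hT'
  have hlt : lam t ^ 2 = -t := lam_sq ht0.le
  have hl0 : 0 < lam t := lam_pos ht0
  have hνl : ν ≤ lam t := lam_anti ht.le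
  have hs1 : ν⁻¹ ^ 2 * t < -1 := by
    rw [inv_pow, inv_mul_lt_iff₀ (by positivity)]
    linarith
  have hls : lam (ν⁻¹ ^ 2 * t) = ν⁻¹ * lam t := lam_scale (by positivity) t
  have hq : ν⁻¹ * lam t ≤ l.μ := by
    rw [inv_mul_le_iff₀ hν0]
    linarith
  have hq0 : 0 ≤ ν⁻¹ * lam t := by positivity
  have hs2 : l.μ ^ 2 * l.tm ≤ ν⁻¹ ^ 2 * t := by
    have h1 : (ν⁻¹ * lam t) ^ 2 ≤ l.μ ^ 2 := pow_le_pow_left₀ hq0 hq 2
    rw [mul_pow, hlt] at h1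
    nlinarith [sq_nonneg l.μ]
  have hy : ν⁻¹ * x ∈ Icc 0 (R0 * lam (ν⁻¹ ^ 2 * t)) := by
    rw [hls]
    refine ⟨mul_nonneg (by positivity) hx.1, ?_⟩
    calc ν⁻¹ * x ≤ ν⁻¹ * (R0 * lam t) := mul_le_mul_of_nonneg_left hx.2 (by positivity)
      _ = R0 * (ν⁻¹ * lam t) := by ring
  have hy2 : ν⁻¹ * x ∈ Icc 0 (R0 * l.μ * lam l.tm) := by
    refine ⟨hy.1, hy.2.trans ?_⟩
    rw [hls]
    have h1 := one_le_lam htm.le
    calc R0 * (ν⁻¹ * lam t) ≤ R0 * l.μ := mul_le_mul_of_nonneg_left hq hR0.le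
      _ = R0 * l.μ * 1 := by ring
      _ ≤ R0 * l.μ * lam l.tm := mul_le_mul_of_nonneg_left h1 (by positivity)
  have h1 := hw _ ⟨hs2, hs1⟩ _ hy2
  have h2 := l.nb w _ hs1 _ hy
  have h3 := corr_bound l hv hx
  unfold resc at h1
  have e1 : ν ^ 2 * (ν⁻¹ ^ 2 * t) = t := by field_simp
  have e2 : ν * (ν⁻¹ * x) = x := by field_simp
  rw [e1, e2] at h1
  rw [hls, Real.mul_rpow (by positivity) hl0.le, Real.inv_rpow hν0.le] at h2
  rw [Real.rpow_neg hν0.le] at h1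
  have hc0 : 0 < ν ^ (1 + l.σ) := Real.rpow_pos_of_pos hν0 _
  have hcl : ν ^ (1 + l.σ) ≤ lam t ^ (1 + l.σ) :=
    Real.rpow_le_rpow hν0.le hνl (by linarith [l.σ_pos])
  set c := ν ^ (1 + l.σ)
  set L := lam t ^ (1 + l.σ)
  set A := (1 - eta l.tm t) * l.H v t x
  set B := l.H w (ν⁻¹ ^ 2 * t) (ν⁻¹ * x)
  have hL : 0 ≤ L := hc0.le.trans hcl
  have h4 : |c * (c⁻¹ * (F t x + A) - B)| ≤ L := by
    rw [abs_mul, abs_of_pos hc0]
    calc c * |c⁻¹ * (F t x + A) - B| ≤ c * 1 := mul_le_mul_of_nonneg_left h1 hc0.le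
      _ ≤ L := by rw [mul_one]; exact hcl
  have h5 : |c * B| ≤ l.C1 * W * L := by
    rw [abs_mul, abs_of_pos hc0]
    calc c * |B| ≤ c * (l.C1 * ‖w‖ * (c⁻¹ * L)) := mul_le_mul_of_nonneg_left h2 hc0.le
      _ = l.C1 * ‖w‖ * L := by field_simp
      _ ≤ l.C1 * W * L :=
          mul_le_mul_of_nonneg_right (mul_le_mul_of_nonneg_left hW (by linarith)) hL
  have e3 : F t x = c * (c⁻¹ * (F t x + A) - B) + c * B - A := by field_simp; ring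
  calc |F t x| = |c * (c⁻¹ * (F t x + A) - B) + c * B - A| := by rw [← e3]
    _ ≤ |c * (c⁻¹ * (F t x + A) - B) + c * B| + |A| := abs_sub _ _
    _ ≤ |c * (c⁻¹ * (F t x + A) - B)| + |c * B| + |A| := by
        linarith [abs_add_le (c * (c⁻¹ * (F t x + A) - B)) (c * B)]
    _ ≤ L + l.C1 * W * L + 3 * l.C1 * L := by linarith
    _ = (1 + l.C1 * W + 3 * l.C1) * L := by ring

theorem exists_sk {μ t : ℝ} (hμ : 1 < μ) (h1 : -1 ≤ t) (h0 : t < 0) :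
    ∃ k, sk μ k ≤ t ∧ t < sk μ (k + 1) := by
  classical
  have hex : ∃ k, t < sk μ k := ((tendsto_sk hμ).eventually (lt_mem_nhds h0)).exists
  have hk := Nat.find_spec hex
  have hne : Nat.find hex ≠ 0 := by
    intro h
    rw [h] at hk
    simp [sk] at hk
    linarith
  obtain ⟨k, hk'⟩ := Nat.exists_eq_succ_of_ne_zero hne
  refine ⟨k, not_lt.1 (Nat.find_min hex (by omega)), ?_⟩
  rw [hk'] at hk
  exact hk

theorem tendsto_kap : Tendsto kap atTop (𝓝 0) := by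
  unfold kap
  simp only [one_div]
  exact tendsto_inv_atTop_zero.comp
    ((tendsto_pow_atTop (by norm_num)).comp tendsto_natCast_atTop_atTop)

theorem ev_kap (c : ℝ) : ∀ᶠ N : ℕ in atTop, kap N * c ≤ 1 := by
  have h : Tendsto (fun N => kap N * c) atTop (𝓝 (0 * c)) := tendsto_kap.mul_const c
  rw [zero_mul] at h
  exact h.eventually (ge_mem_nhds one_pos)

/-- The early times. -/
theorem early (hR0 : 0 < R0) (l : LD b R0) {N : ℕ} (hN : kap N * (l.μ ^ 2 * (R0 * lam l.tm)) ≤ 1)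
    (hκ : 0 ≤ kap N) {v : Fin l.d → ℝ} (hv : ‖v‖ ≤ 3) {T : ℝ} {F : Fn}
    (hZ : Zero (kap N) (2 * l.tm) T F) (hT : 2 * l.tm < T) {ν : ℝ} (hν : ν ∈ Icc 1 l.μ)
    (i : Fin l.d) :
    |l.μ ^ (-(1 + l.σ)) * resc l v ν F (l.μ ^ 2 * l.pt i) (l.μ * l.px i)| ≤ 3 * l.C1 := by
  have hC := l.C1_ge
  have htm := l.tm_lt
  have hμ1 := l.one_lt
  have hp := l.pt_mem i
  have hx := l.px_mem i
  have hν0 : 0 < ν := by linarith [hν.1]
  have hμ0 : 0 < l.μ := by linarith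
  have h1 : 1 ≤ ν ^ 2 := one_le_pow₀ hν.1
  have h2 : l.μ ^ 2 * l.pt i ≤ 2 * l.tm := by nlinarith [l.μ_big, hp.2, sq_nonneg l.μ]
  have h3 : ν ^ 2 * (l.μ ^ 2 * l.pt i) ≤ 2 * l.tm := by nlinarith
  have h4 : ν * (l.μ * l.px i) ∈ dom (kap N) := by
    refine ⟨mul_nonneg hν0.le (mul_nonneg hμ0.le hx.1), le_trans ?_ hN⟩
    refine mul_le_mul_of_nonneg_left ?_ hκ
    have h5 : l.px i ≤ R0 * lam l.tm :=
      hx.2.trans (mul_le_mul_of_nonneg_left (lam_anti hp.1) hR0.le)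
    calc ν * (l.μ * l.px i) ≤ l.μ * (l.μ * (R0 * lam l.tm)) :=
          mul_le_mul hν.2 (mul_le_mul_of_nonneg_left h5 hμ0.le) (mul_nonneg hμ0.le hx.1) hμ0.le
      _ = l.μ ^ 2 * (R0 * lam l.tm) := by ring
  have h6 := (norm_le_pi_norm _ i).trans
    (l.upper (ν * l.μ) (by nlinarith [hν.1]) v)
  unfold sc at h6
  rw [if_pos ⟨hp.2, hx.1⟩, Real.norm_eq_abs, Real.mul_rpow hν0.le hμ0.le] at h6
  unfold resc
  rw [hZ _ h3 (h3.trans_lt hT) _ h4, eta_zero (by linarith) h3]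
  have e1 : (ν * l.μ) ^ 2 * l.pt i = ν ^ 2 * (l.μ ^ 2 * l.pt i) := by ring
  have e2 : ν * l.μ * l.px i = ν * (l.μ * l.px i) := by ring
  rw [e1, e2] at h6
  refine le_trans (le_of_eq ?_) (h6.trans (by nlinarith [norm_nonneg v]))
  congr 1
  ring

/-- The late times. -/
theorem late (l : LD b R0) {N : ℕ} (hN : 2 - 2 * l.tm ≤ N)
    (hR : 8 * kap N * (R0 * lam l.tm) ≤ 1) {k : ℕ} {v : Fin l.d → ℝ} {T : ℝ}
    {F F1 F2 ζ : Fn} (h : SolN l N v T F F1 F2 ζ) (hT : sk l.μ k ≤ T) {ν ν' : ℝ} (hν : 0 < ν)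
    (hν' : 0 < ν') (he : ν * ν' = (l.μ ^ k)⁻¹) (i : Fin l.d) :
    ν' ^ (-(1 + l.σ)) * resc l v ν F (ν' ^ 2 * l.pt i) (ν' * l.px i) = gk l N k v i := by
  have htm := l.tm_lt
  have hμ1 := l.one_lt
  have hp := l.pt_mem i
  rw [gk_eq l hN hR h hT i]
  unfold resc
  have e1 : ν ^ 2 * (ν' ^ 2 * l.pt i) = (l.μ ^ k)⁻¹ ^ 2 * l.pt i := by rw [← he]; ring
  have e2 : ν * (ν' * l.px i) = (l.μ ^ k)⁻¹ * l.px i := by rw [← he]; ring
  have h1 : (l.μ ^ k)⁻¹ ≤ 1 := inv_le_one_of_one_le₀ (one_le_pow₀ hμ1.le)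
  have h2 : (l.μ ^ k)⁻¹ ^ 2 ≤ 1 := pow_le_one₀ (by positivity) h1
  have h3 : l.tm ≤ (l.μ ^ k)⁻¹ ^ 2 * l.pt i := by nlinarith [hp.1, hp.2]
  rw [e1, e2, eta_one (by linarith) h3, ← he, Real.mul_rpow hν.le hν'.le]
  ring

theorem improve (h0 : H0P b.B0 R0 C0) (l : LD b R0) : ∃ K, 1 ≤ K ∧ ∀ᶠ N : ℕ in atTop,
    ∀ v, ‖v‖ ≤ 3 → ∀ T ≤ 0, ∀ F F1 F2 ζ, SolN l N v T F F1 F2 ζ → Boot l K (1 / b.B0) N T F ζ →
      (∀ k, sk l.μ k < T → ‖gk l N k v‖ ≤ 2) → Boot l (K - 1) (1 / (2 * b.B0)) N T F ζ := by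
  have hC := l.C1_ge
  have htm := l.tm_lt
  have hμ1 := l.one_lt
  have hμ0 : 0 < l.μ := by linarith
  have hR0 : 0 < R0 := h0.1
  have hB : 0 < b.B0 := by linarith [b.one_le]
  set K := 1 + l.C1 * (l.C1 * (3 * l.C1 + 1)) + 3 * l.C1 + 1 with hK
  have hK1 : K - 1 = 1 + l.C1 * (l.C1 * (3 * l.C1 + 1)) + 3 * l.C1 := by rw [hK]; ring
  have hK0 : 0 ≤ K - 1 := by rw [hK1]; positivity
  refine ⟨K, by linarith, ?_⟩
  obtain ⟨C, hC0, hna⟩ := na_all h0 l K 4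
  filter_upwards [approx h0 l K (l.μ ^ 2 * l.tm) (R0 * l.μ * lam l.tm) 1 one_pos,
    tendsto_natCast_atTop_atTop.eventually_ge_atTop (2 - 2 * l.tm),
    tendsto_natCast_atTop_atTop.eventually_ge_atTop (2 * b.B0 * C),
    ev_kap (l.μ ^ 2 * (R0 * lam l.tm)), ev_kap (8 * (R0 * lam l.tm))]
    with N hap hN1 hN2 hN3 hN4 v hv T hT F F1 F2 ζ hS hB' hg t ht x hx
  have hNpos : (0 : ℝ) < N := by linarith
  refine ⟨fun hxR => ?_, fun a ha => (hna N hN1 v hv T hT F F1 F2 ζ hS hB' t ht x hx a ha).trans ?_⟩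
  swap
  · rw [div_le_div_iff₀ hNpos (by positivity)]
    linarith
  have hxx : x ∈ Icc 0 (R0 * lam t) := ⟨hx.1, hxR⟩
  by_cases h1 : t ≤ 2 * l.tm
  · rw [hS.2 t h1 ht x hx, abs_zero]
    exact mul_nonneg hK0 (Real.rpow_nonneg (lam_nonneg t) _)
  push Not at h1
  rw [hK1]
  by_cases h2 : t < -1
  · have ht' : t < min T (-1) := lt_min ht h2
    have hT1 : min T (-1) ≤ -1 := min_le_right _ _
    obtain ⟨w, hw⟩ := hap v hv T hT F F1 F2 ζ hS hB' (min T (-1))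
      ⟨by linarith, by linarith⟩ (min_le_left _ _)
    have hlt : lam t ≤ l.μ := lam_le hμ0.le (by linarith [l.μ_big])
    have hν1 : 1 ≤ lam (min T (-1)) := one_le_lam hT1
    have hν : lam (min T (-1)) ∈ Icc 1 l.μ := ⟨hν1, (lam_anti ht'.le).trans hlt⟩
    have hW := w_bound hR0 l _ w ⟨hμ1.le, le_rfl⟩ (by positivity) hw
      (early hR0 l hN3 hS.1.hκ hv hS.2 (h1.trans ht) hν)
    exact eval_bound hR0 l hv F (by linarith) ht' hxx (by nlinarith) hW hw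
  · push Not at h2
    obtain ⟨k, hk1, hk2⟩ := exists_sk hμ1 h2 (ht.trans_le hT)
    have ht' : t < min T (sk l.μ (k + 1)) := lt_min ht hk2
    have hT0 : min T (sk l.μ (k + 1)) < 0 := (min_le_right _ _).trans_lt (sk_neg hμ1 _)
    obtain ⟨w, hw⟩ := hap v hv T hT F F1 F2 ζ hS hB' (min T (sk l.μ (k + 1)))
      ⟨by linarith, hT0⟩ (min_le_left _ _)
    set ν := lam (min T (sk l.μ (k + 1))) with hνdef
    have hν0 : 0 < ν := lam_pos hT0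
    have hlt : lam t ≤ (l.μ ^ k)⁻¹ := by
      rw [← lam_sk hμ1 k]
      exact lam_anti hk1
    have hν1 : ν ≤ (l.μ ^ k)⁻¹ := (lam_anti ht'.le).trans hlt
    have hν2 : (l.μ ^ k)⁻¹ ≤ l.μ * ν := by
      have h3 : (l.μ ^ (k + 1))⁻¹ ≤ ν := by
        rw [← lam_sk hμ1 (k + 1)]
        exact lam_anti (min_le_right _ _)
      calc (l.μ ^ k)⁻¹ = l.μ * (l.μ ^ (k + 1))⁻¹ := by rw [pow_succ]; field_simp
        _ ≤ l.μ * ν := mul_le_mul_of_nonneg_left h3 hμ0.le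
    have hν' : (l.μ ^ k)⁻¹ / ν ∈ Icc 1 l.μ :=
      ⟨(one_le_div₀ hν0).2 hν1, (div_le_iff₀ hν0).2 hν2⟩
    have hW := w_bound hR0 l _ w hν' (M := 3 * l.C1) (by positivity) hw fun i => by
      rw [late l hN1 (by linarith) hS (hk1.trans ht.le) hν0 (by positivity) (by field_simp) i]
      have h3 := (norm_le_pi_norm _ i).trans (hg k (hk1.trans_lt ht))
      rw [Real.norm_eq_abs] at h3
      linarith
    exact eval_bound hR0 l hv F hT0 ht' hxx (hlt.trans hν2) hW hw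

end Crest.Agent.R213.F2A
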