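import Crest.Agent.R213.F1
import Crest.Agent.R213.Cont

/-!
# Row 213: the coordinates follow the linear dynamics (auxiliary file of `F2`)
-/

set_option autoImplicit false

noncomputable section

namespace Crest.Agent.R213.F2B

open Set Filter Topology
open scoped ContDiff

variable {b : BG} {R0 C0 : ℝ}

theorem ev_kap (c : ℝ) : ∀ᶠ N : ℕ in atTop, kap N * c ≤ 1 := by
  have h : Tendsto (fun N => kap N * c) atTop (𝓝 (0 * c)) := tendsto_kap.mul_const c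
  exact h.eventually (ge_mem_nhds (by simp))

/-- After the time `tm` the correction is switched off. -/
theorem resc_late (l : LD b R0) (v : Fin l.d → ℝ) (ν : ℝ) (F : Fn) {t : ℝ} (x : ℝ)
    (ht : l.tm ≤ ν ^ 2 * t) : resc l v ν F t x = ν ^ (-(1 + l.σ)) * F (ν ^ 2 * t) (ν * x) := by
  unfold resc
  rw [eta_one (by linarith [l.tm_lt]) ht]
  ring

theorem late (l : LD b R0) (k : ℕ) (i : Fin l.d) : l.tm ≤ (l.μ ^ k)⁻¹ ^ 2 * l.pt i := by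
  have h1 : (1 : ℝ) ≤ l.μ ^ k := one_le_pow₀ l.one_lt.le
  have h2 : (l.μ ^ k)⁻¹ ^ 2 ≤ 1 := pow_le_one₀ (by positivity) (inv_le_one_of_one_le₀ h1)
  have h3 := (l.pt_mem i).1
  have h4 := (l.pt_mem i).2
  nlinarith

theorem symm_eq (l : LD b R0) (w : Fin l.d → ℝ) (i : Fin l.d) :
    l.A.symm w i = l.μ ^ (-(1 + l.σ)) * l.H w (l.μ ^ 2 * l.pt i) (l.μ * l.px i) := by
  rw [← l.co_sc w i, sc, if_pos ⟨(l.pt_mem i).2, (l.px_mem i).1⟩]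

theorem fac_le (l : LD b R0) {a η : ℝ} (h : |a| ≤ η) : |l.μ ^ (-(1 + l.σ)) * a| ≤ η := by
  have hμ : 0 < l.μ := zero_lt_one.trans l.one_lt
  have h1 : l.μ ^ (-(1 + l.σ)) ≤ 1 :=
    Real.rpow_le_one_of_one_le_of_nonpos l.one_lt.le (by linarith [l.σ_pos])
  have h0 : 0 ≤ l.μ ^ (-(1 + l.σ)) := (Real.rpow_pos_of_pos hμ _).le
  rw [abs_mul, abs_of_nonneg h0]
  exact (mul_le_of_le_one_left (abs_nonneg a) h1).trans h

theorem comb {d : ℕ} (A : (Fin d → ℝ) ≃L[ℝ] (Fin d → ℝ)) {g u w : Fin d → ℝ} {η : ℝ}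
    (hη : 0 ≤ η) (h1 : ∀ i, |g i - w i| ≤ η) (h2 : ∀ i, |u i - A.symm w i| ≤ η) :
    ‖g - A u‖ ≤ (1 + ‖(A : (Fin d → ℝ) →L[ℝ] (Fin d → ℝ))‖) * η := by
  have a1 : ‖g - w‖ ≤ η := (pi_norm_le_iff_of_nonneg hη).2 fun i => h1 i
  have a2 : ‖u - A.symm w‖ ≤ η := (pi_norm_le_iff_of_nonneg hη).2 fun i => h2 i
  have a3 : ‖A (u - A.symm w)‖ ≤ ‖(A : (Fin d → ℝ) →L[ℝ] (Fin d → ℝ))‖ * η :=
    ((A : (Fin d → ℝ) →L[ℝ] (Fin d → ℝ)).le_opNorm _).trans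
      (mul_le_mul_of_nonneg_left a2 (norm_nonneg _))
  have e : g - A u = (g - w) - A (u - A.symm w) := by
    rw [map_sub, A.apply_symm_apply]; abel
  rw [e]
  refine (norm_sub_le _ _).trans ?_
  linarith

theorem dynamics (h0 : H0P b.B0 R0 C0) (l : LD b R0) (K : ℝ) : ∀ᶠ N : ℕ in atTop,
    ∀ v, ‖v‖ ≤ 3 → ∀ F F1 F2 ζ,
      (SolN l N v (sk l.μ 0) F F1 F2 ζ → Boot l K (1 / b.B0) N (sk l.μ 0) F ζ →
        ‖gk l N 0 v - v‖ ≤ 1 / 10) ∧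
      ∀ k, SolN l N v (sk l.μ (k + 1)) F F1 F2 ζ → Boot l K (1 / b.B0) N (sk l.μ (k + 1)) F ζ →
        ‖gk l N (k + 1) v - l.A (gk l N k v)‖ ≤ 1 / 10 := by
  have hR0 : 0 < R0 := h0.1
  have hμ1 := l.one_lt
  have hμ : 0 < l.μ := zero_lt_one.trans hμ1
  have htm := l.tm_lt
  have hμ2 : 1 ≤ l.μ ^ 2 := one_le_pow₀ hμ1.le
  obtain ⟨η, hη, hηe⟩ : ∃ η : ℝ, 0 < η ∧
      (1 + ‖(l.A : (Fin l.d → ℝ) →L[ℝ] (Fin l.d → ℝ))‖) * η = 1 / 10 :=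
    ⟨1 / (10 * (1 + ‖(l.A : (Fin l.d → ℝ) →L[ℝ] (Fin l.d → ℝ))‖)), by positivity, by
      field_simp⟩
  have hpx : ∀ i, l.px i ≤ R0 * lam l.tm := fun i =>
    (l.px_mem i).2.trans (mul_le_mul_of_nonneg_left
      (Real.sqrt_le_sqrt (neg_le_neg (l.pt_mem i).1)) hR0.le)
  have hl0 : 0 ≤ R0 * lam l.tm := mul_nonneg hR0.le (Real.sqrt_nonneg _)
  have m1 : ∀ i, l.pt i ∈ Ico (l.μ ^ 2 * l.tm) (-1) := fun i =>
    ⟨le_trans (by nlinarith) (l.pt_mem i).1, (l.pt_mem i).2⟩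
  have m2 : ∀ i, l.μ ^ 2 * l.pt i ∈ Ico (l.μ ^ 2 * l.tm) (-1) := fun i =>
    ⟨mul_le_mul_of_nonneg_left (l.pt_mem i).1 (by positivity), by nlinarith [(l.pt_mem i).2]⟩
  have m3 : ∀ i, l.px i ∈ Icc 0 (l.μ * (R0 * lam l.tm)) := fun i =>
    ⟨(l.px_mem i).1, (hpx i).trans (le_mul_of_one_le_left hl0 hμ1.le)⟩
  have m4 : ∀ i, l.μ * l.px i ∈ Icc 0 (l.μ * (R0 * lam l.tm)) := fun i =>
    ⟨mul_nonneg hμ.le (l.px_mem i).1, mul_le_mul_of_nonneg_left (hpx i) hμ.le⟩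
  have hsk : ∀ k, sk l.μ k ∈ Ico (2 * l.tm) 0 := fun k => by
    refine ⟨?_, sk_neg hμ1 k⟩
    have h1 : sk l.μ 0 ≤ sk l.μ k := (sk_strictMono hμ1).monotone (Nat.zero_le k)
    have h2 : sk l.μ 0 = -1 := by simp [sk]
    linarith
  filter_upwards [approx h0 l K (l.μ ^ 2 * l.tm) (l.μ * (R0 * lam l.tm)) η hη,
    ev_kap (8 * (R0 * lam l.tm)), ev_kap (l.μ * (R0 * lam l.tm)),
    tendsto_natCast_atTop_atTop.eventually_ge_atTop (2 - 2 * l.tm), eventually_ge_atTop 1]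
    with N hap hk8 hkμ hN hN1 v hv F F1 F2 ζ
  have hR : 8 * kap N * (R0 * lam l.tm) ≤ 1 := by linarith
  -- the coordinates at the last checkpoint
  have key : ∀ k, SolN l N v (sk l.μ k) F F1 F2 ζ → Boot l K (1 / b.B0) N (sk l.μ k) F ζ →
      ∃ w, (∀ i, |gk l N k v i - w i| ≤ η) ∧ ∀ i, |l.μ ^ (-(1 + l.σ)) *
        resc l v (l.μ ^ k)⁻¹ F (l.μ ^ 2 * l.pt i) (l.μ * l.px i) - l.A.symm w i| ≤ η := by
    intro k hs hb
    obtain ⟨w, hw⟩ := hap v hv _ (hsk k).2.le F F1 F2 ζ hs hb _ (hsk k) le_rfl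
    rw [lam_sk hμ1] at hw
    refine ⟨w, fun i => ?_, fun i => ?_⟩
    · have := hw _ (m1 i) _ (m3 i)
      rwa [resc_late l v _ F _ (late l k i), ← gk_eq l hN hR hs le_rfl i, l.co_H] at this
    · rw [symm_eq, ← mul_sub]
      exact fac_le l (hw _ (m2 i) _ (m4 i))
  refine ⟨fun hs hb => ?_, fun k hs hb => ?_⟩
  · obtain ⟨w, h1, h2⟩ := key 0 hs hb
    have h3 : ∀ i, |l.A.symm v i - l.A.symm w i| ≤ η := fun i => by
      have ht : l.μ ^ 2 * l.pt i ≤ 2 * l.tm := by nlinarith [(l.pt_mem i).2, l.μ_big]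
      have hz : F (l.μ ^ 2 * l.pt i) (l.μ * l.px i) = 0 := by
        refine hs.2 _ ht ?_ _ ⟨(m4 i).1, ?_⟩
        · have h2 : sk l.μ 0 = -1 := by simp [sk]
          rw [h2]; exact (m2 i).2
        · exact (mul_le_mul_of_nonneg_left (m4 i).2 (kap_pos hN1).le).trans hkμ
      have e : resc l v (l.μ ^ 0)⁻¹ F (l.μ ^ 2 * l.pt i) (l.μ * l.px i) =
          l.H v (l.μ ^ 2 * l.pt i) (l.μ * l.px i) := by
        simp only [resc, pow_zero, inv_one, Real.one_rpow, one_pow, one_mul]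
        rw [hz, eta_zero (by linarith) ht]
        ring
      have := h2 i
      rwa [e, ← symm_eq] at this
    have := comb l.A hη.le h1 h3
    rwa [l.A.apply_symm_apply, hηe] at this
  · obtain ⟨w, h1, h2⟩ := key (k + 1) hs hb
    have h3 : ∀ i, |gk l N k v i - l.A.symm w i| ≤ η := fun i => by
      have hν : (l.μ ^ k)⁻¹ = (l.μ ^ (k + 1))⁻¹ * l.μ := by
        rw [pow_succ]; field_simp
      have e1 : (l.μ ^ (k + 1))⁻¹ ^ 2 * (l.μ ^ 2 * l.pt i) = (l.μ ^ k)⁻¹ ^ 2 * l.pt i := by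
        rw [hν]; ring
      have e2 : (l.μ ^ (k + 1))⁻¹ * (l.μ * l.px i) = (l.μ ^ k)⁻¹ * l.px i := by
        rw [hν]; ring
      have e3 : (l.μ ^ k)⁻¹ ^ (-(1 + l.σ)) =
          l.μ ^ (-(1 + l.σ)) * (l.μ ^ (k + 1))⁻¹ ^ (-(1 + l.σ)) := by
        rw [hν, Real.mul_rpow (by positivity) hμ.le, mul_comm]
      have := h2 i
      rw [resc_late l v _ F _ (e1 ▸ late l k i), e1, e2, ← mul_assoc, ← e3] at this
      rwa [gk_eq l hN hR hs ((sk_strictMono hμ1).monotone (Nat.le_succ k)) i]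
    have := comb l.A hη.le h1 h3
    rwa [hηe] at this

end Crest.Agent.R213.F2B
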