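import Crest.Agent.R213.F1
import Crest.Agent.R213.Cont
import Crest.Agent.R213.Abs
import Crest.Agent.R213.F2B
import Crest.Agent.R213.F2A

/-!
# Row 213: the shooting argument
-/

set_option autoImplicit false

noncomputable section

namespace Crest.Agent.R213

open Set Filter Topology
open scoped ContDiff

variable {b : BG} {R0 C0 : ℝ}

/-- The bootstrap bounds improve as long as the coordinates stay bounded. -/
theorem improve (h0 : H0P b.B0 R0 C0) (l : LD b R0) : ∃ K, 1 ≤ K ∧ ∀ᶠ N : ℕ in atTop,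
    ∀ v, ‖v‖ ≤ 3 → ∀ T ≤ 0, ∀ F F1 F2 ζ, SolN l N v T F F1 F2 ζ → Boot l K (1 / b.B0) N T F ζ →
      (∀ k, sk l.μ k < T → ‖gk l N k v‖ ≤ 2) → Boot l (K - 1) (1 / (2 * b.B0)) N T F ζ :=
  F2A.improve h0 l

/-- The coordinates follow the linear dynamics. -/
theorem dynamics (h0 : H0P b.B0 R0 C0) (l : LD b R0) (K : ℝ) : ∀ᶠ N : ℕ in atTop,
    ∀ v, ‖v‖ ≤ 3 → ∀ F F1 F2 ζ,
      (SolN l N v (sk l.μ 0) F F1 F2 ζ → Boot l K (1 / b.B0) N (sk l.μ 0) F ζ →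
        ‖gk l N 0 v - v‖ ≤ 1 / 10) ∧
      ∀ k, SolN l N v (sk l.μ (k + 1)) F F1 F2 ζ → Boot l K (1 / b.B0) N (sk l.μ (k + 1)) F ζ →
        ‖gk l N (k + 1) v - l.A (gk l N k v)‖ ≤ 1 / 10 :=
  F2B.dynamics h0 l K

/-- A solution that exists up to the singular time and stays close to the soliton. -/
theorem exists_global (h0 : H0P b.B0 R0 C0) (l : LD b R0) : ∃ K, ∀ᶠ N : ℕ in atTop,
    ∃ v F F1 F2 ζ, ‖v‖ ≤ 3 ∧ SolN l N v 0 F F1 F2 ζ ∧ Boot l K (1 / b.B0) N 0 F ζ := by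
  obtain ⟨K, hK, himp⟩ := improve h0 l
  refine ⟨K, ?_⟩
  filter_upwards [himp, dynamics h0 l K, gk_continuousOn h0 l K, eventually_ge_atTop 1]
    with N himp hdyn hcont hN
  have hμ := l.one_lt
  have ex : ∀ v, ‖v‖ ≤ 3 → ∀ Tt ≤ 0, (∀ k, sk l.μ k < Tt → ‖gk l N k v‖ ≤ 2) →
      ∃ F F1 F2 ζ, SolN l N v Tt F F1 F2 ζ ∧ Boot l K (1 / b.B0) N Tt F ζ :=
    fun v hv Tt hT hg => cont_arg l hN v hK hT fun T hTT F F1 F2 ζ hs hb =>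
      himp v hv T (hTT.trans hT) F F1 F2 ζ hs hb fun k hk => hg k (hk.trans_le hTT)
  have ex0 : ∀ v, ‖v‖ ≤ 3 → ∃ F F1 F2 ζ,
      SolN l N v (sk l.μ 0) F F1 F2 ζ ∧ Boot l K (1 / b.B0) N (sk l.μ 0) F ζ := fun v hv =>
    ex v hv _ (sk_neg hμ 0).le fun k hk =>
      absurd ((sk_strictMono hμ).lt_iff_lt.1 hk) (Nat.not_lt_zero k)
  have ex1 : ∀ k v, ‖v‖ ≤ 3 → (∀ i ≤ k, ‖gk l N i v‖ ≤ 2) → ∃ F F1 F2 ζ,
      SolN l N v (sk l.μ (k + 1)) F F1 F2 ζ ∧ Boot l K (1 / b.B0) N (sk l.μ (k + 1)) F ζ :=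
    fun k v hv hg => ex v hv _ (sk_neg hμ _).le fun i hi =>
      hg i (Nat.lt_succ_iff.1 ((sk_strictMono hμ).lt_iff_lt.1 hi))
  obtain ⟨v, hv, hg⟩ := shoot l.A l.A_inv (gk l N) (hcont 0 _ fun v hv => ⟨hv, ex0 v hv⟩)
    (fun v hv => by
      obtain ⟨F, F1, F2, ζ, hs, hb⟩ := ex0 v hv
      exact (hdyn v hv F F1 F2 ζ).1 hs hb)
    (fun k => hcont (k + 1) _ fun v hv => ⟨hv.1, ex1 k v hv.1 hv.2⟩)
    (fun k v hv hg => by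
      obtain ⟨F, F1, F2, ζ, hs, hb⟩ := ex1 k v hv hg
      exact (hdyn v hv F F1 F2 ζ).2 k hs hb)
  obtain ⟨F, F1, F2, ζ, hs, hb⟩ := ex v hv 0 le_rfl fun k _ => hg k
  exact ⟨v, F, F1, F2, ζ, hv, hs, hb⟩

end Crest.Agent.R213
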