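import Crest.Agent.R213.ChartK

/-!
# Row 213: from the radial potential to the statement
-/

set_option autoImplicit false

noncomputable section

namespace Crest.Agent.R213

open Set Filter Topology
open scoped ContDiff

open Crest.GeometryTopology.ProjKahler

theorem final_of_pot (P : Pot) :
    ∃ T : ℝ, 0 < T ∧ ∃ h : ℝ → ProjExtension 10, IsCalabiFlowFS h T ∧
      IsUnitarilyInvariant (h 0).h ∧
      ∃ (p : V 10) (a : ℝ), 0 < a ∧
        Filter.Tendsto (fun t => scalarCurv (fun u => fsPot u + (h t).h u) p * Real.sqrt (T - t))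
          (nhdsWithin T (Set.Iio T)) (nhds a) := by
  have ha := P.ha
  set T := -P.a / 2 with hT
  have T0 : 0 < T := by linarith
  have hm : ∀ t ∈ Ico 0 T, t - T ∈ Ioo P.a 0 := fun t ht =>
    ⟨by linarith [ht.1], by linarith [ht.2]⟩
  have hs : ∀ t ∈ Ioo P.a 0, ContDiffOn ℝ ∞ (P.ψ t) (Icc 0 1) := fun t ht =>
    P.sm.comp (f := fun x => (t, x)) (by fun_prop) fun x hx => ⟨ht, hx⟩
  have hj : ∀ g : V 10 → ℝ, ContDiff ℝ ∞ g → (∀ z, g z ∈ Icc (0 : ℝ) 1) → ContDiffOn ℝ ∞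
      (fun p : ℝ × V 10 => P.ψ (p.1 - T) (g p.2)) (Ico 0 T ×ˢ univ) := fun g hg hg' =>
    P.sm.comp (f := fun p : ℝ × V 10 => (p.1 - T, g p.2))
      ((contDiff_fst.sub contDiff_const).prodMk (hg.comp contDiff_snd)).contDiffOn
      fun p hp => ⟨hm _ hp.1, hg' _⟩
  have hc : ∀ t ∈ Ico 0 T, ∀ z, scalarCurv (fun u => fsPot u + P.ψ (t - T) (xc u)) z =
      curv (P.ψ (t - T)) (xc z) := fun t ht =>
    scalarCurv_chart (hs _ (hm t ht)) (P.aa_pos _ (hm t ht)) (P.tx_pos _ (hm t ht))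
  refine ⟨T, T0, fun t => ⟨fun z => P.ψ (t - T) (xc z), fun k w => P.ψ (t - T) (xk k w),
    fun k w hw => by rw [xc_transition k w hw]⟩, ⟨fun t ht => ⟨?_, fun k => ?_, ?_, ?_⟩,
    hj _ contDiff_xc fun z => Ico_subset_Icc_self (xc_mem z),
    fun k => hj _ (contDiff_xk k) fun z => Ioc_subset_Icc_self (xk_mem k z), fun t ht z => ?_⟩,
    fun U z => by simp only [xc, U.norm_map], 0, P.s0, P.s0_pos, ?_⟩
  · exact (hs _ (hm t ht)).comp_contDiff contDiff_xc fun z => Ico_subset_Icc_self (xc_mem z)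
  · exact (hs _ (hm t ht)).comp_contDiff (contDiff_xk k) fun z => Ioc_subset_Icc_self (xk_mem k z)
  · exact posDef_chart (hs _ (hm t ht)) (P.aa_pos _ (hm t ht)) (P.tx_pos _ (hm t ht))
  · exact posDef_chartK (hs _ (hm t ht)) (P.aa_pos _ (hm t ht)) (P.tx_pos _ (hm t ht))
  · have ht' := Ioo_subset_Ico_self ht
    rw [hc t ht', ((P.flow _ (hm t ht') _ (xc_mem z)).comp_sub_const t T).deriv]
    norm_num
  · have h1 : Tendsto (fun t => t - T) (𝓝[<] T) (𝓝[<] 0) :=
      tendsto_nhdsWithin_iff.2 ⟨tendsto_nhdsWithin_of_tendsto_nhds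
        ((continuous_sub_right T).tendsto' T 0 (sub_self T)),
        eventually_nhdsWithin_of_forall fun t ht => mem_Iio.2 (sub_neg.2 (mem_Iio.1 ht))⟩
    refine (P.lim.comp h1).congr' ?_
    filter_upwards [Ico_mem_nhdsLT T0] with t ht
    rw [hc t ht, Function.comp_apply, lam, neg_sub, xc]
    simp

end Crest.Agent.R213
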