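import Crest.Agent.R213.TS2

/-!
# Row 213: the small parameter, the time cut-off and the rescaled background
-/

set_option autoImplicit false

noncomputable section

namespace Crest.Agent.R213.FA

open Set Filter Topology
open scoped ContDiff

theorem kap_pos {N : ℕ} (hN : 1 ≤ N) : 0 < kap N := by
  have : (0 : ℝ) < N := by exact_mod_cast hN
  exact one_div_pos.2 (by positivity)

theorem kap_mul {N : ℕ} (hN : 1 ≤ N) : kap N * (N : ℝ) ^ 4 = 1 := by
  have : (0 : ℝ) < N := by exact_mod_cast hN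
  exact one_div_mul_cancel (by positivity)

theorem tendsto_kap : Tendsto kap atTop (𝓝 0) :=
  tendsto_const_nhds.div_atTop ((tendsto_pow_atTop (by norm_num)).comp tendsto_natCast_atTop_atTop)

theorem contDiff_eta (tm : ℝ) : ContDiff ℝ ∞ (eta tm) :=
  Real.smoothTransition.contDiff.comp ((contDiff_id.sub contDiff_const).div_const _)

theorem eta_zero {tm t : ℝ} (h : tm < 0) (ht : t ≤ 2 * tm) : eta tm t = 0 :=
  Real.smoothTransition.zero_of_nonpos (div_nonpos_of_nonpos_of_nonneg (by linarith) (by linarith))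

theorem eta_one {tm t : ℝ} (h : tm < 0) (ht : tm ≤ t) : eta tm t = 1 :=
  Real.smoothTransition.one_of_one_le ((one_le_div (by linarith)).2 (by linarith))

theorem eta_mem (tm t : ℝ) : eta tm t ∈ Icc (0 : ℝ) 1 :=
  ⟨Real.smoothTransition.nonneg _, Real.smoothTransition.le_one _⟩

theorem cont_iter (tm : ℝ) (i : ℕ) : Continuous (iteratedDeriv i (eta tm)) :=
  (contDiff_eta tm).continuous_iteratedDeriv i (by exact_mod_cast le_top)

theorem iteratedDeriv_eta_zero {tm t : ℝ} (h : tm < 0) (ht : t ≤ 2 * tm ∨ tm ≤ t) (i : ℕ) :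
    iteratedDeriv (i + 1) (eta tm) t = 0 := by
  have hc : IsClosed {s | iteratedDeriv (i + 1) (eta tm) s = 0} :=
    isClosed_eq (cont_iter tm _) continuous_const
  have key : ∀ (U : Set ℝ) (c : ℝ), IsOpen U → (∀ s ∈ U, eta tm s = c) → t ∈ closure U →
      iteratedDeriv (i + 1) (eta tm) t = 0 := by
    intro U c hU he htU
    refine closure_minimal (fun s hs => ?_) hc htU
    have h1 : eta tm =ᶠ[𝓝 s] fun _ => c := eventually_of_mem (hU.mem_nhds hs) he
    show iteratedDeriv (i + 1) (eta tm) s = 0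
    rw [h1.iteratedDeriv_eq, iteratedDeriv_const, if_neg i.succ_ne_zero]
  rcases ht with ht | ht
  · exact key (Iio (2 * tm)) 0 isOpen_Iio (fun s hs => eta_zero h (le_of_lt hs))
      (by rwa [closure_Iio])
  · exact key (Ioi tm) 1 isOpen_Ioi (fun s hs => eta_one h (le_of_lt hs)) (by rwa [closure_Ioi])

theorem eta_bd {tm : ℝ} (h : tm < 0) (i : ℕ) :
    ∃ C, 0 < C ∧ ∀ t < 0, (-t) ^ i * |iteratedDeriv i (eta tm) t| ≤ C := by
  rcases i with _ | i
  · refine ⟨1, one_pos, fun t _ => ?_⟩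
    rw [pow_zero, one_mul, iteratedDeriv_zero, abs_of_nonneg (eta_mem tm t).1]
    exact (eta_mem tm t).2
  · obtain ⟨C, hC⟩ := (isCompact_Icc (a := 2 * tm) (b := tm)).exists_bound_of_continuousOn
      (f := fun t => (-t) ^ (i + 1) * |iteratedDeriv (i + 1) (eta tm) t|)
      ((continuous_neg.pow _).mul (cont_iter tm _).abs).continuousOn
    refine ⟨max C 1, lt_max_of_lt_right one_pos, fun t _ => ?_⟩
    by_cases ht : t ∈ Icc (2 * tm) tm
    · exact ((le_abs_self _).trans (hC t ht)).trans (le_max_left _ _)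
    · rw [iteratedDeriv_eta_zero h (by
        rw [mem_Icc, not_and_or, not_le, not_le] at ht
        exact ht.imp le_of_lt le_of_lt), abs_zero, mul_zero]
      exact le_max_of_le_right zero_le_one

theorem mem1 {N : ℕ} (hN : 1 ≤ N) {x : ℝ} (hx : x ∈ dom (kap N)) : kap N * x ∈ dom 1 :=
  ⟨mul_nonneg (kap_pos hN).le hx.1, (one_mul _).trans_le hx.2⟩

theorem neg1 {N : ℕ} (hN : 1 ≤ N) {t : ℝ} (ht : t < 0) : kap N ^ 2 * t < 0 :=
  mul_neg_of_pos_of_neg (pow_pos (kap_pos hN) 2) ht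

theorem gN_eq_scale (b : BG) (N : ℕ) :
    gN b N = fun t x => 1 * b.g1 (kap N ^ 2 * t) (kap N * x) :=
  funext fun _ => funext fun _ => (one_mul _).symm

theorem gN_ts (b : BG) {N : ℕ} (hN : 1 ≤ N) : TS (Iio 0) (dom (kap N)) (gN b N) := by
  rw [gN_eq_scale]
  exact b.g1_ts.scale _ _ _ (fun t ht => neg1 hN ht) fun x hx => mem1 hN hx

theorem gN_bd (b : BG) {N : ℕ} (hN : 1 ≤ N) : ∀ t < 0, ∀ x ∈ dom (kap N),
    2 / b.B0 ≤ gN b N t x ∧ gN b N t x ≤ b.B0 :=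
  fun _ ht _ hx => b.g1_bd _ (neg1 hN ht) _ (mem1 hN hx)

theorem gN_eq (b : BG) {N : ℕ} (hN : 1 ≤ N) : ∀ t < 0, ∀ x, 0 ≤ x → 4 * kap N * x ≤ 1 →
    (1 - kap N * x) * gN b N t x = b.gs t x := fun t ht x hx h =>
  (b.g1_eq _ (neg1 hN ht) _ ⟨mul_nonneg (kap_pos hN).le hx, by linarith⟩).trans
    (b.gs_scale _ t x (kap_pos hN))

theorem gN_sym (b : BG) {N : ℕ} (hN : 1 ≤ N) (c : ℕ) (t x : ℝ) :
    om true (-t) ((x + lam t) ^ 2) c * |DT c (gN b N) t x| =
      om true (-(kap N ^ 2 * t)) ((kap N * x + lam (kap N ^ 2 * t)) ^ 2) c *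
        |DT c b.g1 (kap N ^ 2 * t) (kap N * x)| := by
  rw [gN_eq_scale, DT_scale, lam_scale (kap_pos hN).le, abs_mul, abs_of_nonneg (by positivity)]
  rcases c with _ | c
  · simp [om]
  · simp only [om, c.succ_ne_zero, if_false, if_true, Nat.add_sub_cancel]
    rw [← mul_neg, mul_pow]
    ring

theorem gN_lo (b : BG) {N : ℕ} (hN : 1 ≤ N) {t x z B : ℝ} (ht : t < 0) (hx : x ∈ dom (kap N))
    (hz : |z| ≤ 1 / b.B0) (hB : b.B0 ≤ B) :
    1 / B ≤ gN b N t x ∧ gN b N t x ≤ B ∧ 1 / B ≤ gN b N t x + z := by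
  have h0 : 0 < b.B0 := one_pos.trans_le b.one_le
  have h1 := gN_bd b hN t ht x hx
  have h2 := one_div_le_one_div_of_le h0 hB
  have h3 : 2 / b.B0 = 1 / b.B0 + 1 / b.B0 := by ring
  have h4 := one_div_pos.2 h0
  exact ⟨by linarith [h1.1], h1.2.trans hB, by linarith [h1.1, neg_abs_le z]⟩

theorem gN_ab (b : BG) (J : ℕ) (A : ℝ) : ∃ B, 1 ≤ B ∧ ∀ N, 1 ≤ N → ∀ (ζ : Fn), ∀ t < 0,
    (∀ x ∈ dom (kap N), |kap N * ph (kap N) x * ζ t x| ≤ 1 / b.B0 ∧
      ∀ a, 2 * a ≤ J → (-t) ^ a * |kap N * ph (kap N) x * DT a ζ t x| ≤ A) →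
    AB (kap N) (kap N) (gN b N) ζ J B t := by
  choose! S hS using b.g1_sym
  have h0 : 0 ≤ ∑ c ∈ Finset.range (J + 1), |S c| := Finset.sum_nonneg fun _ _ => abs_nonneg _
  have h1 := b.one_le
  refine ⟨b.B0 + |A| + ∑ c ∈ Finset.range (J + 1), |S c|, by linarith [abs_nonneg A],
    fun N hN ζ t ht h x hx => ?_⟩
  obtain ⟨h2, h3, h4⟩ := gN_lo b hN ht hx (h x hx).1
    (show b.B0 ≤ b.B0 + |A| + ∑ c ∈ Finset.range (J + 1), |S c| by linarith [abs_nonneg A])
  refine ⟨h2, h3, h4, fun c hc hJ => ?_, fun a ha => ?_⟩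
  · have h5 := hS c hc _ (neg1 hN ht) _ (mem1 hN hx)
    have h6 := Finset.single_le_sum (f := fun c => |S c|) (fun _ _ => abs_nonneg _)
      (Finset.mem_range.2 (Nat.lt_succ_of_le hJ))
    rw [gN_sym b hN]
    linarith [abs_nonneg A, le_abs_self (S c)]
  · linarith [(h x hx).2 a ha, le_abs_self A]

theorem gN_ab0 (b : BG) {N : ℕ} (hN : 1 ≤ N) (ζ : Fn) : ∀ t < 0,
    (∀ x ∈ dom (kap N), |kap N * ph (kap N) x * ζ t x| ≤ 1 / b.B0) →
    AB (kap N) (kap N) (gN b N) ζ 0 b.B0 t := by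
  intro t ht h x hx
  obtain ⟨h2, h3, h4⟩ := gN_lo b hN ht hx (h x hx) le_rfl
  refine ⟨h2, h3, h4, fun c hc hJ => absurd (hc.trans hJ) (by norm_num), fun a ha => ?_⟩
  obtain rfl : a = 0 := by omega
  rw [pow_zero, one_mul]
  exact (h x hx).trans ((div_le_one (one_pos.trans_le b.one_le)).2 b.one_le |>.trans b.one_le)

end Crest.Agent.R213.FA
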