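import Crest.Agent.R213.TS2
import Crest.Agent.R213.Alg

/-!
# Row 213: the forcing `dN` (for a general cut-off `η` and a general scale `k`)
-/

set_option autoImplicit false

noncomputable section

namespace Crest.Agent.R213.ForceB

open Set Filter Topology
open scoped ContDiff

variable (b : BG) {η : ℝ → ℝ} {k t0 : ℝ}

theorem scale_mem (hk : 0 < k) {x : ℝ} (hx : x ∈ dom k) : k * x ∈ dom 1 :=
  ⟨mul_nonneg hk.le hx.1, by rw [one_mul]; exact hx.2⟩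

theorem neg_mem (hk : 0 < k) {t : ℝ} (ht : t < 0) : k ^ 2 * t < 0 :=
  mul_neg_of_pos_of_neg (by positivity) ht

theorem v_ts (hk : 0 < k) : TS (Iio 0) (dom k) fun s x => b.D1 (k ^ 2 * s) (k * x) := by
  have h := TS.scale (J := Iio 0) (D' := dom k) b.D1_ts 1 (k ^ 2) k
    (fun t ht => neg_mem hk ht) fun x hx => scale_mem hk hx
  simpa only [one_mul] using h

theorem v_dt (j : ℕ) (t x : ℝ) : DT j (fun s x => b.D1 (k ^ 2 * s) (k * x)) t x =
    (k ^ 2) ^ j * DT j b.D1 (k ^ 2 * t) (k * x) := by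
  simpa only [one_mul] using DT_scale b.D1 1 (k ^ 2) k j t x

theorem w_ts (hη : ContDiff ℝ ∞ η) (hk : 0 < k) :
    TS (Iio 0) (dom k) fun s x => η s * b.D1 (k ^ 2 * s) (k * x) :=
  TS.mul isOpen_Iio (TS.time isOpen_Iio hη.contDiffOn) (v_ts b hk)

theorem d_ts (hη : ContDiff ℝ ∞ η) (hk : 0 < k) (h0 : t0 < 0) :
    TS (Iio 0) (dom k) fun t x => -(k ^ 2 * ∫ s in t0..t, η s * b.D1 (k ^ 2 * s) (k * x)) :=
  (TS.cmul (c := fun _ => k ^ 2) continuousOn_const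
    (TS.int_t isOpen_Iio ordConnected_Iio (w_ts b hη hk) (t0 := t0) h0).1).neg

theorem d_succ (hη : ContDiff ℝ ∞ η) (hk : 0 < k) (h0 : t0 < 0) (j : ℕ) {t x : ℝ} (ht : t < 0)
    (hx : x ∈ dom k) :
    DT (j + 1) (fun t x => -(k ^ 2 * ∫ s in t0..t, η s * b.D1 (k ^ 2 * s) (k * x))) t x =
      -(k ^ 2 * DT j (fun s x => η s * b.D1 (k ^ 2 * s) (k * x)) t x) := by
  rw [DT_neg (fun t x => k ^ 2 * ∫ s in t0..t, η s * b.D1 (k ^ 2 * s) (k * x)),
    DT_cmul (fun _ => k ^ 2) (fun t x => ∫ s in t0..t, η s * b.D1 (k ^ 2 * s) (k * x)),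
    (TS.int_t isOpen_Iio ordConnected_Iio (w_ts b hη hk) (t0 := t0) h0).2 j t ht x hx]

theorem d_zero (hz : ∀ t ≤ t0, η t = 0) {t : ℝ} (ht : t ≤ t0) (x : ℝ) :
    -(k ^ 2 * ∫ s in t0..t, η s * b.D1 (k ^ 2 * s) (k * x)) = 0 := by
  have : ∫ s in t0..t, η s * b.D1 (k ^ 2 * s) (k * x) = ∫ s in t0..t, (0 : ℝ) := by
    refine intervalIntegral.integral_congr fun s hs => ?_
    rw [uIcc_of_ge ht] at hs
    simp only [hz s hs.2, zero_mul]
  rw [this]; simp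

theorem d_inner (hk : 0 < k) (h0 : t0 < 0) (j : ℕ) {t x : ℝ} (ht : t < 0) (hx : 0 ≤ x)
    (hx' : 4 * k * x ≤ 1) :
    DT j (fun t x => -(k ^ 2 * ∫ s in t0..t, η s * b.D1 (k ^ 2 * s) (k * x))) t x = 0 := by
  have h : ∀ t ∈ Iio (0 : ℝ), (fun t x => -(k ^ 2 * ∫ s in t0..t, η s * b.D1 (k ^ 2 * s) (k * x)) :
      Fn) t x = (0 : Fn) t x := by
    intro t ht
    have : ∫ s in t0..t, η s * b.D1 (k ^ 2 * s) (k * x) = ∫ s in t0..t, (0 : ℝ) := by
      refine intervalIntegral.integral_congr fun s hs => ?_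
      have hs0 : s < 0 := ordConnected_Iio.uIcc_subset h0 ht hs
      have := b.D1_zero _ (neg_mem hk hs0) (k * x) ⟨mul_nonneg hk.le hx, by linarith⟩
        (Or.inl (by linarith))
      simp only [this, mul_zero]
    simp only [this]; simp
  rw [DT_congr isOpen_Iio h j t ht, DT_zero]; rfl

theorem d_early (hz : ∀ t ≤ t0, η t = 0) (j : ℕ) {t : ℝ} (ht : t < t0) (x : ℝ) :
    DT j (fun t x => -(k ^ 2 * ∫ s in t0..t, η s * b.D1 (k ^ 2 * s) (k * x))) t x = 0 := by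
  have h : ∀ t ∈ Iio t0, (fun t x => -(k ^ 2 * ∫ s in t0..t, η s * b.D1 (k ^ 2 * s) (k * x)) :
      Fn) t x = (0 : Fn) t x := fun t ht => d_zero b hz (le_of_lt ht) x
  rw [DT_congr isOpen_Iio h j t ht, DT_zero]; rfl

theorem unif {α : Type} {P : α → Prop} {f : ℕ → α → ℝ} (h : ∀ i, ∃ C, ∀ a, P a → f i a ≤ C)
    (j : ℕ) : ∃ C, 0 < C ∧ ∀ i ≤ j, ∀ a, P a → f i a ≤ C := by
  choose C hC using h
  refine ⟨1 + ∑ i ∈ Finset.range (j + 1), |C i|, by positivity, fun i hi a ha => ?_⟩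
  have h1 : |C i| ≤ ∑ i ∈ Finset.range (j + 1), |C i| :=
    Finset.single_le_sum (f := fun i => |C i|) (fun i _ => abs_nonneg _)
      (Finset.mem_range.2 (Nat.lt_succ_of_le hi))
  linarith [hC i a ha, le_abs_self (C i)]

theorem w_bd (hη : ContDiff ℝ ∞ η)
    (hb : ∀ i, ∃ C, 0 < C ∧ ∀ t < 0, (-t) ^ i * |iteratedDeriv i η t| ≤ C) (j : ℕ) :
    ∃ C, 0 < C ∧ ∀ k, 0 < k → ∀ t < 0, -1 ≤ k ^ 2 * t → ∀ x ∈ dom k,
      (-t) ^ j * |DT j (fun s x => η s * b.D1 (k ^ 2 * s) (k * x)) t x| ≤ C := by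
  obtain ⟨A, hA, hA'⟩ := unif (P := fun t : ℝ => t < 0)
    (f := fun i t => (-t) ^ i * |iteratedDeriv i η t|)
    (fun i => (hb i).imp fun C hC => hC.2) j
  obtain ⟨B, hB, hB'⟩ := unif (P := fun p : ℝ × ℝ => p.1 ∈ Ico (-1 : ℝ) 0 ∧ p.2 ∈ dom 1)
    (f := fun i p => (-p.1) ^ i * |DT i b.D1 p.1 p.2|)
    (fun i => (b.D1_bd i).imp fun C hC p hp => hC p.1 hp.1 p.2 hp.2) j
  refine ⟨2 ^ j * A * B, by positivity, fun k hk t ht ht' x hx => ?_⟩
  refine bd_mul isOpen_Iio (TS.time isOpen_Iio hη.contDiffOn) (v_ts b hk) ht hx (by linarith)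
    (fun i hi => ?_) fun i hi => ?_
  · rw [DT_time]; exact hA' i hi t ht
  · have := hB' i hi (k ^ 2 * t, k * x) ⟨⟨ht', neg_mem hk ht⟩, scale_mem hk hx⟩
    rw [v_dt, abs_mul, abs_of_nonneg (by positivity), ← mul_assoc, ← mul_pow]
    have e : -t * k ^ 2 = -(k ^ 2 * t) := by ring
    rw [e]
    exact this

theorem pt_bd (hη : ContDiff ℝ ∞ η) (h0 : t0 < 0) (hz : ∀ t ≤ t0, η t = 0)
    (hb : ∀ i, ∃ C, 0 < C ∧ ∀ t < 0, (-t) ^ i * |iteratedDeriv i η t| ≤ C) (j : ℕ) :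
    ∃ C, 0 < C ∧ ∀ k, 0 < k → k ≤ 1 → k ^ 2 * -t0 ≤ 1 → ∀ t < 0, ∀ x ∈ dom k, ∀ q : Bool,
      om q (-t) ((x + lam t) ^ 2) j *
        |DT j (fun t x => -(k ^ 2 * ∫ s in t0..t, η s * b.D1 (k ^ 2 * s) (k * x))) t x| ≤
        C * k ^ 2 * (x + lam t) ^ 2 := by
  obtain ⟨C, hC, H⟩ := w_bd b hη hb (j - 1)
  have h0' : 0 < -t0 := by linarith
  refine ⟨C * (1 + 16 * -t0), by positivity, fun k hk hk1 hkt t ht x hx q => ?_⟩
  by_cases h1 : t < t0
  · rw [d_early b hz j h1, abs_zero, mul_zero]; positivity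
  by_cases h2 : 4 * k * x ≤ 1
  · rw [d_inner b hk h0 j ht hx.1 h2, abs_zero, mul_zero]; positivity
  push Not at h1 h2
  have hl := lam_pos ht
  have hx0 := hx.1
  have hx4 : 1 / 4 ≤ x + lam t := by nlinarith
  have hρ : 1 ≤ 16 * (x + lam t) ^ 2 := by nlinarith
  have hT : -t ≤ (x + lam t) ^ 2 := by
    rw [← lam_sq ht.le]; gcongr; linarith
  have hs : ∀ s, t0 ≤ s → -1 ≤ k ^ 2 * s := fun s hs => by
    have := mul_le_mul_of_nonneg_left hs (sq_nonneg k)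
    linarith
  refine (mul_le_mul_of_nonneg_right (om_false_le q (by linarith) hT j).2 (abs_nonneg _)).trans ?_
  rcases j with _ | j
  · have e : om true (-t) ((x + lam t) ^ 2) 0 = 1 := by simp [om]
    rw [e, one_mul]
    change |-(k ^ 2 * ∫ s in t0..t, η s * b.D1 (k ^ 2 * s) (k * x))| ≤ _
    have h3 : ‖∫ s in t0..t, η s * b.D1 (k ^ 2 * s) (k * x)‖ ≤ C * |t - t0| := by
      refine intervalIntegral.norm_integral_le_of_norm_le_const fun s hs' => ?_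
      rw [uIoc_of_le h1] at hs'
      have := H k hk s (hs'.2.trans_lt ht) (hs s hs'.1.le) x hx
      simpa [DT] using this
    rw [Real.norm_eq_abs, abs_of_nonneg (sub_nonneg.2 h1)] at h3
    rw [abs_neg, abs_mul, abs_of_nonneg (sq_nonneg k)]
    have h4 : C * (t - t0) ≤ C * (1 + 16 * -t0) * (x + lam t) ^ 2 := by
      rw [mul_assoc]
      refine mul_le_mul_of_nonneg_left ?_ hC.le
      nlinarith [mul_le_mul_of_nonneg_left hρ h0'.le, sq_nonneg (x + lam t)]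
    calc _ ≤ k ^ 2 * (C * (1 + 16 * -t0) * (x + lam t) ^ 2) :=
          mul_le_mul_of_nonneg_left (h3.trans h4) (sq_nonneg k)
      _ = _ := by ring
  · have e : om true (-t) ((x + lam t) ^ 2) (j + 1) = (x + lam t) ^ 2 * (-t) ^ j := by simp [om]
    have h3 := H k hk t ht (hs t h1) x hx
    rw [Nat.add_sub_cancel] at h3
    rw [e, d_succ b hη hk h0 j ht hx, abs_neg, abs_mul, abs_of_nonneg (sq_nonneg k)]
    have h4 : C ≤ C * (1 + 16 * -t0) := le_mul_of_one_le_right hC.le (by linarith)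
    calc _ = k ^ 2 * (x + lam t) ^ 2 * ((-t) ^ j *
            |DT j (fun s x => η s * b.D1 (k ^ 2 * s) (k * x)) t x|) := by ring
      _ ≤ k ^ 2 * (x + lam t) ^ 2 * (C * (1 + 16 * -t0)) :=
          mul_le_mul_of_nonneg_left (h3.trans h4) (by positivity)
      _ = _ := by ring

theorem int_bd {L C t : ℝ} {q : Bool} {m j : ℕ} {u : Fn} (hk : 0 < k) (hL : 1 ≤ L)
    (hkL : k * L = 1) (ht : t < 0) (hm : m = 12 ∨ m = 13)
    (h : ∀ x ∈ dom k, om q (-t) ((x + lam t) ^ 2) j * |DT j u t x| ≤ C * k ^ 2 * (x + lam t) ^ 2) :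
    Dq k L 0 q m j t u ≤ C ^ 2 := by
  have hl := lam_pos ht
  have h1 : ‖Dq k L 0 q m j t u‖ ≤ C ^ 2 * k * |L - 0| := by
    refine intervalIntegral.norm_integral_le_of_norm_le_const fun x hx => ?_
    rw [uIoc_of_le (by linarith)] at hx
    have hx0 := hx.1
    have hxd : x ∈ dom k := Icc_subset_dom hk.le hkL.le ⟨hx.1.le, hx.2⟩
    have hp : 0 < x + lam t := by linarith
    have hT : -t ≤ (x + lam t) ^ 2 := by
      rw [← lam_sq ht.le]; gcongr; linarith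
    have ho := om_pos q (by linarith) hT j
    have h2 : (om q (-t) ((x + lam t) ^ 2) j * |DT j u t x|) ^ 2 ≤
        (C * k ^ 2 * (x + lam t) ^ 2) ^ 2 :=
      pow_le_pow_left₀ (by positivity) (h x hxd) 2
    rw [mul_pow, sq_abs] at h2
    have h3 : ph k x ^ 2 ≤ x ^ 2 := by
      have e1 : 0 ≤ 1 - k * x := sub_nonneg.2 hxd.2
      have e2 : 0 ≤ k * x := by positivity
      refine pow_le_pow_left₀ (mul_nonneg hx0.le e1) ?_ 2
      exact mul_le_of_le_one_right hx0.le (by linarith)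
    have h4 : x ^ 11 * (x + lam t) ^ 4 ≤ L ^ 3 * (x + lam t) ^ m := by
      have e1 : x ≤ x + lam t := by linarith
      rcases hm with rfl | rfl
      · calc x ^ 11 * (x + lam t) ^ 4 = x ^ 3 * (x ^ 8 * (x + lam t) ^ 4) := by ring
          _ ≤ L ^ 3 * ((x + lam t) ^ 8 * (x + lam t) ^ 4) := by gcongr; exact hx.2
          _ = _ := by ring
      · calc x ^ 11 * (x + lam t) ^ 4 = x ^ 2 * 1 * (x ^ 9 * (x + lam t) ^ 4) := by ring
          _ ≤ L ^ 2 * L * ((x + lam t) ^ 9 * (x + lam t) ^ 4) := by gcongr; exact hx.2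
          _ = _ := by ring
    have e : x ^ 9 * (1 - 0 * x) ^ 4 * wt q m j t x * (ph k x * DT j u t x) ^ 2 =
        x ^ 9 * ph k x ^ 2 * (om q (-t) ((x + lam t) ^ 2) j ^ 2 * DT j u t x ^ 2) /
          (x + lam t) ^ m := by
      unfold wt; ring
    rw [e, Real.norm_eq_abs, abs_of_nonneg (by positivity), div_le_iff₀ (by positivity)]
    calc _ ≤ x ^ 9 * x ^ 2 * (C * k ^ 2 * (x + lam t) ^ 2) ^ 2 := by gcongr
      _ = C ^ 2 * k ^ 4 * (x ^ 11 * (x + lam t) ^ 4) := by ring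
      _ ≤ C ^ 2 * k ^ 4 * (L ^ 3 * (x + lam t) ^ m) := by gcongr
      _ = C ^ 2 * k * (k * L) ^ 3 * (x + lam t) ^ m := by ring
      _ = _ := by rw [hkL]; ring
  rw [sub_zero, abs_of_nonneg (by linarith), mul_assoc, hkL, mul_one] at h1
  exact (le_abs_self _).trans h1

theorem d_bd (hη : ContDiff ℝ ∞ η) (h0 : t0 < 0) (hz : ∀ t ≤ t0, η t = 0)
    (hb : ∀ i, ∃ C, 0 < C ∧ ∀ t < 0, (-t) ^ i * |iteratedDeriv i η t| ≤ C) (j : ℕ) :
    ∃ C, 0 < C ∧ ∀ k L : ℝ, 0 < k → 1 ≤ L → k * L = 1 → k ^ 2 * -t0 ≤ 1 → ∀ t < 0, ∀ q : Bool,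
      Fd k L 0 q j t (fun t x => -(k ^ 2 * ∫ s in t0..t, η s * b.D1 (k ^ 2 * s) (k * x))) ≤
          C * lam t ^ 3 ∧
        Dq k L 0 true 12 j t
          (fun t x => -(k ^ 2 * ∫ s in t0..t, η s * b.D1 (k ^ 2 * s) (k * x))) ≤ C := by
  obtain ⟨C, hC, H⟩ := pt_bd b hη h0 hz hb j
  refine ⟨C ^ 2, by positivity, fun k L hk hL hkL hkt t ht q => ?_⟩
  have hk1 : k ≤ 1 := by nlinarith
  refine ⟨?_, int_bd hk hL hkL ht (Or.inl rfl) fun x hx => H k hk hk1 hkt t ht x hx true⟩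
  rw [Fd, mul_comm]
  exact mul_le_mul_of_nonneg_right
    (int_bd hk hL hkL ht (Or.inr rfl) fun x hx => H k hk hk1 hkt t ht x hx q)
    (pow_nonneg (lam_pos ht).le 3)

end Crest.Agent.R213.ForceB
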