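import Crest.Agent.R213.LA

/-!
# Row 213: the forcing `eN`
-/

set_option autoImplicit false

noncomputable section

namespace Crest.Agent.R213.FC

open Set Filter Topology
open scoped ContDiff

variable {b : BG} {R0 C0 : ℝ}

/-- The properties of the cut-off. -/
structure EP (tm : ℝ) : Prop where
  sm : ContDiff ℝ ∞ (eta tm)
  zero : ∀ t, t ≤ 2 * tm ∨ tm ≤ t → ∀ i, iteratedDeriv (i + 1) (eta tm) t = 0
  bd : ∀ i, ∃ C, 0 < C ∧ ∀ t < 0, (-t) ^ i * |iteratedDeriv i (eta tm) t| ≤ C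

/-- The forcing without the spatial decay factor. -/
def PP (l : LD b R0) (v : Fin l.d → ℝ) : Fn := fun s y => l.H v s y * deriv (eta l.tm) s

/-- The spatial decay factor. -/
def cc (N : ℕ) (x : ℝ) : ℝ := ((1 + x / N) ^ 3)⁻¹

variable {l : LD b R0}

theorem eN_eq (N : ℕ) (v : Fin l.d → ℝ) : eN l N v = fun s y => cc N y * PP l v s y := by
  funext s y
  rw [eN, cc, PP, div_eq_inv_mul, mul_comm (deriv _ _)]

theorem H_ts (v : Fin l.d → ℝ) : TS (Iio (-1)) (dom 0) (l.H v) :=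
  let ⟨_, _, h⟩ := (l.mem v).2.1
  h.tF

theorem eta_ts (h : EP l.tm) : TS (Iio (-1)) (dom 0) fun s _ => deriv (eta l.tm) s :=
  TS.time isOpen_Iio (contDiff_infty_iff_deriv.1 h.sm).2.contDiffOn

theorem PP_zero (h : EP l.tm) (v : Fin l.d → ℝ) {t : ℝ} (ht : l.tm < t) (x : ℝ) :
    PP l v t x = (0 : Fn) t x := by
  have := h.zero t (.inr ht.le) 0
  rw [zero_add, iteratedDeriv_one] at this
  simp [PP, this]

theorem PP_ts (h : EP l.tm) (v : Fin l.d → ℝ) : TS (Iio 0) (dom 0) (PP l v) := by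
  refine TS.of_local fun t ht => ?_
  rcases lt_or_ge t (-1) with h1 | h1
  · exact ⟨Iio (-1), isOpen_Iio, h1, Iio_subset_Iio (by norm_num),
      (H_ts v).mul isOpen_Iio (eta_ts h)⟩
  · exact ⟨Ioo l.tm 0, isOpen_Ioo, ⟨l.tm_lt.trans_le h1, ht⟩, Ioo_subset_Iio_self,
      TS.zero.congr isOpen_Ioo fun s hs x _ => PP_zero h v hs.1 x⟩

theorem DT_PP (h : EP l.tm) (v : Fin l.d → ℝ) (j : ℕ) {t x : ℝ} (ht : t < -1) (hx : 0 ≤ x) :
    DT j (PP l v) t x = ∑ i ∈ Finset.range (j + 1),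
      (j.choose i : ℝ) * DT i (l.H v) t x * iteratedDeriv (j - i + 1) (eta l.tm) t := by
  refine (DT_mul isOpen_Iio (H_ts v) (eta_ts h) j t ht x (dom_zero ▸ hx)).trans ?_
  simp only [DT_time, iteratedDeriv_succ']

theorem dom_eq {N : ℕ} (hN : 1 ≤ N) : dom (kap N) = Icc 0 ((N : ℝ) ^ 4) := by
  have : (0 : ℝ) < N := by exact_mod_cast hN
  exact dom_eq_Icc (by positivity) (by rw [kap]; field_simp)

theorem cc_cont (N : ℕ) : ContinuousOn (cc N) (Ici 0) :=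
  ContinuousOn.inv₀ (by fun_prop) fun x (hx : 0 ≤ x) => by positivity

theorem cc_mem (N : ℕ) {x : ℝ} (hx : 0 ≤ x) : cc N x ∈ Icc (0 : ℝ) 1 :=
  ⟨by rw [cc]; positivity, inv_le_one_of_one_le₀ (one_le_pow₀ (le_add_of_nonneg_right
    (by positivity)))⟩

theorem ts (h : EP l.tm) (N : ℕ) (v : Fin l.d → ℝ) : TS (Iio 0) (dom (kap N)) (eN l N v) := by
  rw [eN_eq]
  exact ((PP_ts h v).mono subset_rfl fun x hx => dom_zero ▸ hx.1).cmul
    ((cc_cont N).mono fun x hx => hx.1)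

theorem zero (h : EP l.tm) (N : ℕ) (v : Fin l.d → ℝ) (j : ℕ) {t x : ℝ}
    (ht : t ≤ 2 * l.tm ∨ l.tm ≤ t) (hx : 0 ≤ x) : DT j (eN l N v) t x = 0 := by
  rw [eN_eq, DT_cmul]
  refine mul_eq_zero_of_right _ ?_
  rcases lt_or_ge t (-1) with h1 | h1
  · simp [DT_PP h v j h1 hx, h.zero t ht]
  · rw [DT_congr isOpen_Ioi (fun s hs => PP_zero h v hs x) j t (l.tm_lt.trans_le h1), DT_zero]
    rfl

theorem PP_bd (h : EP l.tm) (j : ℕ) : ∃ A, 0 < A ∧ ∀ v, ∀ t < -1, ∀ x, 0 ≤ x →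
    (-t) ^ (j + 1) * |DT j (PP l v) t x| ≤
      A * ∑ i ∈ Finset.range (j + 1), (-t) ^ i * |DT i (l.H v) t x| := by
  choose C hC hb using h.bd
  refine ⟨2 ^ j * ∑ i ∈ Finset.range (j + 2), C i, mul_pos (by positivity)
    (Finset.sum_pos (fun i _ => hC i) (by simp)), fun v t ht x hx => ?_⟩
  have h0 : 0 < -t := by linarith
  rw [DT_PP h v j ht hx, Finset.mul_sum]
  refine (mul_le_mul_of_nonneg_left (Finset.abs_sum_le_sum_abs _ _) (by positivity)).trans ?_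
  rw [Finset.mul_sum]
  refine Finset.sum_le_sum fun i hi => ?_
  have hi' := Finset.mem_range.1 hi
  have h1 : (j.choose i : ℝ) ≤ 2 ^ j := by exact_mod_cast Nat.choose_le_two_pow j i
  have h2 := (hb (j - i + 1) t (by linarith)).trans (Finset.single_le_sum
    (fun i _ => (hC i).le) (Finset.mem_range.2 (show j - i + 1 < j + 2 by omega)))
  rw [abs_mul, abs_mul, Nat.abs_cast, show j + 1 = (j - i + 1) + i by omega, pow_add]
  refine le_trans (le_of_eq (by ring)) (mul_le_mul_of_nonneg_right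
    (mul_le_mul h1 h2 (by positivity) (by positivity)) (by positivity))

theorem nb3 {v : Fin l.d → ℝ} (hv : ‖v‖ ≤ 3) : NB l.σ R0 (l.C1 * 3) (-1) (l.H v) :=
  fun t ht x hx => (l.nb v t ht x hx).trans (mul_le_mul_of_nonneg_right
    (mul_le_mul_of_nonneg_left hv (by linarith [l.C1_ge]))
    (Real.rpow_nonneg (Real.sqrt_nonneg _) _))

theorem pt (h : EP l.tm) (h0 : H0P b.B0 R0 C0) (j : ℕ) (R : ℝ) : ∃ C, 0 < C ∧ ∀ N : ℕ,
    ∀ v, ‖v‖ ≤ 3 → ∀ t < 0, ∀ x ∈ dom (kap N), x ≤ R * lam t →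
      (-t) ^ (j + 1) * |DT j (eN l N v) t x| ≤ C * lam t ^ (1 + l.σ) := by
  obtain ⟨A, hA, hb⟩ := PP_bd h j
  choose C hC hl using fun i => la2 b h0 i R 1
  have hM : 0 < l.C1 * 3 := by linarith [l.C1_ge]
  have hK : 0 < A * ∑ i ∈ Finset.range (j + 1), C i * (l.C1 * 3) :=
    mul_pos hA (Finset.sum_pos (fun i _ => mul_pos (hC i) hM) (by simp))
  refine ⟨_, hK, fun N v hv t ht x hx hR => ?_⟩
  rcases lt_or_ge t (-1) with h1 | h1
  · obtain ⟨G1, G2, hG⟩ := (l.mem v).2.1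
    rw [eN_eq, DT_cmul, abs_mul, abs_of_nonneg (cc_mem N hx.1).1, mul_assoc, Finset.sum_mul]
    exact (mul_le_mul_of_nonneg_left (mul_le_of_le_one_left (abs_nonneg _) (cc_mem N hx.1).2)
      (pow_nonneg (by linarith) _)).trans ((hb v t h1 x hx.1).trans (mul_le_mul_of_nonneg_left
      (Finset.sum_le_sum fun i _ => (hl i _ _ _ _ _ _ l.σ_pos.le l.σ_le hM.le le_rfl le_rfl
        (l.mem v) hG (nb3 hv) t h1 x ⟨hx.1, hR⟩).1) hA.le))
  · rw [zero h N v j (.inr (l.tm_lt.le.trans h1)) hx.1, abs_zero, mul_zero]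
    exact mul_nonneg hK.le (Real.rpow_nonneg (lam_pos ht).le _)

theorem one_le_lam {t : ℝ} (ht : t < -1) : 1 ≤ lam t := Real.one_le_sqrt.2 (by linarith)

theorem wt_le (q : Bool) {m k j : ℕ} (hm : 11 ≤ m) (hk : k ≤ j) {t x : ℝ} (ht : t < -1)
    (hx : 0 ≤ x) : wt q m k t x ≤ (x + lam t) ^ 6 * wt false 13 j t x := by
  have h1 : 1 ≤ x + lam t := by linarith [one_le_lam ht]
  have h2 : 1 ≤ -t := by linarith
  have h3 : 1 ≤ (x + lam t) ^ 2 := one_le_pow₀ h1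
  have h4 : om q (-t) ((x + lam t) ^ 2) k ≤ (x + lam t) ^ 2 * (-t) ^ j := by
    rw [om]
    split_ifs
    · exact one_le_mul_of_one_le_of_one_le h3 (one_le_pow₀ h2)
    · exact mul_le_mul_of_nonneg_left (pow_le_pow_right₀ h2 (by omega)) (by positivity)
    · exact (pow_le_pow_right₀ h2 hk).trans (le_mul_of_one_le_left (by positivity) h3)
  rw [wt, wt, om_false]
  refine (div_le_div₀ (by positivity) (pow_le_pow_left₀
    (SBB.om_pos q (by linarith) (by linarith) k).le h4 2) (by positivity)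
    (pow_le_pow_right₀ h1 hm)).trans_eq ?_
  field_simp

theorem cc_le {N : ℕ} (hN : 1 ≤ N) {x y Λ : ℝ} (hx : 0 ≤ x) (hy : 0 ≤ y) (h : y ≤ Λ) :
    (x + y) ^ 6 * cc N x ^ 2 ≤ (1 + Λ) ^ 6 * (N : ℝ) ^ 6 := by
  have h1 : (1 : ℝ) ≤ N := by exact_mod_cast hN
  have h2 : 0 ≤ x / N := by positivity
  have h3 : x / N * N = x := by field_simp
  rw [cc, inv_pow, ← pow_mul, ← div_eq_mul_inv, ← div_pow, ← mul_pow]
  refine pow_le_pow_left₀ (by positivity) ((div_le_iff₀ (by positivity)).2 ?_) 6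
  nlinarith [mul_nonneg (hy.trans h) hx, mul_le_mul_of_nonneg_left h1 (hy.trans h)]

theorem base (h : EP l.tm) (h0 : H0P b.B0 R0 C0) (j : ℕ) : ∃ K, 0 < K ∧ ∀ L, 0 < L →
    ∀ v, ‖v‖ ≤ 3 → ∀ t < -1,
      lam t * Iw L 0 false 13 (j + 1) t (DT j (PP l v) t) ≤ K * (-t) ^ l.σ := by
  obtain ⟨A, hA, hb⟩ := PP_bd h j
  choose C hC hl using fun i => la1 b h0 i 1
  have hM : 0 < l.C1 * 3 := by linarith [l.C1_ge]
  refine ⟨A ^ 2 * (j + 1 : ℕ) * ∑ i ∈ Finset.range (j + 1), C i * (l.C1 * 3) ^ 2,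
    mul_pos (by positivity) (Finset.sum_pos (fun i _ => mul_pos (hC i) (by positivity)) (by simp)),
    fun L hL v hv t ht => ?_⟩
  have ht0 : t < 0 := by linarith
  have hD : Icc 0 L ⊆ dom 0 := fun x hx => dom_zero ▸ hx.1
  refine (mul_le_mul_of_nonneg_left (Iw_le_sum (C := A) (n := j + 1)
    (v := fun i => DT i (l.H v) t) ht0 hL.le (((PP_ts h v).cont_x j ht0).mono hD)
    (fun i => ((H_ts v).cont_x i ht).mono hD) fun x hx => by
      simpa only [om_false] using hb v t ht x hx.1) (lam_pos ht0).le).trans ?_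
  rw [mul_left_comm, mul_assoc (A ^ 2 * _), Finset.mul_sum, Finset.sum_mul]
  exact mul_le_mul_of_nonneg_left (Finset.sum_le_sum fun i _ => hl i _ _ _ _ l.σ_pos.le l.σ_le
    hM.le le_rfl le_rfl (l.mem v) (nb3 hv) t ht L hL) (by positivity)

theorem Iw_zero (L θ : ℝ) (q : Bool) (m j : ℕ) (t : ℝ) : Iw L θ q m j t (fun _ => 0) = 0 := by
  simp [Iw]

theorem bd (h : EP l.tm) (h0 : H0P b.B0 R0 C0) (j : ℕ) : ∃ C, 0 < C ∧ ∀ N : ℕ, 1 ≤ N →
    ∀ v, ‖v‖ ≤ 3 → ∀ t < 0,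
      Fe ((N : ℝ) ^ 4) 0 false j t (eN l N v) ≤ C * (-t) ^ l.σ ∧
      Fe ((N : ℝ) ^ 4) 0 true j t (eN l N v) ≤ C * (N : ℝ) ^ 6 * (-t) ^ l.σ ∧
      lam t * Iw ((N : ℝ) ^ 4) 0 true 11 j t (DT j (eN l N v) t) ≤ C * (N : ℝ) ^ 6 ∧
      Iw ((N : ℝ) ^ 4) 0 true 12 (j + 1) t (DT j (eN l N v) t) ≤ C * (N : ℝ) ^ 6 := by
  obtain ⟨K, hK, hb⟩ := base h h0 j
  obtain ⟨D, hD⟩ : ∃ D, D = (1 + lam (2 * l.tm)) ^ 6 := ⟨_, rfl⟩
  have htm := l.tm_lt
  have hD1 : 1 ≤ D := hD ▸ one_le_pow₀ (le_add_of_nonneg_right (Real.sqrt_nonneg _))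
  have hS : 1 ≤ -(2 * l.tm) := by linarith
  refine ⟨D * K * -(2 * l.tm), by positivity, fun N hN v hv t ht => ?_⟩
  have hN0 : (0 : ℝ) < N := by exact_mod_cast hN
  have hL : (0 : ℝ) < (N : ℝ) ^ 4 := by positivity
  have hs : 0 < (-t) ^ l.σ := Real.rpow_pos_of_pos (by linarith) _
  by_cases hc : t ≤ 2 * l.tm ∨ l.tm ≤ t
  · have e : ∀ q m k, Iw ((N : ℝ) ^ 4) 0 q m k t (DT j (eN l N v) t) = 0 := fun q m k =>
      (Iw_congr hL.le q m k t fun x hx => zero h N v j hc hx.1).trans (Iw_zero _ _ _ _ _ _)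
    simp only [Fe, e, mul_zero]
    refine ⟨?_, ?_, ?_, ?_⟩ <;> positivity
  push Not at hc
  have ht1 : t < -1 := hc.2.trans htm
  have hl := one_le_lam ht1
  have c1 := ((ts h N v).cont_x j ht).mono (dom_eq hN).ge
  have c2 := ((PP_ts h v).cont_x j ht).mono (show Icc 0 ((N : ℝ) ^ 4) ⊆ dom 0 from
    fun x hx => dom_zero ▸ hx.1)
  have e : ∀ x, DT j (eN l N v) t x ^ 2 = cc N x ^ 2 * DT j (PP l v) t x ^ 2 := fun x => by
    rw [eN_eq, DT_cmul, mul_pow]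
  have hW := hb _ hL v hv t ht1
  have h1 : ∀ q m k, 11 ≤ m → k ≤ j + 1 →
      lam t * Iw ((N : ℝ) ^ 4) 0 q m k t (DT j (eN l N v) t) ≤ D * K * N ^ 6 * (-t) ^ l.σ := by
    intro q m k hm hk
    refine (mul_le_mul_of_nonneg_left (Iw_le_Iw (c := D * N ^ 6) (θ' := 0) (q' := false) (m' := 13)
      (j' := j + 1) ht hL.le le_rfl (by positivity) c1 c2 fun x hx => ?_) (by linarith)).trans ?_
    · simp only [zero_mul, sub_zero, one_pow, one_mul, e]
      have h2 := cc_le hN hx.1 (lam_pos ht).le (lam_anti hc.1.le)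
      have h3 := (wt_pos false 13 (j + 1) ht hx.1).le
      rw [← hD] at h2
      exact (mul_le_mul_of_nonneg_right (wt_le q hm hk ht1 hx.1) (by positivity)).trans
        (le_of_eq_of_le (by ring) (mul_le_mul_of_nonneg_right h2 (by positivity)))
    · rw [mul_left_comm]
      exact (mul_le_mul_of_nonneg_left hW (by positivity)).trans_eq (by ring)
  have h2 : D * K * N ^ 6 * (-t) ^ l.σ ≤ D * K * -(2 * l.tm) * N ^ 6 := by
    rw [mul_right_comm]
    refine mul_le_mul_of_nonneg_right (mul_le_mul_of_nonneg_left ?_ (by positivity))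
      (by positivity)
    exact (Real.rpow_le_self_of_one_le (by linarith) (by linarith [l.σ_le])).trans (by linarith)
  refine ⟨?_, (h1 _ _ _ (by norm_num) le_rfl).trans ?_,
    (h1 _ _ _ le_rfl j.le_succ).trans h2, (le_mul_of_one_le_left (Iw_nonneg hL.le _ _ _ _ _)
      hl).trans ((h1 _ _ _ (by norm_num) le_rfl).trans h2)⟩
  · refine (mul_le_mul_of_nonneg_left (Iw_le_Iw (c := 1) (θ' := 0) (q' := false) (m' := 13)
      (j' := j + 1) ht hL.le le_rfl zero_le_one c1 c2 fun x hx => ?_) (by linarith)).trans ?_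
    · rw [e, one_mul]
      exact mul_le_mul_of_nonneg_left (mul_le_of_le_one_left (sq_nonneg _)
        (pow_le_one₀ (cc_mem N hx.1).1 (cc_mem N hx.1).2))
        (mul_nonneg (by positivity) (wt_pos _ _ _ ht hx.1).le)
    · rw [one_mul]
      exact hW.trans (mul_le_mul_of_nonneg_right ((le_mul_of_one_le_left hK.le hD1).trans
        (le_mul_of_one_le_right (by positivity) hS)) hs.le)
  · exact mul_le_mul_of_nonneg_right (mul_le_mul_of_nonneg_right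
      (le_mul_of_one_le_right (by positivity) hS) (by positivity)) hs.le

theorem lip (h : EP l.tm) {N : ℕ} (hN : 1 ≤ N) : ∃ C, ∀ v w, ∀ t < 0,
    (∫ x in (0 : ℝ)..((N : ℝ) ^ 4), x ^ 9 * (eN l N v t x - eN l N w t x) ^ 2) ≤
      C * ‖v - w‖ ^ 2 := by
  have hL : (0 : ℝ) ≤ (N : ℝ) ^ 4 := by positivity
  have hb : ∀ u, ∃ B, ∀ t, ∀ x ∈ Icc 0 ((N : ℝ) ^ 4), |eN l N u t x| ≤ B := fun u => by
    obtain ⟨B, hB⟩ := ((isCompact_Icc (a := 2 * l.tm) (b := l.tm)).prod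
      (isCompact_Icc (a := 0) (b := (N : ℝ) ^ 4))).exists_bound_of_continuousOn
      ((ts h N u 0).1.mono (prod_mono (fun t ht => ht.2.trans_lt (l.tm_lt.trans (by norm_num)))
        (dom_eq hN).ge))
    refine ⟨max B 0, fun t x hx => ?_⟩
    by_cases hc : t ≤ 2 * l.tm ∨ l.tm ≤ t
    · exact (abs_eq_zero.2 (zero h N u 0 hc hx.1)).trans_le (le_max_right _ _)
    · push Not at hc
      exact (hB (t, x) ⟨⟨hc.1.le, hc.2.le⟩, hx⟩).trans (le_max_left _ _)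
  choose B hB using hb
  refine ⟨((N : ℝ) ^ 4) ^ 9 * (∑ i, B fun j => if i = j then 1 else 0) ^ 2 * |(N : ℝ) ^ 4 - 0|,
    fun v w t _ => (Real.le_norm_self _).trans (le_of_le_of_eq
      (intervalIntegral.norm_integral_le_of_norm_le_const
      (C := ((N : ℝ) ^ 4) ^ 9 * (‖v - w‖ * ∑ i, B fun j => if i = j then 1 else 0) ^ 2)
      (a := 0) (b := (N : ℝ) ^ 4) fun x hx => ?_) (by ring))⟩
  rw [uIoc_of_le hL] at hx
  have e : eN l N v t x - eN l N w t x =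
      ∑ i, (v - w) i * eN l N (fun j => if i = j then 1 else 0) t x := by
    have := congrFun (congrFun (l.H.pi_apply_eq_sum_univ (v - w)) t) x
    simp only [map_sub, Pi.sub_apply, Finset.sum_apply, Pi.smul_apply, smul_eq_mul] at this
    simp only [eN, ← sub_div, ← mul_sub, this, Finset.mul_sum, Finset.sum_div, Pi.sub_apply]
    exact Finset.sum_congr rfl fun i _ => by ring
  rw [norm_mul, norm_pow, norm_pow, Real.norm_of_nonneg hx.1.le, e, Finset.mul_sum]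
  refine mul_le_mul (pow_le_pow_left₀ hx.1.le hx.2 9) (pow_le_pow_left₀ (norm_nonneg _)
    ((norm_sum_le _ _).trans (Finset.sum_le_sum fun i _ => ?_)) 2) (by positivity) (by positivity)
  rw [norm_mul]
  exact mul_le_mul (norm_le_pi_norm _ i) (hB _ t x ⟨hx.1.le, hx.2⟩) (norm_nonneg _) (norm_nonneg _)

end Crest.Agent.R213.FC
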