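import Crest.Agent.R213.LA
import Crest.Agent.R213.ForceC
import Crest.Agent.R213.ForceA
import Crest.Agent.R213.ForceB

/-!
# Row 213: the data of the nonlinear problems
-/

set_option autoImplicit false

noncomputable section

namespace Crest.Agent.R213

open Set Filter Topology
open scoped ContDiff

variable {b : BG} {R0 C0 : ℝ}

theorem kap_pos {N : ℕ} (hN : 1 ≤ N) : 0 < kap N :=
  FA.kap_pos hN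

theorem kap_mul {N : ℕ} (hN : 1 ≤ N) : kap N * (N : ℝ) ^ 4 = 1 :=
  FA.kap_mul hN

theorem tendsto_kap : Tendsto kap atTop (𝓝 0) :=
  FA.tendsto_kap

theorem contDiff_eta (tm : ℝ) : ContDiff ℝ ∞ (eta tm) :=
  FA.contDiff_eta tm

theorem eta_zero {tm t : ℝ} (h : tm < 0) (ht : t ≤ 2 * tm) : eta tm t = 0 :=
  FA.eta_zero h ht

theorem eta_one {tm t : ℝ} (h : tm < 0) (ht : tm ≤ t) : eta tm t = 1 :=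
  FA.eta_one h ht

theorem eta_mem (tm t : ℝ) : eta tm t ∈ Icc (0 : ℝ) 1 :=
  FA.eta_mem tm t

theorem iteratedDeriv_eta_zero {tm t : ℝ} (h : tm < 0) (ht : t ≤ 2 * tm ∨ tm ≤ t) (i : ℕ) :
    iteratedDeriv (i + 1) (eta tm) t = 0 :=
  FA.iteratedDeriv_eta_zero h ht i

theorem eta_bd {tm : ℝ} (h : tm < 0) (i : ℕ) :
    ∃ C, 0 < C ∧ ∀ t < 0, (-t) ^ i * |iteratedDeriv i (eta tm) t| ≤ C :=
  FA.eta_bd h i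

theorem gN_ts (b : BG) {N : ℕ} (hN : 1 ≤ N) : TS (Iio 0) (dom (kap N)) (gN b N) :=
  FA.gN_ts b hN

theorem gN_bd (b : BG) {N : ℕ} (hN : 1 ≤ N) : ∀ t < 0, ∀ x ∈ dom (kap N),
    2 / b.B0 ≤ gN b N t x ∧ gN b N t x ≤ b.B0 :=
  FA.gN_bd b hN

theorem gN_eq (b : BG) {N : ℕ} (hN : 1 ≤ N) : ∀ t < 0, ∀ x, 0 ≤ x → 4 * kap N * x ≤ 1 →
    (1 - kap N * x) * gN b N t x = b.gs t x :=
  FA.gN_eq b hN

/-- The pointwise bounds `AB` from bounds on `ζ`. -/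
theorem gN_ab (b : BG) (J : ℕ) (A : ℝ) : ∃ B, 1 ≤ B ∧ ∀ N, 1 ≤ N → ∀ (ζ : Fn), ∀ t < 0,
    (∀ x ∈ dom (kap N), |kap N * ph (kap N) x * ζ t x| ≤ 1 / b.B0 ∧
      ∀ a, 2 * a ≤ J → (-t) ^ a * |kap N * ph (kap N) x * DT a ζ t x| ≤ A) →
    AB (kap N) (kap N) (gN b N) ζ J B t :=
  FA.gN_ab b J A

theorem gN_ab0 (b : BG) {N : ℕ} (hN : 1 ≤ N) (ζ : Fn) : ∀ t < 0,
    (∀ x ∈ dom (kap N), |kap N * ph (kap N) x * ζ t x| ≤ 1 / b.B0) →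
    AB (kap N) (kap N) (gN b N) ζ 0 b.B0 t :=
  FA.gN_ab0 b hN ζ

theorem dN_ts (b : BG) {tm : ℝ} (h : tm < 0) {N : ℕ} (hN : 1 ≤ N) :
    TS (Iio 0) (dom (kap N)) (dN b tm N) :=
  ForceB.d_ts b (contDiff_eta tm) (kap_pos hN) (by linarith)

theorem dN_zero (b : BG) {tm : ℝ} (h : tm < 0) (N : ℕ) : ∀ t ≤ 2 * tm, ∀ x, dN b tm N t x = 0 :=
  fun _ ht x => ForceB.d_zero b (fun _ hs => eta_zero h hs) ht x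

theorem dN_inner (b : BG) {tm : ℝ} (h : tm < 0) {N : ℕ} (hN : 1 ≤ N) (j : ℕ) : ∀ t < 0, ∀ x, 0 ≤ x →
    4 * kap N * x ≤ 1 → DT j (dN b tm N) t x = 0 :=
  fun _ ht _ hx hx' => ForceB.d_inner b (kap_pos hN) (by linarith) j ht hx hx'

theorem dN_bd (b : BG) {tm : ℝ} (h : tm < 0) (j : ℕ) : ∃ C, 0 < C ∧ ∀ N : ℕ, 1 ≤ N →
    kap N ^ 2 * -(2 * tm) ≤ 1 → ∀ t < 0, ∀ q : Bool,
      Fd (kap N) ((N : ℝ) ^ 4) 0 q j t (dN b tm N) ≤ C * lam t ^ 3 ∧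
      Dq (kap N) ((N : ℝ) ^ 4) 0 true 12 j t (dN b tm N) ≤ C := by
  obtain ⟨C, hC, H⟩ := ForceB.d_bd b (t0 := 2 * tm) (contDiff_eta tm) (by linarith)
    (fun _ hs => eta_zero h hs) (eta_bd h) j
  exact ⟨C, hC, fun N hN hk => H (kap N) _ (kap_pos hN)
    (one_le_pow₀ (by exact_mod_cast hN)) (kap_mul hN) hk⟩

theorem eta_ep (l : LD b R0) : FC.EP l.tm :=
  have h : l.tm < 0 := l.tm_lt.trans (by norm_num)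
  ⟨contDiff_eta _, fun _ ht => iteratedDeriv_eta_zero h ht, eta_bd h⟩

theorem eN_ts (l : LD b R0) {N : ℕ} (hN : 1 ≤ N) (v : Fin l.d → ℝ) :
    TS (Iio 0) (dom (kap N)) (eN l N v) :=
  FC.ts (eta_ep l) N v

theorem eN_zero (l : LD b R0) {N : ℕ} (hN : 1 ≤ N) (v : Fin l.d → ℝ) (j : ℕ) :
    ∀ t < 0, t ≤ 2 * l.tm ∨ l.tm ≤ t → ∀ x ∈ dom (kap N), DT j (eN l N v) t x = 0 :=
  fun _ _ ht _ hx => FC.zero (eta_ep l) N v j ht hx.1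

theorem eN_bd (h0 : H0P b.B0 R0 C0) (l : LD b R0) (j : ℕ) : ∃ C, 0 < C ∧ ∀ N : ℕ, 1 ≤ N →
    ∀ v, ‖v‖ ≤ 3 → ∀ t < 0,
      Fe ((N : ℝ) ^ 4) 0 false j t (eN l N v) ≤ C * (-t) ^ l.σ ∧
      Fe ((N : ℝ) ^ 4) 0 true j t (eN l N v) ≤ C * (N : ℝ) ^ 6 * (-t) ^ l.σ ∧
      lam t * Iw ((N : ℝ) ^ 4) 0 true 11 j t (DT j (eN l N v) t) ≤ C * (N : ℝ) ^ 6 ∧
      Iw ((N : ℝ) ^ 4) 0 true 12 (j + 1) t (DT j (eN l N v) t) ≤ C * (N : ℝ) ^ 6 :=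
  FC.bd (eta_ep l) h0 j

theorem eN_pt (h0 : H0P b.B0 R0 C0) (l : LD b R0) (j : ℕ) (R : ℝ) : ∃ C, 0 < C ∧ ∀ N : ℕ, 1 ≤ N →
    ∀ v, ‖v‖ ≤ 3 → ∀ t < 0, ∀ x ∈ dom (kap N), x ≤ R * lam t →
      (-t) ^ (j + 1) * |DT j (eN l N v) t x| ≤ C * lam t ^ (1 + l.σ) :=
  let ⟨C, hC, h⟩ := FC.pt (eta_ep l) h0 j R
  ⟨C, hC, fun N _ => h N⟩

theorem eN_lip (l : LD b R0) {N : ℕ} (hN : 1 ≤ N) : ∃ C, ∀ v w, ∀ t < 0,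
    (∫ x in (0 : ℝ)..((N : ℝ) ^ 4), x ^ 9 * (eN l N v t x - eN l N w t x) ^ 2) ≤
      C * ‖v - w‖ ^ 2 :=
  FC.lip (eta_ep l) hN

end Crest.Agent.R213
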