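import Crest.Agent.R213.NA
import Crest.Agent.R213.Reg

/-!
# Row 213: from the rescaled solution to the geometric data (auxiliary file of `GDx`)
-/

set_option autoImplicit false

noncomputable section

namespace Crest.Agent.R213.GDxA

open Set Filter Topology
open scoped ContDiff

theorem dom_one : dom 1 = Icc 0 1 := dom_eq_Icc one_pos (by norm_num)

theorem sp_sub {L : ℝ} {F F1 F2 G G1 G2 : ℝ → ℝ} (h : Sp L F F1 F2) (h' : Sp L G G1 G2) :
    Sp L (fun x => F x - G x) (fun x => F1 x - G1 x) fun x => F2 x - G2 x :=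
  ⟨h.c0.sub h'.c0, h.c1.sub h'.c1, h.c2.sub h'.c2, fun x hx => (h.d1 x hx).sub (h'.d1 x hx),
    fun x hx => (h.d2 x hx).sub (h'.d2 x hx)⟩

/-- The geometric data from a solution of the system at unit scale. -/
theorem of_sys (b : BG) {a : ℝ} (ha : a < 0) {d e F F1 F2 ζ : Fn}
    (h : Sys 1 1 0 (Ioo a 0) b.g1 d e F F1 F2 ζ) (he : ∀ t ∈ Ioo a 0, ∀ x ∈ dom 1, e t x = 0)
    (hd : ContDiffOn ℝ ∞ (fun p : ℝ × ℝ => d p.1 p.2) (Ioo a 0 ×ˢ Icc 0 1))
    (hd' : ∀ t ∈ Ioo a 0, ∀ x ∈ Icc (0 : ℝ) 1, HasDerivAt (fun s => d s x) (-b.D1 t x) t)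
    (hl : Tendsto (fun t => Dt F t 0 * lam t) (𝓝[<] 0) (𝓝 0)) : Nonempty GD := by
  have hsub : Ioo a 0 ×ˢ Icc (0 : ℝ) 1 ⊆ Iio 0 ×ˢ Icc 0 1 :=
    prod_mono Ioo_subset_Iio_self Subset.rfl
  have hsm := h.smooth isOpen_Ioo he (b.g1_sm.mono hsub) hd
  have hph : ContDiff ℝ ∞ fun p : ℝ × ℝ => ph 1 p.2 := by
    unfold ph
    fun_prop
  refine ⟨{
    a := a
    s0 := b.s0
    Γ := fun t x => b.g1 t x + 1 * ph 1 x * ζ t x
    q := fun t x => b.q1 t x + (F2 t x + d t x)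
    S := fun t x => b.S1 t x - DT 1 F t x
    S1 := fun t x => b.S11 t x - DT 1 F1 t x
    S2 := fun t x => b.S12 t x - DT 1 F2 t x
    ha := ha
    s0_pos := b.s0_pos
    Γ_sm := (b.g1_sm.mono hsub).add ((contDiffOn_const.mul hph.contDiffOn).mul (hsm 0).2.2.2)
    q_sm := (b.q1_sm.mono hsub).add ((hsm 0).2.2.1.add hd)
    S_sm := (b.S1_sm.mono hsub).sub (hsm 1).1
    S1_sm := (b.S11_sm.mono hsub).sub (hsm 1).2.1
    S2_sm := (b.S12_sm.mono hsub).sub (hsm 1).2.2.1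
    pos := fun t ht x hx => h.pos t ht x (dom_one ▸ hx)
    q_eq := ?_
    S_eq := ?_
    sp := fun t ht => sp_sub (b.S1_sp t ht.2) (h.sp isOpen_Ioo (by norm_num) 1 ht)
    flow := ?_
    lim := ?_ }⟩
  · intro t ht x hx
    have h1 := h.nl t ht x (dom_one ▸ hx)
    have h2 := b.q1_eq t ht.2 x hx
    linear_combination (1 - ph 1 x * (b.g1 t x + 1 * ph 1 x * ζ t x) * (F2 t x + d t x)) * h2 -
      ph 1 x * (1 + ph 1 x * b.q1 t x) * h1
  · intro t ht x hx
    have h1 := h.vol t ht x (dom_one ▸ hx)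
    have h2 := b.S1_eq t ht.2 x hx
    have h3 : Vol (fun y => Dt F t y - e t y) x = Vol (DT 1 F t) x := by
      refine vol_congr hx.1 fun y hy => ?_
      rw [he t ht y (dom_one ▸ ⟨hy.1, hy.2.trans hx.2⟩), sub_zero]
      rfl
    have hI : Icc 0 x ⊆ Icc (0 : ℝ) 1 := Icc_subset_Icc_right hx.2
    have h4 : Vol (fun y => b.S1 t y - DT 1 F t y) x = Vol (b.S1 t) x - Vol (DT 1 F t) x :=
      vol_sub hx.1 ((b.S1_sp t ht.2).c0.mono hI)
        ((h.tF.cont_x 1 ht).mono (hI.trans dom_one.symm.subset))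
    rw [h4]
    linear_combination h1 + h2 + h3
  · intro t ht x hx
    have h1 := b.D1_eq t ht.2 x hx
    have h2 := (h.tF2 0).2 t ht x (dom_one ▸ hx)
    have h3 := h1.add (h2.add (hd' t ht x hx))
    refine h3.congr_deriv ?_
    simp only [zero_add]
    ring
  · have h1 : Tendsto (fun t => b.s0 - Dt F t 0 * lam t) (𝓝[<] 0) (𝓝 (b.s0 - 0)) :=
      tendsto_const_nhds.sub hl
    rw [sub_zero] at h1
    refine h1.congr' ?_
    filter_upwards [self_mem_nhdsWithin] with t ht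
    have h2 := lam_pos (show t < 0 from ht)
    rw [b.S1_zero t ht, sub_mul, div_mul_cancel₀ _ h2.ne']
    rfl

/-- The compensating forcing at unit scale. -/
theorem dN_scale (b : BG) (tm : ℝ) {N : ℕ} (hN : 1 ≤ N) (t x : ℝ) :
    dN b tm N (((N : ℝ) ^ 4) ^ 2 * t) ((N : ℝ) ^ 4 * x) =
      -∫ r in (kap N ^ 2 * (2 * tm))..t, eta tm (((N : ℝ) ^ 4) ^ 2 * r) * b.D1 r x := by
  have hk := kap_mul hN
  have hk0 := kap_pos hN
  have hk2 : kap N ^ 2 * ((N : ℝ) ^ 4) ^ 2 = 1 := by rw [← mul_pow, hk, one_pow]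
  have e1 : kap N * ((N : ℝ) ^ 4 * x) = x := by rw [← mul_assoc, hk, one_mul]
  have e2 : kap N ^ 2 * (((N : ℝ) ^ 4) ^ 2 * t) = t := by rw [← mul_assoc, hk2, one_mul]
  have h := intervalIntegral.smul_integral_comp_mul_left
    (fun r => eta tm (((N : ℝ) ^ 4) ^ 2 * r) * b.D1 r x) (kap N ^ 2) (a := 2 * tm)
    (b := ((N : ℝ) ^ 4) ^ 2 * t)
  rw [e2] at h
  rw [← h, smul_eq_mul]
  unfold dN
  rw [e1]
  congr 2
  refine intervalIntegral.integral_congr fun s _ => ?_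
  have e3 : ((N : ℝ) ^ 4) ^ 2 * (kap N ^ 2 * s) = s := by
    rw [← mul_assoc, mul_comm _ (kap N ^ 2), hk2, one_mul]
  simp only [e3]

theorem main {b : BG} {R0 C0 K : ℝ} (h0 : H0P b.B0 R0 C0) (l : LD b R0) {N : ℕ}
    (hN : 2 - 2 * l.tm ≤ N) {v : Fin l.d → ℝ} (hv : ‖v‖ ≤ 3) {F F1 F2 ζ : Fn}
    (h : SolN l N v 0 F F1 F2 ζ) (hb : Boot l K (1 / b.B0) N 0 F ζ) : Nonempty GD := by
  have hN1 : 1 ≤ N := NAB.one_le l hN
  have htm : l.tm < 0 := l.tm_lt.trans (by norm_num)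
  have hk := kap_mul hN1
  have hk0 := kap_pos hN1
  obtain ⟨μ, hμe⟩ : ∃ μ : ℝ, μ = (N : ℝ) ^ 4 := ⟨_, rfl⟩
  have hdN := dN_scale b l.tm hN1
  rw [← hμe] at hk hdN
  have hμ : 0 < μ := by
    rw [hμe]
    have : (0 : ℝ) < N := by exact_mod_cast hN1
    positivity
  have hk2 : kap N ^ 2 * μ ^ 2 = 1 := by rw [← mul_pow, hk, one_pow]
  have e1 : ∀ x, kap N * (μ * x) = x := fun x => by rw [← mul_assoc, hk, one_mul]
  have e2 : ∀ t, kap N ^ 2 * (μ ^ 2 * t) = t := fun t => by rw [← mul_assoc, hk2, one_mul]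
  have ha : kap N ^ 2 * l.tm < 0 := mul_neg_of_pos_of_neg (by positivity) htm
  have ha2 : kap N ^ 2 * (2 * l.tm) < 0 := mul_neg_of_pos_of_neg (by positivity) (by linarith)
  have hneg : ∀ t < 0, μ ^ 2 * t < 0 := fun t ht => mul_neg_of_pos_of_neg (by positivity) ht
  have hge : ∀ t, kap N ^ 2 * l.tm < t → l.tm ≤ μ ^ 2 * t := fun t ht => by
    have h1 := mul_lt_mul_of_pos_left ht (show 0 < μ ^ 2 by positivity)
    rw [← mul_assoc, mul_comm (μ ^ 2), hk2, one_mul] at h1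
    exact h1.le
  have hS := h.1.scale (J := Ioo (kap N ^ 2 * l.tm) 0) hμ (c := kap N ^ 2) (by positivity)
    fun t ht => hneg t ht.2
  have hε : kap N / (μ * kap N ^ 2) = 1 := by
    rw [div_eq_one_iff_eq (by positivity)]
    linear_combination (-kap N) * hk
  have hg : (fun t x => gN b N (μ ^ 2 * t) (μ * x)) = b.g1 := by
    funext t x
    unfold gN
    rw [e1, e2]
  have hd : (fun t x => kap N ^ 2 * μ ^ 2 * dN b l.tm N (μ ^ 2 * t) (μ * x)) =
      fun t x => -∫ r in (kap N ^ 2 * (2 * l.tm))..t, eta l.tm (μ ^ 2 * r) * b.D1 r x := by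
    funext t x
    rw [hk2, one_mul, hdN]
  rw [hk, hε, hg, hd] at hS
  have hw : ContDiffOn ℝ ∞ (fun p : ℝ × ℝ => eta l.tm (μ ^ 2 * p.1) * b.D1 p.1 p.2)
      (Iio 0 ×ˢ Icc 0 1) :=
    (((contDiff_eta l.tm).comp (contDiff_const.mul contDiff_fst)).contDiffOn).mul b.D1_sm
  refine of_sys b ha hS ?_ ?_ ?_ ?_
  · intro t ht x hx
    have h1 := eN_zero l hN1 v 0 (μ ^ 2 * t) (hneg t ht.2) (Or.inr (hge t ht.1)) (μ * x)
      ⟨mul_nonneg hμ.le hx.1, by rw [e1]; simpa using hx.2⟩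
    have h2 : eN l N v (μ ^ 2 * t) (μ * x) = 0 := h1
    simp only [h2, mul_zero]
  · exact ((contDiffOn_int_t isOpen_Iio ordConnected_Iio one_pos
      (u := fun r x => eta l.tm (μ ^ 2 * r) * b.D1 r x) hw ha2).neg).mono
      (prod_mono Ioo_subset_Iio_self Subset.rfl)
  · intro t ht x hx
    have hc : ContinuousOn (fun r => eta l.tm (μ ^ 2 * r) * b.D1 r x) (Iio 0) :=
      TS2A.sec_cont' (w := fun r x => eta l.tm (μ ^ 2 * r) * b.D1 r x) hw.continuousOn hx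
    have hi : IntervalIntegrable (fun r => eta l.tm (μ ^ 2 * r) * b.D1 r x) MeasureTheory.volume
        (kap N ^ 2 * (2 * l.tm)) t :=
      (hc.mono (ordConnected_Iio.uIcc_subset ha2 ht.2)).intervalIntegrable
    have h1 := intervalIntegral.integral_hasDerivAt_right hi
      (hc.stronglyMeasurableAtFilter isOpen_Iio t ht.2)
      (hc.continuousAt (isOpen_Iio.mem_nhds ht.2))
    refine h1.neg.congr_deriv ?_
    rw [eta_one htm (hge t ht.1), one_mul]
  · obtain ⟨C, hC, hpt⟩ := na_pt h0 l K 1 1 le_rfl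
    have hσ := l.σ_pos
    have hlam : Tendsto lam (𝓝[<] 0) (𝓝 0) := by
      have hc : Continuous lam := by
        unfold lam
        fun_prop
      have := hc.tendsto 0
      rw [show lam 0 = 0 by simp [lam]] at this
      exact this.mono_left nhdsWithin_le_nhds
    have hlim : Tendsto (fun t => C * (μ * lam t) ^ l.σ / μ) (𝓝[<] 0) (𝓝 0) := by
      have h1 : Tendsto (fun t => μ * lam t) (𝓝[<] 0) (𝓝 0) := by
        simpa using hlam.const_mul μ
      have h2 := ((h1.rpow_const (Or.inr hσ.le)).const_mul C).div_const μ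
      simpa [Real.zero_rpow hσ.ne'] using h2
    refine squeeze_zero_norm' ?_ hlim
    filter_upwards [self_mem_nhdsWithin, hlam.eventually (gt_mem_nhds (show (0 : ℝ) < 1 / 8 by
      norm_num))] with t ht ht8
    have ht0 : t < 0 := ht
    have hl0 := lam_pos ht0
    have hls := lam_scale hμ.le t
    have h1 := (hpt N hN v hv 0 le_rfl F F1 F2 ζ h hb (μ ^ 2 * t) (hneg t ht0)
      (by rw [hls, one_mul, mul_assoc, e1]; linarith) 0
      ⟨le_rfl, by rw [hls]; positivity⟩).1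
    have h2 : Dt (fun t x => kap N ^ 2 * F (μ ^ 2 * t) (μ * x)) t 0 = DT 1 F (μ ^ 2 * t) 0 := by
      have h3 := DT_scale F (kap N ^ 2) (μ ^ 2) μ 1 t 0
      rw [pow_one, hk2, one_mul, mul_zero] at h3
      exact h3
    rw [h2, Real.norm_eq_abs, abs_mul, abs_of_pos hl0, le_div_iff₀ hμ]
    rw [pow_one, ← lam_sq (hneg t ht0).le, hls, Real.rpow_add (by positivity), Real.rpow_one] at h1
    have h4 : 0 < μ * lam t := by positivity
    refine le_of_mul_le_mul_left ?_ h4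
    linear_combination h1

end Crest.Agent.R213.GDxA
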