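import Crest.Agent.R213.LA
import Crest.Agent.R213.Abs
import Crest.Agent.R213.LimLin

/-!
# Row 213: the space of ancient solutions is finite-dimensional
-/

set_option autoImplicit false

noncomputable section

namespace Crest.Agent.R213.LDA

open Set Filter Topology

theorem one_le_lam {t : ℝ} (ht : t < -1) : 1 ≤ lam t := Real.one_le_sqrt.2 (by linarith)

theorem sc_apply (σ μ : ℝ) (F : Fn) {t x : ℝ} (ht : t < -1) (hx : 0 ≤ x) :
    sc σ μ F t x = μ ^ (-(1 + σ)) * F (μ ^ 2 * t) (μ * x) := if_pos ⟨ht, hx⟩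

/-- A bound for the rescaled function is a bound in the past. -/
theorem nb_of_sc {σ R M μ : ℝ} {F : Fn} (hμ : 1 ≤ μ) (h : NB σ R (4 * M) (-1) ((4 : ℝ) • sc σ μ F)) :
    NB σ R M (-μ ^ 2) F := by
  intro t ht x hx
  have h0 : 0 < μ := by linarith
  have h2 : 0 < μ ^ 2 := by positivity
  have e1 : μ ^ 2 * (t / μ ^ 2) = t := mul_div_cancel₀ _ h2.ne'
  have e2 : μ * (x / μ) = x := mul_div_cancel₀ _ h0.ne'
  have h3 : t / μ ^ 2 < -1 := by rw [div_lt_iff₀ h2]; linarith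
  have e3 : lam t = μ * lam (t / μ ^ 2) := by rw [← lam_scale h0.le, e1]
  have h4 := h _ h3 (x / μ) ⟨div_nonneg hx.1 h0.le, by
    rw [div_le_iff₀ h0]; exact hx.2.trans_eq (by rw [e3]; ring)⟩
  have hp := Real.rpow_pos_of_pos h0 (1 + σ)
  rw [Pi.smul_apply, Pi.smul_apply, sc_apply _ _ _ h3 (div_nonneg hx.1 h0.le), e1, e2, smul_eq_mul,
    abs_mul, abs_mul, Real.rpow_neg h0.le, abs_of_pos (inv_pos.2 hp), abs_of_pos four_pos, mul_assoc,
    mul_le_mul_iff_right₀ four_pos, inv_mul_le_iff₀ hp] at h4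
  rw [e3, Real.mul_rpow h0.le (zero_le_one.trans (one_le_lam h3))]
  exact h4.trans_eq (by ring)

/-- The rescaling does not increase the norm with the smaller exponent. -/
theorem nb_sc {R M : ℝ} {F : Fn} (h : NB (1 / 8) R M (-1) F) :
    NB (1 / 8) R M (-1) ((4 : ℝ) • sc (1 / 4) (4 ^ 8) F) := by
  intro t ht x hx
  have h0 : (0 : ℝ) < 4 ^ 8 := by positivity
  have h4 := h ((4 ^ 8) ^ 2 * t) (by linarith) (4 ^ 8 * x) ⟨mul_nonneg h0.le hx.1, by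
    rw [lam_scale h0.le]; linarith [hx.2]⟩
  have hp := Real.rpow_pos_of_pos h0 (-(1 + 1 / 4))
  rw [lam_scale h0.le, Real.mul_rpow h0.le (zero_le_one.trans (one_le_lam ht))] at h4
  rw [Pi.smul_apply, Pi.smul_apply, sc_apply _ _ _ ht hx.1, smul_eq_mul, abs_mul, abs_mul,
    abs_of_pos hp, abs_of_pos four_pos]
  refine (mul_le_mul_of_nonneg_left (mul_le_mul_of_nonneg_left h4 hp.le) four_pos.le).trans_eq ?_
  have e : ((4 : ℝ) ^ 8) ^ (-(1 + 1 / 4) : ℝ) * ((4 : ℝ) ^ 8) ^ (1 + 1 / 8 : ℝ) = 1 / 4 := by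
    rw [← Real.rpow_add h0, ← Real.rpow_natCast, ← Real.rpow_mul four_pos.le,
      show ((8 : ℕ) : ℝ) * (-(1 + 1 / 4) + (1 + 1 / 8)) = -1 by norm_num, Real.rpow_neg_one]
    norm_num
  linear_combination 4 * M * lam t ^ (1 + 1 / 8 : ℝ) * e

/-- The points of the parabolic region. -/
abbrev Ix (R : ℝ) : Type := {p : ℝ × ℝ // p.1 < -1 ∧ p.2 ∈ Icc 0 (R * lam p.1)}

/-- Normalised evaluation. -/
def ev (b : BG) {R : ℝ} (i : Ix R) : Anc b (1 / 4) →ₗ[ℝ] ℝ where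
  toFun G := G.1 i.1.1 i.1.2 / lam i.1.1 ^ (1 + 1 / 4 : ℝ)
  map_add' _ _ := add_div _ _ _
  map_smul' _ _ := mul_div_assoc _ _ _

theorem ev_le {b : BG} {R M : ℝ} {i : Ix R} {G : Anc b (1 / 4)} :
    |ev b i G| ≤ M ↔ |G.1 i.1.1 i.1.2| ≤ M * lam i.1.1 ^ (1 + 1 / 4 : ℝ) := by
  have hp := Real.rpow_pos_of_pos (one_pos.trans_le (one_le_lam i.2.1)) (1 + 1 / 4)
  rw [show ev b i G = G.1 i.1.1 i.1.2 / lam i.1.1 ^ (1 + 1 / 4 : ℝ) from rfl, abs_div, abs_of_pos hp,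
    div_le_iff₀ hp]

theorem ev_iff {b : BG} {R M : ℝ} {G : Anc b (1 / 4)} :
    (∀ i : Ix R, |ev b i G| ≤ M) ↔ NB (1 / 4) R M (-1) G.1 :=
  ⟨fun h t ht x hx => ev_le.1 (h ⟨(t, x), ht, hx⟩), fun h i => ev_le.2 (h _ i.2.1 _ i.2.2)⟩

/-- The expanding map. -/
def UU (b : BG) : Anc b (1 / 4) →ₗ[ℝ] Anc b (1 / 4) where
  toFun G := ⟨(4 : ℝ) • sc (1 / 4) (4 ^ 8) G.1, (IsAnc.sc G.2 _ (by norm_num)).smul _⟩
  map_add' G G' := by
    refine Subtype.ext (funext fun t => funext fun x => ?_)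
    change 4 * sc _ _ (G.1 + G'.1) t x = 4 * sc _ _ G.1 t x + 4 * sc _ _ G'.1 t x
    unfold sc
    split_ifs
    · rw [Pi.add_apply, Pi.add_apply]
      ring
    · ring
  map_smul' c G := by
    refine Subtype.ext (funext fun t => funext fun x => ?_)
    change 4 * sc _ _ (c • G.1) t x = c * (4 * sc _ _ G.1 t x)
    unfold sc
    split_ifs
    · rw [Pi.smul_apply, Pi.smul_apply, smul_eq_mul]
      ring
    · ring

/-- Compactness on a window. -/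
theorem cpt (b : BG) {R0 C0 : ℝ} (h0 : H0P b.B0 R0 C0) {Λ M : ℝ} (hΛ : 1 ≤ Λ) (hM : 0 ≤ M)
    (G : ℕ → Fn) (hG : ∀ k, IsAnc b (1 / 4) (G k)) (hN : ∀ k, NB (1 / 4) R0 M (-Λ) (G k))
    (ta R : ℝ) : ∃ k k', k ≠ k' ∧ ∀ t ∈ Ico ta (-1), ∀ x ∈ Icc 0 R, |G k t x - G k' t x| ≤ 1 / 4 := by
  choose G1 G2 hL using fun k => (hG k).2.1
  obtain ⟨φ, hφ, H, -, hH⟩ := limLin b (1 / 4) G G1 G2 (fun k t x => -(b.gs t x ^ 2 * G2 k t x))
    (fun R _ => .of_forall fun k => by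
      have hd : Icc 0 R ⊆ dom 0 := Icc_subset_dom le_rfl (by simp)
      refine ⟨(hL k).tF.mono subset_rfl hd, (hL k).tF1.mono subset_rfl hd,
        (hL k).tF2.mono subset_rfl hd, fun t ht =>
          ⟨Sys.sp isOpen_Iio (hL k) (by simp) 0 ht, fun x hx => ?_⟩⟩
      have h1 := (hL k).vol t ht x (hd hx)
      simp only [Pi.zero_apply, sub_zero, zero_mul, ph, mul_one] at h1
      rw [← h1]
      ring)
    (fun j ta R => by
      obtain ⟨C, hC, h⟩ := la2 b h0 j R Λ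
      refine ⟨C * M * lam ta ^ (1 + 1 / 4 : ℝ), .of_forall fun k t ht x hx => ?_⟩
      have h1 := one_le_lam ht.2
      obtain ⟨h2, h3, h4⟩ := h (1 / 4) M (-Λ) _ _ _ (by norm_num) le_rfl hM le_rfl (by linarith)
        (hG k) (hL k) (hN k) t ht.2 x ⟨hx.1, hx.2.trans (le_mul_of_one_le_right (hx.1.trans hx.2) h1)⟩
      have h5 : C * M * lam t ^ (1 + 1 / 4 : ℝ) ≤ C * M * lam ta ^ (1 + 1 / 4 : ℝ) :=
        mul_le_mul_of_nonneg_left (Real.rpow_le_rpow (by linarith) (lam_anti ht.1) (by norm_num))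
          (mul_nonneg hC.le hM)
      have h6 : ∀ n : ℕ, 1 ≤ (-t) ^ n := fun n => one_le_pow₀ (by linarith [ht.2])
      exact ⟨((le_mul_of_one_le_left (abs_nonneg _) (h6 j)).trans h2).trans h5,
        ((le_mul_of_one_le_left (abs_nonneg _) (one_le_mul_of_one_le_of_one_le (h6 j) h1)).trans
          h3).trans h5, ((le_mul_of_one_le_left (abs_nonneg _) (h6 _)).trans h4).trans h5⟩)
    (fun t _ x _ => by simp)
    (fun j => by
      obtain ⟨C, -, h⟩ := la1 b h0 j Λ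
      exact ⟨C * M ^ 2, fun t ht R hR => .of_forall fun k => h (1 / 4) M (-Λ) _ (by norm_num) le_rfl
        hM le_rfl (by linarith) (hG k) (hN k) t ht R hR⟩)
  obtain ⟨N, hN⟩ := eventually_atTop.1 (hH ta R (1 / 8) (by norm_num))
  refine ⟨φ N, φ (N + 1), (hφ (Nat.lt_succ_self N)).ne, fun t ht x hx => ?_⟩
  have h1 := abs_sub_le (G (φ N) t x) (H t x) (G (φ (N + 1)) t x)
  rw [abs_sub_comm (H t x)] at h1
  linarith [hN N le_rfl t ht x hx, hN (N + 1) (Nat.le_succ N) t ht x hx]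

theorem anc_le (b : BG) {σ σ' : ℝ} (h : σ ≤ σ') : Anc b σ ≤ Anc b σ' :=
  fun _ hF => IsAnc.mono hF h

theorem UU_val (b : BG) (G : Anc b (1 / 4)) :
    (UU b G).1 = (4 : ℝ) • sc (1 / 4) (4 ^ 8) G.1 := rfl

theorem nb_of_UU {b : BG} {R M : ℝ} {G : Anc b (1 / 4)} (h : ∀ i : Ix R, |ev b i (UU b G)| ≤ 4 * M) :
    NB (1 / 4) R M (-((4 : ℝ) ^ 8) ^ 2) G.1 := by
  rw [ev_iff, UU_val] at h
  exact nb_of_sc (by norm_num) h

theorem hcpt (b : BG) {R0 C0 : ℝ} (h0 : H0P b.B0 R0 C0) (G : ℕ → Anc b (1 / 4))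
    (h : ∀ k (i : Ix R0), |ev b i (UU b (G k))| ≤ 1) :
    ∃ k k', k ≠ k' ∧ ∀ i : {i : Ix R0 // -((4 : ℝ) ^ 8) ^ 2 ≤ i.1.1},
      |ev b i.1 (G k - G k')| ≤ 1 / 4 := by
  obtain ⟨k, k', hk, h1⟩ := cpt b h0 (Λ := (4 ^ 8) ^ 2) (M := 1 / 4) (by norm_num) (by norm_num)
    (fun k => (G k).1) (fun k => (G k).2)
    (fun k => nb_of_UU fun i => (h k i).trans_eq (by norm_num))
    (-((4 : ℝ) ^ 8) ^ 2) (R0 * lam (-((4 : ℝ) ^ 8) ^ 2))
  refine ⟨k, k', hk, fun i => ev_le.2 ?_⟩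
  rw [Submodule.coe_sub, Pi.sub_apply, Pi.sub_apply]
  refine (h1 _ ⟨i.2, i.1.2.1⟩ _ ⟨i.1.2.2.1, i.1.2.2.2.trans
    (mul_le_mul_of_nonneg_left (lam_anti i.2) h0.1.le)⟩).trans ?_
  exact le_mul_of_one_le_right (by norm_num) (Real.one_le_rpow (one_le_lam i.1.2.1) (by norm_num))

theorem hY (b : BG) (R : ℝ) (G : Anc b (1 / 4)) (hG : IsAnc b (1 / 8) G.1) :
    ∃ M, ∀ (k : ℕ) (i : Ix R), |ev b i ((UU b ^ k) G)| ≤ M := by
  obtain ⟨M, hM, h⟩ := la0 hG R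
  have h1 : ∀ k : ℕ, NB (1 / 8) R M (-1) ((UU b ^ k) G).1 := fun k => by
    induction k with
    | zero => rwa [pow_zero, Module.End.one_apply]
    | succ k ih =>
      rw [pow_succ', Module.End.mul_apply, UU_val]
      exact nb_sc ih
  refine ⟨M, fun k => ev_iff.2 fun t ht x hx => (h1 k t ht x hx).trans ?_⟩
  exact mul_le_mul_of_nonneg_left
    (Real.rpow_le_rpow_of_exponent_le (one_le_lam ht) (by norm_num)) hM

theorem anc_finite (b : BG) {R0 C0 : ℝ} (h0 : H0P b.B0 R0 C0) :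
    FiniteDimensional ℝ (Anc b (1 / 8)) := by
  have := finiteDimensional_of_cover (fun i : Ix R0 => ev b i)
    (fun i : {i : Ix R0 // -((4 : ℝ) ^ 8) ^ 2 ≤ i.1.1} => ev b i.1) (UU b)
    ((Anc b (1 / 8)).comap (Anc b (1 / 4)).subtype)
    (fun G h => Subtype.ext (la_eq_zero b h0 (by norm_num) le_rfl le_rfl G.2
      (ev_iff.1 fun i => by rw [h i, abs_zero])))
    (fun G M h1 h2 i => by
      rcases le_or_gt (-((4 : ℝ) ^ 8) ^ 2) i.1.1 with h | h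
      · exact h2 ⟨i, h⟩
      · exact ev_le.2 (nb_of_UU h1 _ h _ i.2.2))
    (hcpt b h0) (hY b R0)
  exact Module.Finite.equiv (Submodule.comapSubtypeEquivOfLe
    (anc_le b (show (1 / 8 : ℝ) ≤ 1 / 4 by norm_num)))

theorem exists_window (b : BG) {R0 C0 : ℝ} (h0 : H0P b.B0 R0 C0) :
    ∃ σa σ, 0 < σa ∧ σa < σ ∧ σ ≤ 1 / 8 ∧ Anc b σa = Anc b σ := by
  have := anc_finite b h0
  by_contra hc
  set s : ℕ → ℝ := fun i => 1 / 8 - 1 / (8 * ((i : ℝ) + 2)) with hs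
  have h1 : ∀ i, s i ≤ 1 / 8 := fun i => sub_le_self _ (by positivity)
  have h2 : ∀ i, 0 < s i := fun i => sub_pos.2 (one_div_lt_one_div_of_lt (by norm_num)
    (by linarith [(Nat.cast_nonneg i : (0 : ℝ) ≤ i)]))
  have h3 : ∀ i, s i < s (i + 1) := fun i => sub_lt_sub_left (one_div_lt_one_div_of_lt
    (by positivity) (by push_cast; linarith)) _
  have h4 : StrictMono fun i => Module.finrank ℝ (Anc b (s i)) :=
    strictMono_nat_of_lt_succ fun i => by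
      have := Submodule.finiteDimensional_of_le (anc_le b (h1 (i + 1)))
      exact Submodule.finrank_lt_finrank_of_lt (lt_of_le_of_ne (anc_le b (h3 i).le)
        fun e => hc ⟨_, _, h2 i, h3 i, h1 _, e⟩)
  have h5 := (h4.le_apply (x := Module.finrank ℝ (Anc b (1 / 8)) + 1)).trans
    (Submodule.finrank_mono (anc_le b (h1 _)))
  omega

end Crest.Agent.R213.LDA
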