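import Crest.Agent.R213.LA
import Crest.Agent.R213.Abs

/-!
# Row 213: coordinates and dynamics on the space of ancient solutions
-/

set_option autoImplicit false

noncomputable section

namespace Crest.Agent.R213

open Set Filter Topology

namespace LDxB

/-- Evaluation at a point. -/
def ev (t x : ℝ) : Fn →ₗ[ℝ] ℝ where
  toFun G := G t x
  map_add' _ _ := rfl
  map_smul' _ _ := rfl

theorem unif {b : BG} {d : ℕ} (H : (Fin d → ℝ) →ₗ[ℝ] Fn) {s : ℝ} (R : ℝ)
    (h : ∀ v, IsAnc b s (H v)) : ∃ C, 0 ≤ C ∧ ∀ v, NB s R (C * ‖v‖) (-1) (H v) := by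
  choose M hM0 hM using fun l : Fin d => la0 (h (Pi.single l 1)) R
  refine ⟨∑ l, M l, Finset.sum_nonneg fun l _ => hM0 l, fun v t ht x hx => ?_⟩
  have e : H v t x = ∑ l, v l * H (Pi.single l 1) t x := by
    have h1 : v = ∑ l, v l • (Pi.single l 1 : Fin d → ℝ) := by
      ext j; simp [Finset.sum_apply, Pi.single_apply]
    conv_lhs => rw [h1]
    simp [map_sum, Finset.sum_apply]
  rw [e, Finset.sum_mul, Finset.sum_mul]
  refine (Finset.abs_sum_le_sum_abs _ _).trans (Finset.sum_le_sum fun l _ => ?_)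
  rw [abs_mul, mul_comm (M l), mul_assoc]
  exact mul_le_mul (norm_le_pi_norm v l) (hM l t ht x hx) (abs_nonneg _) (norm_nonneg _)

theorem sc_le {σ s R M ν t x tm : ℝ} {G : Fn} (h : NB s R M (-1) G) (hM : 0 ≤ M)
    (hs' : s ≤ 1) (hν : 1 ≤ ν) (ht : t ∈ Ico tm (-1)) (hx : x ∈ Icc 0 (R * lam t)) :
    |sc σ ν G t x| ≤ M * -tm * ν ^ (s - σ) := by
  have hν0 : 0 < ν := by linarith
  have h1 : ν ^ 2 * t < -1 := by nlinarith [ht.2, one_le_pow₀ (n := 2) hν]
  have h2 := h (ν ^ 2 * t) h1 (ν * x) ⟨mul_nonneg hν0.le hx.1, by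
    rw [lam_scale hν0.le, mul_left_comm]
    exact mul_le_mul_of_nonneg_left hx.2 hν0.le⟩
  have hl : 0 < lam t := lam_pos (by linarith [ht.2])
  have h3 : lam t ^ (1 + s) ≤ -tm := by
    have h4 : 1 ≤ lam t := Real.one_le_sqrt.2 (by linarith [ht.2])
    refine (Real.rpow_le_rpow_of_exponent_le h4 (show 1 + s ≤ (2 : ℕ) by push_cast; linarith)).trans
      ?_
    rw [Real.rpow_natCast, lam_sq (by linarith [ht.2])]
    linarith [ht.1]
  rw [lam_scale hν0.le, Real.mul_rpow hν0.le hl.le] at h2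
  rw [sc, if_pos ⟨ht.2, hx.1⟩, abs_mul, abs_of_pos (Real.rpow_pos_of_pos hν0 _)]
  have e : ν ^ (s - σ) = ν ^ (-(1 + σ)) * ν ^ (1 + s) := by
    rw [← Real.rpow_add hν0]; congr 1; ring
  calc ν ^ (-(1 + σ)) * |G (ν ^ 2 * t) (ν * x)|
      ≤ ν ^ (-(1 + σ)) * (M * (ν ^ (1 + s) * -tm)) := by
        refine mul_le_mul_of_nonneg_left (h2.trans ?_) (by positivity)
        gcongr
    _ = _ := by rw [e]; ring

theorem exists_LD (b : BG) {R0 C0 : ℝ} (h0 : H0P b.B0 R0 C0)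
    (hfin : FiniteDimensional ℝ (Anc b (1 / 8)))
    (hwin : ∃ σa σ, 0 < σa ∧ σa < σ ∧ σ ≤ 1 / 8 ∧ Anc b σa = Anc b σ) : Nonempty (LD b R0) := by
  obtain ⟨σa, σ, hσa, hlt, hσ8, heq⟩ := hwin
  have hσ0 : 0 < σ := hσa.trans hlt
  have hσ4 : σ ≤ 1 / 4 := by linarith
  have : FiniteDimensional ℝ (Anc b σ) :=
    Submodule.finiteDimensional_of_le (S₂ := Anc b (1 / 8)) fun G hG => IsAnc.mono hG hσ8
  obtain ⟨d, p, e, he⟩ := exists_coords (X := Anc b σ)
    (ι := {q : ℝ × ℝ // q.1 < -1 ∧ q.2 ∈ Icc 0 (R0 * lam q.1)})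
    (fun q => (ev q.1.1 q.1.2).comp (Anc b σ).subtype) fun G hG =>
      Subtype.ext (la_eq_zero b h0 hσ0.le hσ4 le_rfl G.2 fun t ht x hx => by
        have : G.1 t x = 0 := hG ⟨(t, x), ht, hx⟩
        simp [this])
  set pt : Fin d → ℝ := fun l => (p l).1.1 with hpt
  set px : Fin d → ℝ := fun l => (p l).1.2 with hpx
  set H : (Fin d → ℝ) →ₗ[ℝ] Fn := (Anc b σ).subtype.comp e.symm.toLinearMap with hH
  set tm : ℝ := -2 - ∑ l, |pt l| with htm
  have hsum : 0 ≤ ∑ l, |pt l| := Finset.sum_nonneg fun _ _ => abs_nonneg _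
  have htm1 : tm < -1 := by linarith
  have hptm : ∀ l, pt l ∈ Ico tm (-1) := fun l => ⟨by
    linarith [Finset.single_le_sum (f := fun l => |pt l|) (fun _ _ => abs_nonneg _)
      (Finset.mem_univ l), neg_abs_le (pt l)], (p l).2.1⟩
  have hpxm : ∀ l, px l ∈ Icc 0 (R0 * lam (pt l)) := fun l => (p l).2.2
  have hmem : ∀ v, IsAnc b σ (H v) := fun v => (e.symm v).2
  have hmema : ∀ v, IsAnc b σa (H v) := fun v => by
    have : H v ∈ Anc b σa := heq ▸ (e.symm v).2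
    exact this
  have hco : ∀ v l, H v (pt l) (px l) = v l := fun v l => by
    have := he (e.symm v) l
    rw [e.apply_symm_apply] at this
    exact this.symm
  have hsurj : ∀ G, IsAnc b σ G → G = H fun l => G (pt l) (px l) := fun G hG => by
    have h1 : (fun l => G (pt l) (px l)) = e ⟨G, hG⟩ := funext fun l => (he ⟨G, hG⟩ l).symm
    rw [h1, hH]
    simp
  obtain ⟨C, hC, hnb⟩ := unif H R0 hmem
  obtain ⟨Ca, hCa, hnba⟩ := unif H R0 hmema
  let S : ℝ → (Fin d → ℝ) →ₗ[ℝ] (Fin d → ℝ) := fun ν =>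
    LinearMap.pi fun l => ν ^ (-(1 + σ)) • (ev (ν ^ 2 * pt l) (ν * px l)).comp H
  have hS : ∀ ν v, S ν v = fun l => sc σ ν (H v) (pt l) (px l) := fun ν v => funext fun l => by
    rw [sc, if_pos ⟨(hptm l).2, (hpxm l).1⟩]
    rfl
  have hup : ∀ ν, 1 ≤ ν → ∀ v, ‖S ν v‖ ≤ C * -tm * ‖v‖ := fun ν hν v => by
    have : 0 ≤ -tm := by linarith
    refine (pi_norm_le_iff_of_nonneg (by positivity)).2 fun l => ?_
    rw [hS]
    refine (sc_le (hnb v) (by positivity) (by linarith) hν (hptm l) (hpxm l)).trans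
      (le_of_eq ?_)
    rw [sub_self, Real.rpow_zero]; ring
  have hev : ∀ᶠ μ : ℝ in atTop, Ca * -tm * μ ^ (-(σ - σa)) ≤ 1 / 4 := by
    have := (tendsto_rpow_neg_atTop (sub_pos.2 hlt)).const_mul (Ca * -tm)
    rw [mul_zero] at this
    exact this.eventually (ge_mem_nhds (by norm_num))
  obtain ⟨μ, hμ1, hμ2⟩ := (hev.and (eventually_ge_atTop (-(2 * tm)))).exists
  have hμ : 1 < μ := by linarith
  have hμ0 : 0 < μ := by linarith
  have hinj : Function.Injective (S μ) := (injective_iff_map_eq_zero _).2 fun v hv => by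
    have h1 := hsurj _ ((hmem v).sc σ hμ.le)
    rw [← hS, hv, map_zero] at h1
    have hsq : 1 ≤ μ ^ 2 := one_le_pow₀ hμ.le
    have h2 : H v = 0 := la_eq_zero b h0 hσ0.le hσ4 (t1 := -μ ^ 2) (by linarith) (hmem v)
      fun t ht x hx => by
        have h3 := congrFun (congrFun h1 (t / μ ^ 2)) (x / μ)
        rw [sc, if_pos ⟨by rw [div_lt_iff₀ (by positivity)]; linarith,
          div_nonneg hx.1 hμ0.le⟩, mul_div_cancel₀ _ (by positivity),
          mul_div_cancel₀ _ hμ0.ne'] at h3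
        have h4 : H v t x = 0 :=
          (mul_eq_zero.1 h3).resolve_left (Real.rpow_pos_of_pos hμ0 _).ne'
        simp [h4]
    funext l
    rw [← hco v l, h2]
    rfl
  let A : (Fin d → ℝ) ≃L[ℝ] (Fin d → ℝ) :=
    (LinearEquiv.ofInjectiveEndo (S μ) hinj).toContinuousLinearEquiv.symm
  have hA : ∀ v, A.symm v = S μ v := fun _ => rfl
  have htm0 : 0 ≤ -tm := by linarith
  set a : ℝ := ‖(A : (Fin d → ℝ) →L[ℝ] (Fin d → ℝ))‖ with ha
  have ha0 : 0 ≤ a := norm_nonneg _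
  have hCt : 0 ≤ C * -tm := by positivity
  have haC : 0 ≤ a * (C * -tm) := by positivity
  refine ⟨⟨σ, d, pt, px, H, tm, μ, A, 1 + C + C * -tm + a * (C * -tm), hσ0, hσ4, htm1, hptm, hpxm,
    hmem, hco, fun G hG => ⟨_, hsurj G hG⟩, hμ, by nlinarith, fun v => ?_, fun v l => ?_,
    by linarith, fun v t ht x hx => (hnb v t ht x hx).trans ?_, fun ν hν v => ?_,
    fun ν hν v => ?_⟩⟩
  · refine (pi_norm_le_iff_of_nonneg (by positivity)).2 fun l => ?_
    rw [hA, hS]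
    refine (sc_le (hnba v) (by positivity) (by linarith) hμ.le (hptm l) (hpxm l)).trans ?_
    rw [neg_sub σ σa] at hμ1
    calc Ca * ‖v‖ * -tm * μ ^ (σa - σ) = Ca * -tm * μ ^ (σa - σ) * ‖v‖ := by ring
      _ ≤ 1 / 4 * ‖v‖ := mul_le_mul_of_nonneg_right hμ1 (norm_nonneg _)
      _ = _ := by ring
  · rw [hA, hS]
  · have := Real.rpow_nonneg (lam_pos (t := t) (by linarith)).le (1 + σ)
    gcongr
    linarith
  · have hν0 : 0 < ν := by linarith [hν.1]
    have h1 : 1 ≤ μ / ν := (one_le_div hν0).2 hν.2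
    have h2 : S μ v = S (μ / ν) (S ν v) := by
      rw [hS (μ / ν), hS ν, ← hsurj _ ((hmem v).sc σ hν.1), sc_sc σ h1 hν.1,
        div_mul_cancel₀ _ hν0.ne', hS]
    rw [← hS]
    calc ‖v‖ = ‖(A : (Fin d → ℝ) →L[ℝ] (Fin d → ℝ)) (S μ v)‖ := by
          rw [← hA]; simp
      _ ≤ a * ‖S μ v‖ := ContinuousLinearMap.le_opNorm _ _
      _ ≤ a * (C * -tm * ‖S ν v‖) := by
          rw [h2]; exact mul_le_mul_of_nonneg_left (hup _ h1 _) ha0
      _ ≤ _ := by
          rw [← mul_assoc]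
          exact mul_le_mul_of_nonneg_right (by linarith) (norm_nonneg _)
  · rw [← hS]
    exact (hup ν hν v).trans (mul_le_mul_of_nonneg_right (by linarith) (norm_nonneg _))

end LDxB

end Crest.Agent.R213
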