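import Crest.Agent.R213.LA
import Crest.Agent.R213.Abs
import Crest.Agent.R213.LimLin
import Crest.Agent.R213.LDxB
import Crest.Agent.R213.LDxA

/-!
# Row 213: the space of ancient solutions
-/

set_option autoImplicit false

noncomputable section

namespace Crest.Agent.R213

open Set Filter Topology
open scoped ContDiff

theorem anc_finite (b : BG) {R0 C0 : ℝ} (h0 : H0P b.B0 R0 C0) :
    FiniteDimensional ℝ (Anc b (1 / 8)) :=
  LDA.anc_finite b h0

theorem exists_window (b : BG) {R0 C0 : ℝ} (h0 : H0P b.B0 R0 C0) :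
    ∃ σa σ, 0 < σa ∧ σa < σ ∧ σ ≤ 1 / 8 ∧ Anc b σa = Anc b σ :=
  LDA.exists_window b h0

theorem exists_LD (b : BG) {R0 C0 : ℝ} (h0 : H0P b.B0 R0 C0) : Nonempty (LD b R0) :=
  LDxB.exists_LD b h0 (anc_finite b h0) (exists_window b h0)

end Crest.Agent.R213
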