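import Crest.Agent.R213.F2
import Crest.Agent.R213.LDx
import Crest.Agent.R213.Reg
import Crest.Agent.R213.GDxA

/-!
# Row 213: the blowing-up solution in the momentum coordinate
-/

set_option autoImplicit false

noncomputable section

namespace Crest.Agent.R213

open Set Filter Topology
open scoped ContDiff

theorem gd_of_sol {b : BG} {R0 C0 K : ℝ} (h0 : H0P b.B0 R0 C0) (l : LD b R0) {N : ℕ}
    (hN : 2 - 2 * l.tm ≤ N) {v : Fin l.d → ℝ} (hv : ‖v‖ ≤ 3) {F F1 F2 ζ : Fn}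
    (h : SolN l N v 0 F F1 F2 ζ) (hb : Boot l K (1 / b.B0) N 0 F ζ) : Nonempty GD :=
  GDxA.main h0 l hN hv h hb

theorem exists_gd (b : BG) : Nonempty GD := by
  obtain ⟨R0, C0, h0⟩ := h0 b.B0 b.one_le
  obtain ⟨l⟩ := exists_LD b h0
  obtain ⟨K, hK⟩ := exists_global h0 l
  have hN : ∀ᶠ N : ℕ in atTop, 2 - 2 * l.tm ≤ N := tendsto_natCast_atTop_atTop.eventually_ge_atTop _
  obtain ⟨N, ⟨v, F, F1, F2, ζ, hv, h, hb⟩, hN⟩ := (hK.and hN).exists
  exact gd_of_sol h0 l hN hv h hb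

end Crest.Agent.R213
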