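import Crest.Agent.R213.D2

/-!
# Row 213: integrated energy estimates at level zero
-/

set_option autoImplicit false

noncomputable section

namespace Crest.Agent.R213

open Set Filter Topology
open scoped ContDiff

theorem h0A_wt0 (m : ℕ) (t x : ℝ) : wt false m 0 t x = 1 / (x + lam t) ^ m := by
  simp [wt, om]

theorem h0A_wt1 (m : ℕ) {t : ℝ} (ht : t ≤ 0) (x : ℝ) :
    wt false m (0 + 1) t x = lam t ^ 4 * wt false m 0 t x := by
  have h : lam t ^ 4 = (-t) ^ 2 := by rw [← lam_sq ht]; ring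
  rw [h]
  simp [wt, om, div_eq_mul_inv]

/-- The forcing term. -/
theorem h0A_force {L θ t : ℝ} {u v : ℝ → ℝ} (ht : t < 0) (hL : 0 ≤ L)
    (hu : ContinuousOn u (Icc 0 L)) (hv : ContinuousOn v (Icc 0 L)) :
    lam t ^ 2 * (2 * ∫ x in (0 : ℝ)..L, x ^ 9 * (1 - θ * x) ^ 4 * wt false 13 0 t x * (u x * v x)) ≤
      1 / 16 * Iw L θ false 13 0 t u + 16 * Iw L θ false 13 (0 + 1) t v := by
  have hw : ContinuousOn (wt false 13 0 t) (Icc 0 L) :=
    (continuousOn_wt false 13 0 ht).mono Icc_subset_Ici_self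
  have i1 := SBB.integrable θ false 13 0 ht hL hu
  have i2 := SBB.integrable θ false 13 (0 + 1) ht hL hv
  unfold Iw
  rw [← mul_assoc, ← intervalIntegral.integral_const_mul, ← intervalIntegral.integral_const_mul,
    ← intervalIntegral.integral_const_mul,
    ← intervalIntegral.integral_add (i1.const_mul _) (i2.const_mul _)]
  refine intervalIntegral.integral_mono_on hL ?_ ((i1.const_mul _).add (i2.const_mul _))
    fun x hx => ?_
  · refine ContinuousOn.intervalIntegrable_of_Icc hL ?_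
    fun_prop
  · rw [h0A_wt1 13 ht.le]
    have h1 : 0 ≤ x ^ 9 * (1 - θ * x) ^ 4 * wt false 13 0 t x :=
      mul_nonneg (mul_nonneg (pow_nonneg hx.1 _) (by positivity)) (wt_pos false 13 0 ht hx.1).le
    have h2 := mul_nonneg h1 (sq_nonneg (u x / 4 - 4 * lam t ^ 2 * v x))
    nlinarith [h2]

/-- The differential inequality. -/
theorem h0A_key (B : ℝ) (hB : 1 ≤ B) : ∃ C, 0 < C ∧
    ∀ (κ ε θ L t : ℝ) (I : Set ℝ) (γ d e F F1 F2 ζ : Fn), IsOpen I →
      Sys κ ε 0 I γ d e F F1 F2 ζ → Geo κ θ L → t ∈ I → t < 0 → lam t ≤ L → AB κ ε γ ζ 0 B t →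
      HasDerivAt (fun s => Et L θ false 0 s F) (deriv (fun s => Et L θ false 0 s F) t) t ∧
        -t * deriv (fun s => Et L θ false 0 s F) t ≤ -(7 / 16) * Et L θ false 0 t F +
          C * (Fd κ L θ false 0 t d + lam t ^ 2 * Iw L θ false 14 0 t (F t) +
            Er L θ false 0 t F) + 16 * Fe L θ false 0 t e := by
  obtain ⟨c, C, hc, hC, H⟩ := d2 0 13 B (by norm_num) hB
  refine ⟨C, hC, fun κ ε θ L t I γ d e F F1 F2 ζ hI hS hG htI ht hlam hAB => ?_⟩
  obtain ⟨E', hE, hle⟩ := H false κ ε θ L t I γ d e F F1 F2 ζ hI hS hG htI ht hlam hAB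
  have hd : HasDerivAt (fun s => Et L θ false 0 s F)
      (-(1 / (2 * lam t)) * Iw L θ false 13 0 t (DT 0 F t) + lam t * E') t :=
    (hasDerivAt_lam ht).mul hE
  rw [hd.deriv]
  refine ⟨hd, ?_⟩
  have hl := lam_pos ht
  have hsub := Icc_subset_dom hG.hκ hG.κL
  have hf := h0A_force (θ := θ) ht hG.hL.le ((hS.tF.cont_x 0 htI).mono hsub)
    ((hS.te.cont_x 0 htI).mono hsub)
  have hD : 0 ≤ Dq κ L θ false 13 0 t F2 := Iw_nonneg hG.hL.le _ _ _ _ _
  rw [Finset.range_zero, Finset.sum_empty, zero_add, Finset.sum_range_one] at hle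
  have hle' := mul_le_mul_of_nonneg_left hle (pow_pos hl 3).le
  have hf' := mul_le_mul_of_nonneg_left hf hl.le
  have hD' : 0 ≤ lam t ^ 3 * (c * Dq κ L θ false 13 0 t F2) := by positivity
  rw [← lam_sq ht.le]
  unfold Er Et Fe Fd
  change _ ≤ _ + C * (_ + lam t ^ 2 * Iw L θ false (13 + 1) 0 t (DT 0 F t) + _) + _
  generalize Iw L θ false 13 0 t (DT 0 F t) = A1 at *
  generalize Iw L θ false (13 + 1) 0 t (DT 0 F t) = A2 at *
  generalize Iw L 0 false 13 0 t (DT 0 F t) = A3 at *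
  generalize Iw L θ false 13 (0 + 1) t (DT 0 e t) = A4 at *
  generalize Dq κ L θ false 13 0 t F2 = A5 at *
  generalize Dq κ L θ false 13 0 t d = A6 at *
  generalize (∫ x in (0 : ℝ)..L,
    x ^ 9 * (1 - θ * x) ^ 4 * wt false 13 0 t x * (DT 0 F t x * DT 0 e t x)) = A7 at *
  generalize lam t = l at *
  have e1 : l ^ 2 * (-(1 / (2 * l)) * A1 + l * E') = -(1 / 2) * (l * A1) + l ^ 3 * E' := by
    field_simp
  have e2 : l ^ 3 * (-c * A5 + C * (A6 + l⁻¹ * A2 + θ * l⁻¹ * A3) + 2 * A7) =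
      -(l ^ 3 * (c * A5)) + C * (l ^ 3 * A6 + l ^ 2 * A2 + θ * l * (l * A3)) +
        l * (l ^ 2 * (2 * A7)) := by
    field_simp
  rw [e1]
  rw [e2] at hle'
  linarith

/-- The weight with one more power: far from the origin it is small, near the origin the local
supremum is used. -/
theorem h0A_loc {κ L θ t R K : ℝ} {u : ℝ → ℝ} (ht : t < 0) (hG : Geo κ θ L) (hR : 0 < R)
    (hK : 0 ≤ K) (hu : ContinuousOn u (Icc 0 L))
    (h : ∀ x ∈ Icc 0 L, x ≤ R * lam t → u x ^ 2 ≤ K * lam t ^ 2) :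
    lam t ^ 2 * Iw L θ false 14 0 t u ≤ 1 / R * (lam t * Iw L θ false 13 0 t u) + K := by
  have hL := hG.hL.le
  have hl := lam_pos ht
  have i1 := SBB.integrable θ false 14 0 ht hL hu
  have i2 := SBB.integrable θ false 13 0 ht hL hu
  have hc : ContinuousOn (fun x => lam t / (x + lam t) ^ 2) (Icc 0 L) := by
    refine continuousOn_const.div (by fun_prop) fun x hx => ?_
    have := hx.1
    positivity
  have i3 := hc.intervalIntegrable_of_Icc (μ := MeasureTheory.volume) hL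
  have hI : ∫ x in (0 : ℝ)..L, lam t / (x + lam t) ^ 2 ≤ 1 := by
    have hd : ∀ x ∈ uIcc (0 : ℝ) L,
        HasDerivAt (fun x => -(lam t / (x + lam t))) (lam t / (x + lam t) ^ 2) x := by
      intro x hx
      rw [uIcc_of_le hL] at hx
      have h0 : x + lam t ≠ 0 := by have := hx.1; positivity
      have h1 := ((hasDerivAt_const x (lam t)).div ((hasDerivAt_id x).add_const (lam t)) h0).neg
      refine HasDerivAt.congr_deriv h1 ?_
      simp only [id]
      field_simp
      ring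
    rw [intervalIntegral.integral_eq_sub_of_hasDerivAt hd i3, zero_add, div_self hl.ne']
    have : 0 ≤ lam t / (L + lam t) := by positivity
    linarith
  have key : lam t ^ 2 * Iw L θ false 14 0 t u ≤ 1 / R * (lam t * Iw L θ false 13 0 t u) +
      K * ∫ x in (0 : ℝ)..L, lam t / (x + lam t) ^ 2 := by
    unfold Iw
    rw [← mul_assoc, ← intervalIntegral.integral_const_mul, ← intervalIntegral.integral_const_mul,
      ← intervalIntegral.integral_const_mul,
      ← intervalIntegral.integral_add (i2.const_mul _) (i3.const_mul _)]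
    refine intervalIntegral.integral_mono_on hL (i1.const_mul _)
      ((i2.const_mul _).add (i3.const_mul _)) fun x hx => ?_
    rw [h0A_wt0, h0A_wt0]
    have hx0 := hx.1
    have hp : 0 < x + lam t := by positivity
    have hθ : (1 - θ * x) ^ 4 ≤ 1 := by
      have h1 : θ * x ≤ 1 := (mul_le_mul_of_nonneg_left hx.2 hG.hθ).trans hG.θL
      have h2 : 0 ≤ θ * x := mul_nonneg hG.hθ hx0
      exact pow_le_one₀ (by linarith) (by linarith)
    have hθ0 : 0 ≤ (1 - θ * x) ^ 4 := by positivity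
    generalize (1 - θ * x) ^ 4 = a at hθ hθ0
    have hux := h x hx
    have hu0 : 0 ≤ u x ^ 2 := sq_nonneg _
    generalize u x ^ 2 = b at hux hu0
    generalize lam t = l at *
    rcases le_total x (R * l) with h1 | h1
    · have h2 : l ^ 2 * (x ^ 9 * a * (1 / (x + l) ^ 14) * b) ≤ K * (l / (x + l) ^ 2) := by
        calc l ^ 2 * (x ^ 9 * a * (1 / (x + l) ^ 14) * b)
            ≤ l ^ 2 * (x ^ 9 * 1 * (1 / (x + l) ^ 14) * (K * l ^ 2)) := by
              have := hux h1
              gcongr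
          _ = K * l * (l ^ 3 * x ^ 9) / (x + l) ^ 14 := by ring
          _ ≤ K * l * ((x + l) ^ 3 * (x + l) ^ 9) / (x + l) ^ 14 := by
              gcongr <;> linarith
          _ = K * (l / (x + l) ^ 2) := by field_simp
      have h3 : 0 ≤ 1 / R * l * (x ^ 9 * a * (1 / (x + l) ^ 13) * b) := by positivity
      linarith
    · have h2 : l ^ 2 * (x ^ 9 * a * (1 / (x + l) ^ 14) * b) ≤
          1 / R * l * (x ^ 9 * a * (1 / (x + l) ^ 13) * b) := by
        have h4 : l / (x + l) ≤ 1 / R := by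
          rw [div_le_div_iff₀ hp hR]
          nlinarith
        calc l ^ 2 * (x ^ 9 * a * (1 / (x + l) ^ 14) * b)
            = l / (x + l) * l * (x ^ 9 * a * (1 / (x + l) ^ 13) * b) := by field_simp
          _ ≤ _ := by gcongr
      have h3 : 0 ≤ K * (l / (x + l) ^ 2) := by positivity
      linarith
  have := mul_le_mul_of_nonneg_left hI hK
  linarith

theorem h0A_glob {L θ t : ℝ} {u : ℝ → ℝ} (ht : t < 0) (hL : 0 ≤ L)
    (hu : ContinuousOn u (Icc 0 L)) :
    lam t ^ 2 * Iw L θ false 14 0 t u ≤ lam t * Iw L θ false 13 0 t u := by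
  have hl := lam_pos ht
  have h := Iw_le_Iw (θ := θ) (θ' := θ) (q := false) (q' := false) (m := 14) (m' := 13) (j := 0)
    (j' := 0) (c := (lam t)⁻¹) ht hL le_rfl (by positivity) hu hu fun x hx => by
      rw [h0A_wt0, h0A_wt0]
      have hx0 := hx.1
      have h1 : (x + lam t)⁻¹ ≤ (lam t)⁻¹ := inv_anti₀ hl (by linarith)
      calc (1 - θ * x) ^ 4 * (1 / (x + lam t) ^ 14) * u x ^ 2
          = (x + lam t)⁻¹ * ((1 - θ * x) ^ 4 * (1 / (x + lam t) ^ 13) * u x ^ 2) := by
            field_simp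
        _ ≤ _ := by gcongr
  calc lam t ^ 2 * Iw L θ false 14 0 t u ≤ lam t ^ 2 * ((lam t)⁻¹ * Iw L θ false 13 0 t u) := by
        gcongr
    _ = _ := by field_simp

/-- Decay up to the local supremum. -/
theorem h0 (B : ℝ) (hB : 1 ≤ B) : ∃ R C, H0P B R C := by
  obtain ⟨C, hC, H⟩ := h0A_key B hB
  refine ⟨16 * C, 8 * (3 * C + 16), by positivity, by positivity,
    fun κ ε θ L I γ d e F F1 F2 ζ ta tb σ M hI hS hG hab hb hsub hlam hσ0 hσ hM h => ?_⟩
  have hdom := Icc_subset_dom hG.hκ hG.κL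
  have hk : ∀ t ∈ Icc ta tb, _ := fun t ht => H κ ε θ L t I γ d e F F1 F2 ζ hI hS hG (hsub ht)
    (ht.2.trans_lt hb) ((lam_anti ht.1).trans hlam) (h t ht).1
  have ho := ode_le (u := fun s => Et L θ false 0 s F) (α := 3 / 8) (σ := σ)
    (M := (3 * C + 16) * M) hab hb (by linarith) (fun t ht => (hk t ht).1) fun t ht => by
      have ht0 : t < 0 := ht.2.trans_lt hb
      obtain ⟨-, h1, h2, h3, h4⟩ := h t ht
      have h5 := h0A_loc (R := 16 * C) (K := M * (-t) ^ σ) ht0 hG (by positivity)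
        (mul_nonneg hM (Real.rpow_nonneg (by linarith) _))
        ((hS.tF.cont_x 0 (hsub ht)).mono hdom) fun x hx hx' => by
          refine (h1 x hx hx').trans_eq ?_
          rw [Real.rpow_add (by linarith), Real.rpow_one, lam_sq ht0.le]
          ring
      change lam t ^ 2 * Iw L θ false 14 0 t (F t) ≤ 1 / (16 * C) * Et L θ false 0 t F + _ at h5
      have h6 := (hk t ht).2
      have h7 : C * (Fd κ L θ false 0 t d + lam t ^ 2 * Iw L θ false 14 0 t (F t) +
          Er L θ false 0 t F) ≤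
          C * (M * (-t) ^ σ + (1 / (16 * C) * Et L θ false 0 t F + M * (-t) ^ σ) +
            M * (-t) ^ σ) := by gcongr
      have h8 : C * (M * (-t) ^ σ + (1 / (16 * C) * Et L θ false 0 t F + M * (-t) ^ σ) +
          M * (-t) ^ σ) = 1 / 16 * Et L θ false 0 t F + 3 * C * (M * (-t) ^ σ) := by
        field_simp
        ring
      nlinarith
  have ha : 0 < -ta := by linarith
  have hb' : 0 < -tb := by linarith
  have hασ : 1 / 8 ≤ 3 / 8 - σ := by linarith
  have h1 : 0 ≤ (-tb / -ta) ^ (3 / 8 : ℝ) * ((3 * C + 16) * M / (3 / 8 - σ) * (-ta) ^ σ) := by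
    have : 0 < 3 / 8 - σ := by linarith
    positivity
  have h2 : (3 * C + 16) * M / (3 / 8 - σ) * (-tb) ^ σ ≤ 8 * (3 * C + 16) * M * (-tb) ^ σ := by
    calc (3 * C + 16) * M / (3 / 8 - σ) * (-tb) ^ σ ≤ (3 * C + 16) * M / (1 / 8) * (-tb) ^ σ := by
          gcongr
      _ = _ := by ring
  rw [mul_sub] at ho
  linarith

/-- Gronwall version. -/
theorem h0g (B : ℝ) (hB : 1 ≤ B) : ∃ C, 0 < C ∧
    ∀ (κ ε θ L : ℝ) (I : Set ℝ) (γ d e F F1 F2 ζ : Fn) (ta tb M : ℝ), IsOpen I →
      Sys κ ε 0 I γ d e F F1 F2 ζ → Geo κ θ L → ta ≤ tb → tb < 0 → Icc ta tb ⊆ I → lam ta ≤ L →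
      0 ≤ M →
      (∀ t ∈ Icc ta tb, AB κ ε γ ζ 0 B t ∧ Fe L θ false 0 t e ≤ M ∧ Fd κ L θ false 0 t d ≤ M ∧
        Er L θ false 0 t F ≤ M) →
      Et L θ false 0 tb F ≤ (-ta / -tb) ^ C * (Et L θ false 0 ta F + M) := by
  obtain ⟨C, hC, H⟩ := h0A_key B hB
  obtain ⟨n, hn⟩ := exists_nat_ge (2 * C + 16)
  have hn0 : (0 : ℝ) < n := by linarith
  refine ⟨n, by exact_mod_cast hn0,
    fun κ ε θ L I γ d e F F1 F2 ζ ta tb M hI hS hG hab hb hsub hlam hM h => ?_⟩
  have hdom := Icc_subset_dom hG.hκ hG.κL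
  have hk : ∀ t ∈ Icc ta tb, _ := fun t ht => H κ ε θ L t I γ d e F F1 F2 ζ hI hS hG (hsub ht)
    (ht.2.trans_lt hb) ((lam_anti ht.1).trans hlam) (h t ht).1
  have ho := ode_le (u := fun s => Et L θ false 0 s F) (α := -(n : ℝ)) (σ := 0)
    (M := n * M) hab hb (by linarith) (fun t ht => (hk t ht).1) fun t ht => by
      have ht0 : t < 0 := ht.2.trans_lt hb
      obtain ⟨-, h2, h3, h4⟩ := h t ht
      have h5 := h0A_glob (θ := θ) ht0 hG.hL.le ((hS.tF.cont_x 0 (hsub ht)).mono hdom)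
      change lam t ^ 2 * Iw L θ false 14 0 t (F t) ≤ Et L θ false 0 t F at h5
      have h6 := (hk t ht).2
      have h7 : C * (Fd κ L θ false 0 t d + lam t ^ 2 * Iw L θ false 14 0 t (F t) +
          Er L θ false 0 t F) ≤ C * (M + Et L θ false 0 t F + M) := by gcongr
      have h8 : 0 ≤ Et L θ false 0 t F :=
        mul_nonneg (lam_pos ht0).le (Iw_nonneg hG.hL.le _ _ _ _ _)
      have h9 := mul_nonneg hC.le h8
      have h10 := mul_le_mul_of_nonneg_right hn h8
      have h11 := mul_le_mul_of_nonneg_right hn hM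
      rw [Real.rpow_zero]
      nlinarith
  have ha : 0 < -ta := by linarith
  have hb' : 0 < -tb := by linarith
  have e1 : n * M / (-(n : ℝ) - 0) = -M := by
    rw [sub_zero]
    field_simp
  rw [e1, Real.rpow_zero, Real.rpow_zero, Real.rpow_neg (by positivity),
    ← Real.inv_rpow (by positivity), inv_div, mul_one, sub_neg_eq_add, sub_neg_eq_add,
    Real.rpow_natCast] at ho
  linarith

end Crest.Agent.R213
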