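import Crest.Agent.R213.D2

/-!
# Row 213: the hierarchy with exponent `13`
-/

set_option autoImplicit false

noncomputable section

namespace Crest.Agent.R213.HJA

open Set Filter Topology
open scoped ContDiff

theorem wt_succ (q : Bool) (m j : ℕ) (t x : ℝ) :
    wt q (m + 1) j t x = wt q m j t x / (x + lam t) := by
  rw [wt, wt, div_div, pow_succ (x + lam t) m]

theorem wt_level (q : Bool) (m j : ℕ) {t x : ℝ} (ht : t < 0) (hx : 0 ≤ x) :
    lam t ^ 4 * wt q m j t x ≤ wt q m (j + 1) t x := by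
  have hl := lam_pos ht
  have hT : 0 < -t := by linarith
  have hρ : -t ≤ (x + lam t) ^ 2 := by
    rw [← lam_sq ht.le]
    exact pow_le_pow_left₀ hl.le (by linarith) 2
  have h1 := (om_succ q hT hρ j).1
  have h2 := om_pos q hT hρ j
  rw [wt, wt, ← mul_div_assoc, show lam t ^ 4 = (lam t ^ 2) ^ 2 by ring, lam_sq ht.le, ← mul_pow]
  gcongr

variable {L θ t : ℝ} {q : Bool} {m j : ℕ} {u v : ℝ → ℝ}

theorem shift (ht : t < 0) (hL : 0 ≤ L) (hu : ContinuousOn u (Icc 0 L)) :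
    lam t * Iw L θ q (m + 1) j t u ≤ Iw L θ q m j t u := by
  have hl := lam_pos ht
  have h := Iw_le_Iw (θ := θ) (θ' := θ) (q := q) (q' := q) (m := m + 1) (m' := m) (j := j) (j' := j)
    ht hL le_rfl (inv_nonneg.2 hl.le) hu hu fun x hx => by
      have h1 := wt_pos q m j ht hx.1
      have h2 : wt q m j t x / (x + lam t) ≤ wt q m j t x / lam t := by
        gcongr
        linarith [hx.1]
      have h3 : 0 ≤ (1 - θ * x) ^ 4 * u x ^ 2 := by positivity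
      have h4 := mul_le_mul_of_nonneg_left h2 h3
      rw [wt_succ]
      rw [div_eq_mul_inv _ (lam t)] at h4
      linarith
  rwa [inv_mul_eq_div, le_div_iff₀ hl, mul_comm] at h

theorem split {η : ℝ} (hη : 0 < η) (ht : t < 0) (hL : 0 ≤ L) (hu : ContinuousOn u (Icc 0 L)) :
    lam t * Iw L θ q (m + 1) j t u ≤
      η * Iw L θ q m j t u + η⁻¹ * lam t ^ 2 * Iw L θ q (m + 2) j t u := by
  have hl := lam_pos ht
  have i0 := (SBB.integrable θ q m j ht hL hu).const_mul η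
  have i1 := (SBB.integrable θ q (m + 1) j ht hL hu).const_mul (lam t)
  have i2 := (SBB.integrable θ q (m + 2) j ht hL hu).const_mul (η⁻¹ * lam t ^ 2)
  simp only [Iw, ← intervalIntegral.integral_const_mul]
  rw [← intervalIntegral.integral_add i0 i2]
  refine intervalIntegral.integral_mono_on hL i1 (i0.add i2) fun x hx => ?_
  have h0 := SBB.integrand_nonneg θ q m j t u hx.1
  have hp : 0 < x + lam t := by linarith [hx.1]
  have h1 : lam t / (x + lam t) ≤ η + η⁻¹ * (lam t / (x + lam t)) ^ 2 := by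
    generalize lam t / (x + lam t) = s
    have h2 : η + η⁻¹ * s ^ 2 - s = η⁻¹ * ((s - η / 2) ^ 2 + 3 / 4 * η ^ 2) := by
      field_simp
      ring
    have h3 : 0 ≤ η⁻¹ * ((s - η / 2) ^ 2 + 3 / 4 * η ^ 2) := by positivity
    linarith
  have h4 := mul_le_mul_of_nonneg_left h1 h0
  rw [wt_succ q (m + 1), wt_succ q m]
  refine le_of_eq_of_le ?_ (h4.trans_eq ?_) <;> ring

theorem cross (ht : t < 0) (hL : 0 ≤ L) (hu : ContinuousOn u (Icc 0 L))
    (hv : ContinuousOn v (Icc 0 L)) :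
    lam t ^ 2 * (2 * ∫ x in (0 : ℝ)..L, x ^ 9 * (1 - θ * x) ^ 4 * wt q m j t x * (u x * v x)) ≤
      1 / 16 * Iw L θ q m j t u + 16 * Iw L θ q m (j + 1) t v := by
  have i0 := (SBB.integrable θ q m j ht hL hu).const_mul (1 / 16)
  have i2 := (SBB.integrable θ q m (j + 1) ht hL hv).const_mul 16
  have i1 : IntervalIntegrable (fun x => lam t ^ 2 * (2 * (x ^ 9 * (1 - θ * x) ^ 4 *
      wt q m j t x * (u x * v x)))) MeasureTheory.volume 0 L := by
    refine ContinuousOn.intervalIntegrable_of_Icc hL ?_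
    have := (continuousOn_wt q m j ht).mono (show Icc 0 L ⊆ Ici 0 from Icc_subset_Ici_self)
    fun_prop
  simp only [Iw, ← intervalIntegral.integral_const_mul]
  rw [← intervalIntegral.integral_add i0 i2]
  refine intervalIntegral.integral_mono_on hL i1 (i0.add i2) fun x hx => ?_
  have h0 : 0 ≤ x ^ 9 * (1 - θ * x) ^ 4 := by have := hx.1; positivity
  have h1 := mul_le_mul_of_nonneg_left (wt_level q m j ht hx.1) (mul_nonneg h0 (sq_nonneg (v x)))
  have h2 := mul_nonneg (mul_nonneg h0 (wt_pos q m j ht hx.1).le)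
    (sq_nonneg (u x / 4 - 4 * lam t ^ 2 * v x))
  linarith

/-- The differential inequality at one level. -/
def Lev (j : ℕ) (B c K : ℝ) : Prop :=
  ∀ (q : Bool) (κ ε θ L t m : ℝ) (I : Set ℝ) (γ d e F F1 F2 ζ : Fn), IsOpen I →
    Sys κ ε 0 I γ d e F F1 F2 ζ → Geo κ θ L → t ∈ I → t < 0 → lam t ≤ L → AB κ ε γ ζ j B t →
    0 ≤ m → Et L θ q 0 t F ≤ m → (∀ i ≤ j, Fe L θ q i t e ≤ m ∧ Fd κ L θ q i t d ≤ m ∧
      Er L θ q i t F ≤ m) →
    ∃ u', HasDerivAt (fun s => Et L θ q j s F) u' t ∧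
      -t * u' ≤ -c * (lam t ^ 3 * Dq κ L θ q 13 j t F2) +
        K * ∑ i ∈ Finset.range j, lam t ^ 3 * Dq κ L θ q 13 i t F2 +
        (-(3 / 8) * Et L θ q j t F + K * m)

theorem Lev.mono {j : ℕ} {B c K c' K' : ℝ} (h : Lev j B c K) (hc : c' ≤ c) (hK : K ≤ K') :
    Lev j B c' K' := by
  intro q κ ε θ L t m I γ d e F F1 F2 ζ hI hS hG ht ht0 hl hAB hm h0 h1
  obtain ⟨u', hu, h2⟩ := h q κ ε θ L t m I γ d e F F1 F2 ζ hI hS hG ht ht0 hl hAB hm h0 h1
  refine ⟨u', hu, h2.trans ?_⟩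
  have hD : ∀ i, 0 ≤ lam t ^ 3 * Dq κ L θ q 13 i t F2 := fun i =>
    mul_nonneg (pow_nonneg (lam_pos ht0).le 3) (Iw_nonneg hG.hL.le _ _ _ _ _)
  have h3 := mul_le_mul_of_nonneg_right hc (hD j)
  have h4 := mul_le_mul_of_nonneg_right hK
    (Finset.sum_nonneg fun i (_ : i ∈ Finset.range j) => hD i)
  have h5 := mul_le_mul_of_nonneg_right hK hm
  linarith

/-- The weighted lower order term. -/
theorem low (j : ℕ) (B a η : ℝ) (hB : 1 ≤ B) (ha : 0 < a) (hη : 0 < η) : ∃ K, 0 ≤ K ∧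
    ∀ (q : Bool) (κ ε θ L t m : ℝ) (I : Set ℝ) (γ d e F F1 F2 ζ : Fn), IsOpen I →
    Sys κ ε 0 I γ d e F F1 F2 ζ → Geo κ θ L → t ∈ I → t < 0 → lam t ≤ L → AB κ ε γ ζ j B t →
    0 ≤ m → Et L θ q 0 t F ≤ m → (∀ i ≤ j, Fe L θ q i t e ≤ m ∧ Fd κ L θ q i t d ≤ m ∧
      Er L θ q i t F ≤ m) →
    lam t ^ 2 * Iw L θ q 14 j t (DT j F t) ≤ η * Et L θ q j t F +
      a * (lam t ^ 3 * Dq κ L θ q 13 j t F2) +
      K * (∑ i ∈ Finset.range j, lam t ^ 3 * Dq κ L θ q 13 i t F2 + m) := by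
  cases j with
  | zero =>
    refine ⟨1, zero_le_one, fun q κ ε θ L t m I γ d e F F1 F2 ζ hI hS hG ht ht0 hl hAB hm h0 h1 => ?_⟩
    have hl0 := lam_pos ht0
    have h2 := mul_le_mul_of_nonneg_left (shift (θ := θ) (q := q) (m := 13) (j := 0) ht0 hG.hL.le
      (hS.sp hI hG.κL 0 ht).c0) hl0.le
    have h3 : 0 ≤ η * Et L θ q 0 t F :=
      mul_nonneg hη.le (mul_nonneg hl0.le (Iw_nonneg hG.hL.le _ _ _ _ _))
    have h4 : 0 ≤ a * (lam t ^ 3 * Dq κ L θ q 13 0 t F2) :=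
      mul_nonneg ha.le (mul_nonneg (pow_nonneg hl0.le 3) (Iw_nonneg hG.hL.le _ _ _ _ _))
    rw [Et] at h0
    rw [Finset.sum_range_zero]
    linarith
  | succ j =>
    obtain ⟨C, hC, h⟩ := d3 j 13 B (a * η) (by norm_num) hB (mul_pos ha hη)
    refine ⟨η⁻¹ * C * (j + 3), by positivity,
      fun q κ ε θ L t m I γ d e F F1 F2 ζ hI hS hG ht ht0 hl hAB hm h0 h1 => ?_⟩
    have hl0 := lam_pos ht0
    have hL := hG.hL.le
    have h2 := mul_le_mul_of_nonneg_left (split (θ := θ) (q := q) (m := 13) (j := j + 1) hη ht0 hL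
      (hS.sp hI hG.κL (j + 1) ht).c0) hl0.le
    have h3 := mul_le_mul_of_nonneg_left (h q κ ε θ L t I γ d e F F1 F2 ζ hI hS hG ht ht0 hl
      (hAB.mono (Nat.le_succ j) (by linarith) le_rfl))
      (show 0 ≤ η⁻¹ * lam t ^ 3 by positivity)
    have he := (hS.te.cont_x j ht).mono (Icc_subset_dom hG.hκ hG.κL)
    have h4 : lam t ^ 3 * Iw L θ q 15 (j + 1) t (DT j e t) ≤ m := by
      have a1 := mul_le_mul_of_nonneg_left
        (shift (θ := θ) (q := q) (m := 14) (j := j + 1) ht0 hL he) (sq_nonneg (lam t))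
      have a2 := mul_le_mul_of_nonneg_left
        (shift (θ := θ) (q := q) (m := 13) (j := j + 1) ht0 hL he) hl0.le
      have a3 := (h1 j (Nat.le_succ j)).1
      rw [Fe] at a3
      linarith
    have h5 : lam t ^ 3 * (θ * (lam t)⁻¹ * Iw L 0 q 13 (j + 1) t (DT (j + 1) F t)) ≤ m := by
      refine le_of_eq_of_le ?_ (h1 (j + 1) le_rfl).2.2
      rw [Er, Et]
      field_simp
    have h6 : lam t ^ 3 * ∑ i ∈ Finset.range (j + 1),
        (Dq κ L θ q 13 i t F2 + Dq κ L θ q 13 i t d) ≤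
        ∑ i ∈ Finset.range (j + 1), lam t ^ 3 * Dq κ L θ q 13 i t F2 + (j + 1) * m := by
      rw [Finset.sum_add_distrib, mul_add, Finset.mul_sum, Finset.mul_sum]
      have := Finset.sum_le_card_nsmul (Finset.range (j + 1))
        (fun i => lam t ^ 3 * Dq κ L θ q 13 i t d) m
        fun i hi => (h1 i (Finset.mem_range.1 hi).le).2.1
      rw [Finset.card_range, nsmul_eq_mul] at this
      push_cast at this
      linarith
    have h7 : 0 ≤ ∑ i ∈ Finset.range (j + 1), lam t ^ 3 * Dq κ L θ q 13 i t F2 :=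
      Finset.sum_nonneg fun i _ => mul_nonneg (pow_nonneg hl0.le 3) (Iw_nonneg hL _ _ _ _ _)
    have h8 := mul_le_mul_of_nonneg_left (add_le_add (add_le_add h6 h4) h5)
      (show 0 ≤ η⁻¹ * C by positivity)
    have h9 := mul_nonneg (show 0 ≤ η⁻¹ * C * (j + 2) by positivity) h7
    have h10 : η⁻¹ * lam t ^ 3 * (a * η * Dq κ L θ q 13 (j + 1) t F2) =
        a * (lam t ^ 3 * Dq κ L θ q 13 (j + 1) t F2) := by field_simp
    rw [mul_add (η⁻¹ * lam t ^ 3), h10] at h3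
    rw [Et]
    linarith

theorem lev (j : ℕ) (B : ℝ) (hB : 1 ≤ B) : ∃ c K, 0 < c ∧ 0 ≤ K ∧ Lev j B c K := by
  obtain ⟨c, C, hc, hC, h⟩ := d2 j 13 B (by norm_num) hB
  obtain ⟨K, hK, hlow⟩ := low j B (c / (2 * C)) (1 / (16 * C)) hB (by positivity) (by positivity)
  refine ⟨c / 2, C * (j + 2) + C * K + 16, by positivity, by positivity,
    fun q κ ε θ L t m I γ d e F F1 F2 ζ hI hS hG ht ht0 hl hAB hm h0 h1 => ?_⟩
  obtain ⟨E', hE, h2⟩ := h q κ ε θ L t I γ d e F F1 F2 ζ hI hS hG ht ht0 hl hAB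
  have hl0 := lam_pos ht0
  have hL := hG.hL.le
  refine ⟨_, (hasDerivAt_lam ht0).mul hE, ?_⟩
  have h3 := mul_le_mul_of_nonneg_left h2 (pow_nonneg hl0.le 3)
  have h4 := mul_le_mul_of_nonneg_left
    (hlow q κ ε θ L t m I γ d e F F1 F2 ζ hI hS hG ht ht0 hl hAB hm h0 h1) hC.le
  have h5 := mul_le_mul_of_nonneg_left (cross (θ := θ) (q := q) (m := 13) (j := j) ht0 hL
    (hS.sp hI hG.κL j ht).c0 ((hS.te.cont_x j ht).mono (Icc_subset_dom hG.hκ hG.κL))) hl0.le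
  have h6 := (h1 j le_rfl).1
  have h7 : lam t ^ 3 * (θ * (lam t)⁻¹ * Iw L 0 q 13 j t (DT j F t)) ≤ m := by
    refine le_of_eq_of_le ?_ (h1 j le_rfl).2.2
    rw [Er, Et]
    field_simp
  have h8 : lam t ^ 3 * ∑ i ∈ Finset.range (j + 1), Dq κ L θ q 13 i t d ≤ (j + 1) * m := by
    have := Finset.sum_le_card_nsmul (Finset.range (j + 1))
      (fun i => lam t ^ 3 * Dq κ L θ q 13 i t d) m
      fun i hi => (h1 i (Nat.lt_succ_iff.1 (Finset.mem_range.1 hi))).2.1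
    rw [Finset.card_range, nsmul_eq_mul] at this
    push_cast at this
    rwa [Finset.mul_sum]
  have h9 : lam t ^ 3 * ((lam t)⁻¹ * Iw L θ q 14 j t (DT j F t)) =
      lam t ^ 2 * Iw L θ q 14 j t (DT j F t) := by field_simp
  have h10 : 0 ≤ lam t ^ 3 * ∑ i ∈ Finset.range j, Dq κ L θ q 13 i t F2 :=
    mul_nonneg (pow_nonneg hl0.le 3) (Finset.sum_nonneg fun i _ => Iw_nonneg hL _ _ _ _ _)
  have h11 : -t * (-(1 / (2 * lam t)) * Iw L θ q 13 j t (DT j F t) + lam t * E') =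
      -(1 / 2) * (lam t * Iw L θ q 13 j t (DT j F t)) + lam t ^ 3 * E' := by
    rw [← lam_sq ht0.le]
    field_simp
  have h12 : C * (1 / (16 * C) * Et L θ q j t F + c / (2 * C) * (lam t ^ 3 * Dq κ L θ q 13 j t F2))
      = 1 / 16 * Et L θ q j t F + c / 2 * (lam t ^ 3 * Dq κ L θ q 13 j t F2) := by field_simp
  have h13 := mul_le_mul_of_nonneg_left (add_le_add h7 h8) hC.le
  have h14 := mul_nonneg (show 0 ≤ C * (j + 1) + 16 by positivity) h10
  have h15 := congrArg (C * ·) h9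
  rw [mul_add C, h12] at h4
  rw [h11]
  rw [← Finset.mul_sum] at h4 ⊢
  rw [Et] at h4 ⊢
  rw [Fe] at h6
  linarith

theorem lev_all (J : ℕ) (B : ℝ) (hB : 1 ≤ B) : ∃ c K, 0 < c ∧ 0 ≤ K ∧ ∀ j ≤ J, Lev j B c K := by
  induction J with
  | zero =>
    obtain ⟨c, K, hc, hK, h⟩ := lev 0 B hB
    exact ⟨c, K, hc, hK, fun j hj => (Nat.le_zero.1 hj).symm ▸ h⟩
  | succ J ih =>
    obtain ⟨c, K, hc, hK, h⟩ := ih
    obtain ⟨c', K', hc', hK', h'⟩ := lev (J + 1) B hB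
    refine ⟨min c c', max K K', lt_min hc hc', hK.trans (le_max_left _ _), fun j hj => ?_⟩
    rcases Nat.of_le_succ hj with hj | rfl
    · exact (h j hj).mono (min_le_left _ _) (le_max_left _ _)
    · exact h'.mono (min_le_right _ _) (le_max_right _ _)

theorem hJ (J : ℕ) (B : ℝ) (hB : 1 ≤ B) : ∃ C, 0 < C ∧
    ∀ (q : Bool) (κ ε θ L : ℝ) (I : Set ℝ) (γ d e F F1 F2 ζ : Fn) (ta tb σ M : ℝ), IsOpen I →
      Sys κ ε 0 I γ d e F F1 F2 ζ → Geo κ θ L → ta ≤ tb → tb < 0 → Icc ta tb ⊆ I → lam ta ≤ L →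
      0 ≤ σ → σ ≤ 1 / 4 → 0 ≤ M →
      (∀ t ∈ Icc ta tb, AB κ ε γ ζ J B t ∧ Et L θ q 0 t F ≤ M * (-t) ^ σ ∧
        ∀ j ≤ J, Fe L θ q j t e ≤ M * (-t) ^ σ ∧ Fd κ L θ q j t d ≤ M * (-t) ^ σ ∧
          Er L θ q j t F ≤ M * (-t) ^ σ) →
      ∀ j ≤ J, Et L θ q j tb F ≤
        C * ((-tb / -ta) ^ (3 / 8 : ℝ) * ∑ i ∈ Finset.range (J + 1), Et L θ q i ta F +
          M * (-tb) ^ σ) := by
  obtain ⟨c, K, hc, hK, hlev⟩ := lev_all J B hB
  obtain ⟨δ, hδ, hδ1, hh⟩ := hier J hc hK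
  refine ⟨(δ ^ J)⁻¹ * (1 + 8 * (K * (J + 1))), by positivity,
    fun q κ ε θ L I γ d e F F1 F2 ζ ta tb σ M hI hS hG hab hb hsub hl hσ0 hσ hM h j hj => ?_⟩
  have hE : ∀ i t, t < 0 → 0 ≤ Et L θ q i t F := fun i t ht =>
    mul_nonneg (lam_pos ht).le (Iw_nonneg hG.hL.le _ _ _ _ _)
  have h1 : ∀ t ∈ Icc ta tb, ∃ U', HasDerivAt
      (fun s => ∑ i ∈ Finset.range (J + 1), δ ^ i * Et L θ q i s F) U' t ∧
      -t * U' ≤ -(3 / 8) * ∑ i ∈ Finset.range (J + 1), δ ^ i * Et L θ q i t F +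
        K * (J + 1) * M * (-t) ^ σ := by
    intro t ht
    have ht0 : t < 0 := ht.2.trans_lt hb
    have hm : 0 ≤ M * (-t) ^ σ := mul_nonneg hM (Real.rpow_nonneg (by linarith) _)
    obtain ⟨hAB, h0, h2⟩ := h t ht
    have h3 := fun i (hi : i ≤ J) => hlev i hi q κ ε θ L t _ I γ d e F F1 F2 ζ hI hS hG (hsub ht) ht0
      ((lam_anti ht.1).trans hl) (hAB.mono hi (by linarith) le_rfl) hm h0
      fun k hk => h2 k (hk.trans hi)
    choose! u' hu h4 using h3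
    refine ⟨∑ i ∈ Finset.range (J + 1), δ ^ i * u' i, HasDerivAt.fun_sum fun i hi =>
      (hu i (Nat.lt_succ_iff.1 (Finset.mem_range.1 hi))).const_mul _, ?_⟩
    have h5 := hh (fun i => -t * u' i) (fun i => lam t ^ 3 * Dq κ L θ q 13 i t F2)
      (fun i => -(3 / 8) * Et L θ q i t F + K * (M * (-t) ^ σ))
      (fun i _ => mul_nonneg (pow_nonneg (lam_pos ht0).le 3) (Iw_nonneg hG.hL.le _ _ _ _ _)) h4
    have h6 := Finset.sum_le_card_nsmul (Finset.range (J + 1))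
      (fun i => δ ^ i * (K * (M * (-t) ^ σ))) (K * (M * (-t) ^ σ))
      fun i _ => mul_le_of_le_one_left (mul_nonneg hK hm) (pow_le_one₀ hδ.le hδ1)
    rw [Finset.card_range, nsmul_eq_mul] at h6
    push_cast at h6
    simp only [mul_add, Finset.sum_add_distrib] at h5
    simp only [mul_left_comm (δ ^ _) (-t), mul_left_comm (δ ^ _) (-(3 / 8 : ℝ)),
      ← Finset.mul_sum] at h5
    linarith
  choose! U' hU h2 using h1
  have h3 := ode_le hab hb (show (3 / 8 : ℝ) ≠ σ by intro h0; linarith) hU h2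
  have ha0 : ta < 0 := hab.trans_lt hb
  have hr : 0 ≤ (-tb / -ta) ^ (3 / 8 : ℝ) :=
    Real.rpow_nonneg (div_nonneg (by linarith) (by linarith)) _
  have hpa : 0 ≤ (-ta) ^ σ := Real.rpow_nonneg (by linarith) _
  have hpb : 0 ≤ (-tb) ^ σ := Real.rpow_nonneg (by linarith) _
  have hN : 0 ≤ K * (J + 1) * M := by positivity
  have h4 : K * (J + 1) * M / (3 / 8 - σ) ≤ 8 * (K * (J + 1) * M) := by
    rw [div_le_iff₀ (by linarith)]
    nlinarith
  have h5 : 0 ≤ K * (J + 1) * M / (3 / 8 - σ) := div_nonneg hN (by linarith)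
  have h6 : ∑ i ∈ Finset.range (J + 1), δ ^ i * Et L θ q i ta F ≤
      ∑ i ∈ Finset.range (J + 1), Et L θ q i ta F := Finset.sum_le_sum fun i _ =>
    mul_le_of_le_one_left (hE i ta ha0) (pow_le_one₀ hδ.le hδ1)
  have h7 : δ ^ J * Et L θ q j tb F ≤ ∑ i ∈ Finset.range (J + 1), δ ^ i * Et L θ q i tb F :=
    (mul_le_mul_of_nonneg_right (pow_le_pow_of_le_one hδ.le hδ1 hj) (hE j tb hb)).trans
      (Finset.single_le_sum (f := fun i => δ ^ i * Et L θ q i tb F)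
        (fun i _ => mul_nonneg (pow_nonneg hδ.le i) (hE i tb hb))
        (Finset.mem_range.2 (Nat.lt_succ_of_le hj)))
  have h8 := mul_le_mul_of_nonneg_left h6 hr
  have h9 := mul_nonneg hr (mul_nonneg h5 hpa)
  have h10 := mul_le_mul_of_nonneg_right h4 hpb
  have h11 := mul_nonneg (show 0 ≤ 8 * (K * (J + 1)) by positivity) (mul_nonneg hr
    (Finset.sum_nonneg fun i (_ : i ∈ Finset.range (J + 1)) => hE i ta ha0))
  have h12 := mul_nonneg hM hpb
  rw [mul_assoc, le_inv_mul_iff₀ (pow_pos hδ J)]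
  linarith

end Crest.Agent.R213.HJA
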