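import Crest.Agent.R213.D2

/-!
# Row 213: the sharp hierarchy with exponent `12` (auxiliary file of `HJ`)
-/

set_option autoImplicit false

noncomputable section

namespace Crest.Agent.R213.HJB

open Set Filter Topology

theorem exists_lo (c : ℕ → ℝ) (hc : ∀ j, 0 < c j) (J : ℕ) : ∃ c0, 0 < c0 ∧ ∀ j ≤ J, c0 ≤ c j := by
  induction J with
  | zero => exact ⟨c 0, hc 0, fun j hj => by rw [Nat.le_zero.1 hj]⟩
  | succ J ih =>
    obtain ⟨c0, h0, h⟩ := ih
    refine ⟨min c0 (c (J + 1)), lt_min h0 (hc _), fun j hj => ?_⟩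
    rcases Nat.lt_or_eq_of_le hj with h1 | h1
    · exact (min_le_left _ _).trans (h j (Nat.lt_succ_iff.1 h1))
    · rw [h1]
      exact min_le_right _ _

theorem exists_hi (C : ℕ → ℝ) (hC : ∀ j, 0 < C j) (J : ℕ) : ∃ C0, 0 < C0 ∧ ∀ j ≤ J, C j ≤ C0 :=
  ⟨∑ i ∈ Finset.range (J + 1), C i, Finset.sum_pos (fun i _ => hC i) Finset.nonempty_range_add_one,
    fun j hj => Finset.single_le_sum (fun i _ => (hC i).le) (Finset.mem_range.2 (by omega))⟩

theorem anti {G : ℝ → ℝ} {a b : ℝ} (hab : a ≤ b)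
    (h : ∀ t ∈ Icc a b, ∃ G', HasDerivAt G G' t ∧ G' ≤ 0) : G b ≤ G a := by
  have h1 : AntitoneOn G (Icc a b) := by
    refine antitoneOn_of_deriv_nonpos (convex_Icc a b)
      (fun t ht => (h t ht).choose_spec.1.continuousAt.continuousWithinAt)
      (fun t ht => (h t (interior_subset ht)).choose_spec.1.differentiableAt.differentiableWithinAt)
      fun t ht => ?_
    obtain ⟨G', h1, h2⟩ := h t (interior_subset ht)
    rw [h1.deriv]
    exact h2
  exact h1 (left_mem_Icc.2 hab) (right_mem_Icc.2 hab) hab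

/-- The cross term. -/
theorem cross_le {L θ t : ℝ} (q : Bool) (m j : ℕ) {u v : ℝ → ℝ} (ht : t < 0) (hL : 0 ≤ L)
    (hu : ContinuousOn u (Icc 0 L)) (hv : ContinuousOn v (Icc 0 L)) :
    2 * ∫ x in (0 : ℝ)..L, x ^ 9 * (1 - θ * x) ^ 4 * wt q (m + 1) j t x * (u x * v x) ≤
      (lam t)⁻¹ * Iw L θ q (m + 2) j t u + lam t * Iw L θ q m j t v := by
  have i1 := (SBB.integrable θ q (m + 2) j ht hL hu).const_mul (lam t)⁻¹
  have i2 := (SBB.integrable θ q m j ht hL hv).const_mul (lam t)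
  have i3 : IntervalIntegrable
      (fun x => 2 * (x ^ 9 * (1 - θ * x) ^ 4 * wt q (m + 1) j t x * (u x * v x)))
      MeasureTheory.volume 0 L := by
    refine ContinuousOn.intervalIntegrable_of_Icc hL ?_
    have := (continuousOn_wt q (m + 1) j ht).mono (Icc_subset_Ici_self : Icc 0 L ⊆ Ici 0)
    fun_prop
  rw [Iw, Iw, ← intervalIntegral.integral_const_mul, ← intervalIntegral.integral_const_mul,
    ← intervalIntegral.integral_const_mul, ← intervalIntegral.integral_add i1 i2]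
  refine intervalIntegral.integral_mono_on hL i3 (i1.add i2) fun x hx => ?_
  have hl := lam_pos ht
  have h1 := add_pos_of_nonneg_of_pos hx.1 hl
  have hx0 := hx.1
  have e1 : wt q (m + 1) j t x = (x + lam t) * wt q (m + 2) j t x := by
    unfold wt
    field_simp
    ring
  have e2 : wt q m j t x = (x + lam t) ^ 2 * wt q (m + 2) j t x := by
    unfold wt
    field_simp
    ring
  have h2 : 0 ≤ x ^ 9 * (1 - θ * x) ^ 4 * wt q (m + 2) j t x * (lam t)⁻¹ *
      (u x - lam t * (x + lam t) * v x) ^ 2 := by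
    have := wt_pos q (m + 2) j ht hx.1
    positivity
  have e3 : x ^ 9 * (1 - θ * x) ^ 4 * wt q (m + 2) j t x * (lam t)⁻¹ *
      (u x - lam t * (x + lam t) * v x) ^ 2 =
      (lam t)⁻¹ * (x ^ 9 * (1 - θ * x) ^ 4 * wt q (m + 2) j t x * u x ^ 2) +
        lam t * (x ^ 9 * (1 - θ * x) ^ 4 * ((x + lam t) ^ 2 * wt q (m + 2) j t x) * v x ^ 2) -
        2 * (x ^ 9 * (1 - θ * x) ^ 4 * ((x + lam t) * wt q (m + 2) j t x) * (u x * v x)) := by
    field_simp
    ring
  rw [e1, e2]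
  linarith

theorem hasDerivAt_bar {σ t : ℝ} (hσ : 0 < σ) (ht : t < 0) :
    HasDerivAt (fun s : ℝ => (-s) ^ σ / σ + -s) (-((-t) ^ (σ - 1) + 1)) t := by
  have h1 : HasDerivAt (fun s : ℝ => -s) (-1) t := hasDerivAt_neg' t
  have h2 := ((h1.rpow_const (p := σ) (Or.inl (neg_pos.2 ht).ne')).div_const σ).add h1
  refine h2.congr_deriv ?_
  field_simp
  ring

theorem h12 (J : ℕ) (B : ℝ) (hB : 1 ≤ B) : ∃ C, 0 < C ∧
    ∀ (κ ε L : ℝ) (I : Set ℝ) (γ d e F F1 F2 ζ : Fn) (ta tb σ M : ℝ), IsOpen I →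
      Sys κ ε 0 I γ d e F F1 F2 ζ → Geo κ 0 L → ta ≤ tb → tb < 0 → Icc ta tb ⊆ I → lam ta ≤ L →
      0 < σ → 0 ≤ M →
      (∀ t ∈ Icc ta tb, AB κ ε γ ζ J B t ∧
        ∀ j ≤ J, Et L 0 true j t F ≤ M * (-t) ^ σ ∧ lam t * Iw L 0 true 11 j t (DT j e t) ≤ M ∧
          Dq κ L 0 true 12 j t d ≤ M) →
      ∀ j ≤ J, Iw L 0 true 12 j tb (DT j F tb) ≤
        C * (∑ i ∈ Finset.range (J + 1), Iw L 0 true 12 i ta (DT i F ta) +
          M * ((-ta) ^ σ / σ + -ta)) := by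
  choose c C hc hC H using fun j => d2 j 12 B (by norm_num) hB
  obtain ⟨c0, hc0, hcc⟩ := exists_lo c hc J
  obtain ⟨C0, hC0, hCC⟩ := exists_hi C hC J
  obtain ⟨δ, hδ0, hδ1, hh⟩ := hier J hc0 hC0.le
  set K : ℝ := C0 * (J + 1) + 1 with hK
  have hK1 : 1 ≤ K := by
    have : 0 ≤ C0 * (J + 1) := by positivity
    linarith
  set K' : ℝ := (J + 1) * K with hK'
  have hK'1 : 1 ≤ K' := by
    have : (0 : ℝ) ≤ J := Nat.cast_nonneg J
    nlinarith
  refine ⟨K' / δ ^ J, by positivity, ?_⟩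
  intro κ ε L I γ d e F F1 F2 ζ ta tb σ M hI hS hG hab hb hsub hL hσ hM hyp j hj
  have hL0 : 0 ≤ L := hG.hL.le
  have hdom : Icc 0 L ⊆ dom κ := Icc_subset_dom hG.hκ hG.κL
  have hB0 : 0 < B := by linarith
  have key : ∀ t ∈ Icc ta tb, ∃ G', HasDerivAt (fun s =>
      ∑ i ∈ Finset.range (J + 1), δ ^ i * Iw L 0 true 12 i s (DT i F s) +
        K' * M * ((-s) ^ σ / σ + -s)) G' t ∧ G' ≤ 0 := by
    intro t ht
    have ht0 : t < 0 := lt_of_le_of_lt ht.2 hb
    have htI : t ∈ I := hsub ht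
    have hl := lam_pos ht0
    obtain ⟨hAB, hyp'⟩ := hyp t ht
    have h1 : ∀ i, ∃ E', i ≤ J → HasDerivAt (fun s => Iw L 0 true 12 i s (DT i F s)) E' t ∧
        E' ≤ -c0 * Dq κ L 0 true 12 i t F2 +
          C0 * ∑ l ∈ Finset.range i, Dq κ L 0 true 12 l t F2 + K * M * ((-t) ^ (σ - 1) + 1) := by
      intro i
      by_cases hi : i ≤ J
      swap
      · exact ⟨0, fun h => absurd h hi⟩
      obtain ⟨E', h2, h3⟩ := H i true κ ε 0 L t I γ d e F F1 F2 ζ hI hS hG htI ht0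
        ((lam_anti ht.1).trans hL) (hAB.mono hi hB0 le_rfl)
      refine ⟨E', fun _ => ⟨h2, ?_⟩⟩
      have h4 := cross_le (θ := 0) true 11 i ht0 hL0 ((hS.tF.cont_x i htI).mono hdom)
        ((hS.te.cont_x i htI).mono hdom)
      obtain ⟨hE, he, -⟩ := hyp' i hi
      have hp : 0 < (-t) ^ (σ - 1) := Real.rpow_pos_of_pos (neg_pos.2 ht0) _
      have h5 : (lam t)⁻¹ * Iw L 0 true 13 i t (DT i F t) ≤ M * (-t) ^ (σ - 1) := by
        have e1 : (lam t)⁻¹ * Iw L 0 true 13 i t (DT i F t) = Et L 0 true i t F / -t := by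
          rw [Et, ← lam_sq ht0.le]
          field_simp
        rw [e1, Real.rpow_sub_one (neg_pos.2 ht0).ne', ← mul_div_assoc]
        exact div_le_div_of_nonneg_right hE (neg_pos.2 ht0).le
      have h6 : ∑ l ∈ Finset.range (i + 1), Dq κ L 0 true 12 l t d ≤ (J + 1) * M := by
        refine (Finset.sum_le_card_nsmul _ _ M fun l hl' =>
          (hyp' l (by have := Finset.mem_range.1 hl'; omega)).2.2).trans ?_
        rw [Finset.card_range, nsmul_eq_mul]
        refine mul_le_mul_of_nonneg_right ?_ hM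
        exact_mod_cast Nat.succ_le_succ hi
      have hD : ∀ (l : ℕ) (u : Fn), 0 ≤ Dq κ L 0 true 12 l t u := fun l u =>
        Iw_nonneg hL0 _ _ _ _ _
      have h7 : 0 ≤ ∑ l ∈ Finset.range i, Dq κ L 0 true 12 l t F2 :=
        Finset.sum_nonneg fun l _ => hD l F2
      have h8 : 0 ≤ ∑ l ∈ Finset.range (i + 1), Dq κ L 0 true 12 l t d :=
        Finset.sum_nonneg fun l _ => hD l d
      have h9 : 0 ≤ (lam t)⁻¹ * Iw L 0 true 13 i t (DT i F t) :=
        mul_nonneg (inv_pos.2 hl).le (Iw_nonneg hL0 _ _ _ _ _)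
      have h10 : c0 * Dq κ L 0 true 12 i t F2 ≤ c i * Dq κ L 0 true 12 i t F2 :=
        mul_le_mul_of_nonneg_right (hcc i hi) (hD i F2)
      simp only [zero_mul, add_zero, Nat.reduceAdd] at h3 h4
      have h11 : C i * (∑ l ∈ Finset.range i, Dq κ L 0 true 12 l t F2 +
          ∑ l ∈ Finset.range (i + 1), Dq κ L 0 true 12 l t d +
          (lam t)⁻¹ * Iw L 0 true 13 i t (DT i F t)) ≤
          C0 * (∑ l ∈ Finset.range i, Dq κ L 0 true 12 l t F2 + (J + 1) * M +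
            M * (-t) ^ (σ - 1)) :=
        mul_le_mul (hCC i hi) (by linarith) (by linarith) hC0.le
      have h12 : 0 ≤ C0 * J * (M * (-t) ^ (σ - 1)) := by positivity
      have e2 : K * M * ((-t) ^ (σ - 1) + 1) = C0 * J * (M * (-t) ^ (σ - 1)) +
          C0 * ((J + 1) * M + M * (-t) ^ (σ - 1)) + M * (-t) ^ (σ - 1) + M := by
        rw [hK]
        ring
      rw [e2]
      linarith
    choose E' hE' using h1
    have h2 := hh E' (fun i => Dq κ L 0 true 12 i t F2) (fun _ => K * M * ((-t) ^ (σ - 1) + 1))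
      (fun i _ => Iw_nonneg hL0 _ _ _ _ _) fun i hi => (hE' i hi).2
    have hR : 0 ≤ K * M * ((-t) ^ (σ - 1) + 1) := by
      have : 0 < (-t) ^ (σ - 1) := Real.rpow_pos_of_pos (neg_pos.2 ht0) _
      positivity
    have h3 : ∑ i ∈ Finset.range (J + 1), δ ^ i * (K * M * ((-t) ^ (σ - 1) + 1)) ≤
        K' * M * ((-t) ^ (σ - 1) + 1) := by
      refine (Finset.sum_le_card_nsmul _ _ (K * M * ((-t) ^ (σ - 1) + 1)) fun i _ =>
        mul_le_of_le_one_left hR (pow_le_one₀ hδ0.le hδ1)).trans (le_of_eq ?_)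
      rw [Finset.card_range, nsmul_eq_mul, hK']
      push_cast
      ring
    refine ⟨_, (HasDerivAt.fun_sum fun i hi =>
      ((hE' i (Nat.lt_succ_iff.1 (Finset.mem_range.1 hi))).1.const_mul (δ ^ i))).add
      ((hasDerivAt_bar hσ ht0).const_mul (K' * M)), ?_⟩
    linarith
  have h1 := anti hab key
  have hbar : ∀ t : ℝ, t < 0 → 0 ≤ (-t) ^ σ / σ + -t := fun t ht => by
    have : 0 < (-t) ^ σ := Real.rpow_pos_of_pos (neg_pos.2 ht) _
    have := neg_pos.2 ht
    positivity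
  have ha : ta < 0 := lt_of_le_of_lt hab hb
  have h2 : δ ^ J * Iw L 0 true 12 j tb (DT j F tb) ≤
      ∑ i ∈ Finset.range (J + 1), δ ^ i * Iw L 0 true 12 i tb (DT i F tb) := by
    refine le_trans ?_ (Finset.single_le_sum
      (f := fun i => δ ^ i * Iw L 0 true 12 i tb (DT i F tb))
      (fun i _ => mul_nonneg (by positivity) (Iw_nonneg hL0 _ _ _ _ _))
      (Finset.mem_range.2 (Nat.lt_succ_of_le hj)))
    exact mul_le_mul_of_nonneg_right (pow_le_pow_of_le_one hδ0.le hδ1 hj) (Iw_nonneg hL0 _ _ _ _ _)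
  have h3 : ∑ i ∈ Finset.range (J + 1), δ ^ i * Iw L 0 true 12 i ta (DT i F ta) ≤
      K' * ∑ i ∈ Finset.range (J + 1), Iw L 0 true 12 i ta (DT i F ta) := by
    rw [Finset.mul_sum]
    exact Finset.sum_le_sum fun i _ => mul_le_mul_of_nonneg_right
      ((pow_le_one₀ hδ0.le hδ1).trans hK'1) (Iw_nonneg hL0 _ _ _ _ _)
  have h4 : 0 ≤ K' * M * ((-tb) ^ σ / σ + -tb) := by
    have := hbar tb hb
    positivity
  rw [div_mul_eq_mul_div, le_div_iff₀ (by positivity)]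
  linarith

end Crest.Agent.R213.HJB
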