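import Crest.Agent.R213.D2
import Crest.Agent.R213.HJA
import Crest.Agent.R213.HJB

/-!
# Row 213: the energy hierarchies
-/

set_option autoImplicit false

noncomputable section

namespace Crest.Agent.R213

open Set Filter Topology
open scoped ContDiff

/-- The hierarchy with exponent `13`. -/
theorem hJ (J : ℕ) (B : ℝ) (hB : 1 ≤ B) : ∃ C, 0 < C ∧
    ∀ (q : Bool) (κ ε θ L : ℝ) (I : Set ℝ) (γ d e F F1 F2 ζ : Fn) (ta tb σ M : ℝ), IsOpen I →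
      Sys κ ε 0 I γ d e F F1 F2 ζ → Geo κ θ L → ta ≤ tb → tb < 0 → Icc ta tb ⊆ I → lam ta ≤ L →
      0 ≤ σ → σ ≤ 1 / 4 → 0 ≤ M →
      (∀ t ∈ Icc ta tb, AB κ ε γ ζ J B t ∧ Et L θ q 0 t F ≤ M * (-t) ^ σ ∧
        ∀ j ≤ J, Fe L θ q j t e ≤ M * (-t) ^ σ ∧ Fd κ L θ q j t d ≤ M * (-t) ^ σ ∧
          Er L θ q j t F ≤ M * (-t) ^ σ) →
      ∀ j ≤ J, Et L θ q j tb F ≤
        C * ((-tb / -ta) ^ (3 / 8 : ℝ) * ∑ i ∈ Finset.range (J + 1), Et L θ q i ta F +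
          M * (-tb) ^ σ) :=
  HJA.hJ J B hB

/-- The sharp hierarchy with the critical exponent `12`. -/
theorem h12 (J : ℕ) (B : ℝ) (hB : 1 ≤ B) : ∃ C, 0 < C ∧
    ∀ (κ ε L : ℝ) (I : Set ℝ) (γ d e F F1 F2 ζ : Fn) (ta tb σ M : ℝ), IsOpen I →
      Sys κ ε 0 I γ d e F F1 F2 ζ → Geo κ 0 L → ta ≤ tb → tb < 0 → Icc ta tb ⊆ I → lam ta ≤ L →
      0 < σ → 0 ≤ M →
      (∀ t ∈ Icc ta tb, AB κ ε γ ζ J B t ∧
        ∀ j ≤ J, Et L 0 true j t F ≤ M * (-t) ^ σ ∧ lam t * Iw L 0 true 11 j t (DT j e t) ≤ M ∧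
          Dq κ L 0 true 12 j t d ≤ M) →
      ∀ j ≤ J, Iw L 0 true 12 j tb (DT j F tb) ≤
        C * (∑ i ∈ Finset.range (J + 1), Iw L 0 true 12 i ta (DT i F ta) +
          M * ((-ta) ^ σ / σ + -ta)) :=
  HJB.h12 J B hB

end Crest.Agent.R213
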