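import Crest.Agent.R213.Defs

/-!
# Row 213: auxiliary lemmas for `LA`
-/

set_option autoImplicit false

noncomputable section

namespace Crest.Agent.R213.LAA

open Set

theorem ab (b : BG) {J : ℕ} {B t : ℝ} (hB : b.B0 ≤ B) (ht : t < 0)
    (h : ∀ c, 1 ≤ c → c ≤ J → ∀ x ∈ dom 0, om true (-t) ((x + lam t) ^ 2) c * |DT c b.gs t x| ≤ B)
    (ζ : Fn) : AB 0 0 b.gs ζ J B t := by
  intro x hx
  have h0 : 0 < b.B0 := one_pos.trans_le b.one_le
  obtain ⟨h1, h2⟩ := b.gs_bd t ht x hx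
  have h3 : 1 / B ≤ b.gs t x := (div_le_div₀ zero_le_two one_le_two h0 hB).trans h1
  refine ⟨h3, h2.trans hB, ?_, fun c h1 h2 => h c h1 h2 x hx, fun a _ => ?_⟩
  · rwa [zero_mul, zero_mul, add_zero]
  · rw [zero_mul, zero_mul, abs_zero, mul_zero]
    exact h0.le.trans hB

theorem sym (b : BG) (J : ℕ) : ∃ B, b.B0 ≤ B ∧ ∀ t < 0, ∀ c, 1 ≤ c → c ≤ J → ∀ x ∈ dom 0,
    om true (-t) ((x + lam t) ^ 2) c * |DT c b.gs t x| ≤ B := by
  induction J with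
  | zero => exact ⟨_, le_rfl, fun t _ c h1 h2 => absurd (h1.trans h2) Nat.zero_lt_one.not_ge⟩
  | succ J ih =>
    obtain ⟨B, h1, h2⟩ := ih
    obtain ⟨B', h3⟩ := b.gs_sym (J + 1) (Nat.le_add_left _ _)
    refine ⟨max B B', h1.trans (le_max_left _ _), fun t ht c c1 c2 x hx => ?_⟩
    rcases Nat.of_le_succ c2 with c3 | rfl
    · exact (h2 t ht c c1 c3 x hx).trans (le_max_left _ _)
    · exact (h3 t ht x hx).trans (le_max_right _ _)

theorem lam_pos {t : ℝ} (ht : t < 0) : 0 < lam t := Real.sqrt_pos.2 (neg_pos.2 ht)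

theorem one_le_lam {t : ℝ} (ht : t < -1) : 1 ≤ lam t := Real.one_le_sqrt.2 (by linarith)

theorem rpow_sq {t : ℝ} (ht : t < 0) (σ : ℝ) : (lam t ^ σ) ^ 2 = (-t) ^ σ := by
  rw [Real.rpow_pow_comm (lam_pos ht).le, show lam t ^ 2 = -t from Real.sq_sqrt (neg_pos.2 ht).le]

theorem exists_sq (C : ℕ → ℝ) (n : ℕ) : ∃ M : ℝ, 0 < M ∧ ∀ i ≤ n, C i ≤ M ^ 2 := by
  have h0 : 0 ≤ ∑ i ∈ Finset.range (n + 1), |C i| := Finset.sum_nonneg fun _ _ => abs_nonneg _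
  refine ⟨1 + ∑ i ∈ Finset.range (n + 1), |C i|, by linarith, fun i hi => ?_⟩
  have h1 := (le_abs_self _).trans (Finset.single_le_sum (f := fun i => |C i|)
    (fun _ _ => abs_nonneg _) (Finset.mem_range.2 (Nat.lt_succ_of_le hi)))
  nlinarith

end Crest.Agent.R213.LAA
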