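import Crest.Agent.R213.H0
import Crest.Agent.R213.HJ

/-!
# Row 213: the local supremum in the past controls all energies
-/

set_option autoImplicit false

noncomputable section

namespace Crest.Agent.R213.LAB

open Set Filter Topology

variable {G : Fn} {j : ℕ} {t L R σ : ℝ}

theorem geo (hL : 0 < L) : Geo 0 (1 / L) L :=
  ⟨le_rfl, by positivity, hL, by simp, (one_div_mul_cancel hL.ne').le,
    Or.inr (one_div_mul_cancel hL.ne')⟩

theorem Fe_zero (L θ : ℝ) (j : ℕ) (t : ℝ) : Fe L θ false j t 0 = 0 := by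
  simp [Fe, Iw, DT_zero]

theorem Fd_zero (L θ : ℝ) (j : ℕ) (t : ℝ) : Fd 0 L θ false j t 0 = 0 := by
  simp [Fd, Dq, Iw, DT_zero]

theorem cut_le (ht : t < 0) (hL : 0 < L) (hc : ContinuousOn (DT j G t) (Ici 0)) :
    Et L (1 / L) false j t G ≤ Et L 0 false j t G := by
  refine mul_le_mul_of_nonneg_left ((Iw_le_Iw (c := 1) ht hL.le le_rfl zero_le_one
    (hc.mono Icc_subset_Ici_self) (hc.mono Icc_subset_Ici_self) fun x hx => ?_).trans_eq
    (one_mul _)) (lam_pos ht).le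
  have h1 : 0 ≤ 1 / L * x := mul_nonneg (by positivity) hx.1
  have h2 : 1 / L * x ≤ 1 := by
    rw [one_div, inv_mul_le_iff₀ hL]
    linarith [hx.2]
  have h3 : (1 - 1 / L * x) ^ 4 ≤ 1 := pow_le_one₀ (by linarith) (by linarith)
  have h4 := mul_nonneg (wt_pos false 13 j ht hx.1).le (sq_nonneg (DT j G t x))
  rw [zero_mul, sub_zero, one_pow, one_mul, one_mul, mul_assoc]
  exact mul_le_of_le_one_left h4 h3

theorem le_cut (ht : t < 0) (hR : 0 < R) (hL : R < L) (hc : ContinuousOn (DT j G t) (Ici 0)) :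
    (1 - R / L) ^ 4 * Et R 0 false j t G ≤ Et L (1 / L) false j t G := by
  have hL0 : 0 < L := hR.trans hL
  have h0 : 0 < 1 - R / L := sub_pos.2 ((div_lt_one hL0).2 hL)
  have h := Iw_le_Iw (θ := 0) (θ' := 1 / L) (q := false) (q' := false) (m := 13) (m' := 13)
    (j := j) (j' := j) (c := ((1 - R / L) ^ 4)⁻¹) ht hR.le hL.le (by positivity)
    (hc.mono Icc_subset_Ici_self) (hc.mono Icc_subset_Ici_self) fun x hx => by
      have h1 : 1 / L * x ≤ R / L := by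
        rw [one_div_mul_eq_div]
        exact div_le_div_of_nonneg_right hx.2 hL0.le
      have h3 : (1 - R / L) ^ 4 ≤ (1 - 1 / L * x) ^ 4 := pow_le_pow_left₀ h0.le (by linarith) 4
      have h4 := mul_nonneg (wt_pos false 13 j ht hx.1).le (sq_nonneg (DT j G t x))
      rw [zero_mul, sub_zero, one_pow, one_mul, le_inv_mul_iff₀ (by positivity), mul_assoc]
      exact mul_le_mul_of_nonneg_right h3 h4
  rw [le_inv_mul_iff₀ (by positivity)] at h
  rw [Et, mul_left_comm]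
  exact mul_le_mul_of_nonneg_left h (lam_pos ht).le

theorem limL (ht : t < 0) (hR : 0 < R) (hc : ContinuousOn (DT j G t) (Ici 0)) {X k : ℝ}
    (h : ∀ᶠ L in atTop, Et L (1 / L) false j t G ≤ X + k / L) : Et R 0 false j t G ≤ X := by
  have h1 : Tendsto (fun L : ℝ => (1 - R / L) ^ 4 * Et R 0 false j t G) atTop
      (𝓝 ((1 - 0) ^ 4 * Et R 0 false j t G)) :=
    ((tendsto_const_nhds.sub (tendsto_const_nhds.div_atTop tendsto_id)).pow 4).mul_const _
  have h2 : Tendsto (fun L : ℝ => X + k / L) atTop (𝓝 (X + 0)) :=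
    tendsto_const_nhds.add (tendsto_const_nhds.div_atTop tendsto_id)
  have h3 := le_of_tendsto_of_tendsto h1 h2 (by
    filter_upwards [h, eventually_gt_atTop R] with L h hL
    exact (le_cut ht hR hL hc).trans h)
  simpa using h3

theorem limT {Y a c T : ℝ} (hT : 0 < T) (hσ : σ ≤ 1 / 4)
    (h : ∀ᶠ s in atTop, Y ≤ a * ((T / s) ^ (3 / 8 : ℝ) * s ^ σ) + c) : Y ≤ c := by
  have h1 : Tendsto (fun s : ℝ => a * (T ^ (3 / 8 : ℝ) * s ^ (-(3 / 8 - σ))) + c) atTop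
      (𝓝 (a * (T ^ (3 / 8 : ℝ) * 0) + c)) :=
    (((tendsto_rpow_neg_atTop (by linarith)).const_mul _).const_mul _).add_const _
  have h2 := ge_of_tendsto h1 (b := Y) (by
    filter_upwards [h, eventually_gt_atTop 0] with s h hs
    rwa [Real.div_rpow hT.le hs.le, div_mul_eq_mul_div, mul_div_assoc, ← Real.rpow_sub hs,
      ← neg_sub] at h)
  simpa using h2

theorem eb_all (h : EB σ G) (J : ℕ) : ∃ C, 0 ≤ C ∧ ∀ i ≤ J, ∀ t < -1, ∀ R, 0 < R →
    Et R 0 false i t G ≤ C * (-t) ^ σ := by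
  choose C hC using h
  refine ⟨∑ i ∈ Finset.range (J + 1), |C i|, by positivity, fun i hi t ht R hR =>
    (hC i t ht R hR).trans (mul_le_mul_of_nonneg_right ((le_abs_self _).trans ?_)
      (Real.rpow_nonneg (by linarith) _))⟩
  exact Finset.single_le_sum (f := fun i => |C i|) (fun _ _ => abs_nonneg _)
    (Finset.mem_range.2 (by omega))

theorem Er_le {C ta : ℝ} (hL : 0 < L) (hta : ta ≤ t) (ht : t < 0) (hC : 0 ≤ C)
    (h : Et L 0 false j t G ≤ C * (-t) ^ σ) :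
    Er L (1 / L) false j t G ≤ lam ta * C / L * (-t) ^ σ := by
  have h1 := lam_anti hta
  have h2 := lam_pos ht
  have h3 : 0 ≤ (-t) ^ σ := Real.rpow_nonneg (by linarith) _
  calc _ ≤ 1 / L * lam t * (C * (-t) ^ σ) := mul_le_mul_of_nonneg_left h (by positivity)
    _ ≤ 1 / L * lam ta * (C * (-t) ^ σ) := by gcongr
    _ = _ := by ring

theorem cont {b : BG} {G1 G2 : Fn} (h : IsLin b (-1) G G1 G2) (j : ℕ) (ht : t < -1) :
    ContinuousOn (DT j G t) (Ici 0) := dom_zero ▸ h.tF.cont_x j ht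

/-- Step 1: times before `t1`. -/
theorem step1 {b : BG} (hab0 : ∀ ζ : Fn, ∀ t < 0, AB 0 0 b.gs ζ 0 b.B0 t) {R0 C0 M t1 : ℝ}
    (h0 : H0P b.B0 R0 C0) (hσ : 0 ≤ σ) (hσ' : σ ≤ 1 / 4) (ht1 : t1 ≤ -1) (hG : IsAnc b σ G)
    (hN : NB σ R0 M t1 G) (ht : t < t1) (hR : 0 < R) :
    Et R 0 false 0 t G ≤ C0 * M ^ 2 * (-t) ^ σ := by
  obtain ⟨-, ⟨G1, G2, hl⟩, hE⟩ := hG
  obtain ⟨C, hC, hE⟩ := eb_all hE 0
  refine limT (T := -t) (a := C) (by linarith) hσ' ?_
  filter_upwards [eventually_ge_atTop (-t)] with s hs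
  refine limL (by linarith) hR (cont hl 0 (by linarith))
    (k := C0 * (lam (-s) * C) * (-t) ^ σ) ?_
  filter_upwards [eventually_ge_atTop (lam (-s)), eventually_gt_atTop 0] with L hL hL0
  have hl0 := (lam_pos (show -s < 0 by linarith)).le
  have hk : 0 ≤ lam (-s) * C / L := by positivity
  have h := h0.2.2 0 0 (1 / L) L _ _ _ _ _ _ _ _ (-s) t σ (M ^ 2 + lam (-s) * C / L) isOpen_Iio hl
    (geo hL0) (by linarith) (by linarith) (fun τ hτ => show τ < -1 by linarith [hτ.2]) hL hσ hσ'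
    (by positivity) fun τ hτ => by
      have hτ0 : τ < 0 := by linarith [hτ.2]
      have hp : 0 ≤ (-τ) ^ σ := Real.rpow_nonneg (by linarith) _
      refine ⟨hab0 _ τ hτ0, fun x hx hxR => ?_, by rw [Fe_zero]; positivity,
        by rw [Fd_zero]; positivity, (Er_le hL0 hτ.1 hτ0 hC
          (hE 0 le_rfl τ (by linarith [hτ.2]) L hL0)).trans
          (mul_le_mul_of_nonneg_right (by nlinarith) hp)⟩
      have h1 := hN τ (by linarith [hτ.2]) x ⟨hx.1, hxR⟩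
      have h2 : (lam τ ^ (1 + σ)) ^ 2 = (-τ) ^ (1 + σ) := by
        rw [← lam_sq hτ0.le, ← Real.rpow_natCast, ← Real.rpow_natCast,
          ← Real.rpow_mul (lam_pos hτ0).le, ← Real.rpow_mul (lam_pos hτ0).le, mul_comm]
      have h3 := pow_le_pow_left₀ (abs_nonneg _) h1 2
      rw [sq_abs, mul_pow, h2] at h3
      exact h3.trans (mul_le_mul_of_nonneg_right (by linarith)
        (Real.rpow_nonneg (by linarith) _))
  have h1 := (cut_le (by linarith) hL0 (cont hl 0 (show -s < -1 by linarith))).trans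
    (hE 0 le_rfl (-s) (by linarith) L hL0)
  have h2 := mul_le_mul_of_nonneg_left h1
    (Real.rpow_nonneg (div_nonneg (show 0 ≤ -t by linarith) (show 0 ≤ s by linarith)) (3 / 8))
  rw [neg_neg] at h h2
  calc _ ≤ _ := h
    _ ≤ (-t / s) ^ (3 / 8 : ℝ) * (C * s ^ σ) + C0 * (M ^ 2 + lam (-s) * C / L) * (-t) ^ σ := by
      linarith
    _ = _ := by ring

/-- Step 2: all times. -/
theorem step2 {b : BG} (hab0 : ∀ ζ : Fn, ∀ t < 0, AB 0 0 b.gs ζ 0 b.B0 t) {R0 C0 : ℝ}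
    (h0 : H0P b.B0 R0 C0) (Λ : ℝ) : ∃ C, 0 < C ∧
    ∀ (σ M t1 : ℝ) (G : Fn), 0 ≤ σ → σ ≤ 1 / 4 → -Λ ≤ t1 → t1 ≤ -1 → IsAnc b σ G →
      NB σ R0 M t1 G → ∀ t < -1, ∀ R, 0 < R → Et R 0 false 0 t G ≤ C * M ^ 2 * (-t) ^ σ := by
  obtain ⟨K, -, hg⟩ := h0g b.B0 b.one_le
  have hC0 := h0.2.1
  obtain ⟨A, hA, hΛ⟩ : ∃ A : ℝ, 1 ≤ A ∧ Λ + 1 ≤ A := ⟨max 1 (Λ + 1), le_max_left _ _, le_max_right _ _⟩
  have hAK : 1 ≤ A ^ K := one_le_pow₀ hA
  refine ⟨A ^ K * A * C0, by positivity, fun σ M t1 G hσ hσ' hΛ1 ht1 hG hN t ht R hR => ?_⟩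
  have hp : 1 ≤ (-t) ^ σ := Real.one_le_rpow (by linarith) hσ
  rcases lt_or_ge t t1 with h1 | h1
  · refine (step1 hab0 h0 hσ hσ' ht1 hG hN h1 hR).trans ?_
    gcongr
    exact le_mul_of_one_le_left hC0.le (one_le_mul_of_one_le_of_one_le hAK hA)
  have hs := fun L hL => step1 (t := t1 - 1) (R := L) hab0 h0 hσ hσ' ht1 hG hN (by linarith) hL
  obtain ⟨-, ⟨G1, G2, hl⟩, hE⟩ := hG
  obtain ⟨C, hC, hE⟩ := eb_all hE 0
  have hA1 : ∀ τ, t1 - 1 ≤ τ → τ < -1 → (-τ) ^ σ ≤ A := fun τ h1 h2 =>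
    (Real.rpow_le_rpow_of_exponent_le (by linarith) (show σ ≤ 1 by linarith)).trans
      (by rw [Real.rpow_one]; linarith)
  refine limL (by linarith) hR (cont hl 0 ht) (k := A ^ K * (lam (t1 - 1) * C * A)) ?_
  filter_upwards [eventually_ge_atTop (lam (t1 - 1)), eventually_gt_atTop 0] with L hL hL0
  have hl0 := (lam_pos (show t1 - 1 < 0 by linarith)).le
  have hk : 0 ≤ lam (t1 - 1) * C / L := by positivity
  have h := hg 0 0 (1 / L) L _ _ _ _ _ _ _ _ (t1 - 1) t (lam (t1 - 1) * C / L * A) isOpen_Iio hl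
    (geo hL0) (by linarith) (by linarith) (fun τ hτ => show τ < -1 by linarith [hτ.2]) hL
    (by positivity) fun τ hτ => by
      have hτ1 : τ < -1 := by linarith [hτ.2]
      exact ⟨hab0 _ τ (by linarith), by rw [Fe_zero]; positivity, by rw [Fd_zero]; positivity,
        (Er_le hL0 hτ.1 (by linarith) hC (hE 0 le_rfl τ hτ1 L hL0)).trans
          (mul_le_mul_of_nonneg_left (hA1 τ hτ.1 hτ1) hk)⟩
  have h2 := (cut_le (by linarith) hL0 (cont hl 0 (show t1 - 1 < -1 by linarith))).trans (hs L hL0)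
  have h3 : (-(t1 - 1) / -t) ^ K ≤ A ^ K := pow_le_pow_left₀
    (div_nonneg (by linarith) (by linarith))
    ((div_le_self (by linarith) (by linarith)).trans (by linarith)) K
  have h4 := hA1 (t1 - 1) le_rfl (by linarith)
  have h5 : Et L (1 / L) false 0 (t1 - 1) G ≤ C0 * M ^ 2 * A * (-t) ^ σ :=
    (h2.trans (mul_le_mul_of_nonneg_left h4 (by positivity))).trans
      (le_mul_of_one_le_right (by positivity) hp)
  have h6 : 0 ≤ Et L (1 / L) false 0 (t1 - 1) G := mul_nonneg hl0 (Iw_nonneg hL0.le _ _ _ _ _)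
  calc _ ≤ _ := h
    _ ≤ A ^ K * (C0 * M ^ 2 * A * (-t) ^ σ + lam (t1 - 1) * C / L * A) := by gcongr
    _ = _ := by ring

theorem la1 (b : BG) (hab0 : ∀ ζ : Fn, ∀ t < 0, AB 0 0 b.gs ζ 0 b.B0 t) {R0 C0 : ℝ}
    (h0 : H0P b.B0 R0 C0) (j : ℕ) (hab : ∃ B, b.B0 ≤ B ∧ ∀ (ζ : Fn), ∀ t < 0, AB 0 0 b.gs ζ j B t)
    (Λ : ℝ) : ∃ C, 0 < C ∧
    ∀ (σ M t1 : ℝ) (G : Fn), 0 ≤ σ → σ ≤ 1 / 4 → 0 ≤ M → -Λ ≤ t1 → t1 ≤ -1 → IsAnc b σ G →
      NB σ R0 M t1 G → ∀ t < -1, ∀ R, 0 < R → Et R 0 false j t G ≤ C * M ^ 2 * (-t) ^ σ := by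
  obtain ⟨B, hB, hab⟩ := hab
  obtain ⟨C1, hC1, h1⟩ := step2 hab0 h0 Λ
  obtain ⟨K, hK, hg⟩ := hJ j B (b.one_le.trans hB)
  refine ⟨K * C1, by positivity, fun σ M t1 G hσ hσ' _ hΛ ht1 hG hN t ht R hR => ?_⟩
  have h1 := h1 σ M t1 G hσ hσ' hΛ ht1 hG hN
  obtain ⟨-, ⟨G1, G2, hl⟩, hE⟩ := hG
  obtain ⟨C, hC, hE⟩ := eb_all hE j
  refine limT (T := -t) (a := K * ((j + 1 : ℕ) * C)) (by linarith) hσ' ?_
  filter_upwards [eventually_ge_atTop (-t)] with s hs
  refine limL (by linarith) hR (cont hl j ht) (k := K * (lam (-s) * C) * (-t) ^ σ) ?_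
  filter_upwards [eventually_ge_atTop (lam (-s)), eventually_gt_atTop 0] with L hL hL0
  have hl0 := (lam_pos (show -s < 0 by linarith)).le
  have hk : 0 ≤ lam (-s) * C / L := by positivity
  have hM : 0 ≤ C1 * M ^ 2 := by positivity
  have h := hg false 0 0 (1 / L) L _ _ _ _ _ _ _ _ (-s) t σ (C1 * M ^ 2 + lam (-s) * C / L)
    isOpen_Iio hl (geo hL0) (by linarith) (by linarith)
    (fun τ hτ => show τ < -1 by linarith [hτ.2]) hL hσ hσ' (by positivity) (fun τ hτ => by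
      have hτ1 : τ < -1 := by linarith [hτ.2]
      have hp : 0 ≤ (-τ) ^ σ := Real.rpow_nonneg (by linarith) _
      refine ⟨hab _ τ (by linarith), ((cut_le (by linarith) hL0 (cont hl 0 hτ1)).trans
        (h1 τ hτ1 L hL0)).trans (mul_le_mul_of_nonneg_right (by linarith) hp), fun i hi =>
        ⟨by rw [Fe_zero]; positivity, by rw [Fd_zero]; positivity,
          (Er_le hL0 hτ.1 (by linarith) hC (hE i hi τ hτ1 L hL0)).trans
            (mul_le_mul_of_nonneg_right (by linarith) hp)⟩⟩) j le_rfl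
  have h2 : ∑ i ∈ Finset.range (j + 1), Et L (1 / L) false i (-s) G ≤ (j + 1 : ℕ) * (C * s ^ σ) := by
    have h3 := Finset.sum_le_card_nsmul (Finset.range (j + 1))
      (fun i => Et L (1 / L) false i (-s) G) (C * (- -s) ^ σ) fun i hi =>
      (cut_le (by linarith) hL0 (cont hl i (show -s < -1 by linarith))).trans
        (hE i (Nat.lt_succ_iff.1 (Finset.mem_range.1 hi)) (-s) (by linarith) L hL0)
    rwa [Finset.card_range, nsmul_eq_mul, neg_neg] at h3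
  have h3 := Real.rpow_nonneg (div_nonneg (show 0 ≤ -t by linarith) (show 0 ≤ s by linarith)) (3 / 8)
  rw [neg_neg] at h
  calc _ ≤ _ := h
    _ ≤ K * ((-t / s) ^ (3 / 8 : ℝ) * ((j + 1 : ℕ) * (C * s ^ σ)) +
        (C1 * M ^ 2 + lam (-s) * C / L) * (-t) ^ σ) := by gcongr
    _ = _ := by ring

end Crest.Agent.R213.LAB
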