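import Crest.Agent.R213.H0
import Crest.Agent.R213.HJ
import Crest.Agent.R213.PTg
import Crest.Agent.R213.LAB
import Crest.Agent.R213.LAA

/-!
# Row 213: a priori estimates for ancient solutions
-/

set_option autoImplicit false

noncomputable section

namespace Crest.Agent.R213

open Set Filter Topology
open scoped ContDiff

theorem BG.ab (b : BG) (J : ℕ) : ∃ B, b.B0 ≤ B ∧ ∀ (ζ : Fn), ∀ t < 0, AB 0 0 b.gs ζ J B t := by
  obtain ⟨B, h1, h2⟩ := LAA.sym b J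
  exact ⟨B, h1, fun ζ t ht => LAA.ab b h1 ht (h2 t ht) ζ⟩

theorem BG.ab0 (b : BG) (ζ : Fn) : ∀ t < 0, AB 0 0 b.gs ζ 0 b.B0 t := by
  intro t ht
  exact LAA.ab b le_rfl ht (fun c h1 h2 => absurd (h1.trans h2) Nat.zero_lt_one.not_ge) ζ

/-- Energy bounds imply pointwise bounds. -/
theorem la_pt (b : BG) (j : ℕ) (R : ℝ) : ∃ C, 0 < C ∧ ∀ (T σ M t : ℝ) (G G1 G2 : Fn),
    IsLin b T G G1 G2 → t < T → t < 0 → 0 ≤ M →
    (∀ i ≤ j + 4, ∀ R', 0 < R' → Et R' 0 false i t G ≤ M ^ 2 * (-t) ^ σ) →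
    ∀ x ∈ Icc 0 (R * lam t), (-t) ^ j * |DT j G t x| ≤ C * M * lam t ^ (1 + σ) ∧
      (-t) ^ j * lam t * |DT j G1 t x| ≤ C * M * lam t ^ (1 + σ) ∧
      (-t) ^ (j + 1) * |DT j G2 t x| ≤ C * M * lam t ^ (1 + σ) := by
  obtain ⟨B, hB, hab⟩ := b.ab (j + 3)
  obtain ⟨C, hC, h⟩ := ptloc j B (max R 1) (b.one_le.trans hB) (le_max_right _ _)
  refine ⟨C, hC, fun T σ M t G G1 G2 hG hT ht hM hE x hx => ?_⟩
  have hl := LAA.lam_pos ht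
  have hR : 0 < max R 1 * lam t := mul_pos (one_pos.trans_le (le_max_right _ _)) hl
  have hM' : 0 ≤ M * lam t ^ σ := mul_nonneg hM (Real.rpow_nonneg hl.le _)
  have h1 := h 0 0 t (M * lam t ^ σ) _ _ _ _ _ _ _ _ isOpen_Iio hG hT ht (hab _ t ht)
    (by rw [mul_zero, zero_mul]; exact zero_le_one) hM'
    (fun i hi => by
      rw [mul_pow, LAA.rpow_sq ht]
      exact hE i hi _ (by linarith))
    (fun i _ y _ => by
      rw [DT_zero, Pi.zero_apply, Pi.zero_apply, abs_zero, mul_zero]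
      exact ⟨mul_nonneg hM' hl.le, mul_nonneg hM' hl.le⟩)
    j le_rfl x ⟨hx.1, hx.2.trans ((mul_le_mul_of_nonneg_right (le_max_left R 1) hl.le).trans
      (by linarith))⟩
  rw [show C * M * lam t ^ (1 + σ) = C * (M * lam t ^ σ) * lam t by
    rw [Real.rpow_add hl, Real.rpow_one]; ring]
  exact ⟨h1.1, h1.2.1, h1.2.2.1⟩

/-- Ancient solutions are locally bounded. -/
theorem la0 {b : BG} {σ : ℝ} {G : Fn} (h : IsAnc b σ G) (R : ℝ) :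
    ∃ M, 0 ≤ M ∧ NB σ R M (-1) G := by
  obtain ⟨-, ⟨G1, G2, hG⟩, hE⟩ := h
  choose E hE using hE
  obtain ⟨M, hM, hEM⟩ := LAA.exists_sq E (0 + 4)
  obtain ⟨C, hC, h⟩ := la_pt b 0 R
  refine ⟨C * M, (mul_pos hC hM).le, fun t ht x hx => ?_⟩
  have h1 := (h (-1) σ M t G G1 G2 hG ht (by linarith) hM.le (fun i hi R' hR' =>
    (hE i t ht R' hR').trans (mul_le_mul_of_nonneg_right (hEM i hi)
      (Real.rpow_nonneg (by linarith) _))) x hx).1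
  rwa [pow_zero, one_mul] at h1

/-- The local supremum in the past controls all energies. -/
theorem la1 (b : BG) {R0 C0 : ℝ} (h0 : H0P b.B0 R0 C0) (j : ℕ) (Λ : ℝ) : ∃ C, 0 < C ∧
    ∀ (σ M t1 : ℝ) (G : Fn), 0 ≤ σ → σ ≤ 1 / 4 → 0 ≤ M → -Λ ≤ t1 → t1 ≤ -1 → IsAnc b σ G →
      NB σ R0 M t1 G → ∀ t < -1, ∀ R, 0 < R → Et R 0 false j t G ≤ C * M ^ 2 * (-t) ^ σ :=
  LAB.la1 b b.ab0 h0 j (b.ab j) Λ

/-- ... and all pointwise quantities. -/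
theorem la2 (b : BG) {R0 C0 : ℝ} (h0 : H0P b.B0 R0 C0) (j : ℕ) (R Λ : ℝ) : ∃ C, 0 < C ∧
    ∀ (σ M t1 : ℝ) (G G1 G2 : Fn), 0 ≤ σ → σ ≤ 1 / 4 → 0 ≤ M → -Λ ≤ t1 → t1 ≤ -1 → IsAnc b σ G →
      IsLin b (-1) G G1 G2 → NB σ R0 M t1 G → ∀ t < -1, ∀ x ∈ Icc 0 (R * lam t),
        (-t) ^ j * |DT j G t x| ≤ C * M * lam t ^ (1 + σ) ∧
        (-t) ^ j * lam t * |DT j G1 t x| ≤ C * M * lam t ^ (1 + σ) ∧
        (-t) ^ (j + 1) * |DT j G2 t x| ≤ C * M * lam t ^ (1 + σ) := by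
  choose E _ hE using fun i => la1 b h0 i Λ
  obtain ⟨A, hA, hEA⟩ := LAA.exists_sq E (j + 4)
  obtain ⟨C, hC, h⟩ := la_pt b j R
  refine ⟨C * A, mul_pos hC hA, fun σ M t1 G G1 G2 s0 s1 hM t0 t2 hG hL hN t ht x hx => ?_⟩
  rw [mul_assoc C A M]
  refine h (-1) σ (A * M) t G G1 G2 hL ht (by linarith) (mul_nonneg hA.le hM)
    (fun i hi R' hR' => (hE i σ M t1 G s0 s1 hM t0 t2 hG hN t ht R' hR').trans ?_) x hx
  rw [mul_pow]
  exact mul_le_mul_of_nonneg_right (mul_le_mul_of_nonneg_right (hEA i hi) (sq_nonneg M))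
    (Real.rpow_nonneg (by linarith) _)

/-- Forward uniqueness and definiteness of the local supremum. -/
theorem la_eq_zero (b : BG) {R0 C0 : ℝ} (h0 : H0P b.B0 R0 C0) {σ t1 : ℝ} {G : Fn} (hσ : 0 ≤ σ)
    (hσ' : σ ≤ 1 / 4) (ht : t1 ≤ -1) (h : IsAnc b σ G) (hz : NB σ R0 0 t1 G) : G = 0 := by
  funext t x
  by_cases hx : t < -1 ∧ 0 ≤ x
  · obtain ⟨C, -, h2⟩ := la2 b h0 0 x (-t1)
    obtain ⟨G1, G2, hG⟩ := h.2.1
    have h1 := (h2 σ 0 t1 G G1 G2 hσ hσ' le_rfl (neg_neg t1).le ht h hG hz t hx.1 x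
      ⟨hx.2, le_mul_of_one_le_right hx.2 (LAA.one_le_lam hx.1)⟩).1
    rw [pow_zero, one_mul, mul_zero, zero_mul] at h1
    exact abs_nonpos_iff.1 h1
  · exact h.1 t x hx

end Crest.Agent.R213
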