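import Crest.Agent.R213.Reg

/-!
# Row 213: smooth inverses and the curvature of a radial potential
-/

set_option autoImplicit false

noncomputable section

namespace Crest.Agent.R213.LegA

open Set Filter Topology
open scoped ContDiff

/-- A continuous right inverse of a smooth map with invertible derivative is smooth. -/
theorem contDiffOn_inverse {E : Type*} [NormedAddCommGroup E] [NormedSpace ℝ E] [CompleteSpace E]
    {s : Set E} (hs : UniqueDiffOn ℝ s) {f g : E → E} (hf : ContDiffOn ℝ ∞ f s)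
    (hg : ContinuousOn g s) (hm : MapsTo g s s) (hfg : ∀ x ∈ s, f (g x) = x)
    (hi : ∀ y ∈ s, (fderivWithin ℝ f s y).IsInvertible) : ContDiffOn ℝ ∞ g s := by
  have hf' := ((contDiffOn_infty_iff_fderivWithin hs).1 hf)
  have hd : ∀ x ∈ s, HasFDerivWithinAt g (fderivWithin ℝ f s (g x)).inverse s x := by
    intro x hx
    obtain ⟨e, he⟩ := hi _ (hm hx)
    have h1 := (hf'.1 _ (hm hx)).hasFDerivWithinAt
    rw [← he] at h1 ⊢
    rw [ContinuousLinearMap.inverse_equiv]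
    exact h1.of_local_left_inverse ((hg x hx).tendsto_nhdsWithin hm) hx
      (eventually_mem_nhdsWithin.mono hfg)
  rw [contDiffOn_infty]
  intro n
  induction n with
  | zero => exact contDiffOn_zero.2 hg
  | succ n ih =>
    rw [Nat.cast_succ, contDiffOn_succ_iff_hasFDerivWithinAt_of_uniqueDiffOn hs]
    refine ⟨by simp, _, fun x hx => ?_, hd⟩
    exact (hi _ (hm hx)).contDiffAt_map_inverse.comp_contDiffWithinAt x
      ((((hf'.2.of_le (mod_cast le_top)).comp ih hm)) x hx)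

theorem exists_inverse {I : Set ℝ} (hI : IsOpen I) {X X1 : Fn}
    (hX : ContDiffOn ℝ ∞ (fun p : ℝ × ℝ => X p.1 p.2) (I ×ˢ Icc 0 1))
    (hd : ∀ t ∈ I, ∀ y ∈ Icc (0 : ℝ) 1, HasDerivWithinAt (X t) (X1 t y) (Icc 0 1) y ∧ 0 < X1 t y)
    (h0 : ∀ t ∈ I, X t 0 = 0 ∧ X t 1 = 1) :
    ∃ Y : Fn, ContDiffOn ℝ ∞ (fun p : ℝ × ℝ => Y p.1 p.2) (I ×ˢ Icc 0 1) ∧
      ∀ t ∈ I, ∀ x ∈ Icc (0 : ℝ) 1, Y t x ∈ Icc (0 : ℝ) 1 ∧ X t (Y t x) = x ∧ Y t (X t x) = x := by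
  have hc : ∀ t ∈ I, ContinuousOn (X t) (Icc 0 1) := fun t ht y hy =>
    (hd t ht y hy).1.continuousWithinAt
  have hmono : ∀ t ∈ I, StrictMonoOn (X t) (Icc 0 1) := fun t ht =>
    strictMonoOn_of_hasDerivWithinAt_pos (convex_Icc 0 1) (hc t ht)
      (fun y hy => (hd t ht y (interior_subset hy)).1.mono interior_subset)
      fun y hy => (hd t ht y (interior_subset hy)).2
  have hex : ∀ t ∈ I, ∀ x ∈ Icc (0 : ℝ) 1, ∃ y ∈ Icc (0 : ℝ) 1, X t y = x := fun t ht x hx => by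
    have := intermediate_value_Icc zero_le_one (hc t ht)
    rw [(h0 t ht).1, (h0 t ht).2] at this
    exact this hx
  set Y : Fn := fun t x => Function.invFunOn (X t) (Icc 0 1) x with hY
  have hY1 : ∀ t ∈ I, ∀ x ∈ Icc (0 : ℝ) 1, Y t x ∈ Icc (0 : ℝ) 1 ∧ X t (Y t x) = x :=
    fun t ht x hx => Function.invFunOn_pos (hex t ht x hx)
  refine ⟨Y, ?_, fun t ht x hx => ⟨(hY1 t ht x hx).1, (hY1 t ht x hx).2,
    (hmono t ht).injOn.leftInvOn_invFunOn hx⟩⟩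
  have hs : UniqueDiffOn ℝ (I ×ˢ Icc (0 : ℝ) 1) :=
    hI.uniqueDiffOn.prod (uniqueDiffOn_Icc zero_lt_one)
  have hXa : ∀ a ∈ Icc (0 : ℝ) 1, ContinuousOn (fun p : ℝ × ℝ => X p.1 a) (I ×ˢ Icc 0 1) :=
    fun a ha => hX.continuousOn.comp (f := fun p : ℝ × ℝ => (p.1, a))
      (by fun_prop) fun p hp => ⟨hp.1, ha⟩
  have hYc : ContinuousOn (fun p : ℝ × ℝ => Y p.1 p.2) (I ×ˢ Icc 0 1) := by
    intro p hp
    obtain ⟨h1, h2⟩ := hY1 p.1 hp.1 p.2 hp.2
    refine tendsto_order.2 ⟨fun a ha => ?_, fun a ha => ?_⟩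
    · rcases lt_or_ge a 0 with h | h
      · exact eventually_mem_nhdsWithin.mono fun q hq => h.trans_le (hY1 q.1 hq.1 q.2 hq.2).1.1
      · have ha' : a ∈ Icc (0 : ℝ) 1 := ⟨h, ha.le.trans h1.2⟩
        have h3 : X p.1 a < p.2 := h2 ▸ hmono p.1 hp.1 ha' h1 ha
        filter_upwards [(hXa a ha' p hp).eventually_lt continuousWithinAt_snd h3,
          self_mem_nhdsWithin] with q h4 hq
        obtain ⟨h5, h6⟩ := hY1 q.1 hq.1 q.2 hq.2
        exact ((hmono q.1 hq.1).lt_iff_lt ha' h5).1 (h6.symm ▸ h4)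
    · rcases lt_or_ge 1 a with h | h
      · exact eventually_mem_nhdsWithin.mono fun q hq => (hY1 q.1 hq.1 q.2 hq.2).1.2.trans_lt h
      · have ha' : a ∈ Icc (0 : ℝ) 1 := ⟨h1.1.trans ha.le, h⟩
        have h3 : p.2 < X p.1 a := h2 ▸ hmono p.1 hp.1 h1 ha' ha
        filter_upwards [continuousWithinAt_snd.eventually_lt (hXa a ha' p hp) h3,
          self_mem_nhdsWithin] with q h4 hq
        obtain ⟨h5, h6⟩ := hY1 q.1 hq.1 q.2 hq.2
        exact ((hmono q.1 hq.1).lt_iff_lt h5 ha').1 (h6.symm ▸ h4)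
  refine (contDiffOn_inverse hs (f := fun p : ℝ × ℝ => (p.1, X p.1 p.2))
    (g := fun p : ℝ × ℝ => (p.1, Y p.1 p.2)) (contDiffOn_fst.prodMk hX)
    (continuousOn_fst.prodMk hYc) (fun p hp => ⟨hp.1, (hY1 p.1 hp.1 p.2 hp.2).1⟩)
    (fun p hp => Prod.ext rfl (hY1 p.1 hp.1 p.2 hp.2).2) fun p hp => ?_).snd
  have h1 := (hX.differentiableOn (by simp) p hp).hasFDerivWithinAt
  set A := fderivWithin ℝ (fun p : ℝ × ℝ => X p.1 p.2) (I ×ˢ Icc 0 1) p with hA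
  have h2 : A (0, 1) = X1 p.1 p.2 := by
    have h3 : HasDerivWithinAt (fun y : ℝ => (p.1, y)) ((0 : ℝ), (1 : ℝ)) (Icc 0 1) p.2 :=
      (hasDerivWithinAt_const _ _ _).prodMk (hasDerivWithinAt_id _ _)
    have h4 := h1.comp_hasDerivWithinAt p.2 h3 fun y hy => mk_mem_prod hp.1 hy
    exact (uniqueDiffOn_Icc zero_lt_one p.2 hp.2).eq_deriv _ h4 (hd p.1 hp.1 p.2 hp.2).1
  rw [(hasFDerivWithinAt_fst.prodMk h1).fderivWithin (hs p hp)]
  have h5 : Function.Injective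
      (((ContinuousLinearMap.fst ℝ ℝ ℝ).prod A : ℝ × ℝ →L[ℝ] ℝ × ℝ) : ℝ × ℝ →ₗ[ℝ] ℝ × ℝ) := by
    rw [injective_iff_map_eq_zero]
    rintro ⟨a, b⟩ h
    have ha : a = 0 := congrArg Prod.fst h
    have hb : A (a, b) = 0 := congrArg Prod.snd h
    have h6 : ((a, b) : ℝ × ℝ) = b • (0, 1) := by simp [ha]
    rw [h6, map_smul, h2, smul_eq_mul] at hb
    rw [h6, (mul_eq_zero.1 hb).resolve_right (hd p.1 hp.1 p.2 hp.2).2.ne', zero_smul]
  exact ⟨(LinearEquiv.ofInjectiveEndo _ h5).toContinuousLinearEquiv, by ext <;> rfl⟩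

theorem dw_sm {f : ℝ → ℝ} (hf : ContDiffOn ℝ ∞ f (Icc 0 1)) : ContDiffOn ℝ ∞ (dw f) (Icc 0 1) :=
  ((contDiffOn_infty_iff_derivWithin (uniqueDiffOn_Icc zero_lt_one)).1 hf).2

theorem hasDerivAt_dw {f : ℝ → ℝ} (hf : ContDiffOn ℝ ∞ f (Icc 0 1)) {x : ℝ}
    (hx : x ∈ Ioo (0 : ℝ) 1) : HasDerivAt f (dw f x) x :=
  (hf.differentiableOn (by simp) x (Ioo_subset_Icc_self hx)).hasDerivWithinAt.hasDerivAt
    (Icc_mem_nhds hx.1 hx.2)

theorem dw_eq {f g : ℝ → ℝ} {c x : ℝ} (hx : x ∈ Ioo (0 : ℝ) 1) (h : ∀ y ∈ Ioo (0 : ℝ) 1, f y = g y)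
    (hg : HasDerivAt g c x) : dw f x = c :=
  (hg.congr_of_eventuallyEq
    (eventuallyEq_of_mem (Ioo_mem_nhds hx.1 hx.2) h)).hasDerivWithinAt.derivWithin
    (uniqueDiffOn_Icc zero_lt_one x (Ioo_subset_Icc_self hx))

theorem curv_eq {ψ τ Γ S : ℝ → ℝ} (hψ : ContDiffOn ℝ ∞ ψ (Icc 0 1))
    (hS : ContinuousOn S (Icc 0 1))
    (ha : ∀ x ∈ Icc (0 : ℝ) 1, 0 < aa ψ x) (ht : ∀ x ∈ Icc (0 : ℝ) 1, 0 < tx ψ x)
    (hτ : ∀ x ∈ Icc (0 : ℝ) 1, τ x = x * aa ψ x) (hm : ∀ x ∈ Ioo (0 : ℝ) 1, τ x ∈ Ioo (0 : ℝ) 1)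
    (hφ : ∀ x ∈ Ioo (0 : ℝ) 1, x * (1 - x) * tx ψ x = ph 1 (τ x) * Γ (τ x))
    (he : ∀ y ∈ Icc (0 : ℝ) 1, y ^ 9 * ph 1 y * Γ y = y ^ 10 - Vol S y) :
    ∀ x ∈ Ico (0 : ℝ) 1, curv ψ x = S (τ x) := by
  have s1 := dw_sm hψ
  have s2 := dw_sm s1
  have sa : ContDiffOn ℝ ∞ (aa ψ) (Icc 0 1) :=
    contDiffOn_const.add ((contDiffOn_const.sub contDiffOn_id).mul s1)
  have st : ContDiffOn ℝ ∞ (tx ψ) (Icc 0 1) :=
    (contDiffOn_const.add ((contDiffOn_const.sub (contDiffOn_const.mul contDiffOn_id)).mul s1)).add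
      ((contDiffOn_id.mul (contDiffOn_const.sub contDiffOn_id)).mul s2)
  have sm : ContDiffOn ℝ ∞ (mm ψ) (Icc 0 1) :=
    (contDiffOn_const.mul (sa.log fun x hx => (ha x hx).ne')).add
      (st.log fun x hx => (ht x hx).ne')
  have sm1 := dw_sm sm
  have sr : ContDiffOn ℝ ∞ (fun y => 11 * y - y * (1 - y) * dw (mm ψ) y) (Icc 0 1) :=
    (contDiffOn_const.mul contDiffOn_id).sub
      ((contDiffOn_id.mul (contDiffOn_const.sub contDiffOn_id)).mul sm1)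
  have cc : ContinuousOn (curv ψ) (Icc 0 1) :=
    ((continuousOn_const.mul (continuousOn_const.sub ((continuousOn_const.sub continuousOn_id).mul
      sm1.continuousOn))).div sa.continuousOn fun x hx => (ha x hx).ne').add
      ((dw_sm sr).continuousOn.div st.continuousOn fun x hx => (ht x hx).ne')
  have cτ : ContinuousOn τ (Icc 0 1) := (continuousOn_id.mul sa.continuousOn).congr hτ
  have hv := sp_vol hS
  set J : ℝ → ℝ := fun x => ∫ y in (0 : ℝ)..x, y ^ 9 * S y with hJ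
  have dτ : ∀ x ∈ Ioo (0 : ℝ) 1, HasDerivAt τ (tx ψ x) x := fun x hx => by
    have h1 := (hasDerivAt_id' x).fun_mul ((((hasDerivAt_id' x).const_sub 1).fun_mul
      (hasDerivAt_dw s1 hx)).const_add 1)
    refine (h1.congr_deriv ?_).congr_of_eventuallyEq
      (eventuallyEq_of_mem (Icc_mem_nhds hx.1 hx.2) hτ)
    rw [tx]
    ring
  have hP : ∀ x ∈ Ioo (0 : ℝ) 1,
      τ x ^ 10 - Vol S (τ x) = τ x ^ 9 * (x * (1 - x) * tx ψ x) := fun x hx => by
    rw [← he _ (Ioo_subset_Icc_self (hm x hx)), hφ x hx, mul_assoc]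
  have hmm : ∀ x ∈ Ioo (0 : ℝ) 1, mm ψ x =
      Real.log (τ x ^ 10 - Vol S (τ x)) - 10 * Real.log x - Real.log (1 - x) := fun x hx => by
    have h1 := (ha x (Ioo_subset_Icc_self hx)).ne'
    have h2 := (ht x (Ioo_subset_Icc_self hx)).ne'
    have h3 := hx.1.ne'
    have h4 := (sub_pos.2 hx.2).ne'
    rw [hP x hx, hτ x (Ioo_subset_Icc_self hx), Real.log_mul (by positivity) (by positivity),
      Real.log_mul (by positivity) h2, Real.log_mul h3 h4, Real.log_pow, Real.log_mul h3 h1, mm]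
    push_cast
    ring
  have hρ : ∀ x ∈ Ioo (0 : ℝ) 1,
      11 * x - x * (1 - x) * dw (mm ψ) x = J (τ x) / τ x ^ 9 := fun x hx => by
    have h2 := (ht x (Ioo_subset_Icc_self hx)).ne'
    have h3 := hx.1.ne'
    have h4 := (sub_pos.2 hx.2).ne'
    have h5 := (hm x hx).1.ne'
    have h6 : τ x ^ 10 - Vol S (τ x) ≠ 0 := by
      rw [hP x hx]
      positivity
    have h7 := (((((dτ x hx).fun_pow 10).fun_sub
      ((hv.d1 _ (hm x hx)).comp x (dτ x hx))).log h6).fun_sub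
      ((Real.hasDerivAt_log h3).const_mul 10)).fun_sub (((hasDerivAt_id' x).const_sub 1).log h4)
    rw [dw_eq hx hmm h7]
    simp only [Function.comp_apply]
    rw [hP x hx]
    push_cast
    field_simp
    ring
  refine EqOn.of_subset_closure (s := Ioo 0 1) (f := curv ψ) (g := fun x => S (τ x))
    (fun x hx => ?_) (cc.mono Ico_subset_Icc_self)
    (hS.comp (cτ.mono Ico_subset_Icc_self) fun x hx => ?_) Ioo_subset_Ico_self
    (by rw [closure_Ioo zero_ne_one]; exact Ico_subset_Icc_self)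
  · have h1 := (ha x (Ioo_subset_Icc_self hx)).ne'
    have h2 := (ht x (Ioo_subset_Icc_self hx)).ne'
    have h3 := hx.1.ne'
    have h5 := (hm x hx).1.ne'
    have h7 := ((hv.d2 _ (hm x hx)).comp x (dτ x hx)).fun_div ((dτ x hx).fun_pow 9)
      (pow_ne_zero 9 h5)
    have h8 : 11 - (1 - x) * dw (mm ψ) x = J (τ x) / τ x ^ 9 / x := by
      rw [← hρ x hx]
      field_simp
    have h9 : aa ψ x = τ x / x := by
      rw [hτ x (Ioo_subset_Icc_self hx)]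
      field_simp
    rw [curv, dw_eq hx hρ h7, h8, h9]
    simp only [Function.comp_apply]
    push_cast
    field_simp
    ring
  · rcases hx.1.eq_or_lt with h | h
    · rw [← h, hτ 0 ⟨le_rfl, zero_le_one⟩, zero_mul]
      exact ⟨le_rfl, zero_le_one⟩
    · exact Ioo_subset_Icc_self (hm x ⟨h, hx.2⟩)

end Crest.Agent.R213.LegA
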