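import Crest.Agent.R213.Reg

/-!
# Row 213: the Legendre transform, construction of the potential
-/

set_option autoImplicit false

noncomputable section

namespace Crest.Agent.R213.LegB

open Set Filter Topology
open scoped ContDiff

theorem ftc_x {f : ℝ → ℝ} (hf : ContinuousOn f (Icc 0 1)) {y : ℝ} (hy : y ∈ Icc (0 : ℝ) 1) :
    HasDerivWithinAt (fun y => ∫ z in (0 : ℝ)..y, f z) (f y) (Icc 0 1) y := by
  have hm : ∀ z : ℝ, max 0 (min z 1) ∈ Icc (0 : ℝ) 1 := fun z =>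
    ⟨le_max_left _ _, max_le zero_le_one (min_le_right _ _)⟩
  have he : ∀ z ∈ Icc (0 : ℝ) 1, max 0 (min z 1) = z := fun z hz => by
    rw [min_eq_left hz.2, max_eq_right hz.1]
  have hg : Continuous fun z => f (max 0 (min z 1)) :=
    hf.comp_continuous (by fun_prop) hm
  have h2 : HasDerivAt (fun y => ∫ z in (0 : ℝ)..y, f (max 0 (min z 1))) (f (max 0 (min y 1))) y :=
    intervalIntegral.integral_hasDerivAt_right (hg.intervalIntegrable _ _)
      (hg.stronglyMeasurableAtFilter _ _) hg.continuousAt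
  rw [he y hy] at h2
  refine h2.hasDerivWithinAt.congr (fun x hx => ?_) ?_
  · refine intervalIntegral.integral_congr fun z hz => ?_
    rw [uIcc_of_le hx.1] at hz
    simp only [he z ⟨hz.1, hz.2.trans hx.2⟩]
  · refine intervalIntegral.integral_congr fun z hz => ?_
    rw [uIcc_of_le hy.1] at hz
    simp only [he z ⟨hz.1, hz.2.trans hy.2⟩]

theorem ftc_t {a : ℝ} {f : ℝ → ℝ} (hf : ContinuousOn f (Ioo a 0)) {t0 t : ℝ} (h0 : t0 ∈ Ioo a 0)
    (ht : t ∈ Ioo a 0) : HasDerivAt (fun t => ∫ s in t0..t, f s) (f t) t :=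
  intervalIntegral.integral_hasDerivAt_right
    ((hf.mono (ordConnected_Ioo.uIcc_subset h0 ht)).intervalIntegrable)
    (hf.stronglyMeasurableAtFilter isOpen_Ioo t ht) (hf.continuousAt (isOpen_Ioo.mem_nhds ht))

theorem sec_x {I : Set ℝ} {u : Fn}
    (hu : ContDiffOn ℝ ∞ (fun p : ℝ × ℝ => u p.1 p.2) (I ×ˢ Icc 0 1)) {t : ℝ} (ht : t ∈ I) :
    ContDiffOn ℝ ∞ (u t) (Icc 0 1) :=
  hu.comp (f := fun x : ℝ => (t, x)) (by fun_prop) fun _ hx => ⟨ht, hx⟩

theorem sec_t {I : Set ℝ} {u : Fn}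
    (hu : ContDiffOn ℝ ∞ (fun p : ℝ × ℝ => u p.1 p.2) (I ×ˢ Icc 0 1)) {x : ℝ}
    (hx : x ∈ Icc (0 : ℝ) 1) : ContDiffOn ℝ ∞ (fun t => u t x) I :=
  hu.comp (f := fun t : ℝ => (t, x)) (by fun_prop) fun _ ht => ⟨ht, hx⟩

theorem chain {I : Set ℝ} (hI : IsOpen I) {u : Fn}
    (hu : ContDiffOn ℝ ∞ (fun p : ℝ × ℝ => u p.1 p.2) (I ×ˢ Icc 0 1)) {t ut uy c : ℝ}
    {Y : ℝ → ℝ} (ht : t ∈ I) (hm : ∀ s ∈ I, Y s ∈ Icc (0 : ℝ) 1)
    (h1 : HasDerivAt (fun s => u s (Y t)) ut t) (h2 : HasDerivWithinAt (u t) uy (Icc 0 1) (Y t))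
    (hY : HasDerivAt Y c t) : HasDerivAt (fun s => u s (Y s)) (ut + uy * c) t := by
  have hy := hm t ht
  have hd := (hu.differentiableOn (by simp) (t, Y t) ⟨ht, hy⟩).hasFDerivWithinAt
  set L := fderivWithin ℝ (fun p : ℝ × ℝ => u p.1 p.2) (I ×ˢ Icc 0 1) (t, Y t)
  have e1 : L (1, 0) = ut := by
    have h : HasDerivWithinAt (fun s : ℝ => (s, Y t)) ((1 : ℝ), (0 : ℝ)) I t :=
      ((hasDerivAt_id t).prodMk (hasDerivAt_const t (Y t))).hasDerivWithinAt
    have h3 := (hd.comp_hasDerivWithinAt t h fun s hs => mk_mem_prod hs hy).hasDerivAt (hI.mem_nhds ht)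
    exact h3.unique h1
  have e2 : L (0, 1) = uy := by
    have h : HasDerivWithinAt (fun z : ℝ => (t, z)) ((0 : ℝ), (1 : ℝ)) (Icc 0 1) (Y t) :=
      ((hasDerivAt_const (Y t) t).prodMk (hasDerivAt_id (Y t))).hasDerivWithinAt
    have h3 := hd.comp_hasDerivWithinAt (Y t) h fun s hs => mk_mem_prod ht hs
    exact (uniqueDiffOn_Icc zero_lt_one _ hy).eq_deriv _ h3 h2
  have h : HasDerivWithinAt (fun s : ℝ => (s, Y s)) ((1 : ℝ), c) I t :=
    ((hasDerivAt_id t).prodMk hY).hasDerivWithinAt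
  have h3 := (hd.comp_hasDerivWithinAt t h fun s hs => mk_mem_prod hs (hm s hs)).hasDerivAt (hI.mem_nhds ht)
  have e3 : L (1, c) = ut + uy * c := by
    have : ((1 : ℝ), c) = ((1 : ℝ), (0 : ℝ)) + c • ((0 : ℝ), (1 : ℝ)) := by simp
    rw [this, map_add, map_smul, e1, e2, smul_eq_mul, mul_comm]
  rw [e3] at h3
  exact h3

variable (g : GD)

/-- logarithm of `s = |z|²` minus `log (y / (1 - y))` -/
def r : Fn := fun t y => (∫ z in (0 : ℝ)..y, g.q t z) - ∫ s in (g.a / 2)..t, g.S1 s 0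
/-- smooth part of the symplectic potential -/
def U : Fn := fun t y => (∫ s in (g.a / 2)..t, (110 - g.S s 0)) + ∫ z in (0 : ℝ)..y, r g t z
/-- denominator -/
def n : Fn := fun t y => 1 - y + y * Real.exp (r g t y)
/-- the complex coordinate -/
def X : Fn := fun t y => y * Real.exp (r g t y) / n g t y
/-- the potential in the momentum coordinate -/
def H : Fn := fun t y => y * r g t y - U g t y - Real.log (n g t y)

theorem half_mem : g.a / 2 ∈ Ioo g.a 0 := ⟨by linarith [g.ha], by linarith [g.ha]⟩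

theorem at0 {u : Fn} (hu : ContDiffOn ℝ ∞ (fun p : ℝ × ℝ => u p.1 p.2) (Ioo g.a 0 ×ˢ Icc 0 1)) :
    ContDiffOn ℝ ∞ (fun p : ℝ × ℝ => u p.1 0) (Ioo g.a 0 ×ˢ Icc 0 1) :=
  hu.comp (f := fun p : ℝ × ℝ => (p.1, (0 : ℝ))) (by fun_prop)
    fun _ hp => ⟨hp.1, left_mem_Icc.2 zero_le_one⟩

theorem r_sm : ContDiffOn ℝ ∞ (fun p : ℝ × ℝ => r g p.1 p.2) (Ioo g.a 0 ×ˢ Icc 0 1) :=
  (contDiffOn_int_x isOpen_Ioo one_pos g.q_sm).sub
    (contDiffOn_int_t (u := fun s _ => g.S1 s 0) isOpen_Ioo ordConnected_Ioo one_pos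
      (at0 g g.S1_sm) (half_mem g))

theorem U_sm : ContDiffOn ℝ ∞ (fun p : ℝ × ℝ => U g p.1 p.2) (Ioo g.a 0 ×ˢ Icc 0 1) :=
  (contDiffOn_int_t (u := fun s _ => 110 - g.S s 0) isOpen_Ioo ordConnected_Ioo one_pos
      (contDiffOn_const.sub (at0 g g.S_sm)) (half_mem g)).add
    (contDiffOn_int_x isOpen_Ioo one_pos (r_sm g))

theorem n_pos (t : ℝ) {y : ℝ} (hy : y ∈ Icc (0 : ℝ) 1) : 0 < n g t y := by
  have h := Real.exp_pos (r g t y)
  show 0 < 1 - y + y * Real.exp (r g t y)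
  rcases hy.2.eq_or_lt with h1 | h1
  · rw [h1] at h ⊢; linarith
  · nlinarith [hy.1]

theorem n_sm : ContDiffOn ℝ ∞ (fun p : ℝ × ℝ => n g p.1 p.2) (Ioo g.a 0 ×ˢ Icc 0 1) :=
  (contDiffOn_const.sub contDiffOn_snd).add (contDiffOn_snd.mul (r_sm g).exp)

theorem X_sm : ContDiffOn ℝ ∞ (fun p : ℝ × ℝ => X g p.1 p.2) (Ioo g.a 0 ×ˢ Icc 0 1) :=
  (contDiffOn_snd.mul (r_sm g).exp).div (n_sm g) fun p hp => (n_pos g p.1 hp.2).ne'

theorem H_sm : ContDiffOn ℝ ∞ (fun p : ℝ × ℝ => H g p.1 p.2) (Ioo g.a 0 ×ˢ Icc 0 1) :=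
  ((contDiffOn_snd.mul (r_sm g)).sub (U_sm g)).sub
    ((n_sm g).log fun p hp => (n_pos g p.1 hp.2).ne')

variable {g} {t y : ℝ}

theorem r_y (ht : t ∈ Ioo g.a 0) (hy : y ∈ Icc (0 : ℝ) 1) :
    HasDerivWithinAt (r g t) (g.q t y) (Icc 0 1) y :=
  (ftc_x (sec_x g.q_sm ht).continuousOn hy).sub_const _

theorem U_y (ht : t ∈ Ioo g.a 0) (hy : y ∈ Icc (0 : ℝ) 1) :
    HasDerivWithinAt (U g t) (r g t y) (Icc 0 1) y :=
  (ftc_x (sec_x (r_sm g) ht).continuousOn hy).const_add _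

theorem sub_y (hy : y ∈ Icc (0 : ℝ) 1) : uIcc 0 y ⊆ Icc (0 : ℝ) 1 := by
  rw [uIcc_of_le hy.1]; exact Icc_subset_Icc le_rfl hy.2

theorem int_deriv {F F' : ℝ → ℝ} (hF : ContinuousOn F (Icc 0 1)) (hF' : ContinuousOn F' (Icc 0 1))
    (hd : ∀ x ∈ Ioo (0 : ℝ) 1, HasDerivAt F (F' x) x) (hy : y ∈ Icc (0 : ℝ) 1) :
    ∫ z in (0 : ℝ)..y, -F' z = -(F y - F 0) := by
  rw [intervalIntegral.integral_neg, intervalIntegral.integral_eq_sub_of_hasDerivAt_of_le hy.1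
    (hF.mono (Icc_subset_Icc le_rfl hy.2)) (fun x hx => hd x ⟨hx.1, hx.2.trans_le hy.2⟩)
    ((hF'.mono (sub_y hy)).intervalIntegrable)]

theorem r_t (ht : t ∈ Ioo g.a 0) (hy : y ∈ Icc (0 : ℝ) 1) :
    HasDerivAt (fun s => r g s y) (-g.S1 t y) t := by
  have h1 := hasDerivAt_int (w := g.q) (w' := fun t x => -g.S2 t x) (a := 0) (b := y) isOpen_Ioo
    (g.q_sm.continuousOn.mono (prod_mono le_rfl (sub_y hy)))
    (g.S2_sm.continuousOn.neg.mono (prod_mono le_rfl (sub_y hy)))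
    (fun t ht x hx => g.flow t ht x (sub_y hy hx)) ht
  rw [int_deriv (g.sp t ht).c1 (g.sp t ht).c2 (g.sp t ht).d2 hy] at h1
  have h2 := ftc_t (sec_t g.S1_sm (left_mem_Icc.2 zero_le_one)).continuousOn (half_mem g) ht
  exact (h1.sub h2).congr_deriv (by ring)

theorem U_t (ht : t ∈ Ioo g.a 0) (hy : y ∈ Icc (0 : ℝ) 1) :
    HasDerivAt (fun s => U g s y) (110 - g.S t y) t := by
  have h1 := hasDerivAt_int (w := r g) (w' := fun t x => -g.S1 t x) (a := 0) (b := y) isOpen_Ioo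
    ((r_sm g).continuousOn.mono (prod_mono le_rfl (sub_y hy)))
    (g.S1_sm.continuousOn.neg.mono (prod_mono le_rfl (sub_y hy)))
    (fun t ht x hx => r_t ht (sub_y hy hx)) ht
  rw [int_deriv (g.sp t ht).c0 (g.sp t ht).c1 (g.sp t ht).d1 hy] at h1
  have h2 := ftc_t (f := fun s => 110 - g.S s 0)
    (continuousOn_const.sub (sec_t g.S_sm (left_mem_Icc.2 zero_le_one)).continuousOn)
    (half_mem g) ht
  exact (h2.add h1).congr_deriv (by ring)

theorem q_eq (ht : t ∈ Ioo g.a 0) (hy : y ∈ Icc (0 : ℝ) 1) :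
    1 + y * (1 - y) * g.q t y = (g.Γ t y)⁻¹ := by
  have h := g.q_eq t ht y hy
  have hp := (g.pos t ht y hy).ne'
  have e : ph 1 y = y * (1 - y) := by simp only [ph, one_mul]
  rw [e] at h
  field_simp
  linear_combination -h

theorem n_y (ht : t ∈ Ioo g.a 0) (hy : y ∈ Icc (0 : ℝ) 1) :
    HasDerivWithinAt (n g t)
      (-1 + Real.exp (r g t y) + y * (Real.exp (r g t y) * g.q t y)) (Icc 0 1) y := by
  have h := ((hasDerivWithinAt_id y (Icc 0 1)).const_sub 1).add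
    ((hasDerivWithinAt_id y (Icc 0 1)).mul (r_y ht hy).exp)
  refine h.congr_deriv (Eq.symm ?_)
  simp only [id]
  ring

theorem n_t (ht : t ∈ Ioo g.a 0) (hy : y ∈ Icc (0 : ℝ) 1) :
    HasDerivAt (fun s => n g s y) (y * (Real.exp (r g t y) * -g.S1 t y)) t :=
  ((r_t ht hy).exp.const_mul y).const_add (1 - y)

theorem X_y (ht : t ∈ Ioo g.a 0) (hy : y ∈ Icc (0 : ℝ) 1) :
    HasDerivWithinAt (X g t) (Real.exp (r g t y) / (g.Γ t y * n g t y ^ 2)) (Icc 0 1) y := by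
  have h := ((hasDerivWithinAt_id y (Icc 0 1)).mul (r_y ht hy).exp).div (n_y ht hy)
    (n_pos g t hy).ne'
  refine h.congr_deriv (Eq.symm ?_)
  have e : Real.exp (r g t y) / (g.Γ t y * n g t y ^ 2) =
      Real.exp (r g t y) * (g.Γ t y)⁻¹ / n g t y ^ 2 := by
    rw [div_eq_mul_inv, div_eq_mul_inv, mul_inv, mul_assoc]
  rw [e, ← q_eq ht hy]
  congr 1
  simp only [id, Pi.mul_apply, n]
  ring

theorem X_t (ht : t ∈ Ioo g.a 0) (hy : y ∈ Icc (0 : ℝ) 1) :
    HasDerivAt (fun s => X g s y)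
      (-(y * (1 - y) * Real.exp (r g t y) * g.S1 t y / n g t y ^ 2)) t := by
  have h := ((r_t ht hy).exp.const_mul y).div (n_t ht hy) (n_pos g t hy).ne'
  refine h.congr_deriv (Eq.symm ?_)
  rw [← neg_div]
  congr 1
  simp only [n]
  ring

theorem H_y (ht : t ∈ Ioo g.a 0) (hy : y ∈ Icc (0 : ℝ) 1) :
    HasDerivWithinAt (H g t) ((1 - Real.exp (r g t y)) / (g.Γ t y * n g t y)) (Icc 0 1) y := by
  have h := (((hasDerivWithinAt_id y (Icc 0 1)).mul (r_y ht hy)).sub (U_y ht hy)).sub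
    ((n_y ht hy).log (n_pos g t hy).ne')
  refine h.congr_deriv (Eq.symm ?_)
  have e : (1 - Real.exp (r g t y)) / (g.Γ t y * n g t y) =
      (1 - Real.exp (r g t y)) * (g.Γ t y)⁻¹ / n g t y := by
    rw [div_eq_mul_inv, div_eq_mul_inv, mul_inv, mul_assoc]
  have hn := (n_pos g t hy).ne'
  rw [e, ← q_eq ht hy]
  simp only [id]
  field_simp
  simp only [n]
  ring

theorem H_t (ht : t ∈ Ioo g.a 0) (hy : y ∈ Icc (0 : ℝ) 1) :
    HasDerivAt (fun s => H g s y)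
      (g.S t y - 110 - y * (1 - y) * (1 - Real.exp (r g t y)) * g.S1 t y / n g t y) t := by
  have h := (((r_t ht hy).const_mul y).sub (U_t ht hy)).sub ((n_t ht hy).log (n_pos g t hy).ne')
  refine h.congr_deriv (Eq.symm ?_)
  have hn := (n_pos g t hy).ne'
  field_simp
  simp only [n]
  ring

theorem X_zero (t : ℝ) : X g t 0 = 0 := by simp only [X, zero_mul, zero_div]

theorem X_one (t : ℝ) : X g t 1 = 1 := by
  simp only [X, n, one_mul, sub_self, zero_add]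
  exact div_self (Real.exp_pos _).ne'

theorem X_y_pos (ht : t ∈ Ioo g.a 0) (hy : y ∈ Icc (0 : ℝ) 1) :
    0 < Real.exp (r g t y) / (g.Γ t y * n g t y ^ 2) :=
  div_pos (Real.exp_pos _) (mul_pos (g.pos t ht y hy) (pow_pos (n_pos g t hy) 2))

/-- The facts about the potential `ψ t x = H t (Y t x)`. -/
theorem facts {Y : Fn}
    (hY : ContDiffOn ℝ ∞ (fun p : ℝ × ℝ => Y p.1 p.2) (Ioo g.a 0 ×ˢ Icc 0 1))
    (hi : ∀ t ∈ Ioo g.a 0, ∀ x ∈ Icc (0 : ℝ) 1,
      Y t x ∈ Icc (0 : ℝ) 1 ∧ X g t (Y t x) = x ∧ Y t (X g t x) = x) :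
    ContDiffOn ℝ ∞ (fun p : ℝ × ℝ => H g p.1 (Y p.1 p.2)) (Ioo g.a 0 ×ˢ Icc 0 1) ∧
      ∀ t ∈ Ioo g.a 0, ∀ x ∈ Icc (0 : ℝ) 1,
        0 < aa (fun x => H g t (Y t x)) x ∧ 0 < tx (fun x => H g t (Y t x)) x ∧
        Y t x = x * aa (fun x => H g t (Y t x)) x ∧
        x * (1 - x) * tx (fun x => H g t (Y t x)) x = ph 1 (Y t x) * g.Γ t (Y t x) ∧
        HasDerivAt (fun s => H g s (Y s x)) (g.S t (Y t x) - 110) t := by
  have hsm : ContDiffOn ℝ ∞ (fun p : ℝ × ℝ => H g p.1 (Y p.1 p.2)) (Ioo g.a 0 ×ˢ Icc 0 1) :=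
    (H_sm g).comp (f := fun p : ℝ × ℝ => (p.1, Y p.1 p.2)) (contDiffOn_fst.prodMk hY)
      fun p hp => ⟨hp.1, (hi p.1 hp.1 p.2 hp.2).1⟩
  refine ⟨hsm, fun t ht => ?_⟩
  have hu : UniqueDiffOn ℝ (Icc (0 : ℝ) 1) := uniqueDiffOn_Icc zero_lt_one
  have hmap : MapsTo (Y t) (Icc 0 1) (Icc 0 1) := fun x hx => (hi t ht x hx).1
  -- spatial derivative of `Y`
  have Yx : ∀ x ∈ Icc (0 : ℝ) 1, HasDerivWithinAt (Y t)
      (g.Γ t (Y t x) * n g t (Y t x) ^ 2 / Real.exp (r g t (Y t x))) (Icc 0 1) x := by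
    intro x hx
    have h1 := ((sec_x hY ht).differentiableOn (by simp) x hx).hasDerivWithinAt
    have h2 := (X_y ht (hmap hx)).comp x h1 hmap
    have h3 : HasDerivWithinAt (X g t ∘ Y t) 1 (Icc 0 1) x :=
      (hasDerivWithinAt_id x _).congr (fun z hz => (hi t ht z hz).2.1) (hi t ht x hx).2.1
    have h4 := (hu x hx).eq_deriv _ h2 h3
    refine h1.congr_deriv (Eq.symm ?_)
    have hΓ := (g.pos t ht _ (hmap hx)).ne'
    have hn := (n_pos g t (hmap hx)).ne'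
    have he := (Real.exp_pos (r g t (Y t x))).ne'
    field_simp at h4 ⊢
    linear_combination -h4
  have haa : ∀ x ∈ Icc (0 : ℝ) 1,
      aa (fun x => H g t (Y t x)) x = n g t (Y t x) / Real.exp (r g t (Y t x)) := by
    intro x hx
    have h1 := (H_y ht (hmap hx)).comp x (Yx x hx) hmap
    have h2 : dw (fun x => H g t (Y t x)) x = _ := h1.derivWithin (hu x hx)
    have h3 : x = X g t (Y t x) := (hi t ht x hx).2.1.symm
    have hΓ := (g.pos t ht _ (hmap hx)).ne'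
    have hn := (n_pos g t (hmap hx)).ne'
    have he := (Real.exp_pos (r g t (Y t x))).ne'
    show 1 + (1 - x) * dw _ x = _
    rw [h2]
    generalize Y t x = y at h3 hΓ hn he ⊢
    rw [h3]
    simp only [X]
    field_simp
    simp only [n]
    ring
  have hτ : ∀ x ∈ Icc (0 : ℝ) 1, Y t x = x * aa (fun x => H g t (Y t x)) x := by
    intro x hx
    rw [haa x hx]
    have h3 : x = X g t (Y t x) := (hi t ht x hx).2.1.symm
    have hn := (n_pos g t (hmap hx)).ne'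
    have he := (Real.exp_pos (r g t (Y t x))).ne'
    generalize Y t x = y at h3 hn he ⊢
    rw [h3]
    simp only [X]
    field_simp
  have htx : ∀ x ∈ Icc (0 : ℝ) 1, tx (fun x => H g t (Y t x)) x =
      g.Γ t (Y t x) * n g t (Y t x) ^ 2 / Real.exp (r g t (Y t x)) := by
    intro x hx
    have h0 : ContDiffOn ℝ ∞ (fun x => H g t (Y t x)) (Icc 0 1) :=
      sec_x (u := fun t x => H g t (Y t x)) hsm ht
    have h1 : ContDiffOn ℝ ∞ (dw fun x => H g t (Y t x)) (Icc 0 1) :=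
      h0.derivWithin hu (by simp)
    have h2 : HasDerivWithinAt (dw fun x => H g t (Y t x)) (dw (dw fun x => H g t (Y t x)) x)
        (Icc 0 1) x := (h1.differentiableOn (by simp) x hx).hasDerivWithinAt
    have h3 := (hasDerivWithinAt_id x (Icc 0 1)).mul
      ((((hasDerivWithinAt_id x (Icc 0 1)).const_sub 1).mul h2).const_add 1)
    have h4 := h3.congr (f₁ := Y t) (fun z hz => hτ z hz) (hτ x hx)
    rw [← (hu x hx).eq_deriv _ h4 (Yx x hx)]
    simp only [tx, id, Pi.mul_apply]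
    ring
  intro x hx
  have hy := hmap hx
  have hΓ := g.pos t ht _ hy
  have hn := n_pos g t hy
  have he := Real.exp_pos (r g t (Y t x))
  refine ⟨?_, ?_, hτ x hx, ?_, ?_⟩
  · rw [haa x hx]; positivity
  · rw [htx x hx]; positivity
  · rw [htx x hx]
    have h3 : x = X g t (Y t x) := (hi t ht x hx).2.1.symm
    have hn' := hn.ne'
    have he' := he.ne'
    generalize Y t x = y at h3 hn' he' ⊢
    rw [h3]
    simp only [X, ph]
    field_simp
    simp only [n]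
    ring
  · have hm : ∀ s ∈ Ioo g.a 0, Y s x ∈ Icc (0 : ℝ) 1 := fun s hs => (hi s hs x hx).1
    have h1 := (((sec_t hY hx).differentiableOn (by simp) t ht).differentiableAt
      (isOpen_Ioo.mem_nhds ht)).hasDerivAt
    have h2 := chain isOpen_Ioo (X_sm g) (Y := fun s => Y s x) ht hm (X_t ht hy) (X_y ht hy) h1
    have h3 : HasDerivAt (fun s => X g s (Y s x)) 0 t :=
      (hasDerivAt_const t x).congr_of_eventuallyEq
        (by filter_upwards [isOpen_Ioo.mem_nhds ht] with s hs using (hi s hs x hx).2.1)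
    have h4 := h2.unique h3
    have h5 := chain isOpen_Ioo (H_sm g) (Y := fun s => Y s x) ht hm (H_t ht hy) (H_y ht hy) h1
    refine h5.congr_deriv (Eq.symm ?_)
    have hΓ' := hΓ.ne'
    have hn' := hn.ne'
    have he' := he.ne'
    have h6 : deriv (fun s => Y s x) t = Y t x * (1 - Y t x) * g.Γ t (Y t x) * g.S1 t (Y t x) := by
      field_simp at h4
      have : Real.exp (r g t (Y t x)) * (deriv (fun s => Y s x) t -
        Y t x * (1 - Y t x) * g.Γ t (Y t x) * g.S1 t (Y t x)) = 0 := by linear_combination h4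
      rcases mul_eq_zero.1 this with h | h
      · exact absurd h he'
      · linarith
    rw [h6]
    field_simp
    ring

end Crest.Agent.R213.LegB
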