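import Crest.Agent.R213.Reg
import Crest.Agent.R213.LegB
import Crest.Agent.R213.LegA

/-!
# Row 213: the Legendre transform
-/

set_option autoImplicit false

noncomputable section

namespace Crest.Agent.R213

open Set Filter Topology
open scoped ContDiff

/-- Smooth inverse of a family of increasing diffeomorphisms of `[0, 1]`. -/
theorem exists_inverse {I : Set ℝ} (hI : IsOpen I) {X X1 : Fn}
    (hX : ContDiffOn ℝ ∞ (fun p : ℝ × ℝ => X p.1 p.2) (I ×ˢ Icc 0 1))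
    (hd : ∀ t ∈ I, ∀ y ∈ Icc (0 : ℝ) 1, HasDerivWithinAt (X t) (X1 t y) (Icc 0 1) y ∧ 0 < X1 t y)
    (h0 : ∀ t ∈ I, X t 0 = 0 ∧ X t 1 = 1) :
    ∃ Y : Fn, ContDiffOn ℝ ∞ (fun p : ℝ × ℝ => Y p.1 p.2) (I ×ˢ Icc 0 1) ∧
      ∀ t ∈ I, ∀ x ∈ Icc (0 : ℝ) 1, Y t x ∈ Icc (0 : ℝ) 1 ∧ X t (Y t x) = x ∧ Y t (X t x) = x :=
  LegA.exists_inverse hI hX hd h0

/-- The curvature of a potential whose moment map `τ` satisfies `x (1 - x) τ' = φ ∘ τ`. -/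
theorem curv_eq {ψ τ Γ S : ℝ → ℝ} (hψ : ContDiffOn ℝ ∞ ψ (Icc 0 1))
    (hΓ : ContDiffOn ℝ ∞ Γ (Icc 0 1)) (hS : ContinuousOn S (Icc 0 1))
    (ha : ∀ x ∈ Icc (0 : ℝ) 1, 0 < aa ψ x) (ht : ∀ x ∈ Icc (0 : ℝ) 1, 0 < tx ψ x)
    (hτ : ∀ x ∈ Icc (0 : ℝ) 1, τ x = x * aa ψ x) (hm : ∀ x ∈ Ioo (0 : ℝ) 1, τ x ∈ Ioo (0 : ℝ) 1)
    (hφ : ∀ x ∈ Ioo (0 : ℝ) 1, x * (1 - x) * tx ψ x = ph 1 (τ x) * Γ (τ x))
    (he : ∀ y ∈ Icc (0 : ℝ) 1, y ^ 9 * ph 1 y * Γ y = y ^ 10 - Vol S y) :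
    ∀ x ∈ Ico (0 : ℝ) 1, curv ψ x = S (τ x) := by
  have _ := hΓ
  exact LegA.curv_eq hψ hS ha ht hτ hm hφ he

theorem pot_of_gd (g : GD) : Nonempty Pot := by
  obtain ⟨Y, hY, hi⟩ := exists_inverse (X := LegB.X g)
    (X1 := fun t y => Real.exp (LegB.r g t y) / (g.Γ t y * LegB.n g t y ^ 2)) isOpen_Ioo
    (LegB.X_sm g) (fun t ht y hy => ⟨LegB.X_y ht hy, LegB.X_y_pos ht hy⟩)
    fun t _ => ⟨LegB.X_zero t, LegB.X_one t⟩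
  obtain ⟨hsm, hf⟩ := LegB.facts hY hi
  have hc : ∀ t ∈ Ioo g.a 0, ∀ x ∈ Ico (0 : ℝ) 1,
      curv (fun x => LegB.H g t (Y t x)) x = g.S t (Y t x) := by
    intro t ht
    refine curv_eq (τ := Y t) (Γ := g.Γ t)
      (LegB.sec_x (u := fun t x => LegB.H g t (Y t x)) hsm ht) (LegB.sec_x g.Γ_sm ht)
      (g.sp t ht).c0 (fun x hx => (hf t ht x hx).1) (fun x hx => (hf t ht x hx).2.1)
      (fun x hx => (hf t ht x hx).2.2.1) (fun x hx => ?_)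
      (fun x hx => (hf t ht x (Ioo_subset_Icc_self hx)).2.2.2.1) (g.S_eq t ht)
    obtain ⟨h1, h2, -⟩ := hi t ht x (Ioo_subset_Icc_self hx)
    refine ⟨lt_of_le_of_ne h1.1 fun h => ?_, lt_of_le_of_ne h1.2 fun h => ?_⟩
    · rw [← h, LegB.X_zero] at h2
      exact hx.1.ne h2
    · rw [h, LegB.X_one] at h2
      exact hx.2.ne' h2
  refine ⟨⟨g.a, g.s0, fun t x => LegB.H g t (Y t x), g.ha, g.s0_pos, hsm,
    fun t ht x hx => (hf t ht x hx).1, fun t ht x hx => (hf t ht x hx).2.1, fun t ht x hx => ?_, ?_⟩⟩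
  · rw [hc t ht x hx]
    exact (hf t ht x (Ico_subset_Icc_self hx)).2.2.2.2
  · refine g.lim.congr' ?_
    filter_upwards [Ioo_mem_nhdsLT g.ha] with t ht
    have h0 : Y t 0 = 0 := by
      have := (hi t ht 0 (left_mem_Icc.2 zero_le_one)).2.2
      rwa [LegB.X_zero] at this
    rw [hc t ht 0 (left_mem_Ico.2 zero_lt_one), h0]

end Crest.Agent.R213
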