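import Crest.Agent.R213.CapX
import Crest.Agent.R213.Asym
import Crest.Agent.R213.BGx
import Crest.Agent.R213.GDx
import Crest.Agent.R213.Leg
import Crest.Agent.R213.Fin

/-!
# Row 213: assembly
-/

set_option autoImplicit false

noncomputable section

namespace Crest.Agent.R213

open Set Filter Topology
open scoped ContDiff

theorem exists_sol : Nonempty Sol := by
  obtain ⟨c⟩ := exists_cap
  obtain ⟨p, S, h, h0, hC, hg, ht⟩ := exists_bounded c
  obtain ⟨x0, hx0, hlo, hS, hG⟩ := h.smooth hg
  refine ⟨⟨S, x0, p.2, hx0, hS, hG, fun x hx => ?_, fun x hx => (hlo x hx).le, ?_,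
    fun k hk => symbol_bounds h hC hg ht k hk, h.1.symm ▸ h0⟩⟩
  · have := h.2 x
    rwa [max_eq_left (hlo x hx).le] at this
  · have hc : Continuous (gof S) :=
      (continuous_gof (P := Unit) (S := fun _ => S) (h.continuous.comp continuous_snd)).1.comp
        (Continuous.prodMk (continuous_const (y := ())) continuous_id)
    obtain ⟨B, hB⟩ := (isCompact_Icc (a := (0 : ℝ)) (b := 512)).bddAbove_image hc.continuousOn
    refine ⟨max B 1, fun x hx => ?_⟩
    rcases le_total x 512 with h1 | h1
    · exact (hB ⟨x, ⟨hx, h1⟩, rfl⟩).trans (le_max_left _ _)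
    · exact (ht x h1).1.2.trans ((by norm_num : (73 / 100 : ℝ) ≤ 1).trans (le_max_right _ _))

theorem exists_pot : Nonempty Pot := by
  obtain ⟨s⟩ := exists_sol
  obtain ⟨b⟩ := exists_BG s
  obtain ⟨g⟩ := exists_gd b
  exact pot_of_gd g

end Crest.Agent.R213
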