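import Crest.Agent.R213.TS2

/-!
# Row 213: pointwise bounds from square integrals (proofs of `sup_of_sq`, `chain_in`)
-/

set_option autoImplicit false

noncomputable section

namespace Crest.Agent.R213
namespace PTA

open Set Filter Topology MeasureTheory

theorem anti {f f' : ℝ → ℝ} {a b : ℝ} (hab : a ≤ b) (hc : ContinuousOn f (Icc a b))
    (hd : ∀ y ∈ Ioo a b, HasDerivAt f (f' y) y) (h : ∀ y ∈ Ioo a b, f' y ≤ 0) : f b ≤ f a := by
  rcases hab.eq_or_lt with rfl | hab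
  · exact le_rfl
  obtain ⟨c, hc', e⟩ := exists_hasDerivAt_eq_slope f f' hab hc hd
  have h1 := h c hc'
  rw [e, div_nonpos_iff] at h1
  rcases h1 with h1 | h1 <;> linarith [h1.1, h1.2]

theorem cmp {f f' G G' : ℝ → ℝ} {a b : ℝ} (hab : a ≤ b) (hc : ContinuousOn f (Icc a b))
    (hd : ∀ y ∈ Ioo a b, HasDerivAt f (f' y) y) (hcG : ContinuousOn G (Icc a b))
    (hG : ∀ y ∈ Ioo a b, HasDerivAt G (G' y) y) (h : ∀ y ∈ Ioo a b, |f' y| ≤ -G' y) :
    |f a - f b| ≤ G a - G b := by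
  have h1 := anti (f := fun y => G y + f y) (f' := fun y => G' y + f' y) hab (hcG.add hc)
    (fun y hy => (hG y hy).add (hd y hy)) (fun y hy => by linarith [(abs_le.1 (h y hy)).2])
  have h2 := anti (f := fun y => G y - f y) (f' := fun y => G' y - f' y) hab (hcG.sub hc)
    (fun y hy => (hG y hy).sub (hd y hy)) (fun y hy => by linarith [(abs_le.1 (h y hy)).1])
  rw [abs_le]
  constructor <;> linarith

theorem lip {f f' : ℝ → ℝ} {a b K : ℝ} (hab : a ≤ b) (hc : ContinuousOn f (Icc a b))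
    (hd : ∀ y ∈ Ioo a b, HasDerivAt f (f' y) y) (h : ∀ y ∈ Ioo a b, |f' y| ≤ K) :
    |f a - f b| ≤ K * (b - a) := by
  have h1 := cmp (G := fun y => -(K * y)) (G' := fun _ => -K) hab hc hd (by fun_prop)
    (fun y _ => ((hasDerivAt_id y).const_mul K).neg.congr_deriv (by simp))
    (fun y hy => by simpa using h y hy)
  linarith

theorem lip' {f f' : ℝ → ℝ} {a b K x z : ℝ} (hK : 0 ≤ K) (hc : ContinuousOn f (Icc a b))
    (hd : ∀ y ∈ Ioo a b, HasDerivAt f (f' y) y) (h : ∀ y ∈ Ioo a b, |f' y| ≤ K)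
    (hx : x ∈ Icc a b) (hz : z ∈ Icc a b) : |f x| ≤ |f z| + K * (b - a) := by
  have key : ∀ u ∈ Icc a b, ∀ v ∈ Icc a b, u ≤ v → |f u - f v| ≤ K * (b - a) := by
    intro u hu v hv huv
    have hs : Ioo u v ⊆ Ioo a b := Ioo_subset_Ioo hu.1 hv.2
    refine (lip huv (hc.mono (Icc_subset_Icc hu.1 hv.2)) (fun y hy => hd y (hs hy))
      (fun y hy => h y (hs hy))).trans (mul_le_mul_of_nonneg_left ?_ hK)
    linarith [hu.1, hv.2]
  have h1 : |f x - f z| ≤ K * (b - a) := by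
    rcases le_total x z with hxz | hxz
    · exact key x hx z hz hxz
    · rw [abs_sub_comm]; exact key z hz x hx hxz
  linarith [abs_sub_abs_le_abs_sub (f x) (f z)]

theorem int_mono {r a b : ℝ} {F : ℝ → ℝ} (hc : ContinuousOn F (Icc 0 (2 * r))) (ha : 0 ≤ a)
    (hab : a ≤ b) (hb : b ≤ 2 * r) :
    (∫ x in a..b, x ^ 9 * F x ^ 2) ≤ ∫ x in (0 : ℝ)..(2 * r), x ^ 9 * F x ^ 2 := by
  refine intervalIntegral.integral_mono_interval ha hab hb ?_ ?_
  · filter_upwards [ae_restrict_mem measurableSet_Ioc] with x hx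
    exact mul_nonneg (pow_nonneg hx.1.le _) (sq_nonneg _)
  · exact ContinuousOn.intervalIntegrable_of_Icc (ha.trans (hab.trans hb))
      ((continuousOn_id.pow 9).mul (hc.pow 2))

theorem small_pt {r M a : ℝ} {F : ℝ → ℝ} (hr : 0 < r) (hM : 0 ≤ M)
    (hc : ContinuousOn F (Icc 0 (2 * r)))
    (hI : (∫ x in (0 : ℝ)..(2 * r), x ^ 9 * F x ^ 2) ≤ M ^ 2 * r ^ 10) (ha : r ≤ a)
    (hb : a + r / 3 ≤ 2 * r) : ∃ x ∈ Icc a (a + r / 3), |F x| ≤ 2 * M := by
  have hab : a ≤ a + r / 3 := by linarith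
  have hc' : ContinuousOn F (Icc a (a + r / 3)) := hc.mono (Icc_subset_Icc (by linarith) hb)
  obtain ⟨x, hx, hmin⟩ := isCompact_Icc.exists_isMinOn (nonempty_Icc.2 hab) (hc'.pow 2)
  refine ⟨x, hx, ?_⟩
  have h1 : (∫ _y in a..(a + r / 3), r ^ 9 * F x ^ 2) ≤ ∫ y in a..(a + r / 3), y ^ 9 * F y ^ 2 := by
    refine intervalIntegral.integral_mono_on hab intervalIntegrable_const
      (ContinuousOn.intervalIntegrable_of_Icc hab ((continuousOn_id.pow 9).mul (hc'.pow 2)))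
      fun y hy => ?_
    have hy' : r ≤ y := ha.trans hy.1
    exact mul_le_mul (pow_le_pow_left₀ hr.le hy' 9) (hmin hy) (sq_nonneg _)
      (pow_nonneg (hr.le.trans hy') _)
  rw [intervalIntegral.integral_const, smul_eq_mul] at h1
  have h2 := (h1.trans (int_mono hc (by linarith) hab hb)).trans hI
  have h3 : r ^ 10 * F x ^ 2 ≤ r ^ 10 * (3 * M ^ 2) := by nlinarith
  have h4 := le_of_mul_le_mul_left h3 (pow_pos hr 10)
  exact abs_le_of_sq_le_sq' (by nlinarith) (by linarith) |> abs_le.2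

theorem sup15 {r M : ℝ} {F F1 F2 : ℝ → ℝ} (hr : 0 < r) (hM : 0 ≤ M) (h : Sp (2 * r) F F1 F2)
    (hI : (∫ x in (0 : ℝ)..(2 * r), x ^ 9 * F x ^ 2) ≤ M ^ 2 * r ^ 10)
    (h2 : ∀ x ∈ Ico r (2 * r), r ^ 2 * |F2 x| ≤ M) :
    ∀ x ∈ Icc r (2 * r), |F x| ≤ 15 * M ∧ r * |F1 x| ≤ 15 * M := by
  obtain ⟨a, ha, hFa⟩ := small_pt (a := r) hr hM h.c0 hI le_rfl (by linarith)
  obtain ⟨b, hb, hFb⟩ := small_pt (a := 5 * r / 3) hr hM h.c0 hI (by linarith) (by linarith)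
  have hs : Ioo r (2 * r) ⊆ Ioo 0 (2 * r) := Ioo_subset_Ioo hr.le le_rfl
  have hs' : Icc r (2 * r) ⊆ Icc 0 (2 * r) := Icc_subset_Icc hr.le le_rfl
  have hab : r / 3 ≤ b - a := by linarith [ha.2, hb.1]
  have hab' : a < b := by linarith
  obtain ⟨c, hc, e⟩ := exists_hasDerivAt_eq_slope F F1 hab'
    (h.c0.mono (Icc_subset_Icc (by linarith [ha.1]) (by linarith [hb.2])))
    (fun y hy => h.d1 y ⟨by linarith [ha.1, hy.1], by linarith [hb.2, hy.2]⟩)
  have hc1 : |F1 c| ≤ 12 * M / r := by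
    rw [e, abs_div, abs_of_pos (sub_pos.2 hab'), div_le_div_iff₀ (sub_pos.2 hab') hr]
    have := abs_sub (F b) (F a)
    nlinarith
  have hF1 : ∀ x ∈ Icc r (2 * r), |F1 x| ≤ 13 * M / r := by
    intro x hx
    have := lip' (K := M / r ^ 2) (z := c) (by positivity) (h.c1.mono hs')
      (fun y hy => h.d2 y (hs hy))
      (fun y hy => by
        rw [le_div_iff₀ (by positivity), mul_comm]; exact h2 y (Ioo_subset_Ico_self hy)) hx
      ⟨by linarith [ha.1, hc.1], by linarith [hb.2, hc.2]⟩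
    have e2 : 12 * M / r + M / r ^ 2 * (2 * r - r) = 13 * M / r := by field_simp; ring
    linarith
  intro x hx
  constructor
  · have := lip' (K := 13 * M / r) (z := a) (by positivity) (h.c0.mono hs')
      (fun y hy => h.d1 y (hs hy)) (fun y hy => hF1 y (Ioo_subset_Icc_self hy)) hx
      ⟨ha.1, by linarith [ha.2]⟩
    have e2 : 13 * M / r * (2 * r - r) = 13 * M := by field_simp; ring
    linarith
  · have := hF1 x hx
    rw [le_div_iff₀ hr] at this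
    linarith

theorem one_le_pow {r x : ℝ} (hx : 0 < x) (hxr : x ≤ 2 * r) {p : ℕ} (hp : p ≤ 5) :
    1 ≤ 32 * (r / x) ^ p := by
  have h1 : 1 / 2 ≤ r / x := by rw [le_div_iff₀ hx]; linarith
  have h2 : (1 / 2 : ℝ) ^ p ≤ (r / x) ^ p := pow_le_pow_left₀ (by norm_num) h1 p
  have h3 : (1 / 2 : ℝ) ^ 5 ≤ (1 / 2) ^ p := pow_le_pow_of_le_one (by norm_num) (by norm_num) hp
  linarith [show (1 / 2 : ℝ) ^ 5 = 1 / 32 by norm_num]

/-- Taylor's formula with a comparison function. -/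
theorem taylor {r N x : ℝ} {F F1 F2 G G' : ℝ → ℝ} (h : Sp (2 * r) F F1 F2) (hx : 0 < x)
    (hxr : x ≤ r) (hr : |F r| ≤ 15 * N ∧ r * |F1 r| ≤ 15 * N) (hcG : ContinuousOn G (Icc x r))
    (hG : ∀ y ∈ Ioo x r, HasDerivAt G (G' y) y) (hb : ∀ y ∈ Ioo x r, y * |F2 y| ≤ -G' y) :
    |F x| ≤ 30 * N + (G x - G r) := by
  have hs : Ioo x r ⊆ Ioo 0 (2 * r) := Ioo_subset_Ioo hx.le (by linarith)
  have hs' : Icc x r ⊆ Icc 0 (2 * r) := Icc_subset_Icc hx.le (by linarith)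
  have h1 := cmp (f := fun y => F y - F1 y * (y - x)) (f' := fun y => -(F2 y * (y - x))) hxr
    ((h.c0.mono hs').sub ((h.c1.mono hs').mul (by fun_prop)))
    (fun y hy => ((h.d1 y (hs hy)).sub
      ((h.d2 y (hs hy)).mul ((hasDerivAt_id y).sub_const x))).congr_deriv (by simp))
    hcG hG (fun y hy => by
      refine le_trans ?_ (hb y hy)
      rw [abs_neg, abs_mul, abs_of_pos (sub_pos.2 hy.1), mul_comm]
      exact mul_le_mul_of_nonneg_right (by linarith) (abs_nonneg _))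
  simp only [sub_self, mul_zero, sub_zero] at h1
  have h2 := abs_sub_abs_le_abs_sub (F x) (F r - F1 r * (r - x))
  have h3 := abs_sub (F r) (F1 r * (r - x))
  rw [abs_mul, abs_of_nonneg (sub_nonneg.2 hxr)] at h3
  have h4 := mul_nonneg (abs_nonneg (F1 r)) hx.le
  nlinarith [hr.1, hr.2]

theorem sup_p {r N : ℝ} {F F1 F2 : ℝ → ℝ} {p : ℕ} (hr : 0 < r) (hN : 0 ≤ N)
    (h : Sp (2 * r) F F1 F2)
    (hI : (∫ x in (0 : ℝ)..(2 * r), x ^ 9 * F x ^ 2) ≤ N ^ 2 * r ^ 10)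
    (h2 : ∀ x ∈ Ioo 0 (2 * r), r ^ 2 * |F2 x| ≤ N * (r / x) ^ p) :
    ∀ x ∈ Icc r (2 * r), |F x| ≤ 15 * N ∧ r * |F1 x| ≤ 15 * N :=
  sup15 hr hN h hI fun x hx => (h2 x ⟨hr.trans_le hx.1, hx.2⟩).trans
    (mul_le_of_le_one_right hN (pow_le_one₀ (div_nonneg hr.le (hr.le.trans hx.1))
      ((div_le_one (hr.trans_le hx.1)).2 hx.1)))

theorem down {r N : ℝ} {F F1 F2 : ℝ → ℝ} {q : ℕ} (hq : q + 1 ≤ 5) (hr : 0 < r) (hN : 0 ≤ N)
    (h : Sp (2 * r) F F1 F2)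
    (hI : (∫ x in (0 : ℝ)..(2 * r), x ^ 9 * F x ^ 2) ≤ N ^ 2 * r ^ 10)
    (h2 : ∀ x ∈ Ioo 0 (2 * r), r ^ 2 * |F2 x| ≤ N * (r / x) ^ (q + 3)) :
    ∀ x ∈ Ioc 0 (2 * r), |F x| ≤ 480 * N * (r / x) ^ (q + 1) := by
  have h3 := sup_p hr hN h hI h2
  intro x hx
  have h4 := mul_le_mul_of_nonneg_left (one_le_pow hx.1 hx.2 hq) hN
  rcases le_total r x with hxr | hxr
  · linarith [(h3 x ⟨hxr, hx.2⟩).1]
  have h5 := taylor (G := fun y => N * (r / y) ^ (q + 1))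
    (G' := fun y => N * (((q + 1 : ℕ) : ℝ) * (r / y) ^ q * (-r / y ^ 2))) h hx.1 hxr
    (h3 r ⟨le_rfl, by linarith⟩)
    (continuousOn_const.mul ((continuousOn_const.div continuousOn_id
      fun y hy => (hx.1.trans_le hy.1).ne').pow _))
    (fun y hy => by
      have hy0 : y ≠ 0 := (hx.1.trans hy.1).ne'
      have hd : HasDerivAt (fun y => r / y) (-r / y ^ 2) y := by
        simpa [div_eq_mul_inv] using (hasDerivAt_inv hy0).const_mul r
      simpa using (hd.pow (q + 1)).const_mul N)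
    (fun y hy => by
      have hy0 : 0 < y := hx.1.trans hy.1
      have h6 := h2 y ⟨hy0, by linarith [hy.2]⟩
      have h7 : y * |F2 y| ≤ N * ((r / y) ^ q * (r / y ^ 2)) := by
        have e : N * ((r / y) ^ q * (r / y ^ 2)) = y * (N * (r / y) ^ (q + 3) / r ^ 2) := by
          rw [pow_add]; field_simp
        rw [e]
        refine mul_le_mul_of_nonneg_left ?_ hy0.le
        rw [le_div_iff₀ (by positivity), mul_comm]; exact h6
      have h8 : 0 ≤ (q : ℝ) * (N * ((r / y) ^ q * (r / y ^ 2))) := by positivity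
      have e : -(N * (((q + 1 : ℕ) : ℝ) * (r / y) ^ q * (-r / y ^ 2))) =
          N * ((r / y) ^ q * (r / y ^ 2)) + (q : ℝ) * (N * ((r / y) ^ q * (r / y ^ 2))) := by
        push_cast; ring
      rw [e]; linarith)
  have h9 : 1 ≤ (r / x) ^ (q + 1) := one_le_pow₀ ((one_le_div hx.1).2 hxr)
  have h10 : 0 ≤ N * (r / r) ^ (q + 1) := by positivity
  have h11 := mul_le_mul_of_nonneg_left h9 hN
  nlinarith

theorem down1 {r N : ℝ} {F F1 F2 : ℝ → ℝ} (hr : 0 < r) (hN : 0 ≤ N) (h : Sp (2 * r) F F1 F2)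
    (hI : (∫ x in (0 : ℝ)..(2 * r), x ^ 9 * F x ^ 2) ≤ N ^ 2 * r ^ 10)
    (h2 : ∀ x ∈ Ioo 0 (2 * r), r ^ 2 * |F2 x| ≤ N * (r / x) ^ 1) :
    ∀ x ∈ Ioc 0 (2 * r), |F x| ≤ 31 * N * (r / x) ^ 0 := by
  have h3 := sup_p hr hN h hI h2
  intro x hx
  rw [pow_zero, mul_one]
  rcases le_total r x with hxr | hxr
  · linarith [(h3 x ⟨hxr, hx.2⟩).1]
  have h5 := taylor (G := fun y => -(N / r * y)) (G' := fun _ => -(N / r)) h hx.1 hxr
    (h3 r ⟨le_rfl, by linarith⟩) (by fun_prop)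
    (fun y _ => ((hasDerivAt_id y).const_mul (N / r)).neg.congr_deriv (by simp))
    (fun y hy => by
      have hy0 : 0 < y := hx.1.trans hy.1
      have h6 := h2 y ⟨hy0, by linarith [hy.2]⟩
      have e : - -(N / r) = y * (N * (r / y) ^ 1 / r ^ 2) := by field_simp
      rw [e]
      refine mul_le_mul_of_nonneg_left ?_ hy0.le
      rw [le_div_iff₀ (by positivity), mul_comm]; exact h6)
  have e : N / r * r = N := by field_simp
  have : 0 ≤ N / r * x := by have := hx.1; positivity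
  linarith

theorem vol_p {r N M : ℝ} {F e : ℝ → ℝ} {q : ℕ} (hq : q ≤ 5) (hr : 0 < r) (hN : 0 ≤ N) (hM : 0 ≤ M)
    (hF : ∀ x ∈ Ioc 0 (2 * r), |F x| ≤ N * (r / x) ^ q) (he : ∀ x ∈ Icc 0 (2 * r), |e x| ≤ M) :
    ∀ x ∈ Ioc 0 (2 * r), |Vol (fun y => F y - e y) x| ≤ (N + 32 * M) * (r / x) ^ q * x ^ 11 := by
  intro x hx
  have hx0 := hx.1
  have h := intervalIntegral.norm_integral_le_of_norm_le_const (a := 0) (b := x)
    (f := fun y => (x - y) * y ^ 9 * (F y - e y)) (C := (N + 32 * M) * (r / x) ^ q * x ^ 10) ?_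
  · rw [sub_zero, abs_of_pos hx0, Real.norm_eq_abs] at h
    refine h.trans (le_of_eq ?_)
    ring
  intro y hy
  rw [uIoc_of_le hx0.le] at hy
  have hy0 := hy.1
  have hy2 : y ≤ 2 * r := hy.2.trans hx.2
  have h1 : |F y - e y| ≤ (N + 32 * M) * (r / y) ^ q := by
    have := abs_sub (F y) (e y)
    have := hF y ⟨hy0, hy2⟩
    have := he y ⟨hy0.le, hy2⟩
    have := mul_le_mul_of_nonneg_left (one_le_pow hy0 hy2 hq) hM
    linarith
  obtain ⟨m, hm⟩ := Nat.exists_eq_add_of_le (hq.trans (by norm_num : 5 ≤ 9))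
  have h2 : y ^ 9 * (r / y) ^ q ≤ x ^ 9 * (r / x) ^ q := by
    have e1 : y ^ 9 * (r / y) ^ q = r ^ q * y ^ m := by rw [hm, pow_add, div_pow]; field_simp
    have e2 : x ^ 9 * (r / x) ^ q = r ^ q * x ^ m := by rw [hm, pow_add, div_pow]; field_simp
    rw [e1, e2]
    exact mul_le_mul_of_nonneg_left (pow_le_pow_left₀ hy0.le hy.2 m) (by positivity)
  rw [Real.norm_eq_abs, abs_mul, abs_mul, abs_of_nonneg (sub_nonneg.2 hy.2),
    abs_of_pos (pow_pos hy0 9)]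
  calc _ ≤ x * y ^ 9 * ((N + 32 * M) * (r / y) ^ q) := by
        gcongr
        linarith
    _ = x * (N + 32 * M) * (y ^ 9 * (r / y) ^ q) := by ring
    _ ≤ x * (N + 32 * M) * (x ^ 9 * (r / x) ^ q) := by gcongr
    _ = _ := by ring

theorem vol_5 {r M : ℝ} {F e : ℝ → ℝ} (hr : 0 < r) (hM : 0 ≤ M)
    (hc : ContinuousOn F (Icc 0 (2 * r)))
    (hI : (∫ x in (0 : ℝ)..(2 * r), x ^ 9 * F x ^ 2) ≤ M ^ 2 * r ^ 10)
    (he : ∀ x ∈ Icc 0 (2 * r), |e x| ≤ M) :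
    ∀ x ∈ Ioc 0 (2 * r), |Vol (fun y => F y - e y) x| ≤ 33 * M * (r / x) ^ 5 * x ^ 11 := by
  intro x hx
  have hx0 := hx.1
  have key : ∀ N, M < N → |Vol (fun y => F y - e y) x| ≤ N * (r ^ 5 * x ^ 6) + M * x ^ 11 := by
    intro N hN
    have hN0 : 0 < N := hM.trans_lt hN
    set A := N * r ^ 5 / x ^ 5 with hA
    have hA0 : 0 < A := by positivity
    have hi : IntervalIntegrable (fun y => y ^ 9 * F y ^ 2) volume 0 x :=
      ContinuousOn.intervalIntegrable_of_Icc hx0.le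
        ((continuousOn_id.pow 9).mul ((hc.mono (Icc_subset_Icc le_rfl hx.2)).pow 2))
    have h := intervalIntegral.norm_integral_le_of_norm_le (μ := volume) hx0.le
      (f := fun y => (x - y) * y ^ 9 * (F y - e y))
      (g := fun y => x / (2 * A) * (y ^ 9 * F y ^ 2) + x ^ 10 * (A / 2 + M))
      (Eventually.of_forall fun y hy => ?_) ((hi.const_mul _).add intervalIntegrable_const)
    · rw [intervalIntegral.integral_add (hi.const_mul _) intervalIntegrable_const,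
        intervalIntegral.integral_const_mul, intervalIntegral.integral_const, smul_eq_mul,
        Real.norm_eq_abs] at h
      refine h.trans ?_
      have h1 : (∫ y in (0 : ℝ)..x, y ^ 9 * F y ^ 2) ≤ N ^ 2 * r ^ 10 :=
        ((int_mono hc le_rfl hx0.le hx.2).trans hI).trans (by gcongr)
      calc _ ≤ x / (2 * A) * (N ^ 2 * r ^ 10) + (x - 0) * (x ^ 10 * (A / 2 + M)) := by gcongr
        _ = _ := by rw [hA]; field_simp; ring
    have hy0 := hy.1
    have h1 : |F y - e y| ≤ F y ^ 2 / (2 * A) + (A / 2 + M) := by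
      have h2 := abs_sub (F y) (e y)
      have h3 := he y ⟨hy0.le, hy.2.trans hx.2⟩
      have h4 : |F y| ≤ F y ^ 2 / (2 * A) + A / 2 := by
        have e1 : F y ^ 2 / (2 * A) + A / 2 - |F y| = (|F y| - A) ^ 2 / (2 * A) := by
          rw [← sq_abs (F y)]; field_simp; ring
        have : 0 ≤ (|F y| - A) ^ 2 / (2 * A) := by positivity
        linarith
      linarith
    rw [Real.norm_eq_abs, abs_mul, abs_mul, abs_of_nonneg (sub_nonneg.2 hy.2),
      abs_of_pos (pow_pos hy0 9)]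
    calc _ ≤ x * y ^ 9 * (F y ^ 2 / (2 * A) + (A / 2 + M)) := by
          gcongr
          linarith
      _ = x / (2 * A) * (y ^ 9 * F y ^ 2) + x * y ^ 9 * (A / 2 + M) := by ring
      _ ≤ x / (2 * A) * (y ^ 9 * F y ^ 2) + x * x ^ 9 * (A / 2 + M) := by
          gcongr
          exact hy.2
      _ = _ := by ring
  have h1 : |Vol (fun y => F y - e y) x| ≤ M * (r ^ 5 * x ^ 6) + M * x ^ 11 := by
    refine le_of_forall_pos_le_add fun ε hε => ?_
    have h2 := key (M + ε / (r ^ 5 * x ^ 6)) (lt_add_of_pos_right _ (by positivity))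
    have e1 : (M + ε / (r ^ 5 * x ^ 6)) * (r ^ 5 * x ^ 6) = M * (r ^ 5 * x ^ 6) + ε := by
      field_simp
    linarith
  have h2 := mul_le_mul_of_nonneg_left (one_le_pow hx0 hx.2 le_rfl)
    (by positivity : 0 ≤ M * x ^ 11)
  have e1 : M * (r ^ 5 * x ^ 6) = M * (r / x) ^ 5 * x ^ 11 := by field_simp
  linarith

theorem closed {f : ℝ → ℝ} {L K : ℝ} (hL : 0 < L) (hc : ContinuousOn f (Icc 0 L))
    (h : ∀ x ∈ Ioo 0 L, |f x| ≤ K) : ∀ x ∈ Icc 0 L, |f x| ≤ K := by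
  intro x hx
  rw [← closure_Ioo hL.ne] at hx hc
  exact le_on_closure h hc.abs continuousOn_const hx

theorem chain_in (i : ℕ) (B : ℝ) (hB : 1 ≤ B) : ∃ C, 0 < C ∧
    ∀ (S : Type) (r M : ℝ) (F F1 F2 e : S → ℕ → ℝ → ℝ), 0 < r → 0 ≤ M →
      (∀ s j, Sp (2 * r) (F s j) (F1 s j) (F2 s j)) →
      (∀ s, ∀ j ≤ i + 4, (∫ x in (0 : ℝ)..(2 * r), x ^ 9 * F s j x ^ 2) ≤ M ^ 2 * r ^ 10) →
      (∀ s, ∀ j ≤ i + 3, ∀ x ∈ Icc 0 (2 * r), |e s j x| ≤ M) →
      (∀ j ≤ i + 3, ∀ x ∈ Ioo 0 (2 * r), ∀ A, 0 ≤ A →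
        (∀ s, ∀ l ≤ j, |Vol (fun y => F s (l + 1) y - e s l y) x| ≤ A * x ^ 11) →
        ∀ s, r ^ 2 * |F2 s j x| ≤ B * (A + M)) →
      ∀ s, ∀ j ≤ i, ∀ x ∈ Icc 0 (2 * r), |F s j x| ≤ C * M ∧ r * |F1 s j x| ≤ C * M ∧
        r ^ 2 * |F2 s j x| ≤ C * M ∧
        |Vol (fun y => F s (j + 1) y - e s j y) x| ≤ C * M * x ^ 11 := by
  obtain ⟨a5, ha5⟩ : ∃ a, a = B * 65 := ⟨_, rfl⟩
  obtain ⟨a3, ha3⟩ : ∃ a, a = B * (480 * a5 + 64) := ⟨_, rfl⟩
  obtain ⟨a1, ha1⟩ : ∃ a, a = B * (480 * a3 + 64) := ⟨_, rfl⟩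
  obtain ⟨a0, ha0⟩ : ∃ a, a = B * (31 * a1 + 64) := ⟨_, rfl⟩
  have h5 : 1 ≤ a5 := by nlinarith
  have h3 : 1 ≤ a3 := by nlinarith
  have h1 : 1 ≤ a1 := by nlinarith
  have h0 : 31 * a1 + 64 ≤ a0 := by nlinarith
  refine ⟨17 * a0, by linarith, fun S r M F F1 F2 e hr hM hS hI he hF2 => ?_⟩
  have hI' : ∀ a, 1 ≤ a → ∀ s, ∀ j ≤ i + 4,
      (∫ x in (0 : ℝ)..(2 * r), x ^ 9 * F s j x ^ 2) ≤ (a * M) ^ 2 * r ^ 10 := by
    intro a ha s j hj
    refine (hI s j hj).trans ?_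
    gcongr
    exact le_mul_of_one_le_left hM ha
  have step : ∀ n ≤ i + 3, ∀ p ≤ 5, ∀ K, 0 ≤ K →
      (∀ s, ∀ j ≤ n, ∀ x ∈ Ioc 0 (2 * r),
        |Vol (fun y => F s (j + 1) y - e s j y) x| ≤ K * M * (r / x) ^ p * x ^ 11) →
      ∀ s, ∀ j ≤ n, ∀ x ∈ Ioo 0 (2 * r), r ^ 2 * |F2 s j x| ≤ B * (K + 32) * M * (r / x) ^ p := by
    intro n hn p hp K hK hV s j hj x hx
    have hx0 := hx.1
    refine (hF2 j (hj.trans hn) x hx (K * M * (r / x) ^ p) (by positivity)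
      (fun s l hl => hV s l (hl.trans hj) x (Ioo_subset_Ioc_self hx)) s).trans ?_
    have := mul_le_mul_of_nonneg_left (one_le_pow hx0 hx.2.le hp) hM
    calc _ ≤ B * (K * M * (r / x) ^ p + M * (32 * (r / x) ^ p)) := by
          gcongr
          linarith
      _ = _ := by ring
  have L5 := step (i + 3) le_rfl 5 le_rfl 33 (by norm_num)
    fun s j hj => vol_5 hr hM (hS s (j + 1)).c0 (hI s (j + 1) (by omega)) (he s j hj)
  have G3 : ∀ s, ∀ j ≤ i + 3, ∀ x ∈ Ioc 0 (2 * r), |F s j x| ≤ 480 * (a5 * M) * (r / x) ^ (2 + 1) :=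
    fun s j hj => down (by norm_num) hr (by positivity) (hS s j) (hI' a5 h5 s j (by omega))
      fun x hx => (L5 s j hj x hx).trans (le_of_eq (by rw [ha5]; ring))
  have L3 := step (i + 2) (by omega) 3 (by norm_num) (480 * a5 + 32) (by positivity)
    fun s j hj x hx => (vol_p (by norm_num) hr (by positivity) hM (G3 s (j + 1) (by omega))
      (he s j (by omega)) x hx).trans (le_of_eq (by ring))
  have G1 : ∀ s, ∀ j ≤ i + 2, ∀ x ∈ Ioc 0 (2 * r), |F s j x| ≤ 480 * (a3 * M) * (r / x) ^ (0 + 1) :=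
    fun s j hj => down (by norm_num) hr (by positivity) (hS s j) (hI' a3 h3 s j (by omega))
      fun x hx => (L3 s j hj x hx).trans (le_of_eq (by rw [ha3]; ring))
  have L1 := step (i + 1) (by omega) 1 (by norm_num) (480 * a3 + 32) (by positivity)
    fun s j hj x hx => (vol_p (by norm_num) hr (by positivity) hM (G1 s (j + 1) (by omega))
      (he s j (by omega)) x hx).trans (le_of_eq (by ring))
  have G0 : ∀ s, ∀ j ≤ i + 1, ∀ x ∈ Ioc 0 (2 * r), |F s j x| ≤ 31 * (a1 * M) * (r / x) ^ 0 :=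
    fun s j hj => down1 hr (by positivity) (hS s j) (hI' a1 h1 s j (by omega))
      fun x hx => (L1 s j hj x hx).trans (le_of_eq (by rw [ha1]; ring))
  have V0 : ∀ s, ∀ j ≤ i, ∀ x ∈ Ioc 0 (2 * r),
      |Vol (fun y => F s (j + 1) y - e s j y) x| ≤ (31 * a1 + 32) * M * (r / x) ^ 0 * x ^ 11 :=
    fun s j hj x hx => (vol_p (by norm_num) hr (by positivity) hM (G0 s (j + 1) (by omega))
      (he s j (by omega)) x hx).trans (le_of_eq (by ring))
  have L0 : ∀ s, ∀ j ≤ i, ∀ x ∈ Ioo 0 (2 * r), r ^ 2 * |F2 s j x| ≤ a0 * M * (r / x) ^ 0 :=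
    fun s j hj x hx => (step i (by omega) 0 (by norm_num) (31 * a1 + 32) (by positivity) V0
      s j hj x hx).trans (le_of_eq (by rw [ha0]; ring))
  intro s j hj x hx
  have hM0 := mul_le_mul_of_nonneg_right h0 hM
  have hM1 : 0 ≤ a1 * M := by positivity
  have hF2' : ∀ y ∈ Ioo 0 (2 * r), |F2 s j y| ≤ a0 * M / r ^ 2 := fun y hy => by
    rw [le_div_iff₀ (by positivity), mul_comm]
    simpa using L0 s j hj y hy
  refine ⟨?_, ?_, ?_, ?_⟩
  · have := closed (K := 31 * (a1 * M)) (by linarith) (hS s j).c0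
      (fun y hy => by simpa using G0 s j (by omega) y (Ioo_subset_Ioc_self hy)) x hx
    linarith
  · have h6 := (sup_p hr (by linarith) (hS s j) (hI' a0 (by linarith) s j (by omega))
      (L0 s j hj) r ⟨le_rfl, by linarith⟩).2
    have h7 := lip' (z := r) (div_nonneg (by linarith) (by positivity)) (hS s j).c1 (hS s j).d2
      hF2' hx ⟨hr.le, by linarith⟩
    have e1 : r * (a0 * M / r ^ 2 * (2 * r - 0)) = 2 * (a0 * M) := by field_simp; ring
    have h8 := mul_le_mul_of_nonneg_left h7 hr.le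
    rw [mul_add, e1] at h8
    linarith
  · have h6 := closed (by linarith) (hS s j).c2 hF2' x hx
    rw [le_div_iff₀ (by positivity), mul_comm] at h6
    linarith
  · rcases hx.1.eq_or_lt with rfl | hx0
    · simp [Vol]
    · refine (V0 s j hj x ⟨hx0, hx.2⟩).trans ?_
      rw [pow_zero, mul_one]
      exact mul_le_mul_of_nonneg_right (by linarith) (by positivity)

end PTA
end Crest.Agent.R213
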