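import Crest.Agent.R213.TS2

/-! # Row 213: the relative bound in the outer region (proof of `pt2`) -/

set_option autoImplicit false

noncomputable section

namespace Crest.Agent.R213.PTB

open Set Filter Topology MeasureTheory

/-- Cauchy–Schwarz. -/
theorem cs {L l a b c : ℝ} {k w : ℝ → ℝ} (hl : 0 < l) (ha : 0 ≤ a) (hab : a ≤ b) (hb : 0 < b)
    (hbL : b ≤ L) (hc : 0 < c) (hk : ContinuousOn k (Icc 0 L)) (hw : ∀ y ∈ Icc a b, |w y| ≤ c) :
    (∫ y in a..b, w y * y ^ 9 * k y) ^ 2 ≤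
      c ^ 2 * (b ^ 10 * (b + l) ^ 8) * ∫ y in (0 : ℝ)..L, y ^ 9 * k y ^ 2 / (y + l) ^ 8 := by
  have hL : 0 ≤ L := hb.le.trans hbL
  have hg : ContinuousOn (fun y => y ^ 9 * k y ^ 2 / (y + l) ^ 8) (Icc 0 L) :=
    (((continuousOn_id.pow 9).mul (hk.pow 2)).div (by fun_prop) fun y hy => by
      have := hy.1
      positivity)
  have hg0 : ∀ y ∈ Icc 0 L, 0 ≤ y ^ 9 * k y ^ 2 / (y + l) ^ 8 := fun y hy => by
    have := hy.1
    positivity
  have hI0 : 0 ≤ ∫ y in (0 : ℝ)..L, y ^ 9 * k y ^ 2 / (y + l) ^ 8 :=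
    intervalIntegral.integral_nonneg hL hg0
  have hI : ∫ y in a..b, y ^ 9 * k y ^ 2 / (y + l) ^ 8 ≤
      ∫ y in (0 : ℝ)..L, y ^ 9 * k y ^ 2 / (y + l) ^ 8 :=
    intervalIntegral.integral_mono_interval ha hab hbL
      ((ae_restrict_mem measurableSet_Ioc).mono fun y hy => hg0 y (Ioc_subset_Icc_self hy))
      (hg.intervalIntegrable_of_Icc hL)
  have hgi : IntervalIntegrable (fun y => y ^ 9 * k y ^ 2 / (y + l) ^ 8) volume a b :=
    (hg.mono (Icc_subset_Icc ha hbL)).intervalIntegrable_of_Icc hab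
  set I := ∫ y in (0 : ℝ)..L, y ^ 9 * k y ^ 2 / (y + l) ^ 8
  set Q := b ^ 9 * (b + l) ^ 8 with hQ
  have hQ0 : 0 < Q := by positivity
  have key : ∀ μ : ℝ, 0 < μ → |∫ y in a..b, w y * y ^ 9 * k y| ≤ c * (μ / 2 * I + b * (Q / (2 * μ))) := by
    intro μ hμ
    have h1 := intervalIntegral.norm_integral_le_of_norm_le (f := fun y => w y * y ^ 9 * k y)
      (g := fun y => c * (μ / 2 * (y ^ 9 * k y ^ 2 / (y + l) ^ 8) + Q / (2 * μ))) (μ := volume) hab
      (.of_forall fun y hy => ?_) (((hgi.const_mul _).add intervalIntegrable_const).const_mul _)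
    · rw [intervalIntegral.integral_const_mul, intervalIntegral.integral_add (hgi.const_mul _)
        intervalIntegrable_const, intervalIntegral.integral_const_mul,
        intervalIntegral.integral_const, smul_eq_mul] at h1
      refine h1.trans ?_
      gcongr
      linarith
    · have hy0 : 0 ≤ y := ha.trans hy.1.le
      have hp : 0 < (y + l) ^ 8 := by positivity
      have h2 : |k y| ≤ μ / 2 * (k y ^ 2 / (y + l) ^ 8) + (y + l) ^ 8 / (2 * μ) := by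
        rw [← sq_abs (k y), ← sub_nonneg]
        have : μ / 2 * (|k y| ^ 2 / (y + l) ^ 8) + (y + l) ^ 8 / (2 * μ) - |k y| =
            (μ * |k y| - (y + l) ^ 8) ^ 2 / (2 * μ * (y + l) ^ 8) := by
          field_simp
          ring
        rw [this]
        positivity
      have h3 : y ^ 9 * (y + l) ^ 8 ≤ Q := by
        rw [hQ]
        gcongr <;> exact hy.2
      rw [Real.norm_eq_abs, mul_assoc, abs_mul, abs_mul, abs_of_nonneg (pow_nonneg hy0 9)]
      refine mul_le_mul (hw y (Ioc_subset_Icc_self hy)) ?_ (by positivity) hc.le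
      calc y ^ 9 * |k y| ≤ y ^ 9 * (μ / 2 * (k y ^ 2 / (y + l) ^ 8) + (y + l) ^ 8 / (2 * μ)) := by
            gcongr
        _ = μ / 2 * (y ^ 9 * k y ^ 2 / (y + l) ^ 8) + y ^ 9 * (y + l) ^ 8 / (2 * μ) := by ring
        _ ≤ _ := by gcongr
  rw [← sq_abs]
  set A := |∫ y in a..b, w y * y ^ 9 * k y|
  have e : b ^ 10 * (b + l) ^ 8 = b * Q := by rw [hQ]; ring
  rw [e]
  have hA : 0 ≤ A := abs_nonneg _
  rcases hA.eq_or_lt with h | h
  · rw [← h, zero_pow two_ne_zero]; positivity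
  · have h1 := key (c * (b * Q) / A) (by positivity)
    have h2 : c * (c * (b * Q) / A / 2 * I + b * (Q / (2 * (c * (b * Q) / A)))) =
        c ^ 2 * (b * Q) * I / (2 * A) + A / 2 := by field_simp
    rw [h2] at h1
    have h3 : A / 2 ≤ c ^ 2 * (b * Q) * I / (2 * A) := by linarith
    rw [le_div_iff₀ (by positivity)] at h3
    linarith

theorem pt2 : ∃ C, 0 < C ∧ ∀ (κ L l : ℝ) (Z k : ℝ → ℝ), κ * L = 1 → 0 < l → l ≤ L →
    VolOn κ L Z k → ∀ x ∈ Icc l L,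
      (ph κ x * Z x) ^ 2 ≤ C * ∫ y in (0 : ℝ)..L, y ^ 9 * k y ^ 2 / (y + l) ^ 8 := by
  refine ⟨2 ^ 28, by positivity, fun κ L l Z k hκ hl hlL h x hx => ?_⟩
  have hL : 0 < L := hl.trans_le hlL
  have hx0 : 0 < x := hl.trans_le hx.1
  have hx' : x ∈ Icc 0 L := ⟨hx0.le, hx.2⟩
  have hI0 : 0 ≤ ∫ y in (0 : ℝ)..L, y ^ 9 * k y ^ 2 / (y + l) ^ 8 :=
    intervalIntegral.integral_nonneg hL.le fun y hy => by
      have := hy.1
      positivity
  have hV : Vol k x * L = x ^ 10 * (L - x) * (ph κ x * Z x) := by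
    rw [← h.eq x hx', ph]
    linear_combination (-(x ^ 12 * (1 - κ * x) * Z x)) * hκ
  have hV2 : Vol k x ^ 2 * L ^ 2 = x ^ 20 * (L - x) ^ 2 * (ph κ x * Z x) ^ 2 := by
    rw [← mul_pow, hV]; ring
  rcases le_total x (L / 2) with h1 | h1
  · have h2 := cs (w := fun y => x - y) hl le_rfl hx0.le hx0 hx.2 hx0 h.ck fun y hy =>
      abs_le.2 ⟨by linarith [hy.2], by linarith [hy.1]⟩
    set I := ∫ y in (0 : ℝ)..L, y ^ 9 * k y ^ 2 / (y + l) ^ 8
    refine le_of_mul_le_mul_left ?_ (show 0 < x ^ 20 * (L / 2) ^ 2 by positivity)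
    calc x ^ 20 * (L / 2) ^ 2 * (ph κ x * Z x) ^ 2 ≤ x ^ 20 * (L - x) ^ 2 * (ph κ x * Z x) ^ 2 := by
          gcongr; linarith
      _ = Vol k x ^ 2 * L ^ 2 := hV2.symm
      _ ≤ x ^ 2 * (x ^ 10 * (x + l) ^ 8) * I * L ^ 2 := by gcongr; exact h2
      _ ≤ x ^ 2 * (x ^ 10 * (x + x) ^ 8) * I * L ^ 2 := by gcongr; exact hx.1
      _ = x ^ 20 * (L / 2) ^ 2 * (2 ^ 10 * I) := by ring
      _ ≤ _ := by gcongr <;> norm_num
  · rcases hx.2.eq_or_lt with rfl | hlt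
    · have : ph κ x = 0 := by rw [ph, hκ]; ring
      rw [this, zero_mul, zero_pow two_ne_zero]
      positivity
    obtain ⟨m0, m1⟩ := h.moments hL hκ
    have h2 := cs (w := fun y => y - x) hl hx0.le hx.2 hL le_rfl (sub_pos.2 hlt) h.ck fun y hy =>
      abs_le.2 ⟨by linarith [hy.1], by linarith [hy.2]⟩
    rw [← (vol_eq_outer h.ck m0 m1 hx').1] at h2
    set I := ∫ y in (0 : ℝ)..L, y ^ 9 * k y ^ 2 / (y + l) ^ 8
    have hd : 0 < L - x := sub_pos.2 hlt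
    have hL2 : L ≤ 2 * x := by linarith
    refine le_of_mul_le_mul_left ?_ (show 0 < x ^ 20 * (L - x) ^ 2 by positivity)
    calc x ^ 20 * (L - x) ^ 2 * (ph κ x * Z x) ^ 2 = Vol k x ^ 2 * L ^ 2 := hV2.symm
      _ ≤ (L - x) ^ 2 * (L ^ 10 * (L + l) ^ 8) * I * L ^ 2 := by gcongr
      _ ≤ (L - x) ^ 2 * ((2 * x) ^ 10 * (2 * x + 2 * x) ^ 8) * I * (2 * x) ^ 2 := by
          gcongr; linarith
      _ = x ^ 20 * (L - x) ^ 2 * (2 ^ 28 * I) := by ring

end Crest.Agent.R213.PTB
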