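import Crest.Agent.R213.TS2
import Crest.Agent.R213.PTA
import Crest.Agent.R213.PTB

/-!
# Row 213: pointwise bounds from square integrals
-/

set_option autoImplicit false

noncomputable section

namespace Crest.Agent.R213

open Set Filter Topology
open scoped ContDiff

/-- A function with bounded second derivative and bounded square integral on `[r, 2 r]`. -/
theorem sup_of_sq : ∃ C, 0 < C ∧ ∀ (r M : ℝ) (F F1 F2 : ℝ → ℝ), 0 < r → 0 ≤ M →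
    Sp (2 * r) F F1 F2 → (∫ x in (0 : ℝ)..(2 * r), x ^ 9 * F x ^ 2) ≤ M ^ 2 * r ^ 10 →
    (∀ x ∈ Ico r (2 * r), r ^ 2 * |F2 x| ≤ M) →
    ∀ x ∈ Icc r (2 * r), |F x| ≤ C * M ∧ r * |F1 x| ≤ C * M :=
  ⟨15, by norm_num, fun _ _ _ _ _ hr hM h hI h2 => PTA.sup15 hr hM h hI h2⟩

/-- The inner chain: four levels of square integrals give supremum bounds up to `x = 0`. -/
theorem chain_in (i : ℕ) (B : ℝ) (hB : 1 ≤ B) : ∃ C, 0 < C ∧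
    ∀ (S : Type) (r M : ℝ) (F F1 F2 e : S → ℕ → ℝ → ℝ), 0 < r → 0 ≤ M →
      (∀ s j, Sp (2 * r) (F s j) (F1 s j) (F2 s j)) →
      (∀ s j, ContinuousOn (e s j) (Icc 0 (2 * r))) →
      (∀ s, ∀ j ≤ i + 4, (∫ x in (0 : ℝ)..(2 * r), x ^ 9 * F s j x ^ 2) ≤ M ^ 2 * r ^ 10) →
      (∀ s, ∀ j ≤ i + 3, ∀ x ∈ Icc 0 (2 * r), |e s j x| ≤ M) →
      (∀ j ≤ i + 3, ∀ x ∈ Ioo 0 (2 * r), ∀ A, 0 ≤ A →
        (∀ s, ∀ l ≤ j, |Vol (fun y => F s (l + 1) y - e s l y) x| ≤ A * x ^ 11) →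
        ∀ s, r ^ 2 * |F2 s j x| ≤ B * (A + M)) →
      ∀ s, ∀ j ≤ i, ∀ x ∈ Icc 0 (2 * r), |F s j x| ≤ C * M ∧ r * |F1 s j x| ≤ C * M ∧
        r ^ 2 * |F2 s j x| ≤ C * M ∧
        |Vol (fun y => F s (j + 1) y - e s j y) x| ≤ C * M * x ^ 11 := by
  obtain ⟨C, hC, h⟩ := PTA.chain_in i B hB
  exact ⟨C, hC, fun S r M F F1 F2 e hr hM hS _ hI he hF2 => h S r M F F1 F2 e hr hM hS hI he hF2⟩

/-- The relative bound in the outer region. -/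
theorem pt2 : ∃ C, 0 < C ∧ ∀ (κ L l : ℝ) (Z k : ℝ → ℝ), κ * L = 1 → 0 < l → l ≤ L →
    VolOn κ L Z k → ∀ x ∈ Icc l L,
      (ph κ x * Z x) ^ 2 ≤ C * ∫ y in (0 : ℝ)..L, y ^ 9 * k y ^ 2 / (y + l) ^ 8 :=
  PTB.pt2

end Crest.Agent.R213
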