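import Crest.Agent.R213.Defs
import Crest.Prelude.Def_ProjKahler

/-!
# Row 213: Wirtinger calculus and radial potentials in the affine chart
-/

set_option autoImplicit false

noncomputable section

namespace Crest.Agent.R213.RadA

open Set Filter Topology
open scoped ContDiff

open Crest.GeometryTopology.ProjKahler
open scoped ComplexOrder

variable {n : ℕ}

/-- `F` is differentiable at `z` with Wirtinger derivatives `p` (`∂`) and `q` (`∂̄`). -/
structure Wd (F : V n → ℂ) (z : V n) (p q : Fin n → ℂ) : Prop where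
  diff : DifferentiableAt ℝ F z
  d : ∀ a, dz F z a = p a
  db : ∀ a, dzbar F z a = q a

variable {F G : V n → ℂ} {z : V n} {p q p' q' : Fin n → ℂ}

theorem Wd.congr (h : Wd F z p q) (e : G = F) (e1 : ∀ a, p a = p' a) (e2 : ∀ a, q a = q' a) :
    Wd G z p' q' :=
  e ▸ ⟨h.diff, fun a => (h.d a).trans (e1 a), fun a => (h.db a).trans (e2 a)⟩

theorem Wd.const (c : ℂ) (z : V n) : Wd (fun _ => c) z (fun _ => 0) fun _ => 0 :=
  ⟨differentiableAt_const c, fun a => by simp [dz], fun a => by simp [dzbar]⟩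

theorem Wd.add (h : Wd F z p q) (h' : Wd G z p' q') :
    Wd (fun u => F u + G u) z (fun a => p a + p' a) fun a => q a + q' a := by
  refine ⟨h.diff.add h'.diff, fun a => ?_, fun a => ?_⟩
  · rw [← h.d, ← h'.d, dz, dz, dz, fderiv_fun_add h.diff h'.diff]
    simp only [add_apply]
    ring
  · rw [← h.db, ← h'.db, dzbar, dzbar, dzbar, fderiv_fun_add h.diff h'.diff]
    simp only [add_apply]
    ring

theorem Wd.mul (h : Wd F z p q) (h' : Wd G z p' q') :
    Wd (fun u => F u * G u) z (fun a => F z * p' a + p a * G z)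
      fun a => F z * q' a + q a * G z := by
  refine ⟨h.diff.mul h'.diff, fun a => ?_, fun a => ?_⟩
  · rw [← h.d, ← h'.d, dz, dz, dz, fderiv_fun_mul h.diff h'.diff]
    simp only [add_apply, smul_apply, smul_eq_mul]
    ring
  · rw [← h.db, ← h'.db, dzbar, dzbar, dzbar, fderiv_fun_mul h.diff h'.diff]
    simp only [add_apply, smul_apply, smul_eq_mul]
    ring

theorem Wd.sum {ι : Type*} (s : Finset ι) {F : ι → V n → ℂ} {p q : ι → Fin n → ℂ}
    (h : ∀ i ∈ s, Wd (F i) z (p i) (q i)) :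
    Wd (fun u => ∑ i ∈ s, F i u) z (fun a => ∑ i ∈ s, p i a) fun a => ∑ i ∈ s, q i a := by
  classical
  induction s using Finset.induction_on with
  | empty => simpa using Wd.const 0 z
  | insert i s hi ih =>
    simp only [Finset.sum_insert hi]
    exact (h i (Finset.mem_insert_self _ _)).add
      (ih fun j hj => h j (Finset.mem_insert_of_mem hj))

theorem Wd.coord (b : Fin n) (z : V n) :
    Wd (fun u => u b) z (fun a => if a = b then 1 else 0) fun _ => 0 := by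
  have h : HasFDerivAt (fun u : V n => u b)
      ((EuclideanSpace.proj b : V n →L[ℂ] ℂ).restrictScalars ℝ) z :=
    ((EuclideanSpace.proj b : V n →L[ℂ] ℂ).restrictScalars ℝ).hasFDerivAt
  refine ⟨h.differentiableAt, fun a => ?_, fun a => ?_⟩
  · rw [dz, h.fderiv]
    by_cases e : a = b
    · simp [bv, e]
    · simp [bv, e, Ne.symm e]
  · rw [dzbar, h.fderiv]
    by_cases e : a = b
    · simp [bv, e]
    · simp [bv, Ne.symm e]

theorem Wd.conj (h : Wd F z p q) :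
    Wd (fun u => starRingEnd ℂ (F u)) z (fun a => starRingEnd ℂ (q a))
      fun a => starRingEnd ℂ (p a) := by
  have h1 : HasFDerivAt (fun u => starRingEnd ℂ (F u))
      ((Complex.conjCLE : ℂ →L[ℝ] ℂ).comp (fderiv ℝ F z)) z :=
    (Complex.conjCLE : ℂ →L[ℝ] ℂ).hasFDerivAt.comp z h.diff.hasFDerivAt
  refine ⟨h1.differentiableAt, fun a => ?_, fun a => ?_⟩
  · rw [← h.db, dz, dzbar, h1.fderiv]
    simp [sub_eq_add_neg, map_ofNat]
  · rw [← h.d, dz, dzbar, h1.fderiv]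
    simp [map_ofNat]

/-- Chain rule with a real function of one variable. -/
theorem Wd.comp {g : V n → ℝ} {f : ℝ → ℝ} {f' : ℝ} {s : Set ℝ}
    (h : Wd (fun u => (g u : ℂ)) z p q) (hs : ∀ u, g u ∈ s) (hf : HasDerivWithinAt f f' s (g z)) :
    Wd (fun u => (f (g u) : ℂ)) z (fun a => f' * p a) fun a => f' * q a := by
  have hg : DifferentiableAt ℝ g z := Complex.reCLM.differentiableAt.comp z h.diff
  have h1 : HasFDerivAt (fun u => (g u : ℂ)) (Complex.ofRealCLM.comp (fderiv ℝ g z)) z :=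
    Complex.ofRealCLM.hasFDerivAt.comp z hg.hasFDerivAt
  have h2 : HasFDerivAt (fun u => (f (g u) : ℂ))
      (Complex.ofRealCLM.comp (f' • fderiv ℝ g z)) z :=
    Complex.ofRealCLM.hasFDerivAt.comp z
      (hf.comp_hasFDerivAt z hg.hasFDerivAt (Eventually.of_forall hs))
  refine ⟨h2.differentiableAt, fun a => ?_, fun a => ?_⟩
  · rw [← h.d, dz, dz, h1.fderiv, h2.fderiv]
    simp
    ring
  · rw [← h.db, dzbar, dzbar, h1.fderiv, h2.fderiv]
    simp
    ring

theorem normSq_eq (u : V n) : ((‖u‖ ^ 2 : ℝ) : ℂ) = ∑ b, starRingEnd ℂ (u b) * u b := by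
  rw [EuclideanSpace.norm_sq_eq]
  push_cast
  exact Finset.sum_congr rfl fun b _ => (Complex.conj_mul' _).symm

theorem Wd.coordSq (b : Fin n) (z : V n) :
    Wd (fun u => ((‖u b‖ ^ 2 : ℝ) : ℂ)) z (fun a => if a = b then starRingEnd ℂ (z b) else 0)
      fun a => if a = b then z b else 0 :=
  ((Wd.coord b z).conj.mul (Wd.coord b z)).congr
    (funext fun u => by rw [Complex.conj_mul']; push_cast; rfl)
    (fun a => by split_ifs <;> simp) fun a => by split_ifs <;> simp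

theorem Wd.normSq (z : V n) :
    Wd (fun u => ((‖u‖ ^ 2 : ℝ) : ℂ)) z (fun a => starRingEnd ℂ (z a)) fun a => z a :=
  (Wd.sum Finset.univ fun b _ => Wd.coordSq b z).congr
    (funext fun u => by rw [EuclideanSpace.norm_sq_eq]; push_cast; rfl)
    (fun a => by simp) fun a => by simp

/-- The complex Hessian from two rounds of Wirtinger calculus. -/
theorem cHess_eq {Ψ : V n → ℝ} {P Q : V n → Fin n → ℂ} (h : ∀ w, Wd (fun u => (Ψ u : ℂ)) w (P w) (Q w))
    {b : Fin n} (h' : Wd (fun w => Q w b) z p q) (a : Fin n) : cHess Ψ z a b = p a := by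
  rw [cHess, Matrix.of_apply, funext fun w => (h w).db b, h'.d]

theorem cHess_radial {f f1 f2 : ℝ → ℝ} (h1 : ∀ s, 0 ≤ s → HasDerivWithinAt f (f1 s) (Ici 0) s)
    (h2 : ∀ s, 0 ≤ s → HasDerivWithinAt f1 (f2 s) (Ici 0) s) (z : V n) (a b : Fin n) :
    cHess (fun u : V n => f (‖u‖ ^ 2)) z a b =
      (f1 (‖z‖ ^ 2) : ℂ) * (if a = b then 1 else 0) +
        (f2 (‖z‖ ^ 2) : ℂ) * (starRingEnd ℂ (z a) * z b) := by
  rw [cHess_eq (fun w => (Wd.normSq w).comp (fun u => sq_nonneg _) (h1 _ (sq_nonneg _)))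
    (((Wd.normSq z).comp (fun u => sq_nonneg _) (h2 _ (sq_nonneg _))).mul (Wd.coord b z))]
  ring

theorem xc_mem {s : ℝ} (hs : 0 ≤ s) : s / (1 + s) ∈ Ico (0 : ℝ) 1 :=
  ⟨by positivity, (div_lt_one (by positivity)).2 (by linarith)⟩

theorem contDiff_xc : ContDiff ℝ ∞ fun z : V n => ‖z‖ ^ 2 / (1 + ‖z‖ ^ 2) :=
  (contDiff_norm_sq ℂ).div (contDiff_const.add (contDiff_norm_sq ℂ)) fun z => by positivity

theorem contDiffOn_dw {ψ : ℝ → ℝ} (h : ContDiffOn ℝ ∞ ψ (Icc 0 1)) :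
    ContDiffOn ℝ ∞ (dw ψ) (Icc 0 1) :=
  h.derivWithin (uniqueDiffOn_Icc one_pos) (by simp)

theorem hasDeriv_dw {ψ : ℝ → ℝ} (h : ContDiffOn ℝ ∞ ψ (Icc 0 1)) {x : ℝ} (hx : x ∈ Icc (0 : ℝ) 1) :
    HasDerivWithinAt ψ (dw ψ x) (Icc 0 1) x :=
  (h.differentiableOn (by simp) x hx).hasDerivWithinAt

theorem hasDeriv_xc {s : ℝ} (hs : 0 ≤ s) :
    HasDerivAt (fun s => s / (1 + s)) ((1 - s / (1 + s)) ^ 2) s := by
  refine ((hasDerivAt_id' s).div ((hasDerivAt_id' s).const_add 1) (by positivity)).congr_deriv ?_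
  field_simp
  ring

theorem hasDeriv_comp {ψ : ℝ → ℝ} (h : ContDiffOn ℝ ∞ ψ (Icc 0 1)) {s : ℝ} (hs : 0 ≤ s) :
    HasDerivWithinAt (fun s => ψ (s / (1 + s))) (dw ψ (s / (1 + s)) * (1 - s / (1 + s)) ^ 2)
      (Ici 0) s :=
  (hasDeriv_dw h (Ico_subset_Icc_self (xc_mem hs))).comp s (hasDeriv_xc hs).hasDerivWithinAt
    fun _ hr => Ico_subset_Icc_self (xc_mem hr)

theorem cHess_chart {ψ : ℝ → ℝ} (h : ContDiffOn ℝ ∞ ψ (Icc 0 1)) (z : V n) (a b : Fin n) {x : ℝ}
    (hx : x = ‖z‖ ^ 2 / (1 + ‖z‖ ^ 2)) :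
    cHess (fun u : V n => fsPot u + ψ (‖u‖ ^ 2 / (1 + ‖u‖ ^ 2))) z a b =
      ((aa ψ x * (1 - x) : ℝ) : ℂ) * (if a = b then 1 else 0) +
        (((1 - x) ^ 2 * ((1 - x) ^ 2 * dw (dw ψ) x - 2 * (1 - x) * dw ψ x - 1) : ℝ) : ℂ) *
          (starRingEnd ℂ (z a) * z b) := by
  rw [hx]
  refine cHess_radial (f := fun s => Real.log (1 + s) + ψ (s / (1 + s)))
    (f1 := fun s => aa ψ (s / (1 + s)) * (1 - s / (1 + s)))
    (f2 := fun s => (1 - s / (1 + s)) ^ 2 * ((1 - s / (1 + s)) ^ 2 * dw (dw ψ) (s / (1 + s)) -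
      2 * (1 - s / (1 + s)) * dw ψ (s / (1 + s)) - 1)) (fun s hs => ?_) (fun s hs => ?_) z a b
  · refine ((((hasDerivAt_id' s).const_add 1).log (by positivity)).hasDerivWithinAt.add
      (hasDeriv_comp h hs)).congr_deriv ?_
    rw [aa]
    field_simp
    ring
  · have h1 := ((hasDeriv_xc hs).const_sub 1).hasDerivWithinAt (s := Ici 0)
    refine (((h1.fun_mul (hasDeriv_comp (contDiffOn_dw h) hs)).const_add 1).fun_mul h1).congr_deriv ?_
    ring

/-- A rank-one perturbation of a positive multiple of the identity. -/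
theorem posDef_rank_one {M : Matrix (Fin n) (Fin n) ℂ} {A B : ℝ} (z : V n)
    (hM : ∀ a b, M a b = (A : ℂ) * (if a = b then 1 else 0) + (B : ℂ) * (starRingEnd ℂ (z a) * z b))
    (hA : 0 < A) (hB : 0 < A + B * ‖z‖ ^ 2) : M.PosDef := by
  refine Matrix.posDef_iff_dotProduct_mulVec.2 ⟨?_, fun v hv => ?_⟩
  · ext a b
    simp only [Matrix.conjTranspose_apply, hM]
    by_cases e : a = b
    · simp [e, mul_comm]
    · simp [e, Ne.symm e, mul_comm]
  · set w : V n := WithLp.toLp 2 (star v) with hw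
    have e : star v ⬝ᵥ M.mulVec v = ((A * ‖w‖ ^ 2 + B * ‖inner ℂ w z‖ ^ 2 : ℝ) : ℂ) := by
      have e1 := normSq_eq w
      have e2 : inner ℂ w z = ∑ b, z b * v b := by simp [hw, PiLp.inner_apply]
      push_cast at e1 ⊢
      rw [e1, ← Complex.conj_mul', e2, map_sum, Finset.sum_mul_sum, Finset.mul_sum,
        Finset.mul_sum, ← Finset.sum_add_distrib]
      refine Finset.sum_congr rfl fun a _ => ?_
      simp only [Matrix.mulVec, dotProduct, hM, add_mul, Finset.sum_add_distrib, mul_add,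
        Finset.mul_sum]
      congr 1
      · simp [hw]
        ring
      · refine Finset.sum_congr rfl fun b _ => ?_
        simp
        ring
    have h0 : 0 < ‖w‖ ^ 2 := by
      refine pow_pos (norm_pos_iff.2 fun h => hv ?_) 2
      simpa [hw] using h
    have h1 := pow_le_pow_left₀ (norm_nonneg _) (norm_inner_le_norm (𝕜 := ℂ) w z) 2
    rw [e, Complex.zero_lt_real]
    rcases le_total 0 B with hb | hb
    · positivity
    · nlinarith [mul_pos hB h0]

theorem posDef_chart {ψ : ℝ → ℝ} (h : ContDiffOn ℝ ∞ ψ (Icc 0 1))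
    (ha : ∀ x ∈ Icc (0 : ℝ) 1, 0 < aa ψ x) (ht : ∀ x ∈ Icc (0 : ℝ) 1, 0 < tx ψ x) (z : V n) :
    (cHess (fun u : V n => fsPot u + ψ (‖u‖ ^ 2 / (1 + ‖u‖ ^ 2))) z).PosDef := by
  obtain ⟨x, hx⟩ : ∃ x, x = ‖z‖ ^ 2 / (1 + ‖z‖ ^ 2) := ⟨_, rfl⟩
  have hm : x ∈ Ico (0 : ℝ) 1 := hx ▸ xc_mem (sq_nonneg _)
  have h1 : 0 < 1 - x := sub_pos.2 hm.2
  refine posDef_rank_one z (fun a b => cHess_chart h z a b hx)
    (mul_pos (ha x (Ico_subset_Icc_self hm)) h1) ?_
  have e : ‖z‖ ^ 2 = x / (1 - x) := by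
    rw [hx]
    field_simp
    ring
  refine (mul_pos (pow_pos h1 2) (ht x (Ico_subset_Icc_self hm))).trans_eq ?_
  rw [e, aa, tx]
  field_simp
  ring

end Crest.Agent.R213.RadA
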