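import Crest.Agent.R213.Defs
import Crest.Prelude.Def_ProjKahler

/-!
# Row 213: the scalar curvature of a radial potential
-/

set_option autoImplicit false

noncomputable section

namespace Crest.Agent.R213

open Set Filter Topology Matrix
open scoped ContDiff

open Crest.GeometryTopology.ProjKahler

namespace RadB

theorem dz_const_mul (c : ℂ) (f : V 10 → ℂ) (z : V 10) (a : Fin 10) :
    dz (fun u => c * f u) z a = c * dz f z a := by
  have h : fderiv ℝ (fun u => c * f u) z = c • fderiv ℝ f z :=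
    congrFun (fderiv_const_smul_field (𝕜 := ℝ) (f := f) c) z
  simp only [dz, h, _root_.smul_apply, smul_eq_mul]
  ring

theorem dzbar_const_mul (c : ℂ) (f : V 10 → ℂ) (z : V 10) (a : Fin 10) :
    dzbar (fun u => c * f u) z a = c * dzbar f z a := by
  have h : fderiv ℝ (fun u => c * f u) z = c • fderiv ℝ f z :=
    congrFun (fderiv_const_smul_field (𝕜 := ℝ) (f := f) c) z
  simp only [dzbar, h, _root_.smul_apply, smul_eq_mul]
  ring

theorem cHess_const_mul (c : ℝ) (f : V 10 → ℝ) (z : V 10) (a b : Fin 10) :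
    cHess (fun u => c * f u) z a b = c * cHess f z a b := by
  simp only [cHess, of_apply, Complex.ofReal_mul, dzbar_const_mul, dz_const_mul]

/-- The rank one matrix `conj z ⊗ z`. -/
def P (z : V 10) : Matrix (Fin 10) (Fin 10) ℂ := vecMulVec (fun a => starRingEnd ℂ (z a)) z

theorem dot (z : V 10) : (z : Fin 10 → ℂ) ⬝ᵥ (fun a => starRingEnd ℂ (z a)) = (‖z‖ ^ 2 : ℝ) := by
  rw [EuclideanSpace.norm_sq_eq, Complex.ofReal_sum]
  exact Finset.sum_congr rfl fun a _ => by rw [Complex.mul_conj', Complex.ofReal_pow]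

theorem P_mul (z : V 10) : P z * P z = ((‖z‖ ^ 2 : ℝ) : ℂ) • P z := by
  rw [P, vecMulVec_mul_vecMulVec, dot, vecMulVec_smul]

theorem trace_P (z : V 10) : (P z).trace = (‖z‖ ^ 2 : ℝ) := by
  rw [P, trace_vecMulVec, dotProduct_comm, dot]

theorem eq_P {G : Matrix (Fin 10) (Fin 10) ℂ} {z : V 10} {p q : ℂ}
    (h : ∀ a b, G a b = p * (if a = b then 1 else 0) + q * (starRingEnd ℂ (z a) * z b)) :
    G = p • 1 + q • P z := by
  ext a b
  simp [h, P, vecMulVec_apply, one_apply]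

theorem det_P (z : V 10) {p : ℂ} (hp : p ≠ 0) (q : ℂ) :
    (p • 1 + q • P z).det = p ^ 9 * (p + (‖z‖ ^ 2 : ℝ) * q) := by
  have h : p • 1 + q • P z =
      p • (1 + vecMulVec (fun a => starRingEnd ℂ (z a)) ((q / p) • (z : Fin 10 → ℂ))) := by
    rw [vecMulVec_smul, smul_add, smul_smul, mul_div_cancel₀ _ hp, P]
  rw [h, det_smul, vecMulVec_eq Unit, det_one_add_replicateCol_mul_replicateRow, smul_dotProduct,
    dot, Fintype.card_fin, smul_eq_mul]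
  field_simp

theorem inv_P (z : V 10) {p q : ℂ} (hp : p ≠ 0) (hq : p + (‖z‖ ^ 2 : ℝ) * q ≠ 0) :
    (p • 1 + q • P z)⁻¹ = p⁻¹ • 1 + (-(q / (p * (p + (‖z‖ ^ 2 : ℝ) * q)))) • P z := by
  refine inv_eq_right_inv ?_
  obtain ⟨r, hr⟩ : ∃ r, r = -(q / (p * (p + (‖z‖ ^ 2 : ℝ) * q))) := ⟨_, rfl⟩
  have h : p⁻¹ * q + r * (p + (‖z‖ ^ 2 : ℝ) * q) = 0 := by
    rw [hr]
    generalize p + (‖z‖ ^ 2 : ℝ) * q = D at hq
    field_simp
    ring
  rw [← hr]
  simp only [add_mul, mul_add, smul_mul_assoc, mul_smul_comm, one_mul, mul_one, P_mul]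
  linear_combination (norm := module) h • P z +
    (inv_mul_cancel₀ hp) • (1 : Matrix (Fin 10) (Fin 10) ℂ)

theorem trace_inv_mul (z : V 10) {p q : ℂ} (hp : p ≠ 0) (hq : p + (‖z‖ ^ 2 : ℝ) * q ≠ 0)
    (p' q' : ℂ) : ((p • 1 + q • P z)⁻¹ * (p' • 1 + q' • P z)).trace =
      9 * p' / p + (p' + (‖z‖ ^ 2 : ℝ) * q') / (p + (‖z‖ ^ 2 : ℝ) * q) := by
  rw [inv_P z hp hq]
  obtain ⟨D, hD⟩ : ∃ D, D = p + (‖z‖ ^ 2 : ℝ) * q := ⟨_, rfl⟩
  rw [← hD] at hq ⊢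
  simp only [add_mul, mul_add, smul_mul_assoc, mul_smul_comm, one_mul, mul_one, P_mul,
    trace_add, trace_smul, trace_one, trace_P, smul_eq_mul, Fintype.card_fin]
  field_simp
  rw [hD]
  push_cast
  ring

theorem dw_sm {f : ℝ → ℝ} (h : ContDiffOn ℝ ∞ f (Icc 0 1)) : ContDiffOn ℝ ∞ (dw f) (Icc 0 1) :=
  h.derivWithin (uniqueDiffOn_Icc one_pos) (by simp)

theorem has_dw {f : ℝ → ℝ} (h : ContDiffOn ℝ ∞ f (Icc 0 1)) {x : ℝ} (hx : x ∈ Icc (0 : ℝ) 1) :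
    HasDerivWithinAt f (dw f x) (Icc 0 1) x :=
  (h.differentiableOn (by simp) x hx).hasDerivWithinAt

theorem mm_sm {ψ : ℝ → ℝ} (h : ContDiffOn ℝ ∞ ψ (Icc 0 1))
    (ha : ∀ x ∈ Icc (0 : ℝ) 1, 0 < aa ψ x) (ht : ∀ x ∈ Icc (0 : ℝ) 1, 0 < tx ψ x) :
    ContDiffOn ℝ ∞ (mm ψ) (Icc 0 1) := by
  have h1 := dw_sm h
  have h2 := dw_sm h1
  have h3 : ContDiffOn ℝ ∞ (aa ψ) (Icc 0 1) :=
    contDiffOn_const.add ((contDiffOn_const.sub contDiffOn_id).mul h1)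
  have h4 : ContDiffOn ℝ ∞ (tx ψ) (Icc 0 1) :=
    (contDiffOn_const.add ((contDiffOn_const.sub (contDiffOn_const.mul contDiffOn_id)).mul h1)).add
      ((contDiffOn_id.mul (contDiffOn_const.sub contDiffOn_id)).mul h2)
  exact (contDiffOn_const.mul (h3.log fun x hx => (ha x hx).ne')).add
    (h4.log fun x hx => (ht x hx).ne')

theorem dw_const_mul (c : ℝ) (f : ℝ → ℝ) : dw (fun x => c * f x) = fun x => c * dw f x :=
  funext fun _ => derivWithin_const_mul_field c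

theorem scalarCurv_chart (X : V 10 → ℝ) (hX : ∀ z, X z = ‖z‖ ^ 2 / (1 + ‖z‖ ^ 2))
    (hc : ∀ {ψ : ℝ → ℝ}, ContDiffOn ℝ ∞ ψ (Icc 0 1) → ∀ (z : V 10) (a b : Fin 10),
      cHess (fun u : V 10 => fsPot u + ψ (X u)) z a b =
      ((aa ψ (X z) * (1 - X z) : ℝ) : ℂ) * (if a = b then 1 else 0) +
        (((1 - X z) ^ 2 * ((1 - X z) ^ 2 * dw (dw ψ) (X z) - 2 * (1 - X z) * dw ψ (X z) - 1)
          : ℝ) : ℂ) * (starRingEnd ℂ (z a) * z b))
    {ψ : ℝ → ℝ} (h : ContDiffOn ℝ ∞ ψ (Icc 0 1))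
    (ha : ∀ x ∈ Icc (0 : ℝ) 1, 0 < aa ψ x) (ht : ∀ x ∈ Icc (0 : ℝ) 1, 0 < tx ψ x) (z : V 10) :
    scalarCurv (fun u : V 10 => fsPot u + ψ (X u)) z = curv ψ (X z) := by
  have h1 : ∀ w, 1 - X w = (1 + ‖w‖ ^ 2)⁻¹ := fun w => by
    rw [hX]
    field_simp
    ring
  have h2 : ∀ w, 0 < 1 - X w := fun w => by
    rw [h1]
    positivity
  have h3 : ∀ w, X w ∈ Icc (0 : ℝ) 1 := fun w =>
    ⟨by rw [hX]; positivity, by linarith [h2 w]⟩
  have h4 : ∀ (φ : ℝ → ℝ) (w : V 10), ((aa φ (X w) * (1 - X w) : ℝ) : ℂ) + (‖w‖ ^ 2 : ℝ) *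
      (((1 - X w) ^ 2 * ((1 - X w) ^ 2 * dw (dw φ) (X w) - 2 * (1 - X w) * dw φ (X w) - 1) : ℝ)
        : ℂ) = (((1 - X w) ^ 2 * tx φ (X w) : ℝ) : ℂ) := fun φ w => by
    rw [← Complex.ofReal_mul, ← Complex.ofReal_add]
    congr 1
    have h5 : ‖w‖ ^ 2 = X w / (1 - X w) := by
      rw [h1, hX]
      field_simp
    have := (h2 w).ne'
    rw [h5, aa, tx]
    field_simp
    ring
  have hp : ∀ w, ((aa ψ (X w) * (1 - X w) : ℝ) : ℂ) ≠ 0 := fun w =>
    Complex.ofReal_ne_zero.2 (mul_pos (ha _ (h3 w)) (h2 w)).ne'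
  have hl : (fun w => Real.log ((cHess (fun u : V 10 => fsPot u + ψ (X u)) w).det.re)) =
      fun w => -11 * (fsPot w + (fun x => -(1 / 11) * mm ψ x) (X w)) := by
    funext w
    have a0 := (ha _ (h3 w)).ne'
    have t0 := (ht _ (h3 w)).ne'
    have x0 := (h2 w).ne'
    rw [eq_P (hc h w), det_P _ (hp w), h4, ← Complex.ofReal_pow, ← Complex.ofReal_mul,
      Complex.ofReal_re, Real.log_mul (by positivity) (by positivity), Real.log_pow,
      Real.log_mul a0 x0, Real.log_mul (by positivity) t0, Real.log_pow, h1, Real.log_inv]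
    simp only [fsPot, mm]
    push_cast
    ring
  have hm := mm_sm h ha ht
  have hm' : ContDiffOn ℝ ∞ (fun x => -(1 / 11) * mm ψ x) (Icc 0 1) := contDiffOn_const.mul hm
  have hd : dw (fun y => 11 * y - y * (1 - y) * dw (mm ψ) y) (X z) =
      11 * tx (fun x => -(1 / 11) * mm ψ x) (X z) := by
    have d1 := hasDerivWithinAt_id (X z) (Icc (0 : ℝ) 1)
    have d2 := ((d1.const_mul 11).sub ((d1.mul (d1.const_sub 1)).mul
      (has_dw (dw_sm hm) (h3 z)))).derivWithin (uniqueDiffOn_Icc one_pos _ (h3 z))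
    refine Eq.trans d2 ?_
    simp only [tx, dw_const_mul, id, Pi.mul_apply]
    ring
  have ht0 : (((1 - X z) ^ 2 * tx ψ (X z) : ℝ) : ℂ) ≠ 0 :=
    Complex.ofReal_ne_zero.2 (mul_pos (pow_pos (h2 z) 2) (ht _ (h3 z))).ne'
  have h6 := trace_inv_mul z (hp z) ((h4 ψ z).symm ▸ ht0)
  unfold scalarCurv
  rw [hl, Finset.sum_comm]
  simp only [cHess_const_mul, mul_left_comm _ (((-11 : ℝ)) : ℂ), ← Finset.mul_sum]
  have h7 : ∀ A B : Matrix (Fin 10) (Fin 10) ℂ, ∑ b, ∑ a, A b a * B a b = (A * B).trace :=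
    fun A B => rfl
  rw [h7, eq_P (hc h z), eq_P (hc hm' z), h6, h4, h4, curv, hd]
  have a0 := (ha _ (h3 z)).ne'
  have t0 := (ht _ (h3 z)).ne'
  have x0 := (h2 z).ne'
  rw [show (9 : ℂ) = ((9 : ℝ) : ℂ) by norm_num]
  simp only [← Complex.ofReal_mul, ← Complex.ofReal_div, ← Complex.ofReal_add, Complex.ofReal_re]
  rw [aa, dw_const_mul]
  field_simp
  ring

end RadB

end Crest.Agent.R213
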