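import Crest.Agent.R213.Defs
import Crest.Prelude.Def_ProjKahler
import Crest.Agent.R213.RadB
import Crest.Agent.R213.RadA

/-!
# Row 213: radial potentials in the affine chart
-/

set_option autoImplicit false

noncomputable section

namespace Crest.Agent.R213

open Set Filter Topology
open scoped ContDiff

open Crest.GeometryTopology.ProjKahler
open scoped ComplexOrder

/-- The moment coordinate of the Fubini–Study metric. -/
def xc (z : V 10) : ℝ := ‖z‖ ^ 2 / (1 + ‖z‖ ^ 2)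

theorem xc_mem (z : V 10) : xc z ∈ Ico (0 : ℝ) 1 :=
  RadA.xc_mem (sq_nonneg _)

theorem contDiff_xc : ContDiff ℝ ∞ xc :=
  RadA.contDiff_xc

/-- The complex Hessian of a radial function. -/
theorem cHess_radial {f f1 f2 : ℝ → ℝ} (h1 : ∀ s, 0 ≤ s → HasDerivWithinAt f (f1 s) (Ici 0) s)
    (h2 : ∀ s, 0 ≤ s → HasDerivWithinAt f1 (f2 s) (Ici 0) s) (z : V 10) (a b : Fin 10) :
    cHess (fun u : V 10 => f (‖u‖ ^ 2)) z a b =
      (f1 (‖z‖ ^ 2) : ℂ) * (if a = b then 1 else 0) +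
        (f2 (‖z‖ ^ 2) : ℂ) * (starRingEnd ℂ (z a) * z b) :=
  RadA.cHess_radial h1 h2 z a b

theorem cHess_chart {ψ : ℝ → ℝ} (h : ContDiffOn ℝ ∞ ψ (Icc 0 1)) (z : V 10) (a b : Fin 10) :
    cHess (fun u : V 10 => fsPot u + ψ (xc u)) z a b =
      ((aa ψ (xc z) * (1 - xc z) : ℝ) : ℂ) * (if a = b then 1 else 0) +
        (((1 - xc z) ^ 2 * ((1 - xc z) ^ 2 * dw (dw ψ) (xc z) - 2 * (1 - xc z) * dw ψ (xc z) - 1)
          : ℝ) : ℂ) * (starRingEnd ℂ (z a) * z b) :=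
  RadA.cHess_chart h z a b rfl

theorem posDef_chart {ψ : ℝ → ℝ} (h : ContDiffOn ℝ ∞ ψ (Icc 0 1))
    (ha : ∀ x ∈ Icc (0 : ℝ) 1, 0 < aa ψ x) (ht : ∀ x ∈ Icc (0 : ℝ) 1, 0 < tx ψ x) (z : V 10) :
    (cHess (fun u : V 10 => fsPot u + ψ (xc u)) z).PosDef :=
  RadA.posDef_chart h ha ht z

theorem scalarCurv_chart {ψ : ℝ → ℝ} (h : ContDiffOn ℝ ∞ ψ (Icc 0 1))
    (ha : ∀ x ∈ Icc (0 : ℝ) 1, 0 < aa ψ x) (ht : ∀ x ∈ Icc (0 : ℝ) 1, 0 < tx ψ x) (z : V 10) :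
    scalarCurv (fun u : V 10 => fsPot u + ψ (xc u)) z = curv ψ (xc z) :=
  RadB.scalarCurv_chart xc (fun _ => rfl) cHess_chart h ha ht z

end Crest.Agent.R213
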