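import Crest.Agent.R213.B1
import Crest.Agent.R213.SysB

/-!
# Row 213: the soliton as a function of space and time
-/

set_option autoImplicit false

noncomputable section

namespace Crest.Agent.R213

open Set Filter Topology
open scoped ContDiff

/-- A function of the similarity variable. -/
def sim (G : ℝ → ℝ) : Fn := fun t x => G (x / lam t)

/-- The open set on which functions of the similarity variable are smooth. -/
def simU (x0 : ℝ) : Set (ℝ × ℝ) := {p | p.1 < 0 ∧ -x0 < p.2 / lam p.1}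

theorem simA_sm : ContDiffOn ℝ ∞ (fun p : ℝ × ℝ => p.2 / lam p.1) {p | p.1 < 0} :=
  contDiffOn_snd.div (contDiffOn_fst.neg.sqrt fun _ hp => neg_ne_zero.2 (ne_of_lt hp))
    fun _ hp => (lam_pos hp).ne'

theorem isOpen_simU (x0 : ℝ) : IsOpen (simU x0) :=
  simA_sm.continuousOn.isOpen_inter_preimage (isOpen_lt continuous_fst continuous_const) isOpen_Ioi

theorem subset_simU {x0 : ℝ} (h : 0 < x0) : Iio 0 ×ˢ Ici 0 ⊆ simU x0 := fun _ hp =>
  ⟨hp.1, (neg_lt_zero.2 h).trans_le (div_nonneg hp.2 (lam_pos hp.1).le)⟩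

theorem contDiffOn_sim {G : ℝ → ℝ} {x0 : ℝ} (h : ContDiffOn ℝ ∞ G (Ioi (-x0))) :
    ContDiffOn ℝ ∞ (fun p : ℝ × ℝ => sim G p.1 p.2) (simU x0) :=
  h.comp (simA_sm.mono fun _ hp => hp.1) fun _ hp => hp.2

theorem contDiffOn_Th {G : ℝ → ℝ} {x0 : ℝ} (h : ContDiffOn ℝ ∞ G (Ioi (-x0))) (k : ℕ) :
    ContDiffOn ℝ ∞ (Th k G) (Ioi (-x0)) := by
  induction k with
  | zero => exact h
  | succ k ih => exact contDiffOn_id.mul (ih.deriv_of_isOpen isOpen_Ioi (by simp))

theorem ts_sim {G : ℝ → ℝ} {x0 : ℝ} (h0 : 0 < x0) (h : ContDiffOn ℝ ∞ G (Ioi (-x0))) :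
    TS (Iio 0) (Ici 0) (sim G) :=
  TS.of_contDiffOn isOpen_Iio (uniqueDiffOn_Ici 0) ((contDiffOn_sim h).mono (subset_simU h0))

theorem sim_scale (G : ℝ → ℝ) {μ : ℝ} (hμ : 0 < μ) (t x : ℝ) :
    sim G (μ ^ 2 * t) (μ * x) = sim G t x := by
  rw [sim, sim, lam_scale hμ.le, mul_div_mul_left _ _ hμ.ne']

/-- Time derivatives are combinations of Euler derivatives. -/
theorem DT_sim (j : ℕ) : ∃ c : ℕ → ℝ, (1 ≤ j → c 0 = 0) ∧ ∀ (G : ℝ → ℝ) (x0 : ℝ), 0 < x0 →
    ContDiffOn ℝ ∞ G (Ioi (-x0)) → ∀ t < 0, ∀ x, 0 ≤ x →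
      (-t) ^ j * DT j (sim G) t x = ∑ i ∈ Finset.range (j + 1), c i * Th i G (x / lam t) := by
  induction j with
  | zero => exact ⟨fun _ => 1, by simp, fun G x0 _ _ t _ x _ => by simp [DT, Th, sim]⟩
  | succ j ih =>
    obtain ⟨c, h0, hc⟩ := ih
    refine ⟨fun i => j * (if i ≤ j then c i else 0) + if i = 0 then 0 else c (i - 1) / 2,
      fun _ => ?_, fun G x0 hx0 hG t ht x hx => ?_⟩
    · rcases j.eq_zero_or_pos with rfl | hj
      · simp
      · simp [h0 hj]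
    have hl := lam_pos ht
    have hy : x / lam t ∈ Ioi (-x0) := (neg_lt_zero.2 hx0).trans_le (div_nonneg hx hl.le)
    have d1 := ((hasDerivAt_neg t).pow j).mul (((ts_sim hx0 hG) j).2 t ht x hx)
    have d2 := HasDerivAt.fun_sum (u := Finset.range (j + 1)) fun i _ =>
      ((((contDiffOn_Th hG i).contDiffAt (isOpen_Ioi.mem_nhds hy)).differentiableAt
        (by simp)).hasDerivAt.comp t
        ((hasDerivAt_const t x).div (hasDerivAt_lam ht) hl.ne')).const_mul (c i)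
    have e := d1.unique (d2.congr_of_eventuallyEq ((eventually_lt_nhds ht).mono
      fun s hs => hc G x0 hx0 hG s hs x hx))
    have e2 : ∀ i, -t * (c i * (deriv (Th i G) (x / lam t) *
        ((0 * lam t - x * -(1 / (2 * lam t))) / lam t ^ 2))) =
        c i / 2 * Th (i + 1) G (x / lam t) := fun i => by
      rw [Th, ← lam_sq ht.le]
      field_simp
      ring
    have e3 : -t * (j * (-t) ^ (j - 1)) = j * (-t) ^ j := by
      rcases j with _ | j
      · simp
      · rw [Nat.add_sub_cancel, pow_succ]; ring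
    have e4 := congrArg (fun z => -t * z) e
    simp only [Finset.mul_sum, e2, Pi.pow_apply] at e4
    simp only [add_mul, Finset.sum_add_distrib]
    rw [Finset.sum_range_succ, Finset.sum_range_succ' _ (j + 1), Finset.sum_congr rfl
      fun i hi => by rw [if_pos (Nat.lt_succ_iff.1 (Finset.mem_range.1 hi)), mul_assoc],
      ← Finset.mul_sum, ← hc G x0 hx0 hG t ht x hx]
    simp only [Nat.add_one_le_iff, lt_self_iff_false, if_false, Nat.succ_ne_zero, if_true,
      Nat.add_sub_cancel, ← e4]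
    linear_combination (DT j (sim G) t x) * e3

theorem Sol.contDiffOn_g (s : Sol) : ContDiffOn ℝ ∞ (gof s.S) (Ioi (-s.x0)) :=
  contDiffOn_const.sub (contDiffOn_id.mul s.sG)

theorem Sol.th_bd (s : Sol) (k : ℕ) (hk : 1 ≤ k) :
    ∃ B, ∀ x, 0 ≤ x → (1 + x) ^ 2 * |Th k (gof s.S) x| ≤ B := by
  obtain ⟨B, hB⟩ := s.sym k hk
  obtain ⟨C, hC⟩ := (isCompact_Icc (a := (0 : ℝ)) (b := 1)).exists_bound_of_continuousOn
    ((contDiffOn_Th s.contDiffOn_g k).continuousOn.mono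
      fun x hx => (neg_lt_zero.2 s.hx0).trans_le hx.1)
  refine ⟨max (4 * B) (4 * C), fun x hx => ?_⟩
  have h0 := abs_nonneg (Th k (gof s.S) x)
  rcases le_total x 1 with h | h
  · exact (mul_le_mul (by nlinarith) (hC x ⟨hx, h⟩) h0 (by norm_num)).trans (le_max_right _ _)
  · refine le_trans ?_ (le_max_left _ _)
    have := mul_le_mul_of_nonneg_right (show (1 + x) ^ 2 ≤ 4 * x ^ 2 by nlinarith) h0
    linarith [hB x h]

/-- The sharp symbol bounds in time. -/
theorem Sol.sim_sym (s : Sol) (c : ℕ) (hc : 1 ≤ c) : ∃ B, ∀ t < 0, ∀ x, 0 ≤ x →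
    om true (-t) ((x + lam t) ^ 2) c * |DT c (sim (gof s.S)) t x| ≤ B := by
  obtain ⟨a, h0, ha⟩ := DT_sim c
  have h1 : ∀ i, ∃ B, ∀ y, 0 ≤ y → (1 + y) ^ 2 * |a i * Th i (gof s.S) y| ≤ B := fun i => by
    rcases i.eq_zero_or_pos with rfl | hi
    · exact ⟨0, fun y _ => by simp [h0 hc]⟩
    · obtain ⟨B, hB⟩ := s.th_bd i hi
      exact ⟨|a i| * B, fun y hy => by
        rw [abs_mul, mul_left_comm]; exact mul_le_mul_of_nonneg_left (hB y hy) (abs_nonneg _)⟩
  choose B hB using h1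
  refine ⟨∑ i ∈ Finset.range (c + 1), B i, fun t ht x hx => ?_⟩
  have hl := lam_pos ht
  have e : om true (-t) ((x + lam t) ^ 2) c = (1 + x / lam t) ^ 2 * (-t) ^ c := by
    obtain ⟨c, rfl⟩ := Nat.exists_eq_add_of_le' hc
    rw [om, if_neg (by simp), if_pos rfl, Nat.add_sub_cancel, pow_succ (-t), mul_comm _ (-t),
      ← mul_assoc]
    congr 1
    rw [← lam_sq ht.le]
    field_simp
    ring
  rw [e, mul_assoc, ← abs_of_nonneg (pow_nonneg (neg_pos.2 ht).le c), ← abs_mul,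
    ha _ _ s.hx0 s.contDiffOn_g t ht x hx]
  refine (mul_le_mul_of_nonneg_left (Finset.abs_sum_le_sum_abs _ _) (sq_nonneg _)).trans ?_
  rw [Finset.mul_sum]
  exact Finset.sum_le_sum fun i _ => hB i _ (div_nonneg hx hl.le)

theorem simA_Th (g : ℝ → ℝ) (i k : ℕ) : Th i (Th k g) = Th (k + i) g := by
  induction i with
  | zero => rfl
  | succ i ih => rw [Th, ih]; rfl

/-- All Euler derivatives have tame time derivatives. -/
theorem Sol.sim_th_bd (s : Sol) (k j : ℕ) : ∃ B, ∀ t < 0, ∀ x, 0 ≤ x →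
    (-t) ^ j * |DT j (sim (Th k (gof s.S))) t x| ≤ B := by
  obtain ⟨a, -, ha⟩ := DT_sim j
  have h1 : ∀ i, ∃ B, ∀ y, 0 ≤ y → |Th i (gof s.S) y| ≤ B := fun i => by
    rcases i.eq_zero_or_pos with rfl | hi
    · obtain ⟨B, hB⟩ := s.hi
      exact ⟨B, fun y hy => (abs_of_nonneg (le_trans (by norm_num)
        (s.lo y ((neg_lt_zero.2 s.hx0).trans_le hy)))).trans_le (hB y hy)⟩
    · obtain ⟨B, hB⟩ := s.th_bd i hi
      exact ⟨B, fun y hy => (le_mul_of_one_le_left (abs_nonneg _) (by nlinarith)).trans (hB y hy)⟩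
  choose B hB using h1
  refine ⟨∑ i ∈ Finset.range (j + 1), |a i| * B (k + i), fun t ht x hx => ?_⟩
  rw [← abs_of_nonneg (pow_nonneg (neg_pos.2 ht).le j), ← abs_mul,
    ha _ _ s.hx0 (contDiffOn_Th s.contDiffOn_g k) t ht x hx]
  refine (Finset.abs_sum_le_sum_abs _ _).trans (Finset.sum_le_sum fun i _ => ?_)
  rw [abs_mul, simA_Th]
  exact mul_le_mul_of_nonneg_left (hB _ _ (div_nonneg hx (lam_pos ht).le)) (abs_nonneg _)

/-- The second order equation for `g`. -/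
theorem Sol.g_eq (s : Sol) : ∀ x, 0 < x →
    x * s.S x = 90 - (Th 2 (gof s.S) x + 19 * Th 1 (gof s.S) x + 90 * gof s.S x) := by
  obtain ⟨S, hS⟩ : ∃ S : ℝ → ℝ, S = fun y => s.S (max y 0) := ⟨_, rfl⟩
  have hc : Continuous S := hS ▸ s.sS.continuousOn.comp_continuous (by fun_prop)
    fun y => (neg_lt_zero.2 s.hx0).trans_le (le_max_right _ _)
  have e0 : ∀ y, 0 ≤ y → S y = s.S y := fun y hy => by rw [hS]; simp only [max_eq_left hy]
  have e1 : ∀ y, 0 < y → gof s.S y = gof S y := fun y hy => by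
    rw [gof, gof, K1, K1, intervalIntegral.integral_congr fun θ hθ => ?_]
    rw [uIcc_of_le zero_le_one] at hθ
    simp only [e0 _ (mul_nonneg hθ.1 hy.le)]
  have e2 : ∀ y, 0 < y → Th 1 (gof s.S) y = thof S y := fun y hy => by
    show y * deriv (gof s.S) y = _
    rw [((hasDerivAt_gof hc hy.ne').congr_of_eventuallyEq
      ((eventually_gt_nhds hy).mono e1)).deriv, mul_div_cancel₀ _ hy.ne']
  intro x hx
  have e3 : Th 2 (gof s.S) x = x * deriv (Th 1 (gof s.S)) x := rfl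
  rw [e3, ((hasDerivAt_thof hc hx.ne').congr_of_eventuallyEq
    ((eventually_gt_nhds hx).mono e2)).deriv, mul_div_cancel₀ _ hx.ne', e2 x hx, e1 x hx,
    e0 x hx.le]
  ring

end Crest.Agent.R213
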