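import Crest.Agent.R213.Defs

/-!
# Row 213: the derivatives of the inverse of a time-smooth function
-/

set_option autoImplicit false

noncomputable section

namespace Crest.Agent.R213.TS1B

open Set Filter Topology

/-- Polynomials in `u⁻¹` and the time derivatives of `u`. -/
inductive Alg (u : Fn) : Fn → Prop
  | der (j : ℕ) : Alg u (DT j u)
  | inv : Alg u fun t x => (u t x)⁻¹
  | neg {f : Fn} : Alg u f → Alg u fun t x => -f t x
  | add {f g : Fn} : Alg u f → Alg u g → Alg u fun t x => f t x + g t x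
  | mul {f g : Fn} : Alg u f → Alg u g → Alg u fun t x => f t x * g t x

variable {I D : Set ℝ} {u : Fn}

theorem Alg.spec (hu : TS I D u) (h0 : ∀ t ∈ I, ∀ x ∈ D, u t x ≠ 0) {f : Fn} (hf : Alg u f) :
    ContinuousOn (fun p : ℝ × ℝ => f p.1 p.2) (I ×ˢ D) ∧
      ∃ g, Alg u g ∧ ∀ t ∈ I, ∀ x ∈ D, HasDerivAt (fun s => f s x) (g t x) t := by
  induction hf with
  | der j => exact ⟨(hu j).1, _, .der (j + 1), (hu j).2⟩
  | inv =>
    refine ⟨(hu 0).1.inv₀ fun p hp => h0 _ hp.1 _ hp.2, _,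
      .neg (.mul (.der 1) (.mul .inv .inv)), fun t ht x hx => ?_⟩
    refine (((hu 0).2 t ht x hx).fun_inv (h0 t ht x hx)).congr_deriv ?_
    change -DT 1 u t x / u t x ^ 2 = _
    rw [neg_div, div_eq_mul_inv, sq, mul_inv]
  | neg _ ih =>
    obtain ⟨h1, g, hg, h2⟩ := ih
    exact ⟨h1.neg, _, hg.neg, fun t ht x hx => (h2 t ht x hx).neg⟩
  | add _ _ ih ih' =>
    obtain ⟨h1, g, hg, h2⟩ := ih
    obtain ⟨h1', g', hg', h2'⟩ := ih'
    exact ⟨h1.add h1', _, hg.add hg', fun t ht x hx => (h2 t ht x hx).add (h2' t ht x hx)⟩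
  | mul hf hf' ih ih' =>
    obtain ⟨h1, g, hg, h2⟩ := ih
    obtain ⟨h1', g', hg', h2'⟩ := ih'
    exact ⟨h1.mul h1', _, (hg.mul hf').add (hf.mul hg'),
      fun t ht x hx => (h2 t ht x hx).mul (h2' t ht x hx)⟩

theorem tower (hu : TS I D u) (h0 : ∀ t ∈ I, ∀ x ∈ D, u t x ≠ 0) :
    ∃ w : ℕ → Fn, (w 0 = fun t x => (u t x)⁻¹) ∧
      (∀ j, ContinuousOn (fun p : ℝ × ℝ => w j p.1 p.2) (I ×ˢ D)) ∧
      ∀ j, ∀ t ∈ I, ∀ x ∈ D, HasDerivAt (fun s => w j s x) (w (j + 1) t x) t := by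
  have H : ∀ f : {f : Fn // Alg u f}, ∃ g : {f : Fn // Alg u f},
      ∀ t ∈ I, ∀ x ∈ D, HasDerivAt (fun s => f.1 s x) (g.1 t x) t := fun f => by
    obtain ⟨g, hg, h⟩ := (f.2.spec hu h0).2
    exact ⟨⟨g, hg⟩, h⟩
  choose F hF using H
  refine ⟨fun j => (F^[j] ⟨_, .inv⟩).1, rfl, fun j => ((F^[j] ⟨_, .inv⟩).2.spec hu h0).1,
    fun j => ?_⟩
  simp only [Function.iterate_succ_apply']
  exact hF _

end Crest.Agent.R213.TS1B
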