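import Crest.Agent.R213.Defs
import Crest.Agent.R213.TS1B

/-!
# Row 213: time-smooth functions, algebra
-/

set_option autoImplicit false

noncomputable section

namespace Crest.Agent.R213

open Set Filter Topology
open scoped ContDiff

variable {I J D D' : Set ℝ} {u v : Fn}

theorem DT_succ' (j : ℕ) (u : Fn) : DT (j + 1) u = DT j (Dt u) := by
  induction j with
  | zero => rfl
  | succ j ih => exact congrArg Dt ih

theorem DT_add_apply (i j : ℕ) (u : Fn) : DT i (DT j u) = DT (i + j) u := by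
  induction i with
  | zero => rw [Nat.zero_add]; rfl
  | succ i ih => rw [Nat.add_right_comm]; exact congrArg Dt ih

/-- Time derivatives only depend on the values on the open time set. -/
theorem DT_congr (hI : IsOpen I) {x : ℝ} (h : ∀ t ∈ I, u t x = v t x) (j : ℕ) :
    ∀ t ∈ I, DT j u t x = DT j v t x := by
  induction j with
  | zero => exact h
  | succ j ih =>
    intro t ht
    exact Filter.EventuallyEq.deriv_eq (f₁ := fun s => DT j u s x) (f := fun s => DT j v s x)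
      (Filter.eventually_of_mem (hI.mem_nhds ht) ih)

theorem TS.congr (hI : IsOpen I) (hu : TS I D u) (h : ∀ t ∈ I, ∀ x ∈ D, v t x = u t x) :
    TS I D v := by
  have H : ∀ j, ∀ t ∈ I, ∀ x ∈ D, DT j v t x = DT j u t x := fun j t ht x hx =>
    DT_congr hI (fun s hs => h s hs x hx) j t ht
  refine fun j => ⟨(hu j).1.congr fun p hp => H j _ hp.1 _ hp.2, fun t ht x hx => ?_⟩
  rw [H _ t ht x hx]
  exact ((hu j).2 t ht x hx).congr_of_eventuallyEq
    (Filter.eventually_of_mem (hI.mem_nhds ht) fun s hs => H j s hs x hx)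

theorem TS.mono (hu : TS I D u) (hJ : J ⊆ I) (hD : D' ⊆ D) : TS J D' u := by
  exact fun j => ⟨(hu j).1.mono (prod_mono hJ hD), fun t ht x hx => (hu j).2 t (hJ ht) x (hD hx)⟩

theorem TS.dt (hu : TS I D u) (j : ℕ) : TS I D (DT j u) := by
  intro i
  rw [DT_add_apply, DT_add_apply, Nat.add_right_comm]
  exact hu (i + j)

theorem TS.cont_x (hu : TS I D u) (j : ℕ) {t : ℝ} (ht : t ∈ I) : ContinuousOn (DT j u t) D := by
  exact (hu j).1.comp (f := fun x => (t, x)) (continuousOn_const.prodMk continuousOn_id)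
    fun x hx => ⟨ht, hx⟩

/-- A sequence of continuous functions, each the time derivative of the one before. -/
theorem TS.of_tower (hI : IsOpen I) (w : ℕ → Fn)
    (hc : ∀ j, ContinuousOn (fun p : ℝ × ℝ => w j p.1 p.2) (I ×ˢ D))
    (hd : ∀ j, ∀ t ∈ I, ∀ x ∈ D, HasDerivAt (fun s => w j s x) (w (j + 1) t x) t) :
    TS I D (w 0) ∧ ∀ j, ∀ t ∈ I, ∀ x ∈ D, DT j (w 0) t x = w j t x := by
  have H : ∀ j, ∀ t ∈ I, ∀ x ∈ D, DT j (w 0) t x = w j t x := by
    intro j
    induction j with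
    | zero => exact fun _ _ _ _ => rfl
    | succ j ih =>
      intro t ht x hx
      exact ((hd j t ht x hx).congr_of_eventuallyEq (f₁ := fun s => DT j (w 0) s x)
        (Filter.eventually_of_mem (hI.mem_nhds ht) fun s hs => ih s hs x hx)).deriv
  refine ⟨fun j => ⟨(hc j).congr fun p hp => H j _ hp.1 _ hp.2, fun t ht x hx => ?_⟩, H⟩
  rw [H _ t ht x hx]
  exact (hd j t ht x hx).congr_of_eventuallyEq
    (Filter.eventually_of_mem (hI.mem_nhds ht) fun s hs => H j s hs x hx)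

/-- Locality in time. -/
theorem TS.of_local (h : ∀ t ∈ I, ∃ J, IsOpen J ∧ t ∈ J ∧ J ⊆ I ∧ TS J D u) : TS I D u := by
  refine fun j => ⟨fun p hp => ?_, fun t ht x hx => ?_⟩
  · obtain ⟨J, hJ, ht, -, hu⟩ := h _ hp.1
    refine ((hu j).1 p ⟨ht, hp.2⟩).mono_of_mem_nhdsWithin ?_
    refine mem_nhdsWithin.2 ⟨J ×ˢ univ, hJ.prod isOpen_univ, ⟨ht, trivial⟩, ?_⟩
    exact fun q hq => ⟨hq.1.1, hq.2.2⟩
  · obtain ⟨J, -, htJ, -, hu⟩ := h _ ht
    exact (hu j).2 t htJ x hx

theorem DT_zero (j : ℕ) : DT j (0 : Fn) = 0 := by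
  induction j with
  | zero => rfl
  | succ j ih =>
    change Dt (DT j 0) = 0
    rw [ih]
    funext t x
    exact deriv_const t (0 : ℝ)

theorem TS.zero : TS I D (0 : Fn) := by
  intro j
  rw [DT_zero, DT_zero]
  exact ⟨continuousOn_const, fun t _ x _ => hasDerivAt_const t (0 : ℝ)⟩

theorem DT_const (c : ℝ → ℝ) (j : ℕ) : DT (j + 1) (fun _ x => c x) = 0 := by
  rw [DT_succ', ← DT_zero j]
  congr 1
  funext t x
  exact deriv_const t (c x)

theorem TS.const {c : ℝ → ℝ} (hc : ContinuousOn c D) : TS I D fun _ x => c x := by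
  intro j
  cases j with
  | zero =>
    rw [DT_const]
    exact ⟨hc.comp continuousOn_snd fun p hp => hp.2, fun t _ x _ => hasDerivAt_const t (c x)⟩
  | succ j =>
    rw [DT_const, DT_const]
    exact ⟨continuousOn_const, fun t _ x _ => hasDerivAt_const t (0 : ℝ)⟩

theorem DT_time (f : ℝ → ℝ) (j : ℕ) (t x : ℝ) :
    DT j (fun s _ => f s) t x = iteratedDeriv j f t := by
  induction j generalizing t with
  | zero => rfl
  | succ j ih =>
    rw [iteratedDeriv_succ, ← funext ih]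
    rfl

theorem TS.time (hI : IsOpen I) {f : ℝ → ℝ} (hf : ContDiffOn ℝ ∞ f I) :
    TS I D fun t _ => f t := by
  have H : ∀ j, ContDiffOn ℝ ∞ (iteratedDeriv j f) I := by
    intro j
    induction j with
    | zero => exact hf
    | succ j ih =>
      rw [iteratedDeriv_succ]
      exact ih.deriv_of_isOpen hI le_rfl
  intro j
  simp only [DT_time]
  refine ⟨(H j).continuousOn.comp continuousOn_fst fun p hp => hp.1, fun t ht x _ => ?_⟩
  rw [iteratedDeriv_succ]
  exact (((H j).differentiableOn (by simp)).differentiableAt (hI.mem_nhds ht)).hasDerivAt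

theorem DT_cmul (c : ℝ → ℝ) (u : Fn) (j : ℕ) (t x : ℝ) :
    DT j (fun s y => c y * u s y) t x = c x * DT j u t x := by
  induction j generalizing t with
  | zero => rfl
  | succ j ih =>
    change deriv (fun s => DT j (fun s y => c y * u s y) s x) t = c x * deriv (fun s => DT j u s x) t
    rw [funext ih, deriv_const_mul_field]

theorem DT_neg (u : Fn) (j : ℕ) (t x : ℝ) : DT j (fun s y => -u s y) t x = -DT j u t x := by
  have := DT_cmul (fun _ => -1) u j t x
  simpa only [neg_mul, one_mul] using this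

theorem ts1A_add (hI : IsOpen I) (hu : TS I D u) (hv : TS I D v) :
    (TS I D fun t x => u t x + v t x) ∧
      ∀ j, ∀ t ∈ I, ∀ x ∈ D, DT j (fun s y => u s y + v s y) t x = DT j u t x + DT j v t x :=
  TS.of_tower hI (fun j t x => DT j u t x + DT j v t x) (fun j => (hu j).1.add (hv j).1)
    fun j t ht x hx => ((hu j).2 t ht x hx).add ((hv j).2 t ht x hx)

theorem ts1A_sub (hI : IsOpen I) (hu : TS I D u) (hv : TS I D v) :
    (TS I D fun t x => u t x - v t x) ∧
      ∀ j, ∀ t ∈ I, ∀ x ∈ D, DT j (fun s y => u s y - v s y) t x = DT j u t x - DT j v t x :=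
  TS.of_tower hI (fun j t x => DT j u t x - DT j v t x) (fun j => (hu j).1.sub (hv j).1)
    fun j t ht x hx => ((hu j).2 t ht x hx).sub ((hv j).2 t ht x hx)

theorem ts1A_mul (hI : IsOpen I) (hu : TS I D u) (hv : TS I D v) :
    (TS I D fun t x => u t x * v t x) ∧
      ∀ j, ∀ t ∈ I, ∀ x ∈ D, DT j (fun s y => u s y * v s y) t x =
        ∑ i ∈ Finset.range (j + 1), (j.choose i : ℝ) * DT i u t x * DT (j - i) v t x := by
  have H := TS.of_tower (D := D) hI (fun j t x =>
    ∑ i ∈ Finset.range (j + 1), (j.choose i : ℝ) * (DT i u t x * DT (j - i) v t x))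
    (fun j => continuousOn_finsetSum _ fun i _ =>
      continuousOn_const.mul ((hu i).1.mul (hv (j - i)).1)) fun j t ht x hx => by
      rw [Finset.sum_choose_succ_mul (fun a b => DT a u t x * DT b v t x) j,
        ← Finset.sum_add_distrib]
      refine HasDerivAt.fun_sum fun i hi => ?_
      have hi' : j + 1 - i = j - i + 1 := by have := Finset.mem_range.1 hi; omega
      rw [hi', ← mul_add, add_comm (DT i u t x * _)]
      exact (((hu i).2 t ht x hx).fun_mul ((hv (j - i)).2 t ht x hx)).const_mul _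
  have e : (fun t x => ∑ i ∈ Finset.range (0 + 1),
      ((0 : ℕ).choose i : ℝ) * (DT i u t x * DT (0 - i) v t x)) = fun t x => u t x * v t x := by
    funext t x
    simp [DT]
  simp only [e] at H
  simpa only [mul_assoc] using H

theorem DT_add (hI : IsOpen I) (hu : TS I D u) (hv : TS I D v) (j : ℕ) :
    ∀ t ∈ I, ∀ x ∈ D, DT j (fun s y => u s y + v s y) t x = DT j u t x + DT j v t x := by
  exact (ts1A_add hI hu hv).2 j

theorem DT_sub (hI : IsOpen I) (hu : TS I D u) (hv : TS I D v) (j : ℕ) :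
    ∀ t ∈ I, ∀ x ∈ D, DT j (fun s y => u s y - v s y) t x = DT j u t x - DT j v t x := by
  exact (ts1A_sub hI hu hv).2 j

/-- Leibniz formula. -/
theorem DT_mul (hI : IsOpen I) (hu : TS I D u) (hv : TS I D v) (j : ℕ) :
    ∀ t ∈ I, ∀ x ∈ D, DT j (fun s y => u s y * v s y) t x =
      ∑ i ∈ Finset.range (j + 1), (j.choose i : ℝ) * DT i u t x * DT (j - i) v t x := by
  exact (ts1A_mul hI hu hv).2 j

theorem TS.add (hI : IsOpen I) (hu : TS I D u) (hv : TS I D v) :
    TS I D fun t x => u t x + v t x := by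
  exact (ts1A_add hI hu hv).1

theorem TS.neg (hu : TS I D u) : TS I D fun t x => -u t x := by
  intro j
  simp only [DT_neg]
  exact ⟨(hu j).1.neg, fun t ht x hx => ((hu j).2 t ht x hx).fun_neg⟩

theorem TS.sub (hI : IsOpen I) (hu : TS I D u) (hv : TS I D v) :
    TS I D fun t x => u t x - v t x := by
  exact (ts1A_sub hI hu hv).1

theorem TS.mul (hI : IsOpen I) (hu : TS I D u) (hv : TS I D v) :
    TS I D fun t x => u t x * v t x := by
  exact (ts1A_mul hI hu hv).1

theorem TS.cmul {c : ℝ → ℝ} (hc : ContinuousOn c D) (hu : TS I D u) :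
    TS I D fun t x => c x * u t x := by
  intro j
  simp only [DT_cmul]
  exact ⟨(hc.comp continuousOn_snd fun p hp => hp.2).mul (hu j).1,
    fun t ht x hx => ((hu j).2 t ht x hx).const_mul _⟩

theorem TS.inv (hI : IsOpen I) (hu : TS I D u) (h0 : ∀ t ∈ I, ∀ x ∈ D, u t x ≠ 0) :
    TS I D fun t x => (u t x)⁻¹ := by
  obtain ⟨w, e, hc, hd⟩ := TS1B.tower hu h0
  exact e ▸ (TS.of_tower hI w hc hd).1

/-- Jointly smooth functions on `I × D`, `D` a set of unique differentiability. -/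
theorem ContDiffOn.dt {n : ℕ∞} (hI : IsOpen I) (hD : UniqueDiffOn ℝ D)
    (h : ContDiffOn ℝ ((n + 1 : ℕ∞) : WithTop ℕ∞) (fun p : ℝ × ℝ => u p.1 p.2) (I ×ˢ D)) :
    ContDiffOn ℝ (n : WithTop ℕ∞) (fun p : ℝ × ℝ => Dt u p.1 p.2) (I ×ˢ D) ∧
      ∀ t ∈ I, ∀ x ∈ D, HasDerivAt (fun s => u s x) (Dt u t x) t := by
  have hS : UniqueDiffOn ℝ (I ×ˢ D) := hI.uniqueDiffOn.prod hD
  have hd : ∀ t ∈ I, ∀ x ∈ D, HasDerivAt (fun s => u s x)
      (fderivWithin ℝ (fun p : ℝ × ℝ => u p.1 p.2) (I ×ˢ D) (t, x) (1, 0)) t := by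
    intro t ht x hx
    have h1 := (h.differentiableOn (by simp) (t, x) ⟨ht, hx⟩).hasFDerivWithinAt
    have h2 : HasDerivWithinAt (fun s : ℝ => (s, x)) ((1 : ℝ), (0 : ℝ)) I t :=
      ((hasDerivAt_id t).prodMk (hasDerivAt_const t x)).hasDerivWithinAt
    exact (h1.comp_hasDerivWithinAt (f := fun s : ℝ => (s, x)) t h2
      fun s hs => mk_mem_prod hs hx).hasDerivAt (hI.mem_nhds ht)
  refine ⟨?_, fun t ht x hx => (hd t ht x hx).differentiableAt.hasDerivAt⟩
  exact ((h.fderivWithin hS (m := n) (by simp)).clm_apply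
    (contDiffOn_const (c := ((1 : ℝ), (0 : ℝ))))).congr fun p hp => (hd _ hp.1 _ hp.2).deriv

theorem TS.of_contDiffOn (hI : IsOpen I) (hD : UniqueDiffOn ℝ D)
    (h : ContDiffOn ℝ ∞ (fun p : ℝ × ℝ => u p.1 p.2) (I ×ˢ D)) : TS I D u := by
  have H : ∀ j, ContDiffOn ℝ ∞ (fun p : ℝ × ℝ => DT j u p.1 p.2) (I ×ˢ D) := by
    intro j
    induction j with
    | zero => exact h
    | succ j ih => exact (ContDiffOn.dt (n := ⊤) hI hD ih).1
  exact fun j => ⟨(H j).continuousOn, (ContDiffOn.dt (n := ⊤) hI hD (H j)).2⟩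

theorem DT_scale (u : Fn) (c a b : ℝ) (j : ℕ) (t x : ℝ) :
    DT j (fun s y => c * u (a * s) (b * y)) t x = c * a ^ j * DT j u (a * t) (b * x) := by
  induction j generalizing t with
  | zero => simp [DT]
  | succ j ih =>
    change deriv (fun s => DT j (fun s y => c * u (a * s) (b * y)) s x) t =
      _ * deriv (fun s => DT j u s (b * x)) (a * t)
    simp only [ih]
    rw [deriv_const_mul_field, deriv_comp_mul_left a (fun s => DT j u s (b * x)), smul_eq_mul]
    ring

theorem TS.scale (hu : TS I D u) (c a b : ℝ) (hJ : ∀ t ∈ J, a * t ∈ I) (hD : ∀ x ∈ D', b * x ∈ D) :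
    TS J D' fun t x => c * u (a * t) (b * x) := by
  intro j
  simp only [DT_scale]
  refine ⟨continuousOn_const.mul ((hu j).1.comp (f := fun p : ℝ × ℝ => (a * p.1, b * p.2))
    (by fun_prop) fun p hp => ⟨hJ _ hp.1, hD _ hp.2⟩), fun t ht x hx => ?_⟩
  refine ((((hu j).2 _ (hJ t ht) _ (hD x hx)).comp t
    ((hasDerivAt_id t).const_mul a)).const_mul (c * a ^ j)).congr_deriv ?_
  ring

/-- Bounds `(-t) ^ j |DT j u| ≤ C` are stable under products. -/
theorem bd_mul (hI : IsOpen I) (hu : TS I D u) (hv : TS I D v) {t x T : ℝ} (ht : t ∈ I) (hx : x ∈ D)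
    (hT : 0 ≤ T) {j : ℕ} {A B : ℝ} (h1 : ∀ i ≤ j, T ^ i * |DT i u t x| ≤ A)
    (h2 : ∀ i ≤ j, T ^ i * |DT i v t x| ≤ B) :
    T ^ j * |DT j (fun s y => u s y * v s y) t x| ≤ 2 ^ j * A * B := by
  have hA : 0 ≤ A := le_trans (by positivity) (h1 0 (Nat.zero_le _))
  rw [DT_mul hI hu hv j t ht x hx]
  calc _ ≤ T ^ j * ∑ i ∈ Finset.range (j + 1),
        |(j.choose i : ℝ) * DT i u t x * DT (j - i) v t x| :=
        mul_le_mul_of_nonneg_left (Finset.abs_sum_le_sum_abs _ _) (by positivity)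
    _ ≤ ∑ i ∈ Finset.range (j + 1), (j.choose i : ℝ) * (A * B) := by
        rw [Finset.mul_sum]
        refine Finset.sum_le_sum fun i hi => ?_
        have hi' : i ≤ j := Nat.lt_succ_iff.1 (Finset.mem_range.1 hi)
        have e : T ^ j = T ^ i * T ^ (j - i) := by rw [← pow_add, Nat.add_sub_cancel' hi']
        calc _ = (j.choose i : ℝ) * ((T ^ i * |DT i u t x|) * (T ^ (j - i) * |DT (j - i) v t x|)) := by
              rw [e, abs_mul, abs_mul, Nat.abs_cast]; ring
          _ ≤ _ := mul_le_mul_of_nonneg_left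
              (mul_le_mul (h1 i hi') (h2 _ (Nat.sub_le _ _)) (by positivity) hA) (by positivity)
    _ = _ := by
        rw [← Finset.sum_mul, ← Nat.cast_sum, Nat.sum_range_choose]
        push_cast
        ring

/-- ... and under inversion. -/
theorem bd_inv (j : ℕ) (A : ℝ) : ∃ C, ∀ (I D : Set ℝ) (u : Fn) (t x T : ℝ), IsOpen I → TS I D u →
    (∀ s ∈ I, ∀ y ∈ D, u s y ≠ 0) → t ∈ I → x ∈ D → 0 ≤ T → |(u t x)⁻¹| ≤ A →
    (∀ i ≤ j, T ^ i * |DT i u t x| ≤ A) → T ^ j * |DT j (fun s y => (u s y)⁻¹) t x| ≤ C := by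
  suffices H : ∃ C, ∀ (I D : Set ℝ) (u : Fn) (t x T : ℝ), IsOpen I → TS I D u →
      (∀ s ∈ I, ∀ y ∈ D, u s y ≠ 0) → t ∈ I → x ∈ D → 0 ≤ T → |(u t x)⁻¹| ≤ A →
      (∀ i ≤ j, T ^ i * |DT i u t x| ≤ A) →
      ∀ i ≤ j, T ^ i * |DT i (fun s y => (u s y)⁻¹) t x| ≤ C by
    obtain ⟨C, hC⟩ := H
    exact ⟨C, fun I D u t x T a1 a2 a3 a4 a5 a6 a7 a8 =>
      hC I D u t x T a1 a2 a3 a4 a5 a6 a7 a8 j le_rfl⟩
  induction j with
  | zero =>
    refine ⟨A, fun I D u t x T _ _ _ _ _ _ h _ i hi => ?_⟩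
    obtain rfl := Nat.le_zero.1 hi
    simpa [DT] using h
  | succ j ih =>
    obtain ⟨C, hC⟩ := ih
    refine ⟨max C (A * ∑ i ∈ Finset.range (j + 1), ((j + 1).choose (i + 1) : ℝ) * (A * C)),
      fun I D u t x T hI hu h0 ht hx hT h1 h2 i hi => ?_⟩
    have h3 := hC I D u t x T hI hu h0 ht hx hT h1 fun i hi => h2 i (hi.trans (Nat.le_succ j))
    rcases hi.lt_or_eq with hi | rfl
    · exact (h3 i (Nat.lt_succ_iff.1 hi)).trans (le_max_left _ _)
    refine le_trans ?_ (le_max_right _ _)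
    have hA : 0 ≤ A := (abs_nonneg _).trans h1
    have e1 := DT_mul hI hu (hu.inv hI h0) (j + 1) t ht x hx
    rw [DT_congr hI (u := fun s y => u s y * (u s y)⁻¹) (v := fun _ _ => 1)
      (fun s hs => mul_inv_cancel₀ (h0 s hs x hx)) (j + 1) t ht,
      DT_const (fun _ => 1) j, Finset.sum_range_succ'] at e1
    have e2 : DT (j + 1) (fun s y => (u s y)⁻¹) t x = (u t x)⁻¹ *
        -∑ i ∈ Finset.range (j + 1), ((j + 1).choose (i + 1) : ℝ) * DT (i + 1) u t x *
          DT (j + 1 - (i + 1)) (fun s y => (u s y)⁻¹) t x := by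
      rw [eq_inv_mul_iff_mul_eq₀ (h0 t ht x hx)]
      simp only [Pi.zero_apply, Nat.choose_zero_right, Nat.cast_one, one_mul, Nat.sub_zero] at e1
      change 0 = _ + u t x * _ at e1
      linarith
    rw [e2, abs_mul, abs_neg, mul_left_comm]
    refine mul_le_mul h1 ?_ (by positivity) hA
    refine (mul_le_mul_of_nonneg_left (Finset.abs_sum_le_sum_abs _ _) (by positivity)).trans ?_
    rw [Finset.mul_sum]
    refine Finset.sum_le_sum fun i hi => ?_
    have hi' : i + 1 ≤ j + 1 := Finset.mem_range.1 hi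
    have e : T ^ (j + 1) = T ^ (i + 1) * T ^ (j + 1 - (i + 1)) := by
      rw [← pow_add, Nat.add_sub_cancel' hi']
    calc _ = ((j + 1).choose (i + 1) : ℝ) * ((T ^ (i + 1) * |DT (i + 1) u t x|) *
          (T ^ (j + 1 - (i + 1)) * |DT (j + 1 - (i + 1)) (fun s y => (u s y)⁻¹) t x|)) := by
          rw [e, abs_mul, abs_mul, Nat.abs_cast]; ring
      _ ≤ _ := mul_le_mul_of_nonneg_left
          (mul_le_mul (h2 _ hi') (h3 _ (by omega)) (by positivity) hA) (by positivity)

end Crest.Agent.R213
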