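import Crest.Agent.R213.TS1

/-!
# Row 213: parametric integrals of time-smooth functions (auxiliary file for `TS2`)
-/

set_option autoImplicit false

noncomputable section

namespace Crest.Agent.R213.TS2A

open Set Filter Topology MeasureTheory
open scoped ContDiff

variable {I D D' : Set ℝ} {u : Fn}

/-- Continuity of parametric integrals. -/
theorem contOn_int {X : Type*} [TopologicalSpace X] {S : Set X} {f : X → ℝ → ℝ} {a b : ℝ}
    (hf : ContinuousOn (fun p : X × ℝ => f p.1 p.2) (S ×ˢ uIcc a b)) :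
    ContinuousOn (fun x => ∫ θ in a..b, f x θ) S := by
  rw [continuousOn_iff_continuous_domRestrict]
  have h1 : Continuous fun p : S × ℝ => f p.1 (projIcc (a ⊓ b) (a ⊔ b) inf_le_sup p.2) :=
    hf.comp_continuous (f := fun p : S × ℝ =>
      ((p.1 : X), (projIcc (a ⊓ b) (a ⊔ b) inf_le_sup p.2 : ℝ)))
      ((continuous_subtype_val.comp continuous_fst).prodMk
        (continuous_subtype_val.comp (continuous_projIcc.comp continuous_snd)))
      fun p => ⟨p.1.2, (projIcc (a ⊓ b) (a ⊔ b) inf_le_sup p.2).2⟩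
  refine (intervalIntegral.continuous_parametric_intervalIntegral_of_continuous' (μ := volume)
    (f := fun (x : S) θ => f x (projIcc (a ⊓ b) (a ⊔ b) inf_le_sup θ)) h1 a b).congr fun x => ?_
  exact intervalIntegral.integral_congr fun θ hθ => by
    simp only [projIcc_of_mem inf_le_sup hθ]

theorem sec_cont {J K : Set ℝ} {w : Fn} (hc : ContinuousOn (fun p : ℝ × ℝ => w p.1 p.2) (J ×ˢ K))
    {t : ℝ} (ht : t ∈ J) : ContinuousOn (w t) K :=
  hc.comp (f := fun x => (t, x)) (continuous_const.prodMk continuous_id).continuousOn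
    fun _ hx => ⟨ht, hx⟩

theorem sec_cont' {J K : Set ℝ} {w : Fn} (hc : ContinuousOn (fun p : ℝ × ℝ => w p.1 p.2) (J ×ˢ K))
    {x : ℝ} (hx : x ∈ K) : ContinuousOn (fun t => w t x) J :=
  hc.comp (f := fun t => (t, x)) (continuous_id.prodMk continuous_const).continuousOn
    fun _ ht => ⟨ht, hx⟩

theorem hasDerivAt_int (hI : IsOpen I) {w w' : Fn} {a b : ℝ}
    (hc : ContinuousOn (fun p : ℝ × ℝ => w p.1 p.2) (I ×ˢ uIcc a b))
    (hc' : ContinuousOn (fun p : ℝ × ℝ => w' p.1 p.2) (I ×ˢ uIcc a b))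
    (hd : ∀ t ∈ I, ∀ x ∈ uIcc a b, HasDerivAt (fun s => w s x) (w' t x) t) {t : ℝ} (ht : t ∈ I) :
    HasDerivAt (fun s => ∫ x in a..b, w s x) (∫ x in a..b, w' t x) t := by
  obtain ⟨K, hK, hKI, hKc⟩ := local_compact_nhds (hI.mem_nhds ht)
  obtain ⟨C, hC⟩ := (hKc.prod isCompact_uIcc).exists_bound_of_continuousOn
    (hc'.mono (prod_mono hKI subset_rfl))
  refine (intervalIntegral.hasDerivAt_integral_of_dominated_loc_of_deriv_le (bound := fun _ => C) hK
    ?_ (sec_cont hc ht).intervalIntegrable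
    (((sec_cont hc' ht).mono uIoc_subset_uIcc).aestronglyMeasurable measurableSet_uIoc)
    (Eventually.of_forall fun x hx s hs => hC (s, x) ⟨hs, uIoc_subset_uIcc hx⟩)
    intervalIntegrable_const
    (Eventually.of_forall fun x hx s hs => hd s (hKI hs) x (uIoc_subset_uIcc hx))).2
  filter_upwards [hI.mem_nhds ht] with s hs
  exact ((sec_cont hc hs).mono uIoc_subset_uIcc).aestronglyMeasurable measurableSet_uIoc

theorem int_param (hI : IsOpen I) (hu : TS I D u) {c m : ℝ → ℝ → ℝ}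
    (hc : ContinuousOn (fun p : ℝ × ℝ => c p.1 p.2) (Icc 0 1 ×ˢ D'))
    (hm : ContinuousOn (fun p : ℝ × ℝ => m p.1 p.2) (Icc 0 1 ×ˢ D'))
    (hD : ∀ θ ∈ Icc (0 : ℝ) 1, ∀ x ∈ D', m θ x ∈ D) :
    TS I D' (fun t x => ∫ θ in (0 : ℝ)..1, c θ x * u t (m θ x)) ∧
      ∀ j, ∀ t ∈ I, ∀ x ∈ D', DT j (fun t x => ∫ θ in (0 : ℝ)..1, c θ x * u t (m θ x)) t x =
        ∫ θ in (0 : ℝ)..1, c θ x * DT j u t (m θ x) := by
  have h1 : ∀ j, ContinuousOn (fun q : (ℝ × ℝ) × ℝ => c q.2 q.1.2 * DT j u q.1.1 (m q.2 q.1.2))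
      ((I ×ˢ D') ×ˢ uIcc 0 1) := fun j => by
    rw [uIcc_of_le zero_le_one]
    have h2 : ContinuousOn (fun q : (ℝ × ℝ) × ℝ => (q.2, q.1.2)) ((I ×ˢ D') ×ˢ Icc 0 1) := by
      fun_prop
    have h3 : MapsTo (fun q : (ℝ × ℝ) × ℝ => (q.2, q.1.2)) ((I ×ˢ D') ×ˢ Icc 0 1)
      (Icc 0 1 ×ˢ D') := fun q hq => ⟨hq.2, hq.1.2⟩
    exact (hc.comp h2 h3).mul ((hu j).1.comp (f := fun q : (ℝ × ℝ) × ℝ => (q.1.1, m q.2 q.1.2))
      (continuous_fst.fst.continuousOn.prodMk (hm.comp h2 h3))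
      fun q hq => ⟨hq.1.1, hD _ hq.2 _ hq.1.2⟩)
  have h2 : ∀ j, ∀ x ∈ D', ContinuousOn (fun p : ℝ × ℝ => c p.2 x * DT j u p.1 (m p.2 x))
      (I ×ˢ uIcc 0 1) := fun j x hx =>
    (h1 j).comp (f := fun p : ℝ × ℝ => ((p.1, x), p.2)) (by fun_prop)
      fun p hp => ⟨⟨hp.1, hx⟩, hp.2⟩
  exact TS.of_tower hI (fun j t x => ∫ θ in (0 : ℝ)..1, c θ x * DT j u t (m θ x))
    (fun j => contOn_int (f := fun (p : ℝ × ℝ) θ => c θ p.2 * DT j u p.1 (m θ p.2)) (h1 j))
    fun j t ht x hx => hasDerivAt_int hI (w := fun s θ => c θ x * DT j u s (m θ x))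
      (w' := fun s θ => c θ x * DT (j + 1) u s (m θ x)) (h2 j x hx) (h2 (j + 1) x hx)
      (fun s hs θ hθ => ((hu j).2 s hs _
        (hD θ (by rwa [uIcc_of_le zero_le_one] at hθ) x hx)).const_mul _) ht

theorem int_subst (g : ℝ → ℝ) (c x : ℝ) :
    ∫ y in c..x, g y = ∫ θ in (0 : ℝ)..1, (x - c) * g (c + (x - c) * θ) := by
  rw [intervalIntegral.integral_const_mul, ← smul_eq_mul,
    intervalIntegral.smul_integral_comp_add_mul]
  simp

theorem int_x (hI : IsOpen I) (hu : TS I D u) (hD : ∀ x ∈ D, Icc 0 x ⊆ D) (hD0 : D ⊆ Ici 0)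
    {c : ℝ → ℝ → ℝ} (hc : Continuous fun p : ℝ × ℝ => c p.1 p.2) :
    TS I D (fun t x => ∫ y in (0 : ℝ)..x, c x y * u t y) ∧
      ∀ j, ∀ t ∈ I, ∀ x ∈ D, DT j (fun t x => ∫ y in (0 : ℝ)..x, c x y * u t y) t x =
        ∫ y in (0 : ℝ)..x, c x y * DT j u t y := by
  have e : ∀ (g : ℝ → ℝ) (x : ℝ), ∫ y in (0 : ℝ)..x, c x y * g y =
      ∫ θ in (0 : ℝ)..1, x * c x (x * θ) * g (x * θ) := fun g x => by
    rw [int_subst]
    simp only [sub_zero, zero_add, mul_assoc]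
  simp only [e]
  exact int_param hI hu (c := fun θ x => x * c x (x * θ)) (m := fun θ x => x * θ)
    (continuous_snd.mul (hc.comp (f := fun p : ℝ × ℝ => (p.2, p.2 * p.1))
      (by fun_prop))).continuousOn (by fun_prop) fun θ hθ x hx =>
    hD x hx ⟨mul_nonneg (hD0 hx) hθ.1, mul_le_of_le_one_right (hD0 hx) hθ.2⟩

theorem int_t (hI : IsOpen I) (hI' : I.OrdConnected) (hu : TS I D u) {t0 : ℝ} (h0 : t0 ∈ I) :
    TS I D (fun t x => ∫ s in t0..t, u s x) ∧
      ∀ j, ∀ t ∈ I, ∀ x ∈ D, DT (j + 1) (fun t x => ∫ s in t0..t, u s x) t x = DT j u t x := by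
  have hc : ContinuousOn (fun p : ℝ × ℝ => u p.1 p.2) (I ×ˢ D) := (hu 0).1
  have h := TS.of_tower (D := D) hI
    (fun j => Nat.casesOn j (fun t x => ∫ s in t0..t, u s x) fun j => DT j u) (fun j => ?_)
    fun j t ht x hx => ?_
  · exact ⟨h.1, fun j => h.2 (j + 1)⟩
  · rcases j with _ | j
    · show ContinuousOn (fun p : ℝ × ℝ => ∫ s in t0..p.1, u s p.2) (I ×ˢ D)
      simp only [int_subst _ t0]
      refine contOn_int (f := fun (p : ℝ × ℝ) θ => (p.1 - t0) * u (t0 + (p.1 - t0) * θ) p.2)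
        (ContinuousOn.mul (by fun_prop) (hc.comp
          (f := fun q : (ℝ × ℝ) × ℝ => (t0 + (q.1.1 - t0) * q.2, q.1.2)) (by fun_prop)
          fun q hq => ⟨hI'.uIcc_subset h0 hq.1.1 ?_, hq.1.2⟩))
      have h1 := hq.2
      rw [uIcc_of_le zero_le_one] at h1
      rw [mem_uIcc]
      rcases le_total t0 q.1.1 with h2 | h2
      · exact Or.inl ⟨by nlinarith [h1.1], by nlinarith [h1.2]⟩
      · exact Or.inr ⟨by nlinarith [h1.2], by nlinarith [h1.1]⟩
    · exact (hu j).1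
  · rcases j with _ | j
    · have h1 := sec_cont' hc hx
      exact intervalIntegral.integral_hasDerivAt_right
        (h1.mono (hI'.uIcc_subset h0 ht)).intervalIntegrable
        (h1.stronglyMeasurableAtFilter hI t ht) (h1.continuousAt (hI.mem_nhds ht))
    · exact (hu j).2 t ht x hx

theorem DT_fix (F : Fn) (a : ℝ) (j : ℕ) : DT j (fun s _ => F s a) = fun t _ => DT j F t a := by
  induction j with
  | zero => rfl
  | succ j ih => rw [DT, ih]; rfl

theorem sp_level {L : ℝ} {F F1 : Fn} (hI : IsOpen I) (hF : TS I (Icc 0 L) F)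
    (hF1 : TS I (Icc 0 L) F1) (h : ∀ t ∈ I, ∀ x ∈ Ioo 0 L, HasDerivAt (F t) (F1 t x) x) (j : ℕ) :
    ∀ t ∈ I, ∀ x ∈ Ioo 0 L, HasDerivAt (DT j F t) (DT j F1 t x) x := by
  intro t ht x hx
  have h0 : (0 : ℝ) ∈ Icc 0 L := ⟨le_rfl, (hx.1.trans hx.2).le⟩
  have h1 : TS I (Icc 0 L) fun s _ => F s 0 := fun i => by
    simp only [DT_fix]
    exact ⟨(sec_cont' (hF i).1 h0).comp continuous_fst.continuousOn fun p hp => hp.1,
      fun s hs _ _ => (hF i).2 s hs 0 h0⟩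
  obtain ⟨h2, h3⟩ := int_x hI hF1 (fun y hy => Icc_subset_Icc_right hy.2) Icc_subset_Ici_self
    (c := fun _ _ => 1) continuous_const
  simp only [one_mul] at h2 h3
  have h4 : ∀ y ∈ Icc 0 L, DT j F t y = DT j F t 0 + ∫ z in (0 : ℝ)..y, DT j F1 t z := by
    intro y hy
    have h5 := DT_add hI h1 h2 j t ht y hy
    rw [DT_fix, h3 j t ht y hy] at h5
    refine (DT_congr hI (fun s hs => ?_) j t ht).trans h5
    have h6 : Icc 0 y ⊆ Icc 0 L := Icc_subset_Icc_right hy.2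
    rw [intervalIntegral.integral_eq_sub_of_hasDerivAt_of_le hy.1
      ((sec_cont (hF 0).1 hs).mono h6) (fun z hz => h s hs z ⟨hz.1, hz.2.trans_le hy.2⟩)
      (((sec_cont (hF1 0).1 hs).mono h6).intervalIntegrable_of_Icc hy.1)]
    exact (add_sub_cancel _ _).symm
  have h7 := sec_cont (hF1 j).1 ht
  have h8 := h7.mono Ioo_subset_Icc_self
  refine ((intervalIntegral.integral_hasDerivAt_right
    ((h7.mono (Icc_subset_Icc_right hx.2.le)).intervalIntegrable_of_Icc hx.1.le)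
    (h8.stronglyMeasurableAtFilter isOpen_Ioo x hx)
    (h8.continuousAt (isOpen_Ioo.mem_nhds hx))).const_add (DT j F t 0)).congr_of_eventuallyEq ?_
  filter_upwards [Icc_mem_nhds hx.1 hx.2] with y hy using h4 y hy

end Crest.Agent.R213.TS2A
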