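import Crest.Agent.R213.TS2B
import Crest.Agent.R213.TS1
import Crest.Agent.R213.TS2A

/-!
# Row 213: time-smooth functions, integrals; the Volterra operator
-/

set_option autoImplicit false

noncomputable section

namespace Crest.Agent.R213

open Set Filter Topology
open scoped ContDiff

variable {I D D' : Set ℝ} {u : Fn}

theorem mem_dom {κ x : ℝ} : x ∈ dom κ ↔ 0 ≤ x ∧ κ * x ≤ 1 := Iff.rfl

theorem dom_eq_Icc {κ L : ℝ} (hL : 0 < L) (h : κ * L = 1) : dom κ = Icc 0 L := by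
  ext x
  refine and_congr_right fun _ => ?_
  have hκ : 0 < κ := (mul_pos_iff_of_pos_right hL).1 (h ▸ one_pos)
  rw [← h, mul_le_mul_iff_right₀ hκ]

theorem dom_zero : dom 0 = Ici 0 := by
  ext x
  simp [dom]

theorem Icc_subset_dom {κ L : ℝ} (hκ : 0 ≤ κ) (h : κ * L ≤ 1) : Icc 0 L ⊆ dom κ :=
  fun _ hx => ⟨hx.1, (mul_le_mul_of_nonneg_left hx.2 hκ).trans h⟩

theorem lam_pos {t : ℝ} (ht : t < 0) : 0 < lam t :=
  Real.sqrt_pos.2 (neg_pos.2 ht)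

theorem lam_sq {t : ℝ} (ht : t ≤ 0) : lam t ^ 2 = -t :=
  Real.sq_sqrt (neg_nonneg.2 ht)

theorem lam_scale {μ : ℝ} (hμ : 0 ≤ μ) (t : ℝ) : lam (μ ^ 2 * t) = μ * lam t := by
  rw [lam, lam, ← mul_neg, Real.sqrt_mul (sq_nonneg μ), Real.sqrt_sq hμ]

theorem lam_anti {s t : ℝ} (h : s ≤ t) : lam t ≤ lam s :=
  Real.sqrt_le_sqrt (neg_le_neg h)

theorem hasDerivAt_lam {t : ℝ} (ht : t < 0) : HasDerivAt lam (-(1 / (2 * lam t))) t := by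
  have h := (hasDerivAt_neg' t).sqrt (neg_ne_zero.2 ht.ne)
  rwa [neg_div] at h

/-- Differentiation under the integral sign for continuous data. -/
theorem hasDerivAt_int (hI : IsOpen I) {w w' : Fn} {a b : ℝ}
    (hc : ContinuousOn (fun p : ℝ × ℝ => w p.1 p.2) (I ×ˢ uIcc a b))
    (hc' : ContinuousOn (fun p : ℝ × ℝ => w' p.1 p.2) (I ×ˢ uIcc a b))
    (hd : ∀ t ∈ I, ∀ x ∈ uIcc a b, HasDerivAt (fun s => w s x) (w' t x) t) {t : ℝ} (ht : t ∈ I) :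
    HasDerivAt (fun s => ∫ x in a..b, w s x) (∫ x in a..b, w' t x) t :=
  TS2A.hasDerivAt_int hI hc hc' hd ht

/-- Parametric integrals of time-smooth functions. -/
theorem TS.int_param (hI : IsOpen I) (hu : TS I D u) {c m : ℝ → ℝ → ℝ}
    (hc : ContinuousOn (fun p : ℝ × ℝ => c p.1 p.2) (Icc 0 1 ×ˢ D'))
    (hm : ContinuousOn (fun p : ℝ × ℝ => m p.1 p.2) (Icc 0 1 ×ˢ D'))
    (hD : ∀ θ ∈ Icc (0 : ℝ) 1, ∀ x ∈ D', m θ x ∈ D) :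
    TS I D' (fun t x => ∫ θ in (0 : ℝ)..1, c θ x * u t (m θ x)) ∧
      ∀ j, ∀ t ∈ I, ∀ x ∈ D', DT j (fun t x => ∫ θ in (0 : ℝ)..1, c θ x * u t (m θ x)) t x =
        ∫ θ in (0 : ℝ)..1, c θ x * DT j u t (m θ x) :=
  TS2A.int_param hI hu hc hm hD

/-- Integrals from `0` to `x`. -/
theorem TS.int_x (hI : IsOpen I) (hu : TS I D u) (hD : ∀ x ∈ D, Icc 0 x ⊆ D) (hD0 : D ⊆ Ici 0)
    {c : ℝ → ℝ → ℝ} (hc : Continuous fun p : ℝ × ℝ => c p.1 p.2) :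
    TS I D (fun t x => ∫ y in (0 : ℝ)..x, c x y * u t y) ∧
      ∀ j, ∀ t ∈ I, ∀ x ∈ D, DT j (fun t x => ∫ y in (0 : ℝ)..x, c x y * u t y) t x =
        ∫ y in (0 : ℝ)..x, c x y * DT j u t y :=
  TS2A.int_x hI hu hD hD0 hc

/-- Integrals in time. -/
theorem TS.int_t (hI : IsOpen I) (hI' : I.OrdConnected) (hu : TS I D u) {t0 : ℝ} (h0 : t0 ∈ I) :
    TS I D (fun t x => ∫ s in t0..t, u s x) ∧
      ∀ j, ∀ t ∈ I, ∀ x ∈ D, DT (j + 1) (fun t x => ∫ s in t0..t, u s x) t x = DT j u t x :=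
  TS2A.int_t hI hI' hu h0

/-- Space and time derivatives commute. -/
theorem sp_level {L : ℝ} {F F1 : Fn} (hI : IsOpen I) (hF : TS I (Icc 0 L) F)
    (hF1 : TS I (Icc 0 L) F1) (h : ∀ t ∈ I, ∀ x ∈ Ioo 0 L, HasDerivAt (F t) (F1 t x) x) (j : ℕ) :
    ∀ t ∈ I, ∀ x ∈ Ioo 0 L, HasDerivAt (DT j F t) (DT j F1 t x) x :=
  TS2A.sp_level hI hF hF1 h j

theorem vol_eq_K1 (k : ℝ → ℝ) (x : ℝ) : Vol k x = x ^ 11 * K1 k x :=
  TB.vol_eq_K1 k x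

theorem vol_congr {k k' : ℝ → ℝ} {x : ℝ} (hx : 0 ≤ x) (h : ∀ y ∈ Icc 0 x, k y = k' y) :
    Vol k x = Vol k' x :=
  TB.vol_congr hx h

theorem vol_add {k k' : ℝ → ℝ} {x : ℝ} (hx : 0 ≤ x) (h : ContinuousOn k (Icc 0 x))
    (h' : ContinuousOn k' (Icc 0 x)) : Vol (fun y => k y + k' y) x = Vol k x + Vol k' x :=
  TB.vol_add hx h h'

theorem vol_sub {k k' : ℝ → ℝ} {x : ℝ} (hx : 0 ≤ x) (h : ContinuousOn k (Icc 0 x))
    (h' : ContinuousOn k' (Icc 0 x)) : Vol (fun y => k y - k' y) x = Vol k x - Vol k' x :=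
  TB.vol_sub hx h h'

theorem vol_cmul (c : ℝ) (k : ℝ → ℝ) (x : ℝ) : Vol (fun y => c * k y) x = c * Vol k x :=
  TB.vol_cmul c k x

theorem vol_scale (k : ℝ → ℝ) (μ x : ℝ) : Vol k (μ * x) = μ ^ 11 * Vol (fun y => k (μ * y)) x :=
  TB.vol_scale k μ x

theorem abs_K1_le {k : ℝ → ℝ} {x M : ℝ} (hx : 0 ≤ x) (h : ∀ y ∈ Icc 0 x, |k y| ≤ M) :
    |K1 k x| ≤ M / 110 :=
  TB.abs_K1_le hx h

theorem continuousOn_K1 {k : ℝ → ℝ} {L : ℝ} (h : ContinuousOn k (Icc 0 L)) :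
    ContinuousOn (K1 k) (Icc 0 L) :=
  TB.continuousOn_K1 h

/-- `Vol k` is twice differentiable with second derivative `x ^ 9 k`. -/
theorem sp_vol {k : ℝ → ℝ} {L : ℝ} (h : ContinuousOn k (Icc 0 L)) :
    Sp L (Vol k) (fun x => ∫ y in (0 : ℝ)..x, y ^ 9 * k y) fun x => x ^ 9 * k x :=
  TB.sp_vol h

/-- At the natural boundary both moments vanish. -/
theorem VolOn.moments {κ L : ℝ} {Z k : ℝ → ℝ} (hL : 0 < L) (hκ : κ * L = 1) (h : VolOn κ L Z k) :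
    ∫ y in (0 : ℝ)..L, y ^ 9 * k y = 0 ∧ ∫ y in (0 : ℝ)..L, y ^ 10 * k y = 0 :=
  TB.moments hL hκ h

/-- With vanishing moments the Volterra operator can be written from the other end. -/
theorem vol_eq_outer {L : ℝ} {k : ℝ → ℝ} (h : ContinuousOn k (Icc 0 L))
    (h0 : ∫ y in (0 : ℝ)..L, y ^ 9 * k y = 0) (h1 : ∫ y in (0 : ℝ)..L, y ^ 10 * k y = 0) {x : ℝ}
    (hx : x ∈ Icc 0 L) : Vol k x = ∫ y in x..L, (y - x) * y ^ 9 * k y ∧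
      Vol k x = (L - x) ^ 2 *
        ∫ θ in (0 : ℝ)..1, θ * (x + θ * (L - x)) ^ 9 * k (x + θ * (L - x)) :=
  TB.vol_eq_outer h h0 h1 hx

/-- The closed formula for `Z`, valid up to both ends. -/
theorem VolOn.formula {κ L : ℝ} {Z k : ℝ → ℝ} (hL : 0 < L) (hκ : κ * L = 1) (h : VolOn κ L Z k)
    {x : ℝ} (hx : x ∈ Icc 0 L) :
    Z x = (L ^ 2 * (∫ θ in (0 : ℝ)..1, θ * (x + θ * (L - x)) ^ 9 * k (x + θ * (L - x))) + K1 k x) /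
      (x ^ 11 + (1 - κ * x) ^ 2) :=
  TB.formula hL hκ h hx

theorem VolOn.abs_le {κ L : ℝ} (hL : 0 < L) (hκ : κ * L = 1) : ∃ C, ∀ (Z k : ℝ → ℝ) (M : ℝ),
    VolOn κ L Z k → (∀ y ∈ Icc 0 L, |k y| ≤ M) → ∀ x ∈ Icc 0 L, |Z x| ≤ C * M :=
  TB.abs_le hL hκ

end Crest.Agent.R213
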