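import Crest.Agent.R213.Defs

/-!
# Row 213: the Volterra operator (proofs for `TS2`)
-/

set_option autoImplicit false

noncomputable section

namespace Crest.Agent.R213.TB

open Set Filter Topology intervalIntegral

theorem vol_eq_K1 (k : ℝ → ℝ) (x : ℝ) : Vol k x = x ^ 11 * K1 k x := by
  have h := smul_integral_comp_mul_right (a := 0) (b := 1) (fun y => (x - y) * y ^ 9 * k y) x
  rw [zero_mul, one_mul] at h
  rw [Vol, ← h, K1, smul_eq_mul, pow_succ' x 10, mul_assoc, ← integral_const_mul (x ^ 10)]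
  congr 2
  funext θ
  ring

theorem vol_congr {k k' : ℝ → ℝ} {x : ℝ} (hx : 0 ≤ x) (h : ∀ y ∈ Icc 0 x, k y = k' y) :
    Vol k x = Vol k' x :=
  integral_congr fun y hy => by simp only [h y (uIcc_of_le hx ▸ hy)]

theorem ii {k : ℝ → ℝ} {x : ℝ} (hx : 0 ≤ x) (h : ContinuousOn k (Icc 0 x)) :
    IntervalIntegrable (fun y => (x - y) * y ^ 9 * k y) MeasureTheory.volume 0 x :=
  (ContinuousOn.mul (by fun_prop) h).intervalIntegrable_of_Icc hx

theorem vol_add {k k' : ℝ → ℝ} {x : ℝ} (hx : 0 ≤ x) (h : ContinuousOn k (Icc 0 x))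
    (h' : ContinuousOn k' (Icc 0 x)) : Vol (fun y => k y + k' y) x = Vol k x + Vol k' x := by
  simp only [Vol, mul_add]
  exact integral_add (ii hx h) (ii hx h')

theorem vol_sub {k k' : ℝ → ℝ} {x : ℝ} (hx : 0 ≤ x) (h : ContinuousOn k (Icc 0 x))
    (h' : ContinuousOn k' (Icc 0 x)) : Vol (fun y => k y - k' y) x = Vol k x - Vol k' x := by
  simp only [Vol, mul_sub _ (k _)]
  exact integral_sub (ii hx h) (ii hx h')

theorem vol_cmul (c : ℝ) (k : ℝ → ℝ) (x : ℝ) : Vol (fun y => c * k y) x = c * Vol k x := by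
  simp only [Vol, mul_left_comm _ c, integral_const_mul]

theorem vol_scale (k : ℝ → ℝ) (μ x : ℝ) :
    Vol k (μ * x) = μ ^ 11 * Vol (fun y => k (μ * y)) x := by
  rw [vol_eq_K1, vol_eq_K1, mul_pow, mul_assoc]
  simp only [K1, mul_left_comm μ]

theorem abs_K1_le {k : ℝ → ℝ} {x M : ℝ} (hx : 0 ≤ x) (h : ∀ y ∈ Icc 0 x, |k y| ≤ M) :
    |K1 k x| ≤ M / 110 := by
  have h1 : ∫ θ in (0 : ℝ)..1, (θ ^ 9 - θ ^ 10) * M = M / 110 := by
    rw [integral_mul_const, integral_sub (by simp) (by simp), integral_pow, integral_pow]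
    ring
  rw [← h1, ← Real.norm_eq_abs]
  refine norm_integral_le_of_norm_le zero_le_one (Eventually.of_forall fun θ hθ => ?_)
    (Continuous.intervalIntegrable (by fun_prop) _ _)
  have h2 : 0 ≤ (1 - θ) * θ ^ 9 := mul_nonneg (by linarith [hθ.2]) (pow_nonneg hθ.1.le _)
  rw [Real.norm_eq_abs, abs_mul, abs_of_nonneg h2, show θ ^ 9 - θ ^ 10 = (1 - θ) * θ ^ 9 by ring]
  exact mul_le_mul_of_nonneg_left
    (h _ ⟨mul_nonneg hθ.1.le hx, mul_le_of_le_one_left hx hθ.2⟩) h2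

theorem ext {k : ℝ → ℝ} {L : ℝ} (hL : 0 ≤ L) (h : ContinuousOn k (Icc 0 L)) :
    ∃ k' : ℝ → ℝ, Continuous k' ∧ ∀ y ∈ Icc 0 L, k y = k' y :=
  ⟨fun y => k (max 0 (min y L)),
    h.comp_continuous (by fun_prop) fun _ => ⟨le_max_left _ _, max_le hL (min_le_right _ _)⟩,
    fun y hy => by simp only [min_eq_left hy.2, max_eq_right hy.1]⟩

theorem continuousOn_K1 {k : ℝ → ℝ} {L : ℝ} (h : ContinuousOn k (Icc 0 L)) :
    ContinuousOn (K1 k) (Icc 0 L) := by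
  rcases lt_or_ge L 0 with hL | hL
  · rw [Icc_eq_empty_of_lt hL]
    exact continuousOn_empty _
  obtain ⟨k', hk', e⟩ := ext hL h
  have h1 : Continuous (K1 k') :=
    continuous_parametric_intervalIntegral_of_continuous'
      (f := fun x θ => (1 - θ) * θ ^ 9 * k' (θ * x)) (by fun_prop) 0 1
  refine h1.continuousOn.congr fun x hx => integral_congr fun θ hθ => ?_
  rw [uIcc_of_le zero_le_one] at hθ
  simp only [e _ ⟨mul_nonneg hθ.1 hx.1, (mul_le_of_le_one_left hx.1 hθ.2).trans hx.2⟩]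

theorem vol_split {k : ℝ → ℝ} (hk : Continuous k) (x : ℝ) :
    Vol k x = (x * ∫ y in (0 : ℝ)..x, y ^ 9 * k y) - ∫ y in (0 : ℝ)..x, y ^ 10 * k y := by
  rw [← integral_const_mul, ← integral_sub (Continuous.intervalIntegrable (by fun_prop) _ _)
    (Continuous.intervalIntegrable (by fun_prop) _ _), Vol]
  congr 1
  funext y
  ring

theorem deriv_mom {k : ℝ → ℝ} (hk : Continuous k) (n : ℕ) (x : ℝ) :
    HasDerivAt (fun x => ∫ y in (0 : ℝ)..x, y ^ n * k y) (x ^ n * k x) x :=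
  (Continuous.integral_hasStrictDerivAt (f := fun y => y ^ n * k y) (by fun_prop) 0 x).hasDerivAt

theorem deriv_vol {k : ℝ → ℝ} (hk : Continuous k) (x : ℝ) :
    HasDerivAt (Vol k) (∫ y in (0 : ℝ)..x, y ^ 9 * k y) x := by
  rw [funext (vol_split hk)]
  refine (((hasDerivAt_id x).mul (deriv_mom hk 9 x)).sub (deriv_mom hk 10 x)).congr_deriv ?_
  simp only [id]
  ring

theorem mom_congr {k k' : ℝ → ℝ} {L : ℝ} (e : ∀ y ∈ Icc 0 L, k y = k' y) (n : ℕ) {a b : ℝ}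
    (ha : a ∈ Icc 0 L) (hb : b ∈ Icc 0 L) :
    ∫ y in a..b, y ^ n * k y = ∫ y in a..b, y ^ n * k' y :=
  integral_congr fun y hy => by simp only [e y (uIcc_subset_Icc ha hb hy)]

theorem sp_vol {k : ℝ → ℝ} {L : ℝ} (h : ContinuousOn k (Icc 0 L)) :
    Sp L (Vol k) (fun x => ∫ y in (0 : ℝ)..x, y ^ 9 * k y) fun x => x ^ 9 * k x := by
  rcases lt_or_ge L 0 with hL | hL
  · have h1 := Icc_eq_empty_of_lt hL
    have h2 : ∀ x, x ∉ Ioo 0 L := fun x hx => by linarith [hx.1, hx.2]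
    exact ⟨h1 ▸ continuousOn_empty _, h1 ▸ continuousOn_empty _, h1 ▸ continuousOn_empty _,
      fun x hx => (h2 x hx).elim, fun x hx => (h2 x hx).elim⟩
  obtain ⟨k', hk', e⟩ := ext hL h
  have e1 : ∀ x ∈ Icc 0 L, Vol k x = Vol k' x := fun x hx =>
    vol_congr hx.1 fun y hy => e y ⟨hy.1, hy.2.trans hx.2⟩
  have e2 : ∀ x ∈ Icc 0 L, ∫ y in (0 : ℝ)..x, y ^ 9 * k y = ∫ y in (0 : ℝ)..x, y ^ 9 * k' y :=
    fun x hx => mom_congr e 9 (left_mem_Icc.2 hL) hx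
  refine ⟨ContinuousOn.congr (fun x _ => (deriv_vol hk' x).continuousAt.continuousWithinAt) e1,
    ContinuousOn.congr (fun x _ => (deriv_mom hk' 9 x).continuousAt.continuousWithinAt) e2,
    ContinuousOn.mul (by fun_prop) h, fun x hx => ?_, fun x hx => ?_⟩
  · rw [e2 x (Ioo_subset_Icc_self hx)]
    exact (deriv_vol hk' x).congr_of_eventuallyEq
      (eventually_of_mem (Icc_mem_nhds hx.1 hx.2) e1)
  · rw [e x (Ioo_subset_Icc_self hx)]
    exact (deriv_mom hk' 9 x).congr_of_eventuallyEq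
      (eventually_of_mem (Icc_mem_nhds hx.1 hx.2) e2)

theorem moments {κ L : ℝ} {Z k : ℝ → ℝ} (hL : 0 < L) (hκ : κ * L = 1) (h : VolOn κ L Z k) :
    ∫ y in (0 : ℝ)..L, y ^ 9 * k y = 0 ∧ ∫ y in (0 : ℝ)..L, y ^ 10 * k y = 0 := by
  obtain ⟨k', hk', e⟩ := ext hL.le h.ck
  have hm : L ∈ Icc 0 L := right_mem_Icc.2 hL.le
  have e1 : ∀ x ∈ Icc 0 L, Vol k' x = (x - L) * (x ^ 11 * κ ^ 2 * Z x * (x - L)) := fun x hx => by
    rw [← vol_congr hx.1 fun y hy => e y ⟨hy.1, hy.2.trans hx.2⟩, ← h.eq x hx, ph, ← hκ]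
    ring
  have e0 : Vol k' L = 0 := by rw [e1 L hm, sub_self, zero_mul]
  have d0 : HasDerivWithinAt (Vol k') 0 (Icc 0 L) L := by
    rw [hasDerivWithinAt_iff_tendsto_slope]
    have c1 : ContinuousWithinAt (fun x => x ^ 11 * κ ^ 2 * Z x * (x - L)) (Icc 0 L) L :=
      (ContinuousWithinAt.mul (by fun_prop) (h.cZ L hm)).mul (by fun_prop)
    have c2 := c1.tendsto
    rw [sub_self, mul_zero] at c2
    refine (c2.mono_left (nhdsWithin_mono _ sdiff_subset)).congr'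
      (eventually_of_mem self_mem_nhdsWithin fun x hx => ?_)
    have hx' : x - L ≠ 0 := sub_ne_zero.2 hx.2
    rw [slope_def_field, e0, sub_zero, e1 x hx.1, mul_div_cancel_left₀ _ hx']
  have p0 := (uniqueDiffOn_Icc hL L hm).eq_deriv _ (deriv_vol hk' L).hasDerivWithinAt d0
  rw [vol_split hk', p0, mul_zero, zero_sub, neg_eq_zero] at e0
  rw [mom_congr e 9 (left_mem_Icc.2 hL.le) hm, mom_congr e 10 (left_mem_Icc.2 hL.le) hm]
  exact ⟨p0, e0⟩

theorem vol_eq_outer {L : ℝ} {k : ℝ → ℝ} (h : ContinuousOn k (Icc 0 L))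
    (h0 : ∫ y in (0 : ℝ)..L, y ^ 9 * k y = 0) (h1 : ∫ y in (0 : ℝ)..L, y ^ 10 * k y = 0) {x : ℝ}
    (hx : x ∈ Icc 0 L) : Vol k x = ∫ y in x..L, (y - x) * y ^ 9 * k y ∧
      Vol k x = (L - x) ^ 2 *
        ∫ θ in (0 : ℝ)..1, θ * (x + θ * (L - x)) ^ 9 * k (x + θ * (L - x)) := by
  have hL : 0 ≤ L := hx.1.trans hx.2
  have key : Vol k x = ∫ y in x..L, (y - x) * y ^ 9 * k y := by
    obtain ⟨k', hk', e⟩ := ext hL h
    have hm : L ∈ Icc 0 L := right_mem_Icc.2 hL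
    rw [mom_congr e _ (left_mem_Icc.2 hL) hm] at h0 h1
    have a : ∀ n : ℕ, (∫ y in (0 : ℝ)..x, y ^ n * k' y) + ∫ y in x..L, y ^ n * k' y =
        ∫ y in (0 : ℝ)..L, y ^ n * k' y := fun n =>
      integral_add_adjacent_intervals (Continuous.intervalIntegrable (by fun_prop) _ _)
        (Continuous.intervalIntegrable (by fun_prop) _ _)
    have b : ∫ y in x..L, (y - x) * y ^ 9 * k y =
        (∫ y in x..L, y ^ 10 * k' y) - x * ∫ y in x..L, y ^ 9 * k' y := by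
      rw [← integral_const_mul, ← integral_sub (Continuous.intervalIntegrable (by fun_prop) _ _)
        (Continuous.intervalIntegrable (by fun_prop) _ _)]
      refine integral_congr fun y hy => ?_
      simp only [e y (uIcc_subset_Icc hx hm hy)]
      ring
    rw [b, vol_congr hx.1 fun y hy => e y ⟨hy.1, hy.2.trans hx.2⟩, vol_split hk']
    linear_combination x * (a 9).trans h0 - (a 10).trans h1
  refine ⟨key, ?_⟩
  have s := smul_integral_comp_add_mul (a := 0) (b := 1) (fun y => (y - x) * y ^ 9 * k y) (L - x) x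
  rw [mul_zero, add_zero, mul_one, add_sub_cancel] at s
  rw [key, ← s, smul_eq_mul, sq, mul_assoc, ← integral_const_mul (L - x) fun θ => θ * _ * _]
  congr 2
  funext θ
  rw [mul_comm (L - x) θ]
  ring

theorem den_pos {κ x : ℝ} (hx : 0 ≤ x) : 0 < x ^ 11 + (1 - κ * x) ^ 2 := by
  rcases hx.eq_or_lt with rfl | h
  · norm_num
  · positivity

theorem mem_out {L x θ : ℝ} (hx : x ∈ Icc 0 L) (hθ : θ ∈ Icc (0 : ℝ) 1) :
    x + θ * (L - x) ∈ Icc 0 L :=
  ⟨by nlinarith [hx.1, hx.2, hθ.1], by nlinarith [hx.1, hx.2, hθ.2]⟩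

theorem formula {κ L : ℝ} {Z k : ℝ → ℝ} (hL : 0 < L) (hκ : κ * L = 1) (h : VolOn κ L Z k)
    {x : ℝ} (hx : x ∈ Icc 0 L) :
    Z x = (L ^ 2 * (∫ θ in (0 : ℝ)..1, θ * (x + θ * (L - x)) ^ 9 * k (x + θ * (L - x))) + K1 k x) /
      (x ^ 11 + (1 - κ * x) ^ 2) := by
  obtain ⟨h0, h1⟩ := moments hL hκ h
  have c1 : ContinuousOn (fun x => ∫ θ in (0 : ℝ)..1,
      θ * (x + θ * (L - x)) ^ 9 * k (x + θ * (L - x))) (Icc 0 L) := by
    obtain ⟨k', hk', e⟩ := ext hL.le h.ck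
    have c2 := continuous_parametric_intervalIntegral_of_continuous' (μ := MeasureTheory.volume)
      (f := fun x θ : ℝ => θ * (x + θ * (L - x)) ^ 9 * k' (x + θ * (L - x))) (by fun_prop) 0 1
    refine c2.continuousOn.congr fun x hx => integral_congr fun θ hθ => ?_
    rw [uIcc_of_le zero_le_one] at hθ
    simp only [e _ (mem_out hx hθ)]
  rw [eq_div_iff (den_pos hx.1).ne']
  refine EqOn.of_subset_closure (s := Ioo 0 L) (t := Icc 0 L)
    (f := fun x => Z x * (x ^ 11 + (1 - κ * x) ^ 2))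
    (g := fun x => L ^ 2 * (∫ θ in (0 : ℝ)..1,
      θ * (x + θ * (L - x)) ^ 9 * k (x + θ * (L - x))) + K1 k x) (fun y hy => ?_)
    (h.cZ.mul (by fun_prop)) ((continuousOn_const.mul c1).add (continuousOn_K1 h.ck))
    Ioo_subset_Icc_self (closure_Ioo hL.ne).ge hx
  have hy' := Ioo_subset_Icc_self hy
  have a1 := (h.eq y hy').trans (vol_eq_K1 k y)
  have a2 := (h.eq y hy').trans (vol_eq_outer h.ck h0 h1 hy').2
  have b1 : (1 - κ * y) ^ 2 * Z y = K1 k y := by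
    refine mul_left_cancel₀ (pow_pos hy.1 11).ne' ?_
    rw [← a1, ph]
    ring
  have b2 : y ^ 11 * Z y = L ^ 2 * ∫ θ in (0 : ℝ)..1,
      θ * (y + θ * (L - y)) ^ 9 * k (y + θ * (L - y)) := by
    refine mul_left_cancel₀ (pow_pos (sub_pos.2 hy.2) 2).ne' ?_
    rw [mul_left_comm _ (L ^ 2), ← a2, ph,
      show L - y = L * (1 - κ * y) by linear_combination y * hκ]
    ring
  simp only
  rw [← b1, ← b2]
  ring

theorem abs_le {κ L : ℝ} (hL : 0 < L) (hκ : κ * L = 1) : ∃ C, ∀ (Z k : ℝ → ℝ) (M : ℝ),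
    VolOn κ L Z k → (∀ y ∈ Icc 0 L, |k y| ≤ M) → ∀ x ∈ Icc 0 L, |Z x| ≤ C * M := by
  obtain ⟨x₀, hx₀, hm⟩ := (isCompact_Icc (a := (0 : ℝ)) (b := L)).exists_isMinOn
    (nonempty_Icc.2 hL.le) (f := fun x => x ^ 11 + (1 - κ * x) ^ 2) (by fun_prop)
  have hp := den_pos (κ := κ) hx₀.1
  refine ⟨(L ^ 11 + 1 / 110) / (x₀ ^ 11 + (1 - κ * x₀) ^ 2), fun Z k M h hk x hx => ?_⟩
  have hM : 0 ≤ M := (abs_nonneg _).trans (hk x hx)
  have h1 := abs_K1_le hx.1 fun y hy => hk y ⟨hy.1, hy.2.trans hx.2⟩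
  have h2 : |∫ θ in (0 : ℝ)..1, θ * (x + θ * (L - x)) ^ 9 * k (x + θ * (L - x))| ≤ L ^ 9 * M := by
    have := norm_integral_le_of_norm_le_const (a := 0) (b := 1) (C := L ^ 9 * M)
      (f := fun θ : ℝ => θ * (x + θ * (L - x)) ^ 9 * k (x + θ * (L - x))) fun θ hθ => by
        rw [uIoc_of_le zero_le_one] at hθ
        have h3 := mem_out hx (Ioc_subset_Icc_self hθ)
        rw [Real.norm_eq_abs, abs_mul, abs_of_nonneg (mul_nonneg hθ.1.le (pow_nonneg h3.1 _))]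
        exact mul_le_mul ((mul_le_of_le_one_left (pow_nonneg h3.1 _) hθ.2).trans
          (pow_le_pow_left₀ h3.1 h3.2 _)) (hk _ h3) (abs_nonneg _) (by positivity)
    simpa using this
  rw [formula hL hκ h hx, abs_div, abs_of_pos (den_pos hx.1), div_mul_eq_mul_div]
  refine div_le_div₀ (by positivity) ((abs_add_le _ _).trans ?_) hp (hm hx)
  rw [abs_mul, abs_of_nonneg (sq_nonneg L)]
  have h4 := mul_le_mul_of_nonneg_left h2 (sq_nonneg L)
  calc _ ≤ L ^ 2 * (L ^ 9 * M) + M / 110 := add_le_add h4 h1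
    _ = _ := by ring

end Crest.Agent.R213.TB
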